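import Mathlib
import Crest.Prelude.Def_Hyperbolic

/-!
Row 237, abstract data for the hyperbolic polynomial of S0367 (helper823).
FROZEN INTERFACE.  `M` = moment matrix of the affine functions (index `0` = the constant `1`),
`T x i a = L(u_i q_a)`, `w x = ∑ a, L(q_a q_a)`.
-/

set_option autoImplicit false

namespace Crest.Agent.R237

open Matrix

/-- trace of the lower `n × n` block. -/
def lowTr {n : ℕ} {R : Type*} [AddCommMonoid R] (A : Matrix (Fin (n + 1)) (Fin (n + 1)) R) : R :=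
  ∑ i : Fin n, A i.succ i.succ

structure HData (m n d : ℕ) where
  M : (Fin m → ℝ) →ₗ[ℝ] Matrix (Fin (n + 1)) (Fin (n + 1)) ℝ
  M_symm : ∀ x, (M x).IsSymm
  T : (Fin m → ℝ) →ₗ[ℝ] Matrix (Fin (n + 1)) (Fin d) ℝ
  w : (Fin m → ℝ) →ₗ[ℝ] ℝ
  e : Fin m → ℝ
  M_e : M e = 1
  T_e : ∀ (i : Fin n) (a : Fin d), T e i.succ a = 0
  w_e : ∑ a, (T e 0 a) ^ 2 < w e
  Xi : Matrix (Fin n) (Fin d) ℝ →ₗ[ℝ] Matrix (Fin n) (Fin d) ℝ →ₗ[ℝ] ℝ
  Xi_symm : ∀ X Y, Xi X Y = Xi Y X
  phi : ℝ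
  phi_pos : 0 < phi
  n_pos : 0 < n
  H1 : ∀ X, Xi X X ≤ phi * ∑ i, ∑ a, (X i a) ^ 2
  H2 : ∀ x, (M x).det ≠ 0 → lowTr (M x)⁻¹ = 0 →
    0 ≤ Xi (((M x)⁻¹ * T x).submatrix Fin.succ id) (((M x)⁻¹ * T x).submatrix Fin.succ id)
  /-- block diagonal case (`M x 0 i.succ = 0`), `M x 0 0` arbitrary (also zero). -/
  H2b : ∀ x, (∀ i : Fin n, M x 0 i.succ = 0) →
    ((M x).submatrix Fin.succ Fin.succ).det ≠ 0 →
    (((M x).submatrix Fin.succ Fin.succ)⁻¹).trace = 0 →
    0 ≤ Xi (((M x).submatrix Fin.succ Fin.succ)⁻¹ * (T x).submatrix Fin.succ id)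
      (((M x).submatrix Fin.succ Fin.succ)⁻¹ * (T x).submatrix Fin.succ id)

namespace HData

variable {m n d : ℕ} (D : HData m n d)

/-- linear part of the projection of the `q_a` onto the affine functions. -/
noncomputable def lin (x : Fin m → ℝ) : Matrix (Fin n) (Fin d) ℝ :=
  ((D.M x)⁻¹ * D.T x).submatrix Fin.succ id

/-- The concave function defining the cone. -/
noncomputable def F (x : Fin m → ℝ) : ℝ :=
  D.phi * (D.w x - ((D.T x)ᵀ * (D.M x)⁻¹ * D.T x).trace)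
    + D.Xi (D.lin x) (D.lin x) / lowTr (D.M x)⁻¹

/-- The open cone. -/
def K0 : Set (Fin m → ℝ) := {x | (D.M x).PosDef ∧ 0 < D.F x}

/-- constant `a` in `F(ze-x) = a z + b + ...`. -/
noncomputable def aa : ℝ := D.phi * (D.w D.e - ∑ a, (D.T D.e 0 a) ^ 2)

theorem aa_pos : 0 < D.aa := mul_pos D.phi_pos (sub_pos.2 D.w_e)

section alg
variable {A : Type*} [CommRing A] [Algebra ℝ A] (x : Fin m → A)

/-- the linear data evaluated at a point with coordinates in an `ℝ`-algebra. -/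
def MA : Matrix (Fin (n + 1)) (Fin (n + 1)) A :=
  fun r s => ∑ i, x i * algebraMap ℝ A (D.M (Pi.single i 1) r s)
def TA : Matrix (Fin (n + 1)) (Fin d) A :=
  fun r s => ∑ i, x i * algebraMap ℝ A (D.T (Pi.single i 1) r s)
def wA : A := ∑ i, x i * algebraMap ℝ A (D.w (Pi.single i 1))

/-- `Xi (Y,Y)` for a matrix with entries in the algebra. -/
noncomputable def XiA (Y : Matrix (Fin n) (Fin d) A) : A :=
  ∑ i, ∑ a, ∑ j, ∑ b, algebraMap ℝ A (D.Xi (Matrix.single i a 1) (Matrix.single j b 1))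
    * (Y i a * Y j b)

/-- The polynomial function. -/
noncomputable def pA : A :=
  algebraMap ℝ A D.phi * lowTr (D.MA x).adjugate *
      ((D.MA x).det * D.wA x - ((D.TA x)ᵀ * (D.MA x).adjugate * D.TA x).trace)
    + D.XiA (((D.MA x).adjugate * D.TA x).submatrix Fin.succ id)

end alg

/-- The hyperbolic polynomial. -/
noncomputable def p : MvPolynomial (Fin m) ℝ := D.pA (fun i => MvPolynomial.X i)

end HData

end Crest.Agent.R237
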