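import Mathlib
import Crest.Agent.R237.HData

/-!
Row 237, assembly part (helper432): linear algebra of the centred flat functional.
`ext1 P` is the `(n+1) × (n+1)` matrix `diag(1, P)` with index `0` first.
-/

set_option autoImplicit false

namespace Crest.Agent.R237.Asm
open Matrix

variable {n d : ℕ}

/-- `diag(1, P)` indexed by `Fin (n+1)`. -/
def ext1 (P : Matrix (Fin n) (Fin n) ℝ) : Matrix (Fin (n + 1)) (Fin (n + 1)) ℝ :=
  fun i j => Fin.cases (Fin.cases 1 (fun _ => 0) j) (fun i' => Fin.cases 0 (fun j' => P i' j') j) i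

@[simp] theorem ext1_00 (P : Matrix (Fin n) (Fin n) ℝ) : ext1 P 0 0 = 1 := rfl
@[simp] theorem ext1_0s (P : Matrix (Fin n) (Fin n) ℝ) (j : Fin n) : ext1 P 0 j.succ = 0 := rfl
@[simp] theorem ext1_s0 (P : Matrix (Fin n) (Fin n) ℝ) (i : Fin n) : ext1 P i.succ 0 = 0 := rfl
@[simp] theorem ext1_ss (P : Matrix (Fin n) (Fin n) ℝ) (i j : Fin n) :
    ext1 P i.succ j.succ = P i j := rfl

theorem ext1_mul (P Q : Matrix (Fin n) (Fin n) ℝ) : ext1 P * ext1 Q = ext1 (P * Q) := by
  ext i j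
  rw [Matrix.mul_apply, Fin.sum_univ_succ]
  refine Fin.cases ?_ (fun i' => ?_) i <;> refine Fin.cases ?_ (fun j' => ?_) j <;>
    simp [Matrix.mul_apply]

theorem ext1_one : ext1 (1 : Matrix (Fin n) (Fin n) ℝ) = 1 := by
  ext i j
  refine Fin.cases ?_ (fun i' => ?_) i <;> refine Fin.cases ?_ (fun j' => ?_) j
  · simp
  · simp [(Fin.succ_ne_zero j').symm]
  · simp [(Fin.succ_ne_zero i')]
  · simp [Matrix.one_apply]

theorem ext1_inv (P : Matrix (Fin n) (Fin n) ℝ) (hP : IsUnit P.det) :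
    (ext1 P)⁻¹ = ext1 P⁻¹ := by
  apply Matrix.inv_eq_right_inv
  rw [ext1_mul, Matrix.mul_nonsing_inv _ hP, ext1_one]

theorem ext1_posDef (P : Matrix (Fin n) (Fin n) ℝ) (hP : P.PosDef) : (ext1 P).PosDef := by
  have hPs : P.IsSymm := by
    have := hP.1
    rwa [IsHermitian, conjTranspose_eq_transpose_of_trivial] at this
  have hPs' : ∀ i j, P j i = P i j := fun i j => by
    have := congrFun (congrFun hPs.eq i) j
    simpa using this
  refine PosDef.of_dotProduct_mulVec_pos ?_ ?_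
  · rw [IsHermitian, conjTranspose_eq_transpose_of_trivial]
    ext i j
    rw [Matrix.transpose_apply]
    refine Fin.cases ?_ (fun i' => ?_) i <;> refine Fin.cases ?_ (fun j' => ?_) j <;>
      simp [hPs']
  · intro x hx
    have h1 : star x ⬝ᵥ ext1 P *ᵥ x = x 0 ^ 2 + (fun i : Fin n => x i.succ) ⬝ᵥ
        P *ᵥ (fun i : Fin n => x i.succ) := by
      simp only [dotProduct, Matrix.mulVec, star_trivial, Fin.sum_univ_succ, ext1_00, ext1_0s,
        ext1_s0, ext1_ss, zero_mul, Finset.sum_const_zero, add_zero, one_mul, zero_add]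
      ring
    rw [h1]
    by_cases h0 : x 0 = 0
    · have h2 : (fun i : Fin n => x i.succ) ≠ 0 := by
        intro h
        apply hx
        funext i
        refine Fin.cases h0 (fun i' => ?_) i
        exact congrFun h i'
      have h3 := hP.dotProduct_mulVec_pos h2
      rw [star_trivial] at h3
      rw [h0]; positivity
    · have h3 := hP.posSemidef.dotProduct_mulVec_nonneg (fun i : Fin n => x i.succ)
      rw [star_trivial] at h3
      positivity


theorem low_ext1_mul (P : Matrix (Fin n) (Fin n) ℝ) (T : Matrix (Fin (n + 1)) (Fin d) ℝ) :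
    (ext1 P * T).submatrix Fin.succ id = P * T.submatrix Fin.succ id := by
  ext i a
  simp [Matrix.mul_apply, Fin.sum_univ_succ]

theorem trace_ext1 (P : Matrix (Fin n) (Fin n) ℝ) (T : Matrix (Fin (n + 1)) (Fin d) ℝ) :
    (Tᵀ * ext1 P * T).trace
      = ∑ a, ((T 0 a) ^ 2 + ∑ i : Fin n, ∑ j : Fin n, P i j * (T i.succ a * T j.succ a)) := by
  rw [Matrix.trace]
  refine Finset.sum_congr rfl fun a _ => ?_
  rw [Matrix.diag_apply, Matrix.mul_apply, Fin.sum_univ_succ]
  have h0 : (Tᵀ * ext1 P) a 0 = T 0 a := by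
    simp [Matrix.mul_apply, Fin.sum_univ_succ]
  have h1 : ∀ j : Fin n, (Tᵀ * ext1 P) a j.succ = ∑ i : Fin n, T i.succ a * P i j := by
    intro j
    simp [Matrix.mul_apply, Fin.sum_univ_succ]
  rw [h0]
  congr 1
  · ring
  · rw [Finset.sum_comm]
    refine Finset.sum_congr rfl fun j _ => ?_
    rw [h1, Finset.sum_mul]
    refine Finset.sum_congr rfl fun i _ => by ring

theorem lowTr_ext1 (P : Matrix (Fin n) (Fin n) ℝ) : lowTr (ext1 P) = P.trace := by
  simp [lowTr, Matrix.trace]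

/-- The value of `F` at a centred flat point. -/
theorem F_flat {m : ℕ} (D : HData m n d) (x : Fin m → ℝ) (Sig : Matrix (Fin n) (Fin n) ℝ)
    (hS : Sig.PosDef) (hM : D.M x = ext1 Sig) (Zt : Matrix (Fin n) (Fin d) ℝ)
    (hTs : ∀ i a, D.T x i.succ a = Zt i a)
    (hw : D.w x = ∑ a, ((D.T x 0 a) ^ 2 + ∑ i, ∑ j, Sig⁻¹ i j * (Zt i a * Zt j a))) :
    (D.M x).PosDef ∧ D.F x = D.Xi (Sig⁻¹ * Zt) (Sig⁻¹ * Zt) / (Sig⁻¹).trace := by
  have hdet : IsUnit Sig.det := (Matrix.isUnit_iff_isUnit_det _).1 hS.isUnit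
  refine ⟨by rw [hM]; exact ext1_posDef _ hS, ?_⟩
  have hTs' : (D.T x).submatrix Fin.succ id = Zt := by
    ext i a; exact hTs i a
  unfold HData.F HData.lin
  rw [hM, ext1_inv _ hdet, low_ext1_mul, hTs', trace_ext1, hw, lowTr_ext1]
  simp only [hTs]
  ring

end Crest.Agent.R237.Asm
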