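import Mathlib

/-!
Row 237, Lemma XI (helper930): a quadratic form which is non-negative on a cone, invariant under
translations by a subspace and negative at a point that is not in the closure.
-/

set_option autoImplicit false

namespace Crest.Agent.R237.Dim

open Module
open scoped RealInnerProductSpace

theorem exists_xi {E : Type*} [NormedAddCommGroup E] [InnerProductSpace ℝ E]
    [FiniteDimensional ℝ E] (T : Submodule ℝ E) (C : Set E) (hC0 : (0 : E) ∈ C)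
    (hC : ∀ x ∈ C, ∀ s : ℝ, s • x ∈ C) (g : E)
    (hg : g ∉ closure {x | ∃ c ∈ C, ∃ t ∈ T, x = c + t}) :
    ∃ Ξ : E →ₗ[ℝ] E →ₗ[ℝ] ℝ, (∀ x y, Ξ x y = Ξ y x) ∧
      (∀ x y, ∀ t ∈ T, Ξ (x + t) y = Ξ x y) ∧
      (∀ x ∈ C, 0 ≤ Ξ x x) ∧ Ξ g g < 0 ∧ ∃ M : ℝ, 0 < M ∧ ∀ x, Ξ x x ≤ M * ‖x‖ ^ 2 := by
  classical
  let P : E →ₗ[ℝ] E := LinearMap.id - (T.starProjection : E →L[ℝ] E).toLinearMap
  have hP : ∀ x, P x = x - T.starProjection x := fun x => rfl
  have hPT : ∀ t ∈ T, P t = 0 := by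
    intro t ht
    rw [hP, Submodule.starProjection_eq_self_iff.2 ht, sub_self]
  have hPx : ∀ x, ‖P x‖ ≤ ‖x‖ := by
    intro x
    have h1 : ⟪P x, T.starProjection x⟫ = 0 :=
      Submodule.starProjection_inner_eq_zero x _ (Submodule.starProjection_apply_mem T x)
    have h2 : x = P x + T.starProjection x := by rw [hP]; abel
    have h3 : ‖x‖ ^ 2 = ‖P x‖ ^ 2 + ‖T.starProjection x‖ ^ 2 := by
      conv_lhs => rw [h2]
      rw [norm_add_sq_real, h1]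
      ring
    have h4 : ‖P x‖ ^ 2 ≤ ‖x‖ ^ 2 := by
      rw [h3]
      nlinarith [sq_nonneg ‖T.starProjection x‖]
    exact le_of_sq_le_sq h4 (norm_nonneg _)
  rw [Metric.mem_closure_iff] at hg
  push Not at hg
  obtain ⟨δ, hδ, hdist⟩ := hg
  have hd : ∀ c ∈ C, δ ≤ ‖P g - P c‖ := by
    intro c hc
    have h1 := hdist (c + (T.starProjection g - T.starProjection c))
      ⟨c, hc, _, T.sub_mem (Submodule.starProjection_apply_mem T g)
        (Submodule.starProjection_apply_mem T c), rfl⟩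
    rw [dist_eq_norm] at h1
    have h2 : g - (c + (T.starProjection g - T.starProjection c)) = P g - P c := by
      rw [hP, hP]; abel
    rwa [h2] at h1
  have hg0 : δ ≤ ‖P g‖ := by
    have := hd 0 hC0
    simpa using this
  have key : ∀ c ∈ C, ⟪P g, P c⟫ ^ 2 ≤ (‖P g‖ ^ 2 - δ ^ 2) * ‖P c‖ ^ 2 := by
    intro c hc
    by_cases h0 : P c = 0
    · simp [h0]
    have hpos : 0 < ‖P c‖ ^ 2 := by positivity
    set s : ℝ := ⟪P g, P c⟫ / ‖P c‖ ^ 2 with hs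
    have h1 := hd (s • c) (hC c hc s)
    rw [map_smul] at h1
    have h2 : δ ^ 2 ≤ ‖P g - s • P c‖ ^ 2 := by
      exact pow_le_pow_left₀ hδ.le h1 2
    rw [norm_sub_sq_real, inner_smul_right, norm_smul, mul_pow, Real.norm_eq_abs, sq_abs] at h2
    have h3 : s * ‖P c‖ ^ 2 = ⟪P g, P c⟫ := by
      rw [hs]; field_simp
    have h4 : δ ^ 2 ≤ ‖P g‖ ^ 2 - s * ⟪P g, P c⟫ := by
      have : s ^ 2 * ‖P c‖ ^ 2 = s * ⟪P g, P c⟫ := by rw [← h3]; ring
      rw [this] at h2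
      linarith
    have h5 : ⟪P g, P c⟫ ^ 2 = (s * ⟪P g, P c⟫) * ‖P c‖ ^ 2 := by
      rw [mul_right_comm, h3]; ring
    rw [h5]
    exact mul_le_mul_of_nonneg_right (by linarith) hpos.le
  let a : ℝ := ‖P g‖ ^ 2 - δ ^ 2
  have ha : 0 ≤ a := by
    have := pow_le_pow_left₀ hδ.le hg0 2
    simp only [a]
    linarith
  let Ξ : E →ₗ[ℝ] E →ₗ[ℝ] ℝ := LinearMap.mk₂ ℝ
    (fun x y => a * ⟪P x, P y⟫ - ⟪P g, P x⟫ * ⟪P g, P y⟫)
    (by intro x y z; simp only [map_add, inner_add_left, inner_add_right]; ring)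
    (by intro s x y; simp only [map_smul, inner_smul_left, inner_smul_right, smul_eq_mul,
          RCLike.conj_to_real]; ring)
    (by intro x y z; simp only [map_add, inner_add_right]; ring)
    (by intro s x y; simp only [map_smul, inner_smul_right, smul_eq_mul]; ring)
  have hΞ : ∀ x y, Ξ x y = a * ⟪P x, P y⟫ - ⟪P g, P x⟫ * ⟪P g, P y⟫ := fun x y => rfl
  refine ⟨Ξ, ?_, ?_, ?_, ?_, a + 1, by linarith, ?_⟩
  · intro x y
    rw [hΞ, hΞ, real_inner_comm (P y) (P x)]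
    ring
  · intro x y t ht
    rw [hΞ, hΞ, map_add, hPT t ht, add_zero]
  · intro x hx
    rw [hΞ, real_inner_self_eq_norm_sq]
    have := key x hx
    simp only [a]
    nlinarith
  · rw [hΞ, real_inner_self_eq_norm_sq]
    have h1 : 0 < ‖P g‖ ^ 2 := by
      have : 0 < ‖P g‖ := lt_of_lt_of_le hδ hg0
      positivity
    have h2 : 0 < δ ^ 2 := by positivity
    simp only [a]
    nlinarith [mul_pos h1 h2]
  · intro x
    rw [hΞ, real_inner_self_eq_norm_sq]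
    have h1 : ‖P x‖ ^ 2 ≤ ‖x‖ ^ 2 := pow_le_pow_left₀ (norm_nonneg _) (hPx x) 2
    nlinarith [mul_le_mul_of_nonneg_left h1 ha, sq_nonneg ‖x‖, mul_self_nonneg ⟪P g, P x⟫]

/-- Matrix version. -/
theorem exists_xi_matrix {ι κ : Type*} [Fintype ι] [Fintype κ]
    (T : Submodule ℝ (Matrix ι κ ℝ)) (C : Set (Matrix ι κ ℝ)) (hC0 : (0 : Matrix ι κ ℝ) ∈ C)
    (hC : ∀ x ∈ C, ∀ s : ℝ, s • x ∈ C) (g : Matrix ι κ ℝ)
    (hg : g ∉ closure {x | ∃ c ∈ C, ∃ t ∈ T, x = c + t}) :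
    ∃ Ξ : Matrix ι κ ℝ →ₗ[ℝ] Matrix ι κ ℝ →ₗ[ℝ] ℝ, (∀ x y, Ξ x y = Ξ y x) ∧
      (∀ x y, ∀ t ∈ T, Ξ (x + t) y = Ξ x y) ∧
      (∀ x ∈ C, 0 ≤ Ξ x x) ∧ Ξ g g < 0 ∧
      ∃ M : ℝ, 0 < M ∧ ∀ x, Ξ x x ≤ M * ∑ i, ∑ a, x i a ^ 2 := by
  classical
  let L : Matrix ι κ ℝ ≃ₗ[ℝ] EuclideanSpace ℝ (ι × κ) :=
    { toFun := fun x => WithLp.toLp 2 fun p => x p.1 p.2
      invFun := fun v => Matrix.of fun i a => v (i, a)
      map_add' := fun x y => rfl
      map_smul' := fun s x => rfl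
      left_inv := fun x => rfl
      right_inv := fun v => rfl }
  have hLc : Continuous L := LinearMap.continuous_of_finiteDimensional L.toLinearMap
  have hLsc : Continuous L.symm := LinearMap.continuous_of_finiteDimensional L.symm.toLinearMap
  have hnorm : ∀ x, ‖L x‖ ^ 2 = ∑ i, ∑ a, x i a ^ 2 := by
    intro x
    rw [EuclideanSpace.norm_sq_eq, Fintype.sum_prod_type]
    simp only [Real.norm_eq_abs, sq_abs]
    rfl
  have hg' : L g ∉ closure {x | ∃ c ∈ L '' C, ∃ t ∈ T.map L.toLinearMap, x = c + t} := by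
    intro hmem
    apply hg
    have h1 : L.symm (L g) ∈ closure (L.symm '' {x | ∃ c ∈ L '' C, ∃ t ∈ T.map L.toLinearMap,
        x = c + t}) := image_closure_subset_closure_image hLsc ⟨L g, hmem, rfl⟩
    rw [L.symm_apply_apply] at h1
    refine closure_mono ?_ h1
    rintro _ ⟨_, ⟨_, ⟨c, hc, rfl⟩, _, ⟨t, ht, rfl⟩, rfl⟩, rfl⟩
    refine ⟨c, hc, t, ht, ?_⟩
    rw [map_add]
    simp
  obtain ⟨Ξ, h1, h2, h3, h4, M, hM, h5⟩ := exists_xi (T.map L.toLinearMap) (L '' C)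
    ⟨0, hC0, map_zero L⟩ (by
      rintro _ ⟨c, hc, rfl⟩ s
      exact ⟨s • c, hC c hc s, map_smul L s c⟩) (L g) hg'
  refine ⟨(Ξ.comp L.toLinearMap).compl₂ L.toLinearMap, ?_, ?_, ?_, ?_, M, hM, ?_⟩
  · intro x y
    exact h1 _ _
  · intro x y t ht
    have := h2 (L x) (L y) (L t) ⟨t, ht, rfl⟩
    simpa using this
  · intro x hx
    exact h3 _ ⟨x, hx, rfl⟩
  · exact h4
  · intro x
    have := h5 (L x)
    rw [hnorm] at this
    exact this

end Crest.Agent.R237.Dim
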