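import Crest.Agent.R237.DimCount
import Crest.Agent.R237.DimXi

/-!
Row 237, existence theorem EX (helper930): from the one-dimensional kernel of the linearised
system (LKC) to the quadratic form `Ξ` and the point `(P, Z)`.
-/

set_option autoImplicit false

namespace Crest.Agent.R237.EX

open Module Matrix

variable {n d : ℕ}

/-- Symmetric 3-tensors. -/
def IsSym3 (Z : Fin n → Fin n → Fin n → ℝ) : Prop :=
  ∀ i j k, Z i j k = Z j i k ∧ Z i j k = Z i k j

/-- The matrix `L (u_i v_a)` of a cubic functional. -/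
def zeta (q : Fin d → Matrix (Fin n) (Fin n) ℝ) (Z : Fin n → Fin n → Fin n → ℝ) :
    Matrix (Fin n) (Fin d) ℝ :=
  Matrix.of fun i a => ∑ j, ∑ k, q a j k * Z i j k

/-- The translation direction `(q_a y)_i`. -/
def transl (q : Fin d → Matrix (Fin n) (Fin n) ℝ) (y : Fin n → ℝ) :
    Matrix (Fin n) (Fin d) ℝ :=
  Matrix.of fun i a => ∑ j, q a i j * y j

/-- symmetric 3-tensors as a submodule -/
def sym3 (n : ℕ) : Submodule ℝ (Fin n → Fin n → Fin n → ℝ) where
  carrier := {Z | IsSym3 Z}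
  add_mem' := by
    intro Z Z' h h' i j k
    have h1 := h i j k
    have h2 := h' i j k
    simp only [Pi.add_apply]
    exact ⟨by rw [h1.1, h2.1], by rw [h1.2, h2.2]⟩
  zero_mem' := by
    intro i j k
    simp
  smul_mem' := by
    intro s Z h i j k
    have h1 := h i j k
    simp only [Pi.smul_apply]
    exact ⟨by rw [h1.1], by rw [h1.2]⟩

/-- symmetric matrices as a submodule -/
def symM (n : ℕ) : Submodule ℝ (Matrix (Fin n) (Fin n) ℝ) where
  carrier := {P | P.IsSymm}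
  add_mem' := fun h h' => h.add h'
  zero_mem' := Matrix.isSymm_zero
  smul_mem' := fun s _ h => h.smul s

/-- `zeta` as a linear map -/
def zetaL (q : Fin d → Matrix (Fin n) (Fin n) ℝ) :
    (Fin n → Fin n → Fin n → ℝ) →ₗ[ℝ] Matrix (Fin n) (Fin d) ℝ where
  toFun := zeta q
  map_add' := by
    intro Z Z'
    ext i a
    simp [zeta, mul_add, Finset.sum_add_distrib]
  map_smul' := by
    intro s Z
    ext i a
    simp only [zeta, Matrix.of_apply, Matrix.smul_apply, Pi.smul_apply, smul_eq_mul,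
      RingHom.id_apply, Finset.mul_sum]
    refine Finset.sum_congr rfl fun j _ => Finset.sum_congr rfl fun k _ => ?_
    ring

/-- `transl` as a linear map -/
def translL (q : Fin d → Matrix (Fin n) (Fin n) ℝ) :
    (Fin n → ℝ) →ₗ[ℝ] Matrix (Fin n) (Fin d) ℝ where
  toFun := transl q
  map_add' := by
    intro Z Z'
    ext i a
    simp [transl, mul_add, Finset.sum_add_distrib]
  map_smul' := by
    intro s Z
    ext i a
    simp only [transl, Matrix.of_apply, Matrix.smul_apply, Pi.smul_apply, smul_eq_mul,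
      RingHom.id_apply, Finset.mul_sum]
    refine Finset.sum_congr rfl fun j _ => ?_
    ring

/-- matrices close to the identity are positive definite -/
theorem posDef_of_close (P : Matrix (Fin n) (Fin n) ℝ) (hP : P.IsSymm)
    (h : ∀ i j, |P i j - (1 : Matrix (Fin n) (Fin n) ℝ) i j| ≤ 1 / (2 * ((n : ℝ) + 1))) :
    P.PosDef := by
  rw [Matrix.posDef_iff_dotProduct_mulVec]
  refine ⟨by rw [Matrix.IsHermitian, Matrix.conjTranspose_eq_transpose_of_trivial]; exact hP, ?_⟩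
  intro x hx
  have hxs : 0 < ∑ i, x i ^ 2 := by
    obtain ⟨i, hi⟩ := Function.ne_iff.1 hx
    refine Finset.sum_pos' (fun j _ => sq_nonneg _) ⟨i, Finset.mem_univ i, ?_⟩
    have : x i ≠ 0 := hi
    positivity
  have h1 : star x ⬝ᵥ P *ᵥ x = ∑ i, ∑ j, x i * (P i j * x j) := by
    simp [dotProduct, mulVec, Finset.mul_sum]
  have h2 : ∑ i, ∑ j, x i * ((1 : Matrix (Fin n) (Fin n) ℝ) i j * x j) = ∑ i, x i ^ 2 := by
    refine Finset.sum_congr rfl fun i _ => ?_
    rw [Finset.sum_eq_single i]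
    · simp [sq]
    · intro j _ hj
      rw [Matrix.one_apply_ne (Ne.symm hj)]
      simp
    · simp
  set ε : ℝ := 1 / (2 * ((n : ℝ) + 1)) with hε
  have hεn : ε * n ≤ 1 / 2 := by
    rw [hε, div_mul_eq_mul_div, one_mul, div_le_div_iff₀ (by positivity) (by norm_num)]
    linarith
  have h3 : ∑ i, ∑ j, x i * (P i j * x j) ≥ ∑ i, ∑ j, (x i * ((1 : Matrix (Fin n) (Fin n) ℝ) i j * x j) - ε * (|x i| * |x j|)) := by
    refine Finset.sum_le_sum fun i _ => Finset.sum_le_sum fun j _ => ?_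
    have h4 : |x i * ((P i j - (1 : Matrix (Fin n) (Fin n) ℝ) i j) * x j)| ≤ ε * (|x i| * |x j|) := by
      rw [abs_mul, abs_mul]
      have := mul_le_mul_of_nonneg_right (h i j) (mul_nonneg (abs_nonneg (x i)) (abs_nonneg (x j)))
      calc |x i| * (|P i j - (1 : Matrix (Fin n) (Fin n) ℝ) i j| * |x j|) = |P i j - (1 : Matrix (Fin n) (Fin n) ℝ) i j| * (|x i| * |x j|) := by ring
        _ ≤ _ := this
    have h5 := neg_le_of_abs_le h4
    linarith [h5, mul_sub (x i * 1) (P i j * x j) ((1 : Matrix (Fin n) (Fin n) ℝ) i j * x j), sub_mul (P i j) ((1 : Matrix (Fin n) (Fin n) ℝ) i j) (x j),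
      (by ring : x i * ((P i j - (1 : Matrix (Fin n) (Fin n) ℝ) i j) * x j) = x i * (P i j * x j) - x i * ((1 : Matrix (Fin n) (Fin n) ℝ) i j * x j))]
  have h6 : ∑ i, ∑ j, (x i * ((1 : Matrix (Fin n) (Fin n) ℝ) i j * x j) - ε * (|x i| * |x j|))
      = ∑ i, x i ^ 2 - ε * (∑ i, |x i|) ^ 2 := by
    simp only [Finset.sum_sub_distrib]
    rw [h2]
    congr 1
    rw [sq, Finset.sum_mul_sum, Finset.mul_sum]
    refine Finset.sum_congr rfl fun i _ => ?_
    rw [Finset.mul_sum]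
  have h7 : (∑ i, |x i|) ^ 2 ≤ n * ∑ i, x i ^ 2 := by
    have := sq_sum_le_card_mul_sum_sq (s := Finset.univ) (f := fun i => |x i|)
    simpa using this
  rw [h1]
  have hε0 : 0 < ε := by positivity
  have h8 : ε * (∑ i, |x i|) ^ 2 ≤ 1 / 2 * ∑ i, x i ^ 2 := by
    calc ε * (∑ i, |x i|) ^ 2 ≤ ε * (n * ∑ i, x i ^ 2) := mul_le_mul_of_nonneg_left h7 hε0.le
      _ = (ε * n) * ∑ i, x i ^ 2 := by ring
      _ ≤ _ := mul_le_mul_of_nonneg_right hεn hxs.le
  linarith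

theorem two_le_finrank_symM (hn : 2 ≤ n) : 2 ≤ finrank ℝ (symM n) := by
  classical
  let i0 : Fin n := ⟨0, by omega⟩
  let i1 : Fin n := ⟨1, by omega⟩
  have hne : i0 ≠ i1 := by simp [i0, i1]
  let A : Matrix (Fin n) (Fin n) ℝ := Matrix.diagonal (Pi.single i0 1)
  have hA : A.IsSymm := by simp [A, Matrix.IsSymm, Matrix.diagonal_transpose]
  let v : Fin 2 → symM n := ![⟨1, Matrix.isSymm_one⟩, ⟨A, hA⟩]
  have hv : LinearIndependent ℝ v := by
    rw [LinearIndependent.pair_iff]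
    intro s t hst
    have h1 := congrArg (fun x : symM n => x.1 i0 i0) hst
    have h2 := congrArg (fun x : symM n => x.1 i1 i1) hst
    simp [A, hne.symm] at h1 h2
    subst h2
    simpa using h1
  have := hv.fintype_card_le_finrank
  simpa using this

section

attribute [local instance] Matrix.normedAddCommGroup Matrix.normedSpace

theorem exists_EX (q : Fin d → Matrix (Fin n) (Fin n) ℝ) (hn : 2 ≤ n)
    (P0 : Matrix (Fin n) (Fin n) ℝ) (hP0 : P0.IsSymm)
    (Z0 : Fin n → Fin n → Fin n → ℝ) (hZ0 : IsSym3 Z0)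
    (lkc : ∀ D : Matrix (Fin n) (Fin n) ℝ, D.IsSymm → ∀ Z', IsSym3 Z' → ∀ y : Fin n → ℝ,
      D * zeta q Z0 + P0 * zeta q Z' + transl q y = 0 →
        ∃ s : ℝ, D = s • P0 ∧ zeta q Z' = -(s • zeta q Z0)) :
    ∃ (Ξ : Matrix (Fin n) (Fin d) ℝ →ₗ[ℝ] Matrix (Fin n) (Fin d) ℝ →ₗ[ℝ] ℝ)
      (P : Matrix (Fin n) (Fin n) ℝ) (Z : Fin n → Fin n → Fin n → ℝ) (φ : ℝ),
      P.PosDef ∧ IsSym3 Z ∧ (∀ X Y, Ξ X Y = Ξ Y X) ∧
      (∀ X Y y, Ξ (X + transl q y) Y = Ξ X Y) ∧
      (∀ P' : Matrix (Fin n) (Fin n) ℝ, P'.IsSymm → P'.trace = 0 → ∀ Z', IsSym3 Z' →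
        0 ≤ Ξ (P' * zeta q Z') (P' * zeta q Z')) ∧
      0 < φ ∧ (∀ X, Ξ X X ≤ φ * ∑ i, ∑ a, X i a ^ 2) ∧
      Ξ (P * zeta q Z) (P * zeta q Z) < 0 := by
  classical
  let T : Submodule ℝ (Matrix (Fin n) (Fin d) ℝ) := LinearMap.range (translL q)
  obtain ⟨g, hg⟩ := T.mkQ.exists_rightInverse_of_surjective (Submodule.range_mkQ T)
  let π : Matrix (Fin n) (Fin d) ℝ →ₗ[ℝ] Matrix (Fin n) (Fin d) ℝ := g ∘ₗ T.mkQ
  have hπ : ∀ x, π x = 0 ↔ x ∈ T := by
    intro x
    constructor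
    · intro h
      have h1 : T.mkQ (g (T.mkQ x)) = T.mkQ x := LinearMap.congr_fun hg (T.mkQ x)
      have h2 : g (T.mkQ x) = 0 := h
      rw [h2, map_zero] at h1
      exact (Submodule.Quotient.mk_eq_zero T).1 h1.symm
    · intro h
      have h1 : T.mkQ x = 0 := (Submodule.Quotient.mk_eq_zero T).2 h
      change g (T.mkQ x) = 0
      rw [h1, map_zero]
  let W : Submodule ℝ (Matrix (Fin n) (Fin d) ℝ) := (sym3 n).map (zetaL q)
  let β : symM n →ₗ[ℝ] W →ₗ[ℝ] Matrix (Fin n) (Fin d) ℝ := LinearMap.mk₂ ℝ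
    (fun u w => π (u.1 * w.1))
    (by intro x y z; simp [Matrix.add_mul])
    (by intro s x y; simp)
    (by intro x y z; simp [Matrix.mul_add])
    (by intro s x y; simp)
  have hβ : ∀ u w, β u w = π (u.1 * w.1) := fun u w => rfl
  let τ : symM n →ₗ[ℝ] ℝ := (Matrix.traceLinearMap (Fin n) ℝ ℝ) ∘ₗ (symM n).subtype
  have hτ : τ ≠ 0 := by
    intro h
    have h1 : τ ⟨1, Matrix.isSymm_one⟩ = 0 := by rw [h]; rfl
    have h2 : τ ⟨1, Matrix.isSymm_one⟩ = (n : ℝ) := by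
      change Matrix.trace (1 : Matrix (Fin n) (Fin n) ℝ) = n
      simp
    rw [h2] at h1
    have : n = 0 := by exact_mod_cast h1
    omega
  let u0 : symM n := ⟨P0, hP0⟩
  let w0 : W := ⟨zeta q Z0, ⟨Z0, hZ0, rfl⟩⟩
  have hker : ∀ u w, β u w0 + β u0 w = 0 → ∃ s : ℝ, u = s • u0 ∧ w = -(s • w0) := by
    rintro ⟨u, hu⟩ ⟨_, Z', hZ', rfl⟩ h
    rw [hβ, hβ, ← map_add, hπ] at h
    obtain ⟨y, hy⟩ := h
    have hy' : transl q y = u * zeta q Z0 + P0 * zeta q Z' := hy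
    obtain ⟨s, hs1, hs2⟩ := lkc u hu Z' hZ' (-y) (by
      have h1 : transl q (-y) = -transl q y := by
        have := map_neg (translL q) y
        exact this
      rw [h1, hy']
      abel)
    refine ⟨s, ?_, ?_⟩
    · exact Subtype.ext hs1
    · exact Subtype.ext hs2
  let O : Set (symM n × W) := {p | ∀ i j, |p.1.1 i j - (1 : Matrix (Fin n) (Fin n) ℝ) i j|
    < 1 / (2 * ((n : ℝ) + 1))}
  have hO : IsOpen O := by
    have : O = ⋂ i, ⋂ j, {p : symM n × W | |p.1.1 i j - (1 : Matrix (Fin n) (Fin n) ℝ) i j|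
        < 1 / (2 * ((n : ℝ) + 1))} := by
      ext p
      simp [O]
    rw [this]
    refine isOpen_iInter_of_finite fun i => isOpen_iInter_of_finite fun j => ?_
    refine isOpen_lt ?_ continuous_const
    have h1 : Continuous fun p : symM n × W => p.1.1 i j := by
      have h2 : Continuous fun p : symM n × W => (p.1.1 : Matrix (Fin n) (Fin n) ℝ) :=
        continuous_subtype_val.comp continuous_fst
      exact (continuous_apply j).comp ((continuous_apply i).comp h2)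
    exact (h1.sub continuous_const).abs
  have hne : O.Nonempty := by
    refine ⟨(⟨1, Matrix.isSymm_one⟩, 0), ?_⟩
    intro i j
    simp only [sub_self, abs_zero]
    positivity
  obtain ⟨⟨⟨P, hP⟩, ⟨_, Z, hZ, rfl⟩⟩, hpO, hcl⟩ := Dim.dimCount β τ hτ (two_le_finrank_symM hn) u0 w0 hker O hO hne
  let C : Set (Matrix (Fin n) (Fin d) ℝ) := {x | ∃ (P' : Matrix (Fin n) (Fin n) ℝ)
    (Z' : Fin n → Fin n → Fin n → ℝ), P'.IsSymm ∧ P'.trace = 0 ∧
    IsSym3 Z' ∧ x = P' * zeta q Z'}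
  have hC0 : (0 : Matrix (Fin n) (Fin d) ℝ) ∈ C := by
    refine ⟨0, 0, Matrix.isSymm_zero, by simp, by intro i j k; simp, by simp⟩
  have hC : ∀ x ∈ C, ∀ s : ℝ, s • x ∈ C := by
    rintro _ ⟨P', Z', h1, h2, h3, rfl⟩ s
    refine ⟨s • P', Z', h1.smul s, by simp [h2], h3, by simp⟩
  have hgC : P * zeta q Z ∉ closure {x | ∃ c ∈ C, ∃ t ∈ T, x = c + t} := by
    intro hmem
    apply hcl
    have hπc : Continuous π := LinearMap.continuous_of_finiteDimensional π
    have h1 : π (P * zeta q Z) ∈ closure (π '' {x | ∃ c ∈ C, ∃ t ∈ T, x = c + t}) :=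
      image_closure_subset_closure_image hπc ⟨_, hmem, rfl⟩
    refine closure_mono ?_ h1
    rintro _ ⟨_, ⟨_, ⟨P', Z', h1, h2, h3, rfl⟩, t, ht, rfl⟩, rfl⟩
    refine ⟨⟨P', h1⟩, ⟨zeta q Z', ⟨Z', h3, rfl⟩⟩, h2, ?_⟩
    rw [map_add, (hπ t).2 ht, add_zero]
    rfl
  obtain ⟨Ξ, e1, e2, e3, e4, φ, e5, e6⟩ := Dim.exists_xi_matrix T C hC0 hC _ hgC
  refine ⟨Ξ, P, Z, φ, ?_, hZ, e1, ?_, ?_, e5, e6, e4⟩
  · exact posDef_of_close P hP fun i j => (hpO i j).le
  · intro X Y y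
    exact e2 X Y _ ⟨y, rfl⟩
  · intro P' hP' htr Z' hZ'
    exact e3 _ ⟨P', Z', hP', htr, hZ', rfl⟩

end

end Crest.Agent.R237.EX
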