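import Mathlib

/-! Row 237: the flat functional built from a covariance `Sig`, a cubic functional `Z` and a
free space of quadratic forms `V0`; and the grid functional. -/

set_option autoImplicit false

namespace Crest.Agent.R237.Ext

open MvPolynomial

/-! ### The quadratic functional with given covariance -/

/-- `Q2 Sig (X i * X j) = Sig i j` for symmetric `Sig`. -/
noncomputable def Q2 {c : ℕ} (Sig : Matrix (Fin c) (Fin c) ℝ) : MvPolynomial (Fin c) ℝ →ₗ[ℝ] ℝ :=
  ∑ i, ∑ j, (Sig i j / 2) •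
    ((lcoeff ℝ (0 : Fin c →₀ ℕ)).comp
      ((pderiv i).toLinearMap.comp (pderiv j).toLinearMap))

theorem Q2_apply {c : ℕ} (Sig : Matrix (Fin c) (Fin c) ℝ) (f : MvPolynomial (Fin c) ℝ) :
    Q2 Sig f = ∑ i, ∑ j, (Sig i j / 2) * coeff 0 (pderiv i (pderiv j f)) := by
  simp only [Q2, LinearMap.sum_apply, LinearMap.smul_apply, LinearMap.comp_apply, smul_eq_mul]
  rfl

theorem pd1 {c : ℕ} (i l : Fin c) :
    pderiv l (X i : MvPolynomial (Fin c) ℝ) = C (if l = i then 1 else 0) := by
  classical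
  rw [pderiv_X, Pi.single_apply]
  by_cases h : i = l
  · simp [h]
  · simp [h, Ne.symm h]

theorem pd2 {c : ℕ} (i j k l : Fin c) :
    coeff 0 (pderiv k (pderiv l (X i * X j : MvPolynomial (Fin c) ℝ))) =
      (if l = i then 1 else 0) * (if k = j then 1 else 0) +
      (if l = j then 1 else 0) * (if k = i then (1 : ℝ) else 0) := by
  have h : pderiv k (pderiv l (X i * X j : MvPolynomial (Fin c) ℝ)) =
      C ((if l = i then 1 else 0) * (if k = j then 1 else 0) +
      (if l = j then 1 else 0) * (if k = i then (1 : ℝ) else 0)) := by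
    rw [pderiv_mul, map_add, pderiv_mul, pderiv_mul, pd1, pd1, pd1, pd1, pderiv_C, pderiv_C,
      zero_mul, mul_zero, zero_add, add_zero, ← C_mul, ← C_mul, ← C_add]
    congr 1
    ring
  rw [h, coeff_C, if_pos rfl]

theorem Q2_X_mul_X {c : ℕ} (Sig : Matrix (Fin c) (Fin c) ℝ) (hS : Sig.IsSymm) (i j : Fin c) :
    Q2 Sig (X i * X j) = Sig i j := by
  classical
  rw [Q2_apply]
  simp only [pd2, mul_add, Finset.sum_add_distrib]
  have h1 : ∑ x, ∑ y, Sig x y / 2 * ((if y = i then 1 else 0) * (if x = j then (1 : ℝ) else 0)) =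
      Sig j i / 2 := by
    rw [Finset.sum_eq_single j, Finset.sum_eq_single i]
    · simp
    · intro y _ hy; simp [hy]
    · simp
    · intro x _ hx; simp [hx]
    · simp
  have h2 : ∑ x, ∑ y, Sig x y / 2 * ((if y = j then 1 else 0) * (if x = i then (1 : ℝ) else 0)) =
      Sig i j / 2 := by
    rw [Finset.sum_eq_single i, Finset.sum_eq_single j]
    · simp
    · intro y _ hy; simp [hy]
    · simp
    · intro x _ hx; simp [hx]
    · simp
  rw [h1, h2, hS.apply i j]
  ring

/-! ### Gluing functionals along the grading -/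

/-- glue functionals in degrees `0, 2, 3, 4` -/
noncomputable def glue {c : ℕ} (Q Z T : MvPolynomial (Fin c) ℝ →ₗ[ℝ] ℝ) :
    MvPolynomial (Fin c) ℝ →ₗ[ℝ] ℝ :=
  lcoeff ℝ (0 : Fin c →₀ ℕ) + Q.comp (homogeneousComponent 2) +
    Z.comp (homogeneousComponent 3) + T.comp (homogeneousComponent 4)

section glue

variable {c : ℕ} (Q Z T : MvPolynomial (Fin c) ℝ →ₗ[ℝ] ℝ)

theorem glue_apply (f : MvPolynomial (Fin c) ℝ) :
    glue Q Z T f = coeff 0 f + Q (homogeneousComponent 2 f) + Z (homogeneousComponent 3 f) +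
      T (homogeneousComponent 4 f) := rfl

theorem hc_of {f : MvPolynomial (Fin c) ℝ} {n : ℕ} (hf : f.IsHomogeneous n) (m : ℕ) :
    homogeneousComponent m f = if m = n then f else 0 :=
  homogeneousComponent_of_mem (m := m) ((mem_homogeneousSubmodule n f).2 hf)

theorem coeff_zero_of {f : MvPolynomial (Fin c) ℝ} {n : ℕ} (hf : f.IsHomogeneous n) (hn : n ≠ 0) :
    coeff 0 f = 0 := hf.coeff_eq_zero (by simpa using hn.symm)

theorem glue_one : glue Q Z T 1 = 1 := by
  have h := isHomogeneous_one (Fin c) ℝ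
  rw [glue_apply, hc_of h, hc_of h, hc_of h]
  simp

theorem glue_deg1 {f : MvPolynomial (Fin c) ℝ} (hf : f.IsHomogeneous 1) : glue Q Z T f = 0 := by
  rw [glue_apply, hc_of hf, hc_of hf, hc_of hf, coeff_zero_of hf one_ne_zero]
  simp

theorem glue_deg2 {f : MvPolynomial (Fin c) ℝ} (hf : f.IsHomogeneous 2) :
    glue Q Z T f = Q f := by
  rw [glue_apply, hc_of hf, hc_of hf, hc_of hf, coeff_zero_of hf two_ne_zero]
  simp

theorem glue_deg3 {f : MvPolynomial (Fin c) ℝ} (hf : f.IsHomogeneous 3) :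
    glue Q Z T f = Z f := by
  rw [glue_apply, hc_of hf, hc_of hf, hc_of hf, coeff_zero_of hf three_ne_zero]
  simp

theorem glue_deg4 {f : MvPolynomial (Fin c) ℝ} (hf : f.IsHomogeneous 4) :
    glue Q Z T f = T f := by
  rw [glue_apply, hc_of hf, hc_of hf, hc_of hf, coeff_zero_of hf four_ne_zero]
  simp

end glue

theorem flat_exists {c d : ℕ} (q : Fin d → MvPolynomial (Fin c) ℝ)
    (hq : ∀ a, (q a).IsHomogeneous 2) (Sig : Matrix (Fin c) (Fin c) ℝ) (hS : Sig.PosDef)
    (Z : MvPolynomial (Fin c) ℝ →ₗ[ℝ] ℝ)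
    (hfree : ∀ W : Matrix (Fin d) (Fin d) ℝ, W.IsSymm →
      ∃ T : MvPolynomial (Fin c) ℝ →ₗ[ℝ] ℝ, ∀ a b, T (q a * q b) = W a b) :
    ∃ L : MvPolynomial (Fin c) ℝ →ₗ[ℝ] ℝ, L 1 = 1 ∧ (∀ i, L (X i) = 0) ∧
      (∀ i j, L (X i * X j) = Sig i j) ∧
      (∀ f : MvPolynomial (Fin c) ℝ, f.IsHomogeneous 3 → L f = Z f) ∧
      (∀ a b, L (q a * q b) =
        L (q a) * L (q b) + ∑ i, ∑ j, Sig⁻¹ i j * (Z (X i * q a) * Z (X j * q b))) ∧
      (∀ a : ℝ, ∀ b : Fin c → ℝ, ∀ v ∈ Submodule.span ℝ (Set.range q),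
        0 ≤ L ((C a + ∑ i, C (b i) * X i + v) * (C a + ∑ i, C (b i) * X i + v))) := by
  classical
  set V0 : Submodule ℝ (MvPolynomial (Fin c) ℝ) := Submodule.span ℝ (Set.range q) with hV0def
  have hV0 : ∀ f ∈ V0, f.IsHomogeneous 2 := by
    intro f hf
    have : V0 ≤ homogeneousSubmodule (Fin c) ℝ 2 := by
      rw [hV0def, Submodule.span_le]
      rintro _ ⟨a, rfl⟩
      exact (mem_homogeneousSubmodule 2 _).2 (hq a)
    exact (mem_homogeneousSubmodule 2 _).1 (this hf)
  have hsym : Sig.IsSymm := by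
    have := hS.isHermitian
    simpa [Matrix.IsHermitian, Matrix.IsSymm] using this
  have hsymi : Sig⁻¹.IsSymm := hsym.inv
  let B : MvPolynomial (Fin c) ℝ →ₗ[ℝ] MvPolynomial (Fin c) ℝ →ₗ[ℝ] ℝ := LinearMap.mk₂ ℝ
    (fun v w => Q2 Sig v * Q2 Sig w +
      ∑ i, ∑ j, Sig⁻¹ i j * (Z (X i * v) * Z (X j * w)))
    (by
      intro v v' w
      simp only [map_add, mul_add, add_mul, Finset.sum_add_distrib]
      ring)
    (by
      intro t v w
      simp only [map_smul, smul_eq_mul, mul_smul_comm, Finset.mul_sum, mul_add]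
      congr 1
      · ring
      · exact Finset.sum_congr rfl fun i _ => Finset.sum_congr rfl fun j _ => by ring)
    (by
      intro v w w'
      simp only [map_add, mul_add, Finset.sum_add_distrib]
      ring)
    (by
      intro t v w
      simp only [map_smul, smul_eq_mul, mul_smul_comm, Finset.mul_sum, mul_add]
      congr 1
      · ring
      · exact Finset.sum_congr rfl fun i _ => Finset.sum_congr rfl fun j _ => by ring)
  have hB : ∀ v w, B v w = B w v := by
    intro v w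
    simp only [B, LinearMap.mk₂_apply]
    congr 1
    · ring
    · rw [Finset.sum_comm]
      refine Finset.sum_congr rfl fun i _ => Finset.sum_congr rfl fun j _ => ?_
      rw [hsymi.apply i j]
      ring
  obtain ⟨T, hT0⟩ := hfree (Matrix.of fun a b => B (q a) (q b)) (by
    ext a b
    simp [hB (q a) (q b)])
  have hT : ∀ v ∈ V0, ∀ w ∈ V0, T (v * w) = B v w := by
    intro v hv w hw
    induction hv using Submodule.span_induction with
    | mem v hv =>
      obtain ⟨a, rfl⟩ := hv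
      induction hw using Submodule.span_induction with
      | mem w hw =>
        obtain ⟨b, rfl⟩ := hw
        exact hT0 a b
      | zero => simp
      | add w w' _ _ h h' => rw [mul_add, map_add, map_add, h, h']
      | smul t w _ h => rw [mul_smul_comm, map_smul, map_smul, h]
    | zero => simp
    | add v v' _ _ h h' => rw [add_mul, map_add, map_add, h, h', LinearMap.add_apply]
    | smul t v _ h => rw [smul_mul_assoc, map_smul, map_smul, h, LinearMap.smul_apply]
  have hX : ∀ i : Fin c, (X i : MvPolynomial (Fin c) ℝ).IsHomogeneous 1 := fun i =>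
    isHomogeneous_X ℝ i
  have e2 : ∀ i j, glue (Q2 Sig) Z T (X i * X j) = Sig i j := by
    intro i j
    rw [glue_deg2 _ _ _ ((hX i).mul (hX j)), Q2_X_mul_X Sig hsym]
  have e3 : ∀ i, ∀ v ∈ V0, glue (Q2 Sig) Z T (X i * v) = Z (X i * v) := by
    intro i v hv
    exact glue_deg3 _ _ _ ((hX i).mul (hV0 v hv))
  have e4 : ∀ v ∈ V0, ∀ w ∈ V0, glue (Q2 Sig) Z T (v * w) =
      glue (Q2 Sig) Z T v * glue (Q2 Sig) Z T w +
        ∑ i, ∑ j, Sig⁻¹ i j * (Z (X i * v) * Z (X j * w)) := by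
    intro v hv w hw
    rw [glue_deg4 _ _ _ ((hV0 v hv).mul (hV0 w hw)), glue_deg2 _ _ _ (hV0 v hv),
      glue_deg2 _ _ _ (hV0 w hw)]
    exact hT v hv w hw
  refine ⟨glue (Q2 Sig) Z T, glue_one _ _ _, fun i => glue_deg1 _ _ _ (hX i), e2,
    fun f hf => glue_deg3 _ _ _ hf,
    fun a b => e4 _ (Submodule.subset_span ⟨a, rfl⟩) _ (Submodule.subset_span ⟨b, rfl⟩), ?_⟩
  intro a b v hv
  set L := glue (Q2 Sig) Z T with hL
  set z : Fin c → ℝ := fun i => Z (X i * v) with hz
  set w : Fin c → ℝ := b + Sig⁻¹.mulVec z with hw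
  -- expansion
  have hexp : L ((C a + ∑ i, C (b i) * X i + v) * (C a + ∑ i, C (b i) * X i + v)) =
      (a + L v) ^ 2 + w ⬝ᵥ Sig.mulVec w := by
    have h1 : (C a + ∑ i, C (b i) * X i + v) * (C a + ∑ i, C (b i) * X i + v) =
        (a ^ 2) • (1 : MvPolynomial (Fin c) ℝ) + (∑ i, (2 * a * b i) • X i) +
        (∑ i, ∑ j, (b i * b j) • (X i * X j)) + (2 * a) • v + (∑ i, (2 * b i) • (X i * v)) +
        v * v := by
      have hs1 : ∑ i, (2 * a * b i) • (X i : MvPolynomial (Fin c) ℝ) =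
          2 * C a * ∑ i, C (b i) * X i := by
        rw [Finset.mul_sum]
        refine Finset.sum_congr rfl fun i _ => ?_
        rw [smul_eq_C_mul, C_mul, C_mul]
        simp only [map_ofNat]
        ring
      have hs2 : ∑ i, ∑ j, (b i * b j) • (X i * X j : MvPolynomial (Fin c) ℝ) =
          (∑ i, C (b i) * X i) * ∑ i, C (b i) * X i := by
        rw [Finset.sum_mul_sum]
        refine Finset.sum_congr rfl fun i _ => Finset.sum_congr rfl fun j _ => ?_
        rw [smul_eq_C_mul, C_mul]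
        ring
      have hs3 : ∑ i, (2 * b i) • (X i * v) = 2 * v * ∑ i, C (b i) * X i := by
        rw [Finset.mul_sum]
        refine Finset.sum_congr rfl fun i _ => ?_
        rw [smul_eq_C_mul, C_mul]
        simp only [map_ofNat]
        ring
      rw [hs1, hs2, hs3, smul_eq_C_mul, smul_eq_C_mul, C_mul, C_pow]
      simp only [map_ofNat]
      ring
    rw [h1]
    simp only [map_add, map_sum, map_smul, smul_eq_mul, e2, e4 v hv v hv]
    have g1 : L 1 = 1 := glue_one _ _ _
    have g2 : ∀ i, L (X i) = 0 := fun i => glue_deg1 _ _ _ (hX i)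
    have g3 : ∀ i, L (X i * v) = z i := fun i => e3 i v hv
    simp only [g1, g2, g3, mul_zero, Finset.sum_const_zero]
    have hdet : IsUnit Sig.det := hS.isUnit.map Matrix.detMonoidHom |> fun h => by simpa using h
    have hw2 : Sig.mulVec w = Sig.mulVec b + z := by
      rw [hw, Matrix.mulVec_add, Matrix.mulVec_mulVec, Matrix.mul_nonsing_inv _ hdet,
        Matrix.one_mulVec]
    have hw3 : w ⬝ᵥ Sig.mulVec w = b ⬝ᵥ Sig.mulVec b + 2 * (b ⬝ᵥ z) +
        z ⬝ᵥ Sig⁻¹.mulVec z := by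
      rw [hw2, hw, add_dotProduct, dotProduct_add, dotProduct_add]
      have h5 : Sig⁻¹.mulVec z ⬝ᵥ Sig.mulVec b = b ⬝ᵥ z := by
        rw [Matrix.dotProduct_mulVec, ← Matrix.mulVec_transpose, hsym.eq, Matrix.mulVec_mulVec,
          Matrix.mul_nonsing_inv _ hdet, Matrix.one_mulVec, dotProduct_comm]
      rw [h5, dotProduct_comm (Sig⁻¹.mulVec z) z]
      ring
    rw [hw3]
    have h6 : b ⬝ᵥ Sig.mulVec b = ∑ i, ∑ j, b i * b j * Sig i j := by
      simp only [dotProduct, Matrix.mulVec, Finset.mul_sum]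
      exact Finset.sum_congr rfl fun i _ => Finset.sum_congr rfl fun j _ => by ring
    have h7 : z ⬝ᵥ Sig⁻¹.mulVec z = ∑ i, ∑ j, Sig⁻¹ i j * (Z (X i * v) * Z (X j * v)) := by
      simp only [dotProduct, Matrix.mulVec, Finset.mul_sum]
      exact Finset.sum_congr rfl fun i _ => Finset.sum_congr rfl fun j _ => by
        simp only [hz]; ring
    have h8 : b ⬝ᵥ z = ∑ i, b i * z i := rfl
    rw [h6, h7, h8, Finset.mul_sum]
    have h9 : ∑ x, 2 * b x * z x = ∑ i, 2 * (b i * z i) :=
      Finset.sum_congr rfl fun i _ => by ring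
    rw [h9]
    ring
  rw [hexp]
  have hnn : 0 ≤ w ⬝ᵥ Sig.mulVec w := by
    have := hS.posSemidef.dotProduct_mulVec_nonneg w
    simpa using this
  positivity

end Crest.Agent.R237.Ext
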