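import Crest.Agent.R237.Ext
import Crest.Agent.R237.Flat

/-! Row 237: the final perturbation argument: a closed set of functionals which contains all
strictly positive functionals on `P₂` contains every functional which is nonnegative on squares
of `VV v`. -/

set_option autoImplicit false

namespace Crest.Agent.R237.Ext

open MvPolynomial

/-- Average over the grid `{0,1,2}^c`. -/
noncomputable def gridF (c : ℕ) : MvPolynomial (Fin c) ℝ →ₗ[ℝ] ℝ :=
  ((3 : ℝ) ^ c)⁻¹ • ∑ x : Fin c → Fin 3, (aeval fun i => ((x i : ℕ) : ℝ)).toLinearMap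

theorem gridF_apply {c : ℕ} (f : MvPolynomial (Fin c) ℝ) :
    gridF c f = ((3 : ℝ) ^ c)⁻¹ * ∑ x : Fin c → Fin 3, eval (fun i => ((x i : ℕ) : ℝ)) f := by
  simp [gridF]

theorem gridF_one {c : ℕ} : gridF c 1 = 1 := by
  rw [gridF_apply]
  simp

theorem gridF_nonneg {c : ℕ} (f : MvPolynomial (Fin c) ℝ) : 0 ≤ gridF c (f * f) := by
  rw [gridF_apply]
  refine mul_nonneg (by positivity) (Finset.sum_nonneg fun x _ => ?_)
  rw [map_mul]
  exact mul_self_nonneg _

theorem gridF_pos {c : ℕ} (f : MvPolynomial (Fin c) ℝ) (hf : f.totalDegree ≤ 2) (h0 : f ≠ 0) :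
    0 < gridF c (f * f) := by
  rcases (gridF_nonneg f).lt_or_eq with h | h
  · exact h
  · exfalso
    apply h0
    rw [gridF_apply] at h
    have h1 : ∑ x : Fin c → Fin 3, eval (fun i => ((x i : ℕ) : ℝ)) (f * f) = 0 := by
      rcases mul_eq_zero.1 h.symm with h2 | h2
      · exact absurd h2 (by positivity)
      · exact h2
    have h2 := (Finset.sum_eq_zero_iff_of_nonneg (fun x _ => by
      rw [map_mul]; exact mul_self_nonneg _)).1 h1
    classical
    refine eq_zero_of_eval_zero_at_prod_finset f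
      (fun _ => Finset.univ.image fun k : Fin 3 => ((k : ℕ) : ℝ)) ?_ ?_
    · intro i
      rw [Finset.card_image_of_injective]
      · simp only [Finset.card_univ, Fintype.card_fin]
        exact (degreeOf_le_totalDegree f i).trans_lt (by omega)
      · intro a b hab
        have hab' : ((a : ℕ) : ℝ) = ((b : ℕ) : ℝ) := hab
        exact Fin.ext (by exact_mod_cast hab')
    · intro x hx
      simp only [Finset.mem_image, Finset.mem_univ, true_and] at hx
      choose y hy using hx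
      have : x = fun i => ((y i : ℕ) : ℝ) := by
        funext i
        exact (hy i).symm
      rw [this]
      have := h2 y (Finset.mem_univ y)
      rw [map_mul] at this
      exact mul_self_eq_zero.1 this

/-- The polynomials on which strict extensions do not change the functional. -/
noncomputable def Good {c r : ℕ} (v : Fin r → Fin c → ℝ) :
    Submodule ℝ (MvPolynomial (Fin c) ℝ) :=
  restrictTotalDegree (Fin c) ℝ 3 ⊔
    Submodule.span ℝ {p | ∃ f ∈ VV v, ∃ g ∈ VV v, p = f * g}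

theorem eq_on_Good {c r : ℕ} {v : Fin r → Fin c → ℝ} {L L0 : MvPolynomial (Fin c) ℝ →ₗ[ℝ] ℝ}
    (h3 : ∀ f : MvPolynomial (Fin c) ℝ, f.totalDegree ≤ 3 → L f = L0 f)
    (hV : ∀ f ∈ VV v, ∀ g ∈ VV v, L (f * g) = L0 (f * g)) :
    ∀ f ∈ Good v, L f = L0 f := by
  intro f hf
  have : Good v ≤ LinearMap.ker (L - L0) := by
    refine sup_le ?_ (Submodule.span_le.2 ?_)
    · intro g hg
      have := h3 g ((mem_restrictTotalDegree _ _ _).1 hg)
      simp [this]
    · rintro _ ⟨a, ha, b, hb, rfl⟩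
      simp [hV a ha b hb]
  have := this hf
  simpa [sub_eq_zero] using this

/-- **Final perturbation argument.** -/
theorem mem_of_nonneg {c r : ℕ} {ι : Type*} [Finite ι] (v : Fin r → Fin c → ℝ)
    (P : ι → MvPolynomial (Fin c) ℝ) (hP : ∀ i, P i ∈ Good v)
    (K : Set (ι → ℝ)) (hK : IsClosed K)
    (NS : ∀ L : MvPolynomial (Fin c) ℝ →ₗ[ℝ] ℝ, L 1 = 1 →
      (∃ δ : ℝ, 0 < δ ∧ ∀ f : MvPolynomial (Fin c) ℝ, f.totalDegree ≤ 2 →
        δ * ∑ m ∈ f.support, (coeff m f) ^ 2 ≤ L (f * f)) → (fun i => L (P i)) ∈ K)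
    (L0 : MvPolynomial (Fin c) ℝ →ₗ[ℝ] ℝ) (h1 : L0 1 = 1)
    (hpos : ∀ f ∈ VV v, 0 ≤ L0 (f * f)) :
    (fun i => L0 (P i)) ∈ K := by
  have key : ∀ t : ℝ, 0 < t → t ≤ 1 →
      (fun i => (1 - t) * L0 (P i) + t * gridF c (P i)) ∈ K := by
    intro t ht ht1
    let L1 : MvPolynomial (Fin c) ℝ →ₗ[ℝ] ℝ := (1 - t) • L0 + t • gridF c
    obtain ⟨L, hL3, hLV, hLp⟩ := ext_strict v L1 (fun f hf hf0 => by
      have h2 := hpos f hf
      have h3 := gridF_pos f hf.1 hf0
      simp only [L1, LinearMap.add_apply, LinearMap.smul_apply, smul_eq_mul]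
      have h4 : 0 ≤ (1 - t) * L0 (f * f) := mul_nonneg (by linarith) h2
      have h5 : 0 < t * gridF c (f * f) := mul_pos ht h3
      linarith)
    have hLone : L 1 = 1 := by
      rw [hL3 1 (by simp)]
      simp [L1, h1, gridF_one]
    have := NS L hLone hLp
    have he : (fun i => L (P i)) = fun i => (1 - t) * L0 (P i) + t * gridF c (P i) := by
      funext i
      rw [eq_on_Good hL3 hLV (P i) (hP i)]
      simp [L1]
    rwa [he] at this
  -- let `t → 0`
  let φ : ℝ → (ι → ℝ) := fun t i => (1 - t) * L0 (P i) + t * gridF c (P i)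
  have hφ : Continuous φ := by
    refine continuous_pi fun i => ?_
    fun_prop
  have h0 : φ 0 = fun i => L0 (P i) := by
    funext i
    simp [φ]
  rw [← h0]
  have hlim : Filter.Tendsto φ (nhdsWithin 0 (Set.Ioi 0)) (nhds (φ 0)) :=
    hφ.continuousAt.tendsto.mono_left nhdsWithin_le_nhds
  refine hK.mem_of_tendsto hlim ?_
  have hmem : Set.Ioc (0 : ℝ) 1 ∈ nhdsWithin (0 : ℝ) (Set.Ioi 0) :=
    Ioc_mem_nhdsGT one_pos
  filter_upwards [hmem] with t ht
  exact key t ht.1 ht.2

/-! ### Decomposition of `VV v` -/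

theorem hc_one {c : ℕ} (f : MvPolynomial (Fin c) ℝ) :
    homogeneousComponent 1 f = ∑ i, C (coeff (Finsupp.single i 1) f) * X i := by
  classical
  ext m
  rw [coeff_homogeneousComponent, coeff_sum]
  simp only [coeff_C_mul, MvPolynomial.coeff_X]
  by_cases hm : Finsupp.degree m = 1
  · rw [if_pos hm]
    obtain ⟨i, hi⟩ : ∃ i, m = Finsupp.single i 1 := by
      have hne : m ≠ 0 := by
        rintro rfl
        simp at hm
      obtain ⟨i, hi⟩ := Finsupp.ne_iff.1 hne
      have hi' : Finsupp.single i 1 ≤ m := by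
        rw [Finsupp.single_le_iff]
        exact Nat.one_le_iff_ne_zero.2 (by simpa using hi)
      obtain ⟨n, hn⟩ := le_iff_exists_add.1 hi'
      refine ⟨i, ?_⟩
      have hdeg := hm
      rw [hn, map_add, Finsupp.degree_single] at hdeg
      have hn0 : n = 0 := by
        rw [← Finsupp.degree_eq_zero_iff]
        omega
      rw [hn, hn0, add_zero]
    rw [Finset.sum_eq_single i]
    · simp [hi]
    · intro j _ hj
      rw [hi, if_neg, mul_zero]
      intro h
      have := (Finsupp.single_left_injective (one_ne_zero (α := ℕ))) h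
      exact hj this
    · simp
  · rw [if_neg hm]
    symm
    refine Finset.sum_eq_zero fun i _ => ?_
    rw [if_neg, mul_zero]
    rintro rfl
    simp at hm

theorem decomp_deg2 {c : ℕ} (f : MvPolynomial (Fin c) ℝ) (hf : f.totalDegree ≤ 2) :
    f = C (coeff 0 f) + ∑ i, C (coeff (Finsupp.single i 1) f) * X i + homogeneousComponent 2 f := by
  have h : f = ∑ i ∈ Finset.range 3, homogeneousComponent i f := by
    conv_lhs => rw [← sum_homogeneousComponent f]
    refine Finset.sum_subset (Finset.range_mono (by omega)) fun i _ hi => ?_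
    exact homogeneousComponent_eq_zero _ _ (by simpa using hi)
  conv_lhs => rw [h]
  rw [Finset.sum_range_succ, Finset.sum_range_succ, Finset.sum_range_one,
    homogeneousComponent_zero, hc_one]

theorem mem_VV_decomp {c r : ℕ} {v : Fin r → Fin c → ℝ} {f : MvPolynomial (Fin c) ℝ}
    (hf : f ∈ VV v) :
    ∃ (a : ℝ) (b : Fin c → ℝ) (g : MvPolynomial (Fin c) ℝ), g.IsHomogeneous 2 ∧
      (∀ k, eval (v k) g = 0) ∧ f = C a + ∑ i, C (b i) * X i + g := by
  refine ⟨coeff 0 f, fun i => coeff (Finsupp.single i 1) f, homogeneousComponent 2 f,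
    homogeneousComponent_isHomogeneous 2 f, fun k => ?_, decomp_deg2 f hf.1⟩
  have h1 := hf.2 k
  rw [decomp_deg2 f hf.1, map_add, map_add] at h1
  rw [top_homogeneous _ (homogeneousComponent_isHomogeneous 2 f)] at h1
  rw [top_eq_zero (v k) (n := 2) (f := C (coeff 0 f)) (by simp)] at h1
  rw [top_eq_zero (v k) (n := 2)
    (f := ∑ i, C (coeff (Finsupp.single i 1) f) * X i) ?_] at h1
  · simpa using h1
  · rw [← hc_one]
    exact (homogeneousComponent_isHomogeneous 1 f).totalDegree_le.trans_lt (by omega)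

/-- **Flat functional, final form**: `q` spans the quadratic forms vanishing at the points `v`,
and products are free. -/
theorem flat_functional {c d r : ℕ} (v : Fin r → Fin c → ℝ) (q : Fin d → MvPolynomial (Fin c) ℝ)
    (hq : ∀ a, (q a).IsHomogeneous 2)
    (hspan : ∀ g : MvPolynomial (Fin c) ℝ, g.IsHomogeneous 2 → (∀ k, eval (v k) g = 0) →
      g ∈ Submodule.span ℝ (Set.range q))
    (hfree : ∀ W : Matrix (Fin d) (Fin d) ℝ, W.IsSymm →
      ∃ T : MvPolynomial (Fin c) ℝ →ₗ[ℝ] ℝ, ∀ a b, T (q a * q b) = W a b)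
    (Sig : Matrix (Fin c) (Fin c) ℝ) (hS : Sig.PosDef) (Z : MvPolynomial (Fin c) ℝ →ₗ[ℝ] ℝ) :
    ∃ L : MvPolynomial (Fin c) ℝ →ₗ[ℝ] ℝ, L 1 = 1 ∧ (∀ i, L (X i) = 0) ∧
      (∀ i j, L (X i * X j) = Sig i j) ∧
      (∀ f : MvPolynomial (Fin c) ℝ, f.IsHomogeneous 3 → L f = Z f) ∧
      (∀ a b, L (q a * q b) =
        L (q a) * L (q b) + ∑ i, ∑ j, Sig⁻¹ i j * (Z (X i * q a) * Z (X j * q b))) ∧
      (∀ f ∈ VV v, 0 ≤ L (f * f)) := by
  obtain ⟨L, h1, h2, h3, h4, h5, h6⟩ := flat_exists q hq Sig hS Z hfree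
  refine ⟨L, h1, h2, h3, h4, h5, fun f hf => ?_⟩
  obtain ⟨a, b, g, hg, hgv, rfl⟩ := mem_VV_decomp hf
  exact h6 a b g (hspan g hg hgv)

/-- `q a ∈ VV v` when `q a` is a quadratic form vanishing at the points. -/
theorem mem_VV_of {c r : ℕ} {v : Fin r → Fin c → ℝ} {g : MvPolynomial (Fin c) ℝ}
    (hg : g.IsHomogeneous 2) (hv : ∀ k, eval (v k) g = 0) : g ∈ VV v :=
  mem_VV.2 ⟨hg.totalDegree_le, fun k => by rw [top_homogeneous _ hg, hv k]⟩

theorem Good_of_deg {c r : ℕ} {v : Fin r → Fin c → ℝ} {g : MvPolynomial (Fin c) ℝ}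
    (hg : g.totalDegree ≤ 3) : g ∈ Good v :=
  Submodule.mem_sup_left ((mem_restrictTotalDegree _ _ _).2 hg)

theorem Good_of_mul {c r : ℕ} {v : Fin r → Fin c → ℝ} {f g : MvPolynomial (Fin c) ℝ}
    (hf : f ∈ VV v) (hg : g ∈ VV v) : f * g ∈ Good v :=
  Submodule.mem_sup_right (Submodule.subset_span ⟨f, hf, g, hg, rfl⟩)

end Crest.Agent.R237.Ext
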