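import Mathlib

/-! Row 237 (S0367), residues of the scalar model (helper227).
`M` = moment matrix of `P_1` (index 0 = constant 1), `T i a = L(u_i v_a)`.
`lin M T` = lower rows of `M⁻¹ T`. -/

set_option autoImplicit false

open Matrix Finset

namespace Crest.Agent.R237.Res

variable {n d : ℕ}

/-- symmetric 3-tensors -/
def Sym3 (Z : Fin n → Fin n → Fin n → ℝ) : Prop :=
  ∀ i j k, Z i j k = Z j i k ∧ Z i j k = Z i k j

/-- contraction of a 3-tensor with a matrix in the last two slots -/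
noncomputable def ctr (Z : Fin n → Fin n → Fin n → ℝ) (v : Matrix (Fin n) (Fin n) ℝ) : Fin n → ℝ :=
  fun i => ∑ j, ∑ k, Z i j k * v j k

/-- the family `a ↦ P Z(q_a)` -/
noncomputable def PZ (q : Fin d → Matrix (Fin n) (Fin n) ℝ) (P : Matrix (Fin n) (Fin n) ℝ)
    (Z : Fin n → Fin n → Fin n → ℝ) : Matrix (Fin n) (Fin d) ℝ :=
  Matrix.of fun i a => ∑ j, P i j * ctr Z (q a) j

/-- the family `a ↦ 2 q_a y` -/
noncomputable def shift (q : Fin d → Matrix (Fin n) (Fin n) ℝ) (y : Fin n → ℝ) :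
    Matrix (Fin n) (Fin d) ℝ :=
  Matrix.of fun i a => 2 * (q a *ᵥ y) i

/-- lower right block -/
def low (R : Matrix (Fin (n + 1)) (Fin (n + 1)) ℝ) : Matrix (Fin n) (Fin n) ℝ :=
  R.submatrix Fin.succ Fin.succ

/-- lower rows of `M⁻¹ T` -/
noncomputable def lin (M : Matrix (Fin (n + 1)) (Fin (n + 1)) ℝ)
    (T : Matrix (Fin (n + 1)) (Fin d) ℝ) : Matrix (Fin n) (Fin d) ℝ :=
  (M⁻¹ * T).submatrix Fin.succ id

/-- centred third moments -/
noncomputable def Zc (M : Matrix (Fin (n + 1)) (Fin (n + 1)) ℝ)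
    (tau : Fin n → Fin n → Fin n → ℝ) : Fin n → Fin n → Fin n → ℝ :=
  fun i j k => tau i j k -
    (M 0 i.succ * M j.succ k.succ + M 0 j.succ * M i.succ k.succ +
      M 0 k.succ * M i.succ j.succ) / M 0 0 +
    2 * M 0 i.succ * M 0 j.succ * M 0 k.succ / (M 0 0) ^ 2

lemma Zc_sym3 {M : Matrix (Fin (n + 1)) (Fin (n + 1)) ℝ} (hM : M.IsSymm)
    {tau : Fin n → Fin n → Fin n → ℝ} (ht : Sym3 tau) : Sym3 (Zc M tau) := by
  intro i j k
  have h1 := (ht i j k).1
  have h2 := (ht i j k).2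
  have hs : ∀ a b, M a b = M b a := fun a b => hM.apply b a
  constructor
  · unfold Zc
    rw [h1, hs j.succ i.succ]
    ring
  · unfold Zc
    rw [h2, hs j.succ k.succ]
    ring

lemma aux_expand {m A C : ℝ} (P c B x : Fin n → ℝ) :
    ∑ j, P j * (c j - x j / m * A - 2 / m * B j + 2 * x j / m ^ 2 * C)
      = (∑ j, P j * c j) - (∑ k, P k * x k) / m * A - 2 / m * (∑ j, P j * B j)
        + 2 * (∑ k, P k * x k) / m ^ 2 * C := by
  have h1 : (∑ k, P k * x k) / m * A = ∑ k, P k * (x k / m * A) := by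
    rw [Finset.sum_div, Finset.sum_mul]
    exact Finset.sum_congr rfl fun k _ => by ring
  have h2 : 2 / m * (∑ j, P j * B j) = ∑ j, P j * (2 / m * B j) := by
    rw [Finset.mul_sum]
    exact Finset.sum_congr rfl fun k _ => by ring
  have h3 : 2 * (∑ k, P k * x k) / m ^ 2 * C = ∑ k, P k * (2 * x k / m ^ 2 * C) := by
    rw [Finset.mul_sum, Finset.sum_div, Finset.sum_mul]
    exact Finset.sum_congr rfl fun k _ => by ring
  rw [h1, h2, h3, ← Finset.sum_sub_distrib, ← Finset.sum_sub_distrib, ← Finset.sum_add_distrib]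
  exact Finset.sum_congr rfl fun k _ => by ring

lemma aux_PY {i : Fin n} {r : ℝ} (P x : Fin n → ℝ) (Y v : Fin n → Fin n → ℝ)
    (e1 : ∀ j, r * x j + ∑ k, P k * Y k j = if i = j then 1 else 0) :
    ∑ j, P j * (∑ k, ∑ l, Y j k * v k l * x l)
      = (∑ l, v i l * x l) - r * (∑ k, ∑ l, x k * v k l * x l) := by
  have h1 : ∑ j, P j * (∑ k, ∑ l, Y j k * v k l * x l)
      = ∑ k, (∑ j, P j * Y j k) * (∑ l, v k l * x l) := by
    simp_rw [Finset.mul_sum, Finset.sum_mul]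
    rw [Finset.sum_comm]
    refine Finset.sum_congr rfl fun k _ => ?_
    rw [Finset.sum_comm]
    refine Finset.sum_congr rfl fun j _ => ?_
    exact Finset.sum_congr rfl fun l _ => by ring
  have h2 : ∀ k, ∑ j, P j * Y j k = (if i = k then 1 else 0) - r * x k := by
    intro k
    have := e1 k
    linarith
  rw [h1]
  have h3 : ∀ k, (∑ j, P j * Y j k) * (∑ l, v k l * x l)
      = (if i = k then (∑ l, v k l * x l) else 0) - r * (∑ l, x k * v k l * x l) := by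
    intro k
    rw [h2 k, sub_mul, mul_assoc, Finset.mul_sum (s := Finset.univ) (a := x k)]
    congr 1
    · split_ifs <;> simp
    · congr 1
      exact Finset.sum_congr rfl fun l _ => by ring
  simp_rw [h3]
  rw [Finset.sum_sub_distrib, ← Finset.mul_sum]
  simp

/-- the key identity: `lin = P Z_c + (v ↦ 2 v y)`, `y = x / M00`. -/
theorem lin_eq {M : Matrix (Fin (n + 1)) (Fin (n + 1)) ℝ} (hM : M.IsSymm) (hdet : M.det ≠ 0)
    (h00 : M 0 0 ≠ 0) {q : Fin d → Matrix (Fin n) (Fin n) ℝ} (hq : ∀ a, (q a).IsSymm)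
    {tau : Fin n → Fin n → Fin n → ℝ}
    {T : Matrix (Fin (n + 1)) (Fin d) ℝ}
    (hT0 : ∀ a, T 0 a = ∑ j, ∑ k, M (Fin.succ j) (Fin.succ k) * q a j k)
    (hT : ∀ i a, T (Fin.succ i) a = ctr tau (q a) i) :
    lin M T = PZ q (low M⁻¹) (Zc M tau) + shift q (fun i => M 0 (Fin.succ i) / M 0 0) := by
  have hs : ∀ a b, M a b = M b a := fun a b => hM.apply b a
  have hRM : M⁻¹ * M = 1 := Matrix.nonsing_inv_mul _ (isUnit_iff_ne_zero.mpr hdet)
  set R := M⁻¹ with hR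
  -- entrywise relations
  have e0 : ∀ i : Fin n, R i.succ 0 * M 0 0 + ∑ k : Fin n, R i.succ k.succ * M 0 k.succ = 0 := by
    intro i
    have := congrFun (congrFun hRM i.succ) 0
    rw [Matrix.mul_apply, Fin.sum_univ_succ] at this
    rw [Matrix.one_apply_ne (Fin.succ_ne_zero i)] at this
    rw [← this]
    congr 1
    exact Finset.sum_congr rfl fun k _ => by rw [hs 0 k.succ]
  have e1 : ∀ i j : Fin n, R i.succ 0 * M 0 j.succ + ∑ k : Fin n, R i.succ k.succ * M k.succ j.succ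
      = if i = j then 1 else 0 := by
    intro i j
    have := congrFun (congrFun hRM i.succ) j.succ
    rw [Matrix.mul_apply, Fin.sum_univ_succ] at this
    rw [this, Matrix.one_apply]
    simp [Fin.succ_inj]
  ext i a
  simp only [lin, PZ, shift, low, Matrix.submatrix_apply, id, Matrix.add_apply, Matrix.of_apply]
  rw [Matrix.mul_apply, Fin.sum_univ_succ, hT0]
  simp_rw [hT]
  -- abbreviations
  set r := R i.succ 0 with hr
  set x : Fin n → ℝ := fun j => M 0 j.succ with hx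
  set Y : Fin n → Fin n → ℝ := fun j k => M j.succ k.succ with hY
  set P : Fin n → ℝ := fun j => R i.succ j.succ with hP
  set m := M 0 0 with hm
  set v : Fin n → Fin n → ℝ := fun j k => q a j k with hv
  have hvs : ∀ j k, v j k = v k j := fun j k => (hq a).apply k j
  have hYs : ∀ j k, Y j k = Y k j := fun j k => hs _ _
  have e0' : r * m + ∑ k, P k * x k = 0 := e0 i
  have e1' : ∀ j, r * x j + ∑ k, P k * Y k j = if i = j then 1 else 0 := e1 i
  have hctr : ∀ j, ctr (Zc M tau) (q a) j = ctr tau (q a) j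
      - x j / m * (∑ k, ∑ l, Y k l * v k l) - 2 / m * (∑ k, ∑ l, Y j k * v k l * x l)
      + 2 * x j / m ^ 2 * (∑ k, ∑ l, x k * v k l * x l) := by
    intro j
    have hA : ∑ k, ∑ l, (x k * Y j l) * v k l = ∑ k, ∑ l, Y j k * v k l * x l := by
      rw [Finset.sum_comm]
      refine Finset.sum_congr rfl fun k _ => Finset.sum_congr rfl fun l _ => ?_
      rw [hvs l k]; ring
    have hB : ∑ k, ∑ l, (x l * Y j k) * v k l = ∑ k, ∑ l, Y j k * v k l * x l := by
      refine Finset.sum_congr rfl fun k _ => Finset.sum_congr rfl fun l _ => ?_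
      ring
    have key : ∀ k l, Zc M tau j k l * q a k l = tau j k l * q a k l - x j / m * (Y k l * v k l)
        - 1 / m * ((x k * Y j l) * v k l) - 1 / m * ((x l * Y j k) * v k l)
        + 2 * x j / m ^ 2 * (x k * v k l * x l) := by
      intro k l
      simp only [Zc, hx, hY, hm, hv]
      field_simp
      ring
    unfold ctr
    simp_rw [key, Finset.sum_add_distrib, Finset.sum_sub_distrib, ← Finset.mul_sum]
    rw [hA, hB]
    ring
  simp_rw [hctr]
  have hmv : (q a *ᵥ fun j => x j / m) i = 1 / m * ∑ l, v i l * x l := by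
    simp only [Matrix.mulVec, dotProduct, Finset.mul_sum, hv]
    refine Finset.sum_congr rfl fun l _ => ?_
    ring
  rw [hmv]
  have hPx : ∑ k, P k * x k = - (r * m) := by linarith
  have hPY := aux_PY (i := i) (r := r) P x Y v e1'
  have expand := aux_expand (m := m) (A := ∑ k, ∑ l, Y k l * v k l)
    (C := ∑ k, ∑ l, x k * v k l * x l) P (ctr tau (q a)) (fun j => ∑ k, ∑ l, Y j k * v k l * x l) x
  have hl : ∑ x_1 : Fin n, R i.succ x_1.succ * (ctr tau (q a) x_1 -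
      x x_1 / m * ∑ k, ∑ l, Y k l * v k l - 2 / m * ∑ k, ∑ l, Y x_1 k * v k l * x l +
      2 * x x_1 / m ^ 2 * ∑ k, ∑ l, x k * v k l * x l) = ∑ j, P j * (ctr tau (q a) j -
      x j / m * ∑ k, ∑ l, Y k l * v k l - 2 / m * ∑ k, ∑ l, Y j k * v k l * x l +
      2 * x j / m ^ 2 * ∑ k, ∑ l, x k * v k l * x l) := rfl
  rw [hl, expand, hPY, hPx]
  have : (∑ x_1 : Fin n, R i.succ x_1.succ * ctr tau (q a) x_1) = ∑ j, P j * ctr tau (q a) j := rfl
  rw [this]
  field_simp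
  ring

/-! ### H2 for all invertible `M` -/

lemma low_isSymm {M : Matrix (Fin (n + 1)) (Fin (n + 1)) ℝ} (hM : M.IsSymm) :
    (low M).IsSymm := by
  ext i j
  simp only [low, Matrix.transpose_apply, Matrix.submatrix_apply]
  exact hM.apply _ _

/-- traceless invertible diagonal matrix padded by a zero row and column -/
noncomputable def pad (n : ℕ) : Matrix (Fin (n + 1)) (Fin (n + 1)) ℝ :=
  Matrix.diagonal (Fin.cons 0 fun i : Fin n => if i.val = 0 then 1 - (n : ℝ) else 1)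

lemma pad_symm : (pad n).IsSymm := Matrix.diagonal_transpose _

lemma low_pad : low (pad n) = Matrix.diagonal fun i : Fin n =>
    if i.val = 0 then 1 - (n : ℝ) else 1 := by
  ext i j
  simp only [low, pad, Matrix.submatrix_apply, Matrix.diagonal_apply, Fin.succ_inj, Fin.cons_succ]

lemma trace_low_pad (hn : 2 ≤ n) : (low (pad n)).trace = 0 := by
  obtain ⟨m, rfl⟩ : ∃ m, n = m + 1 := ⟨n - 1, by omega⟩
  rw [low_pad, Matrix.trace_diagonal, Fin.sum_univ_succ]
  simp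
  
lemma det_low_pad (hn : 2 ≤ n) : (low (pad n)).det ≠ 0 := by
  rw [low_pad, Matrix.det_diagonal]
  refine Finset.prod_ne_zero_iff.mpr fun i _ => ?_
  split_ifs
  · have : (2 : ℝ) ≤ n := by exact_mod_cast hn
    intro h
    linarith
  · exact one_ne_zero

open Filter Topology in
lemma eventually_det_ne (P D : Matrix (Fin n) (Fin n) ℝ) (hD : D.det ≠ 0) :
    ∀ᶠ s in 𝓝[≠] (0 : ℝ), (P + s • D).det ≠ 0 := by
  set p : Polynomial ℝ := Matrix.det ((Polynomial.X : Polynomial ℝ) • D.map Polynomial.C +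
    P.map Polynomial.C) with hp
  have hp0 : p ≠ 0 := by
    intro h
    have := Polynomial.coeff_det_X_add_C_card D P
    rw [← hp, h] at this
    exact hD (by simpa using this.symm)
  have hev : ∀ s : ℝ, p.eval s = (P + s • D).det := by
    intro s
    rw [hp, ← Polynomial.coe_evalRingHom, RingHom.map_det]
    congr 1
    ext i j
    simp only [RingHom.mapMatrix_apply, Matrix.map_apply, Matrix.add_apply, Matrix.smul_apply,
      smul_eq_mul, Polynomial.coe_evalRingHom, Polynomial.eval_add, Polynomial.eval_mul,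
      Polynomial.eval_X, Polynomial.eval_C]
    ring
  have hfin : (p.rootSet ℝ).Finite := p.rootSet_finite ℝ
  have : ∀ᶠ s in 𝓝[≠] (0 : ℝ), s ∉ (p.rootSet ℝ \ {0}) := by
    have hcl : IsClosed (p.rootSet ℝ \ {0}) := (hfin.subset Set.sdiff_subset).isClosed
    have h0 : (0 : ℝ) ∈ (p.rootSet ℝ \ {0})ᶜ := by simp
    exact nhdsWithin_le_nhds (hcl.isOpen_compl.mem_nhds h0)
  filter_upwards [this, self_mem_nhdsWithin] with s hs hs0 hdet
  apply hs
  refine ⟨?_, hs0⟩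
  rw [Polynomial.mem_rootSet]
  refine ⟨hp0, ?_⟩
  rw [Polynomial.coe_aeval_eq_eval, hev, hdet]

lemma inv00_ne {R : Matrix (Fin (n + 1)) (Fin (n + 1)) ℝ} (hR : R.det ≠ 0)
    (hl : (low R).det ≠ 0) : R⁻¹ 0 0 ≠ 0 := by
  rw [Matrix.inv_def, Matrix.smul_apply, Matrix.adjugate_fin_succ_eq_det_submatrix]
  have : R.submatrix (Fin.succAbove 0) (Fin.succAbove 0) = low R := by
    ext i j; simp [low]
  rw [this]
  simp [Ring.inverse_eq_inv', hR, hl]

open Filter Topology in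
/-- `(H2)` of the scalar model for every invertible moment matrix. -/
theorem h2_all (hn : 2 ≤ n) {q : Fin d → Matrix (Fin n) (Fin n) ℝ} (hq : ∀ a, (q a).IsSymm)
    {Xi : Matrix (Fin n) (Fin d) ℝ → ℝ} (hcont : Continuous Xi)
    (hshift : ∀ X y, Xi (X + shift q y) = Xi X)
    (hI : ∀ (P : Matrix (Fin n) (Fin n) ℝ) (Z : Fin n → Fin n → Fin n → ℝ), P.IsSymm →
      P.trace = 0 → Sym3 Z → 0 ≤ Xi (PZ q P Z))
    {M : Matrix (Fin (n + 1)) (Fin (n + 1)) ℝ} (hM : M.IsSymm) (hdet : M.det ≠ 0)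
    (htr : (low M⁻¹).trace = 0)
    {tau : Fin n → Fin n → Fin n → ℝ} (ht : Sym3 tau)
    {T : Matrix (Fin (n + 1)) (Fin d) ℝ}
    (hT0 : ∀ a, T 0 a = ∑ j, ∑ k, M (Fin.succ j) (Fin.succ k) * q a j k)
    (hT : ∀ i a, T (Fin.succ i) a = ctr tau (q a) i) :
    0 ≤ Xi (lin M T) := by
  -- the good case
  have good : ∀ (M : Matrix (Fin (n + 1)) (Fin (n + 1)) ℝ), M.IsSymm → M.det ≠ 0 → M 0 0 ≠ 0 →
      (low M⁻¹).trace = 0 → ∀ T : Matrix (Fin (n + 1)) (Fin d) ℝ,
      (∀ a, T 0 a = ∑ j, ∑ k, M (Fin.succ j) (Fin.succ k) * q a j k) →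
      (∀ i a, T (Fin.succ i) a = ctr tau (q a) i) → 0 ≤ Xi (lin M T) := by
    intro M hM hdet h00 htr T hT0 hT
    rw [lin_eq hM hdet h00 hq hT0 hT, hshift]
    refine hI _ _ ?_ htr (Zc_sym3 hM ht)
    refine low_isSymm ?_
    unfold Matrix.IsSymm
    rw [Matrix.transpose_nonsing_inv, hM]
  set R := M⁻¹ with hR
  have hRdet : R.det ≠ 0 := by
    rw [hR, Matrix.det_nonsing_inv]
    simpa [Ring.inverse_eq_inv'] using hdet
  have hRinv : R⁻¹ = M := by
    rw [hR]; exact Matrix.nonsing_inv_nonsing_inv M (isUnit_iff_ne_zero.mpr hdet)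
  have hRs : R.IsSymm := by
    unfold Matrix.IsSymm
    rw [hR, Matrix.transpose_nonsing_inv, hM]
  let Rs : ℝ → Matrix (Fin (n + 1)) (Fin (n + 1)) ℝ := fun s => R + s • pad n
  let Ms : ℝ → Matrix (Fin (n + 1)) (Fin (n + 1)) ℝ := fun s => (Rs s)⁻¹
  let Ts : ℝ → Matrix (Fin (n + 1)) (Fin d) ℝ := fun s => Matrix.of (Fin.cons
    (fun a => ∑ j, ∑ k, Ms s (Fin.succ j) (Fin.succ k) * q a j k) (fun i a => ctr tau (q a) i))
  have hRsc : Continuous Rs := by fun_prop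
  have hRs0 : Rs 0 = R := by simp [Rs]
  have hdets : ∀ᶠ s in 𝓝 (0 : ℝ), (Rs s).det ≠ 0 := by
    have : Continuous fun s => (Rs s).det := hRsc.matrix_det
    have h0 : (Rs 0).det ≠ 0 := by rw [hRs0]; exact hRdet
    exact this.continuousAt.eventually_ne h0
  have hMsc : Tendsto Ms (𝓝 0) (𝓝 M) := by
    have h1a : ContinuousAt (fun s => ((Rs s).det)⁻¹) 0 :=
      (hRsc.matrix_det.continuousAt).inv₀ (by rw [hRs0]; exact hRdet)
    have h1b : ContinuousAt (fun s => (Rs s).adjugate) 0 :=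
      hRsc.matrix_adjugate.continuousAt
    have h1 : ContinuousAt (fun s => ((Rs s).det)⁻¹ • (Rs s).adjugate) 0 := h1a.smul h1b
    have h2 : Ms = fun s => ((Rs s).det)⁻¹ • (Rs s).adjugate := by
      funext s
      simp only [Ms, Matrix.inv_def, Ring.inverse_eq_inv']
    have h3 : Ms 0 = M := by simp only [Ms, hRs0, hRinv]
    rw [← h3, h2]
    exact h1.tendsto
  have hTsc : Tendsto Ts (𝓝 0) (𝓝 T) := by
    refine tendsto_pi_nhds.mpr fun i => tendsto_pi_nhds.mpr fun a => ?_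
    refine Fin.cases ?_ (fun i => ?_) i
    · rw [hT0]
      simp only [Ts, Matrix.of_apply, Fin.cons_zero]
      refine tendsto_finsetSum _ fun j _ => tendsto_finsetSum _ fun k _ => ?_
      refine Tendsto.mul_const _ ?_
      exact ((tendsto_pi_nhds.mp ((tendsto_pi_nhds.mp hMsc) j.succ)) k.succ)
    · rw [hT]
      simp only [Ts, Matrix.of_apply, Fin.cons_succ]
      exact tendsto_const_nhds
  have hlim : Tendsto (fun s => Xi ((Rs s * Ts s).submatrix Fin.succ id)) (𝓝 0)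
      (𝓝 (Xi (lin M T))) := by
    have hR0 : Tendsto Rs (𝓝 0) (𝓝 R) := by
      rw [← hRs0]; exact hRsc.continuousAt.tendsto
    have h1 : Tendsto (fun s => (Rs s * Ts s).submatrix Fin.succ id) (𝓝 0) (𝓝 (lin M T)) := by
      refine tendsto_pi_nhds.mpr fun i => tendsto_pi_nhds.mpr fun a => ?_
      have e1 : ∀ s, (Rs s * Ts s).submatrix Fin.succ id i a =
          ∑ k, Rs s i.succ k * Ts s k a := fun s => rfl
      have e2 : lin M T i a = ∑ k, R i.succ k * T k a := rfl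
      rw [e2]
      simp_rw [e1]
      refine tendsto_finsetSum _ fun k _ => ?_
      refine Tendsto.mul ?_ ?_
      · exact tendsto_pi_nhds.mp (tendsto_pi_nhds.mp hR0 i.succ) k
      · exact tendsto_pi_nhds.mp (tendsto_pi_nhds.mp hTsc k) a
    exact (hcont.tendsto _).comp h1
  have hpos : ∀ᶠ s in 𝓝[≠] (0 : ℝ), 0 ≤ Xi ((Rs s * Ts s).submatrix Fin.succ id) := by
    filter_upwards [eventually_det_ne (low R) (low (pad n)) (det_low_pad hn),
      nhdsWithin_le_nhds hdets] with s hs1 hs2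
    have hlowRs : low (Rs s) = low R + s • low (pad n) := by
      ext i j; simp [low, Rs]
    have hMsinv : (Ms s)⁻¹ = Rs s :=
      Matrix.nonsing_inv_nonsing_inv _ (isUnit_iff_ne_zero.mpr hs2)
    have hRss : (Rs s).IsSymm := by
      simp only [Rs]
      exact hRs.add (pad_symm.smul s)
    have := good (Ms s) (by
        unfold Matrix.IsSymm
        simp only [Ms]
        rw [Matrix.transpose_nonsing_inv, hRss]) (by
        simp only [Ms]
        rw [Matrix.det_nonsing_inv]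
        simpa [Ring.inverse_eq_inv'] using hs2) (by
        refine inv00_ne hs2 ?_
        rw [hlowRs]; exact hs1) (by
        rw [hMsinv, hlowRs, Matrix.trace_add, htr, Matrix.trace_smul, trace_low_pad hn]
        simp) (Ts s) (fun a => by simp [Ts]) (fun i a => by simp [Ts])
    unfold lin at this
    rwa [hMsinv] at this
  exact ge_of_tendsto (hlim.mono_left nhdsWithin_le_nhds) hpos

lemma continuous_bilin_self {p r : Type*} [Fintype p] [Fintype r]
    (Xi : Matrix p r ℝ →ₗ[ℝ] Matrix p r ℝ →ₗ[ℝ] ℝ) : Continuous fun X => Xi X X := by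
  classical
  have h : ∀ X : Matrix p r ℝ, Xi X X = ∑ i, ∑ a, ∑ j, ∑ b,
      X i a * (X j b * Xi (Matrix.single j b 1) (Matrix.single i a 1)) := by
    intro X
    have h1 : X = ∑ i, ∑ a, X i a • Matrix.single i a (1 : ℝ) := by
      conv_lhs => rw [Matrix.matrix_eq_sum_single X]
      simp
    conv_lhs => rw [h1]
    simp only [map_sum, LinearMap.sum_apply, map_smul, LinearMap.smul_apply, smul_eq_mul,
      Finset.mul_sum]
  simp_rw [h]
  refine continuous_finsetSum _ fun i _ => continuous_finsetSum _ fun a _ =>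
    continuous_finsetSum _ fun j _ => continuous_finsetSum _ fun b _ => ?_
  have c1 : ∀ i a, Continuous fun X : Matrix p r ℝ => X i a := fun i a =>
    (continuous_apply a).comp (continuous_apply i)
  exact (c1 i a).mul ((c1 j b).mul continuous_const)

/-- `(H2)` in the form of `HData`: for every invertible moment matrix whose inverse has lower
trace `0`. -/
theorem h2_bilin (hn : 2 ≤ n) {q : Fin d → Matrix (Fin n) (Fin n) ℝ} (hq : ∀ a, (q a).IsSymm)
    (Xi : Matrix (Fin n) (Fin d) ℝ →ₗ[ℝ] Matrix (Fin n) (Fin d) ℝ →ₗ[ℝ] ℝ)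
    (hsymm : ∀ X Y, Xi X Y = Xi Y X)
    (hshift : ∀ X Y y, Xi (X + shift q y) Y = Xi X Y)
    (hI : ∀ (P : Matrix (Fin n) (Fin n) ℝ) (Z : Fin n → Fin n → Fin n → ℝ), P.IsSymm →
      P.trace = 0 → Sym3 Z → 0 ≤ Xi (PZ q P Z) (PZ q P Z))
    {M : Matrix (Fin (n + 1)) (Fin (n + 1)) ℝ} (hM : M.IsSymm) (hdet : M.det ≠ 0)
    (htr : ∑ i : Fin n, M⁻¹ i.succ i.succ = 0)
    {tau : Fin n → Fin n → Fin n → ℝ} (ht : Sym3 tau)
    {T : Matrix (Fin (n + 1)) (Fin d) ℝ}
    (hT0 : ∀ a, T 0 a = ∑ j, ∑ k, M (Fin.succ j) (Fin.succ k) * q a j k)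
    (hT : ∀ i a, T (Fin.succ i) a = ctr tau (q a) i) :
    0 ≤ Xi ((M⁻¹ * T).submatrix Fin.succ id) ((M⁻¹ * T).submatrix Fin.succ id) := by
  have := h2_all (Xi := fun X => Xi X X) hn hq (continuous_bilin_self Xi)
    (fun X y => by
      rw [hshift, hsymm, hshift]) hI hM hdet htr ht hT0 hT
  exact this

/-- `(H2b)` in the form of `HData`: the block diagonal case. -/
theorem h2b_bilin {q : Fin d → Matrix (Fin n) (Fin n) ℝ}
    (Xi : Matrix (Fin n) (Fin d) ℝ →ₗ[ℝ] Matrix (Fin n) (Fin d) ℝ →ₗ[ℝ] ℝ)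
    (hI : ∀ (P : Matrix (Fin n) (Fin n) ℝ) (Z : Fin n → Fin n → Fin n → ℝ), P.IsSymm →
      P.trace = 0 → Sym3 Z → 0 ≤ Xi (PZ q P Z) (PZ q P Z))
    {M : Matrix (Fin (n + 1)) (Fin (n + 1)) ℝ} (hM : M.IsSymm)
    (htr : ((M.submatrix Fin.succ Fin.succ)⁻¹).trace = 0)
    {tau : Fin n → Fin n → Fin n → ℝ} (ht : Sym3 tau)
    {T : Matrix (Fin (n + 1)) (Fin d) ℝ}
    (hT : ∀ i a, T (Fin.succ i) a = ctr tau (q a) i) :
    0 ≤ Xi ((M.submatrix Fin.succ Fin.succ)⁻¹ * T.submatrix Fin.succ id)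
      ((M.submatrix Fin.succ Fin.succ)⁻¹ * T.submatrix Fin.succ id) := by
  have h1 : ((M.submatrix Fin.succ Fin.succ)⁻¹ : Matrix (Fin n) (Fin n) ℝ) *
      T.submatrix Fin.succ id = PZ q (M.submatrix Fin.succ Fin.succ)⁻¹ tau := by
    ext i a
    rw [Matrix.mul_apply]
    simp only [PZ, Matrix.of_apply, Matrix.submatrix_apply, id, hT]
  rw [h1]
  refine hI _ _ ?_ htr ht
  have h2 : (M.submatrix Fin.succ Fin.succ).IsSymm := low_isSymm hM
  unfold Matrix.IsSymm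
  rw [Matrix.transpose_nonsing_inv, h2]

/-! ### Translations and dilations -/

/-- translation of the moment data: `M' = Sᵀ M S`, `T' = Sᵀ (T + M W)`,
`w' = w + 2 tr(Wᵀ T) + tr(Wᵀ M W)`. -/
theorem lin_translate {M S : Matrix (Fin (n + 1)) (Fin (n + 1)) ℝ} (hdet : M.det ≠ 0)
    (hS : S.det ≠ 0) (T W : Matrix (Fin (n + 1)) (Fin d) ℝ) :
    (Sᵀ * M * S)⁻¹ * (Sᵀ * (T + M * W)) = S⁻¹ * (M⁻¹ * T + W) := by
  have hM1 : M⁻¹ * M = 1 := Matrix.nonsing_inv_mul _ (isUnit_iff_ne_zero.mpr hdet)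
  have hS1 : (Sᵀ)⁻¹ * Sᵀ = 1 :=
    Matrix.nonsing_inv_mul _ (isUnit_iff_ne_zero.mpr (by rwa [Matrix.det_transpose]))
  rw [Matrix.mul_inv_rev, Matrix.mul_inv_rev]
  calc S⁻¹ * (M⁻¹ * Sᵀ⁻¹) * (Sᵀ * (T + M * W))
      = S⁻¹ * M⁻¹ * (Sᵀ⁻¹ * Sᵀ) * (T + M * W) := by simp only [Matrix.mul_assoc]
    _ = S⁻¹ * (M⁻¹ * T + (M⁻¹ * M) * W) := by
        rw [hS1, Matrix.mul_one, Matrix.mul_assoc, Matrix.mul_add, ← Matrix.mul_assoc M⁻¹ M W]
    _ = S⁻¹ * (M⁻¹ * T + W) := by rw [hM1, Matrix.one_mul]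

/-- the Schur complement `w - tr(Tᵀ M⁻¹ T)` is invariant under translations. -/
theorem schur_translate {M S : Matrix (Fin (n + 1)) (Fin (n + 1)) ℝ} (hM : M.IsSymm)
    (hdet : M.det ≠ 0)
    (hS : S.det ≠ 0) (T W : Matrix (Fin (n + 1)) (Fin d) ℝ) :
    ((Sᵀ * (T + M * W))ᵀ * (Sᵀ * M * S)⁻¹ * (Sᵀ * (T + M * W))).trace
      = (Tᵀ * M⁻¹ * T).trace + 2 * (Wᵀ * T).trace + (Wᵀ * M * W).trace := by
  have hS2 : S * S⁻¹ = 1 := Matrix.mul_nonsing_inv _ (isUnit_iff_ne_zero.mpr hS)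
  have hM2 : M * M⁻¹ = 1 := Matrix.mul_nonsing_inv _ (isUnit_iff_ne_zero.mpr hdet)
  have hM' : Mᵀ = M := hM
  have e : (Sᵀ * (T + M * W))ᵀ * (Sᵀ * M * S)⁻¹ * (Sᵀ * (T + M * W))
      = Tᵀ * M⁻¹ * T + Tᵀ * W + Wᵀ * T + Wᵀ * M * W := by
    rw [Matrix.mul_assoc, lin_translate hdet hS, Matrix.transpose_mul, Matrix.transpose_transpose,
      Matrix.mul_assoc, ← Matrix.mul_assoc S, hS2, Matrix.one_mul, Matrix.transpose_add,
      Matrix.transpose_mul, hM', Matrix.add_mul, Matrix.mul_add, Matrix.mul_add,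
      Matrix.mul_assoc Wᵀ M (M⁻¹ * T), ← Matrix.mul_assoc M M⁻¹ T, hM2, Matrix.one_mul,
      ← Matrix.mul_assoc Tᵀ M⁻¹ T]
    abel
  have e2 : (Tᵀ * W).trace = (Wᵀ * T).trace := by
    rw [← Matrix.trace_transpose, Matrix.transpose_mul, Matrix.transpose_transpose]
  rw [e, Matrix.trace_add, Matrix.trace_add, Matrix.trace_add, e2]
  ring

/-- the matrix `S = [[1, bᵀ], [0, 1]]` of the translation `u ↦ u + b`: `(1, u + b) = Sᵀ (1, u)`. -/
def tS (b : Fin n → ℝ) : Matrix (Fin (n + 1)) (Fin (n + 1)) ℝ :=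
  Matrix.of fun i j => if i = j then 1 else if i = 0 then (Fin.cons 0 b : Fin (n + 1) → ℝ) j else 0

/-- the matrix `W` of `q_a(u + b) - q_a(u) = q_a(b) + ∑ i, 2 (q_a b)_i u_i`. -/
noncomputable def tW (q : Fin d → Matrix (Fin n) (Fin n) ℝ) (b : Fin n → ℝ) :
    Matrix (Fin (n + 1)) (Fin d) ℝ :=
  Matrix.of fun i a => (Fin.cons (b ⬝ᵥ (q a *ᵥ b)) (fun j => 2 * (q a *ᵥ b) j) : Fin (n + 1) → ℝ) i

lemma tS_zero_zero (b : Fin n → ℝ) : tS b 0 0 = 1 := by simp [tS]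
lemma tS_zero_succ (b : Fin n → ℝ) (j : Fin n) : tS b 0 j.succ = b j := by
  simp [tS, (Fin.succ_ne_zero j).symm]
lemma tS_succ_zero (b : Fin n → ℝ) (j : Fin n) : tS b j.succ 0 = 0 := by
  simp [tS, Fin.succ_ne_zero]
lemma tS_succ_succ (b : Fin n → ℝ) (i j : Fin n) : tS b i.succ j.succ = if i = j then 1 else 0 := by
  simp [tS, Fin.succ_ne_zero, Fin.succ_inj]

lemma tW_low (q : Fin d → Matrix (Fin n) (Fin n) ℝ) (b : Fin n → ℝ) :
    (tW q b).submatrix Fin.succ id = shift q b := by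
  ext i a; simp [tW, shift]

/-- lower rows of `S_b A` are the lower rows of `A`. -/
lemma tS_mul_succ {p : Type*} (b : Fin n → ℝ) (A : Matrix (Fin (n + 1)) p ℝ) (i : Fin n) (j : p) :
    (tS b * A) i.succ j = A i.succ j := by
  rw [Matrix.mul_apply, Fin.sum_univ_succ, tS_succ_zero]
  simp [tS_succ_succ]

lemma tS_mul_zero {p : Type*} (b : Fin n → ℝ) (A : Matrix (Fin (n + 1)) p ℝ) (j : p) :
    (tS b * A) 0 j = A 0 j + ∑ k, b k * A k.succ j := by
  rw [Matrix.mul_apply, Fin.sum_univ_succ, tS_zero_zero]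
  simp [tS_zero_succ]

lemma tS_mul_tS (b c : Fin n → ℝ) : tS b * tS c = tS (b + c) := by
  ext i j
  refine Fin.cases ?_ (fun i => ?_) i
  · rw [tS_mul_zero]
    refine Fin.cases ?_ (fun j => ?_) j
    · simp [tS_zero_zero, tS_succ_zero]
    · simp [tS_zero_succ, tS_succ_succ, add_comm]
  · rw [tS_mul_succ]
    refine Fin.cases ?_ (fun j => ?_) j
    · simp [tS_succ_zero]
    · simp [tS_succ_succ]

lemma tS_zero : tS (0 : Fin n → ℝ) = 1 := by
  ext i j
  refine Fin.cases ?_ (fun i => ?_) i <;> refine Fin.cases ?_ (fun j => ?_) j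
  · simp [tS_zero_zero]
  · simp [tS_zero_succ, Matrix.one_apply, (Fin.succ_ne_zero j).symm]
  · simp [tS_succ_zero, Matrix.one_apply, Fin.succ_ne_zero]
  · simp [tS_succ_succ, Matrix.one_apply, Fin.succ_inj]

lemma tS_mul_neg (b : Fin n → ℝ) : tS b * tS (-b) = 1 := by
  rw [tS_mul_tS, add_neg_cancel, tS_zero]

lemma tS_inv (b : Fin n → ℝ) : (tS b)⁻¹ = tS (-b) := Matrix.inv_eq_right_inv (tS_mul_neg b)

lemma tS_det_ne (b : Fin n → ℝ) : (tS b).det ≠ 0 := by
  intro h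
  have := congrArg Matrix.det (tS_mul_neg b)
  rw [Matrix.det_mul, h, zero_mul, Matrix.det_one] at this
  exact zero_ne_one this

/-- lower block of the inverse is translation invariant -/
lemma low_translate {M : Matrix (Fin (n + 1)) (Fin (n + 1)) ℝ} (b : Fin n → ℝ) :
    low ((tS b)ᵀ * M * tS b)⁻¹ = low M⁻¹ := by
  rw [Matrix.mul_inv_rev, Matrix.mul_inv_rev, ← Matrix.transpose_nonsing_inv, tS_inv]
  ext i j
  simp only [low, Matrix.submatrix_apply]
  rw [tS_mul_succ]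
  have : (M⁻¹ * (tS (-b))ᵀ) i.succ j.succ = (tS (-b) * (M⁻¹)ᵀ) j.succ i.succ := by
    rw [← Matrix.transpose_apply (M⁻¹ * (tS (-b))ᵀ), Matrix.transpose_mul,
      Matrix.transpose_transpose]
  rw [this, tS_mul_succ, Matrix.transpose_apply]

/-- `lin` of the translated data. -/
lemma lin_translate' {M : Matrix (Fin (n + 1)) (Fin (n + 1)) ℝ} (hdet : M.det ≠ 0)
    (q : Fin d → Matrix (Fin n) (Fin n) ℝ) (b : Fin n → ℝ) (T : Matrix (Fin (n + 1)) (Fin d) ℝ) :
    lin ((tS b)ᵀ * M * tS b) ((tS b)ᵀ * (T + M * tW q b)) = lin M T + shift q b := by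
  unfold lin
  rw [lin_translate hdet (tS_det_ne b), tS_inv, ← tW_low]
  ext i a
  simp only [Matrix.submatrix_apply, id, Matrix.add_apply]
  rw [tS_mul_succ, Matrix.add_apply]

/-- the function `F` of the scalar model, as a function of `(M, T, w)`. -/
noncomputable def FF (phi : ℝ) (Xi : Matrix (Fin n) (Fin d) ℝ → ℝ)
    (M : Matrix (Fin (n + 1)) (Fin (n + 1)) ℝ) (T : Matrix (Fin (n + 1)) (Fin d) ℝ) (w : ℝ) : ℝ :=
  phi * (w - (Tᵀ * M⁻¹ * T).trace) + Xi (lin M T) / (low M⁻¹).trace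

/-- translation invariance of `F`. -/
theorem FF_translate (phi : ℝ) {Xi : Matrix (Fin n) (Fin d) ℝ → ℝ}
    {q : Fin d → Matrix (Fin n) (Fin n) ℝ} (hshift : ∀ X y, Xi (X + shift q y) = Xi X)
    {M : Matrix (Fin (n + 1)) (Fin (n + 1)) ℝ} (hM : M.IsSymm) (hdet : M.det ≠ 0)
    (b : Fin n → ℝ) (T : Matrix (Fin (n + 1)) (Fin d) ℝ) (w : ℝ) :
    FF phi Xi ((tS b)ᵀ * M * tS b) ((tS b)ᵀ * (T + M * tW q b))
      (w + 2 * ((tW q b)ᵀ * T).trace + ((tW q b)ᵀ * M * tW q b).trace) = FF phi Xi M T w := by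
  unfold FF
  rw [low_translate, lin_translate' hdet, hshift, schur_translate hM hdet (tS_det_ne b)]
  ring

/-- the matrix `diag(1, s, …, s)` of the dilation `u ↦ s u`. -/
def dS (n : ℕ) (s : ℝ) : Matrix (Fin (n + 1)) (Fin (n + 1)) ℝ :=
  Matrix.diagonal (Fin.cons 1 fun _ => s)

lemma dS_mul_inv {s : ℝ} (hs : s ≠ 0) : dS n s * dS n s⁻¹ = 1 := by
  rw [dS, dS, Matrix.diagonal_mul_diagonal, ← Matrix.diagonal_one]
  congr 1
  funext i
  refine Fin.cases ?_ (fun i => ?_) i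
  · simp
  · simp [hs]

lemma dS_inv {s : ℝ} (hs : s ≠ 0) : (dS n s)⁻¹ = dS n s⁻¹ :=
  Matrix.inv_eq_right_inv (dS_mul_inv hs)

lemma dS_transpose (s : ℝ) : (dS n s)ᵀ = dS n s := Matrix.diagonal_transpose _

lemma low_dilate {M : Matrix (Fin (n + 1)) (Fin (n + 1)) ℝ} {s : ℝ} (hs : s ≠ 0) :
    low (dS n s * M * dS n s)⁻¹ = (s⁻¹) ^ 2 • low M⁻¹ := by
  rw [Matrix.mul_inv_rev, Matrix.mul_inv_rev, dS_inv hs]
  ext i j
  simp only [low, Matrix.submatrix_apply, Matrix.smul_apply, smul_eq_mul]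
  rw [← Matrix.mul_assoc, dS, Matrix.mul_diagonal, Matrix.diagonal_mul]
  simp only [Fin.cons_succ]
  ring

lemma lin_dilate {M : Matrix (Fin (n + 1)) (Fin (n + 1)) ℝ} {s : ℝ} (hs : s ≠ 0)
    (T : Matrix (Fin (n + 1)) (Fin d) ℝ) :
    lin (dS n s * M * dS n s) (s ^ 2 • (dS n s * T)) = s • lin M T := by
  unfold lin
  have h1 : (dS n s * M * dS n s)⁻¹ * (s ^ 2 • (dS n s * T)) =
      s ^ 2 • (dS n s⁻¹ * (M⁻¹ * T)) := by
    rw [Matrix.mul_inv_rev, Matrix.mul_inv_rev, dS_inv hs, Matrix.mul_smul]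
    congr 1
    calc dS n s⁻¹ * (M⁻¹ * dS n s⁻¹) * (dS n s * T)
        = dS n s⁻¹ * M⁻¹ * (dS n s⁻¹ * dS n s) * T := by simp only [Matrix.mul_assoc]
      _ = dS n s⁻¹ * (M⁻¹ * T) := by
          have : dS n s⁻¹ * dS n s = 1 := by
            have := dS_mul_inv (n := n) (inv_ne_zero hs)
            rwa [inv_inv] at this
          rw [this, Matrix.mul_one, Matrix.mul_assoc]
  rw [h1]
  ext i a
  simp only [Matrix.submatrix_apply, id, Matrix.smul_apply, smul_eq_mul]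
  rw [dS, Matrix.diagonal_mul]
  simp only [Fin.cons_succ]
  field_simp

/-- homogeneity of `F` under dilations. -/
theorem FF_dilate (phi : ℝ) {Xi : Matrix (Fin n) (Fin d) ℝ → ℝ}
    (hXi : ∀ (s : ℝ) X, Xi (s • X) = s ^ 2 * Xi X)
    {M : Matrix (Fin (n + 1)) (Fin (n + 1)) ℝ} {s : ℝ} (hs : s ≠ 0)
    (T : Matrix (Fin (n + 1)) (Fin d) ℝ) (w : ℝ) :
    FF phi Xi (dS n s * M * dS n s) (s ^ 2 • (dS n s * T)) (s ^ 4 * w) = s ^ 4 * FF phi Xi M T w := by
  unfold FF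
  rw [low_dilate hs, lin_dilate hs, hXi]
  have h1 : ((s ^ 2 • (dS n s * T))ᵀ * (dS n s * M * dS n s)⁻¹ * (s ^ 2 • (dS n s * T))).trace
      = s ^ 4 * (Tᵀ * M⁻¹ * T).trace := by
    have : (s ^ 2 • (dS n s * T))ᵀ * (dS n s * M * dS n s)⁻¹ * (s ^ 2 • (dS n s * T))
        = s ^ 4 • (Tᵀ * M⁻¹ * T) := by
      rw [Matrix.mul_inv_rev, Matrix.mul_inv_rev, dS_inv hs, Matrix.transpose_smul,
        Matrix.transpose_mul, dS_transpose, Matrix.mul_smul, Matrix.smul_mul, Matrix.smul_mul,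
        smul_smul]
      have h4 : s ^ 2 * s ^ 2 = s ^ 4 := by ring
      rw [h4]
      congr 1
      have h5 : dS n s * dS n s⁻¹ = 1 := dS_mul_inv hs
      have h6 : dS n s⁻¹ * dS n s = 1 := by
        have := dS_mul_inv (n := n) (inv_ne_zero hs)
        rwa [inv_inv] at this
      calc Tᵀ * dS n s * (dS n s⁻¹ * (M⁻¹ * dS n s⁻¹)) * (dS n s * T)
          = Tᵀ * (dS n s * dS n s⁻¹) * M⁻¹ * (dS n s⁻¹ * dS n s) * T := by
            simp only [Matrix.mul_assoc]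
        _ = Tᵀ * M⁻¹ * T := by rw [h5, h6, Matrix.mul_one, Matrix.mul_one]
    rw [this, Matrix.trace_smul, smul_eq_mul]
  rw [h1, Matrix.trace_smul, smul_eq_mul]
  by_cases h0 : (low M⁻¹).trace = 0
  · simp [h0]; ring
  · field_simp

end Crest.Agent.R237.Res
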