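import Mathlib
import Crest.Agent.R237.HData
import Crest.Agent.R237.Inv
import Crest.Agent.R237.Res

/-!
Row 237 (S0367): the concrete model in tensor coordinates (helper756).
Coordinates `(x0, x1, x2, x3, w)` indexed by `Idx n ≃ Fin (mm n)`.
-/

set_option autoImplicit false

namespace Crest.Agent.R237.Model

open Matrix

/-- index type of the coordinates -/
abbrev Idx (n : ℕ) : Type := Unit ⊕ Fin n ⊕ (Fin n × Fin n) ⊕ (Fin n × Fin n × Fin n) ⊕ Unit

/-- number of coordinates -/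
abbrev mm (n : ℕ) : ℕ := Fintype.card (Idx n)

noncomputable def nu (n : ℕ) : Idx n ≃ Fin (mm n) := Fintype.equivFin _

variable {n d : ℕ}

/-- the point with given tensor coordinates -/
noncomputable def pt (x0 : ℝ) (x1 : Fin n → ℝ) (x2 : Fin n → Fin n → ℝ)
    (x3 : Fin n → Fin n → Fin n → ℝ) (w : ℝ) : Fin (mm n) → ℝ := fun i =>
  Sum.elim (fun _ => x0) (Sum.elim x1 (Sum.elim (fun p => x2 p.1 p.2)
    (Sum.elim (fun p => x3 p.1 p.2.1 p.2.2) (fun _ => w)))) ((nu n).symm i)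

noncomputable def a0 : (Fin (mm n) → ℝ) →ₗ[ℝ] ℝ := LinearMap.proj (nu n (Sum.inl ()))
noncomputable def a1 (i : Fin n) : (Fin (mm n) → ℝ) →ₗ[ℝ] ℝ :=
  LinearMap.proj (nu n (Sum.inr (Sum.inl i)))
noncomputable def a2 (i j : Fin n) : (Fin (mm n) → ℝ) →ₗ[ℝ] ℝ :=
  LinearMap.proj (nu n (Sum.inr (Sum.inr (Sum.inl (i, j)))))
noncomputable def a3 (i j k : Fin n) : (Fin (mm n) → ℝ) →ₗ[ℝ] ℝ :=
  LinearMap.proj (nu n (Sum.inr (Sum.inr (Sum.inr (Sum.inl (i, j, k))))))
noncomputable def aw : (Fin (mm n) → ℝ) →ₗ[ℝ] ℝ :=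
  LinearMap.proj (nu n (Sum.inr (Sum.inr (Sum.inr (Sum.inr ())))))

section pt
variable (x0 : ℝ) (x1 : Fin n → ℝ) (x2 : Fin n → Fin n → ℝ) (x3 : Fin n → Fin n → Fin n → ℝ) (w : ℝ)

@[simp] theorem a0_pt : a0 (pt x0 x1 x2 x3 w) = x0 := by simp [a0, pt]
@[simp] theorem a1_pt (i : Fin n) : a1 i (pt x0 x1 x2 x3 w) = x1 i := by simp [a1, pt]
@[simp] theorem a2_pt (i j : Fin n) : a2 i j (pt x0 x1 x2 x3 w) = x2 i j := by simp [a2, pt]
@[simp] theorem a3_pt (i j k : Fin n) : a3 i j k (pt x0 x1 x2 x3 w) = x3 i j k := by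
  simp [a3, pt]
@[simp] theorem aw_pt : aw (pt x0 x1 x2 x3 w) = w := by simp [aw, pt]

end pt

/-- points are determined by their tensor coordinates -/
theorem ext_coord {x y : Fin (mm n) → ℝ} (h0 : a0 x = a0 y) (h1 : ∀ i, a1 i x = a1 i y)
    (h2 : ∀ i j, a2 i j x = a2 i j y) (h3 : ∀ i j k, a3 i j k x = a3 i j k y)
    (hw : aw x = aw y) : x = y := by
  funext i
  obtain ⟨k, rfl⟩ := (nu n).surjective i
  rcases k with ⟨⟩ | i | ⟨i, j⟩ | ⟨i, j, k⟩ | ⟨⟩
  · exact h0
  · exact h1 i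
  · exact h2 i j
  · exact h3 i j k
  · exact hw

/-- linear maps into the model from linear coordinates -/
noncomputable def ptL {V : Type*} [AddCommGroup V] [Module ℝ V] (x0 : V →ₗ[ℝ] ℝ)
    (x1 : Fin n → V →ₗ[ℝ] ℝ) (x2 : Fin n → Fin n → V →ₗ[ℝ] ℝ)
    (x3 : Fin n → Fin n → Fin n → V →ₗ[ℝ] ℝ) (w : V →ₗ[ℝ] ℝ) : V →ₗ[ℝ] (Fin (mm n) → ℝ) where
  toFun v := pt (x0 v) (fun i => x1 i v) (fun i j => x2 i j v) (fun i j k => x3 i j k v) (w v)
  map_add' u v := by
    refine ext_coord ?_ ?_ ?_ ?_ ?_ <;> intros <;> simp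
  map_smul' c v := by
    refine ext_coord ?_ ?_ ?_ ?_ ?_ <;> intros <;> simp

@[simp] theorem ptL_apply {V : Type*} [AddCommGroup V] [Module ℝ V] (x0 : V →ₗ[ℝ] ℝ)
    (x1 : Fin n → V →ₗ[ℝ] ℝ) (x2 : Fin n → Fin n → V →ₗ[ℝ] ℝ)
    (x3 : Fin n → Fin n → Fin n → V →ₗ[ℝ] ℝ) (w : V →ₗ[ℝ] ℝ) (v : V) :
    ptL x0 x1 x2 x3 w v =
      pt (x0 v) (fun i => x1 i v) (fun i j => x2 i j v) (fun i j k => x3 i j k v) (w v) := rfl

/-- symmetrised second moments -/
noncomputable def s2 (i j : Fin n) : (Fin (mm n) → ℝ) →ₗ[ℝ] ℝ :=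
  (1/2 : ℝ) • (a2 i j + a2 j i)

/-- symmetrised third moments -/
noncomputable def s3 (i j k : Fin n) : (Fin (mm n) → ℝ) →ₗ[ℝ] ℝ :=
  (1/6 : ℝ) • (a3 i j k + a3 i k j + a3 j i k + a3 j k i + a3 k i j + a3 k j i)

theorem s2_comm (i j : Fin n) : s2 i j = s2 j i := by
  unfold s2; rw [add_comm]

theorem s2_apply (i j : Fin n) (x : Fin (mm n) → ℝ) : s2 i j x = (a2 i j x + a2 j i x) / 2 := by
  simp [s2]; ring

theorem s3_apply (i j k : Fin n) (x : Fin (mm n) → ℝ) : s3 i j k x =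
    (a3 i j k x + a3 i k j x + a3 j i k x + a3 j k i x + a3 k i j x + a3 k j i x) / 6 := by
  simp [s3]; ring

theorem s3_sym (x : Fin (mm n) → ℝ) : Res.Sym3 (fun i j k => s3 i j k x) := by
  intro i j k
  simp only [s3_apply]
  constructor <;> ring

/-- the moment matrix, as a linear map -/
noncomputable def M : (Fin (mm n) → ℝ) →ₗ[ℝ] Matrix (Fin (n + 1)) (Fin (n + 1)) ℝ where
  toFun x := Matrix.of fun i j =>
    Fin.cases (Fin.cases (a0 x) (fun j' => a1 j' x) j)
      (fun i' => Fin.cases (a1 i' x) (fun j' => s2 i' j' x) j) i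
  map_add' x y := by
    ext i j
    refine Fin.cases ?_ (fun i' => ?_) i <;> refine Fin.cases ?_ (fun j' => ?_) j <;> simp
  map_smul' c x := by
    ext i j
    refine Fin.cases ?_ (fun i' => ?_) i <;> refine Fin.cases ?_ (fun j' => ?_) j <;> simp

@[simp] theorem M_00 (x : Fin (mm n) → ℝ) : M x 0 0 = a0 x := rfl
@[simp] theorem M_0s (x : Fin (mm n) → ℝ) (j : Fin n) : M x 0 j.succ = a1 j x := rfl
@[simp] theorem M_s0 (x : Fin (mm n) → ℝ) (i : Fin n) : M x i.succ 0 = a1 i x := rfl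
@[simp] theorem M_ss (x : Fin (mm n) → ℝ) (i j : Fin n) : M x i.succ j.succ = s2 i j x := rfl

theorem M_symm (x : Fin (mm n) → ℝ) : (M x).IsSymm := by
  refine Matrix.IsSymm.ext ?_
  intro i j
  refine Fin.cases ?_ (fun i' => ?_) i <;> refine Fin.cases ?_ (fun j' => ?_) j
  · rfl
  · rfl
  · rfl
  · simp [s2_comm i' j']

/-- `L(q_a)` -/
noncomputable def T0 (q : Fin d → Matrix (Fin n) (Fin n) ℝ) (a : Fin d) :
    (Fin (mm n) → ℝ) →ₗ[ℝ] ℝ :=
  ∑ j, ∑ k, q a j k • s2 j k

/-- `L(u_i q_a)` -/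
noncomputable def T1 (q : Fin d → Matrix (Fin n) (Fin n) ℝ) (i : Fin n) (a : Fin d) :
    (Fin (mm n) → ℝ) →ₗ[ℝ] ℝ :=
  ∑ j, ∑ k, q a j k • s3 i j k

/-- the matrix `L(u_i q_a)`, `u_0 = 1` -/
noncomputable def T (q : Fin d → Matrix (Fin n) (Fin n) ℝ) :
    (Fin (mm n) → ℝ) →ₗ[ℝ] Matrix (Fin (n + 1)) (Fin d) ℝ where
  toFun x := Matrix.of fun i a => Fin.cases (T0 q a x) (fun i' => T1 q i' a x) i
  map_add' x y := by
    ext i a
    refine Fin.cases ?_ (fun i' => ?_) i <;> simp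
  map_smul' c x := by
    ext i a
    refine Fin.cases ?_ (fun i' => ?_) i <;> simp

variable (q : Fin d → Matrix (Fin n) (Fin n) ℝ)

theorem T_0 (x : Fin (mm n) → ℝ) (a : Fin d) : T q x 0 a = T0 q a x := rfl
theorem T_s (x : Fin (mm n) → ℝ) (i : Fin n) (a : Fin d) : T q x i.succ a = T1 q i a x := rfl

theorem T0_apply (x : Fin (mm n) → ℝ) (a : Fin d) :
    T0 q a x = ∑ j, ∑ k, q a j k * s2 j k x := by
  simp [T0, LinearMap.sum_apply]

theorem T1_apply (x : Fin (mm n) → ℝ) (i : Fin n) (a : Fin d) :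
    T1 q i a x = ∑ j, ∑ k, q a j k * s3 i j k x := by
  simp [T1, LinearMap.sum_apply]

/-- the form needed by `Res.lin_eq` -/
theorem hT0 (x : Fin (mm n) → ℝ) (a : Fin d) :
    T q x 0 a = ∑ j, ∑ k, M x (Fin.succ j) (Fin.succ k) * q a j k := by
  rw [T_0, T0_apply]
  refine Finset.sum_congr rfl fun j _ => Finset.sum_congr rfl fun k _ => ?_
  rw [M_ss, mul_comm]

theorem hT1 (x : Fin (mm n) → ℝ) (i : Fin n) (a : Fin d) :
    T q x (Fin.succ i) a = Res.ctr (fun i j k => s3 i j k x) (q a) i := by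
  rw [T_s, T1_apply]
  unfold Res.ctr
  refine Finset.sum_congr rfl fun j _ => Finset.sum_congr rfl fun k _ => ?_
  rw [mul_comm]

/-- the vector of moments of the point evaluation at `u` -/
noncomputable def z (u : Fin n → ℝ) : Fin (mm n) → ℝ :=
  pt 1 u (fun i j => u i * u j) (fun i j k => u i * u j * u k)
    (∑ a, (∑ j, ∑ k, q a j k * (u j * u k)) ^ 2)

/-! ### Translations -/

/-- the affine function `q_a(u+b) - q_a(u)` -/
noncomputable def R (b : Fin n → ℝ) : Matrix (Fin (n + 1)) (Fin d) ℝ :=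
  Matrix.of fun i a => Fin.cases (∑ j, ∑ k, q a j k * (b j * b k))
    (fun i' => 2 * (q a *ᵥ b) i') i

theorem R_0 (b : Fin n → ℝ) (a : Fin d) : R q b 0 a = ∑ j, ∑ k, q a j k * (b j * b k) := rfl
theorem R_s (b : Fin n → ℝ) (i : Fin n) (a : Fin d) : R q b i.succ a = 2 * (q a *ᵥ b) i := rfl

theorem R_low (b : Fin n → ℝ) : (R q b).submatrix Fin.succ id = Res.shift q b := by
  ext i a
  simp [R_s, Res.shift]

/-- the translated `w` -/
noncomputable def wT (b : Fin n → ℝ) : (Fin (mm n) → ℝ) →ₗ[ℝ] ℝ :=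
  aw + (2 : ℝ) • (∑ a, ∑ i, R q b i a • (Matrix.entryLinearMap ℝ ℝ i a ∘ₗ T q)) +
    ∑ a, ∑ i, ∑ j, (R q b i a * R q b j a) • (Matrix.entryLinearMap ℝ ℝ i j ∘ₗ M)

theorem wT_apply (b : Fin n → ℝ) (x : Fin (mm n) → ℝ) : wT q b x =
    aw x + 2 * ((R q b)ᵀ * T q x).trace + ((R q b)ᵀ * M x * R q b).trace := by
  unfold wT
  simp only [LinearMap.add_apply, LinearMap.smul_apply, LinearMap.sum_apply, smul_eq_mul,
    LinearMap.comp_apply, Matrix.entryLinearMap_apply, Matrix.trace, Matrix.diag_apply,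
    Matrix.mul_apply, Matrix.transpose_apply]
  congr 1
  refine Finset.sum_congr rfl fun a _ => ?_
  rw [Finset.sum_comm]
  refine Finset.sum_congr rfl fun j _ => ?_
  rw [Finset.sum_mul]
  refine Finset.sum_congr rfl fun i _ => ?_
  ring

/-- translation `u ↦ u + b` on functionals -/
noncomputable def trans (b : Fin n → ℝ) : (Fin (mm n) → ℝ) →ₗ[ℝ] (Fin (mm n) → ℝ) :=
  ptL a0 (fun i => a1 i + b i • a0)
    (fun i j => s2 i j + b j • a1 i + b i • a1 j + (b i * b j) • a0)
    (fun i j k => s3 i j k + b k • s2 i j + b j • s2 i k + b i • s2 j k +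
      (b j * b k) • a1 i + (b i * b k) • a1 j + (b i * b j) • a1 k + (b i * b j * b k) • a0)
    (wT q b)

section transLemmas

variable (b : Fin n → ℝ) (x : Fin (mm n) → ℝ)

theorem a0_trans : a0 (trans q b x) = a0 x := by simp [trans]
theorem a1_trans (i : Fin n) : a1 i (trans q b x) = a1 i x + b i * a0 x := by simp [trans]
theorem s2_trans (i j : Fin n) : s2 i j (trans q b x) =
    s2 i j x + b j * a1 i x + b i * a1 j x + (b i * b j) * a0 x := by
  rw [s2_apply]
  simp only [trans, ptL_apply, a2_pt, LinearMap.add_apply, LinearMap.smul_apply, smul_eq_mul]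
  rw [s2_comm j i]
  ring
theorem s3_trans (i j k : Fin n) : s3 i j k (trans q b x) =
    s3 i j k x + b k * s2 i j x + b j * s2 i k x + b i * s2 j k x +
      (b j * b k) * a1 i x + (b i * b k) * a1 j x + (b i * b j) * a1 k x +
      (b i * b j * b k) * a0 x := by
  rw [s3_apply]
  simp only [trans, ptL_apply, a3_pt, LinearMap.add_apply, LinearMap.smul_apply, smul_eq_mul]
  have h := s3_sym x
  have e1 : s3 i k j x = s3 i j k x := ((h i j k).2).symm
  have e2 : s3 j i k x = s3 i j k x := ((h i j k).1).symm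
  have e3 : s3 j k i x = s3 i j k x := by
    rw [← e2]; exact ((h j i k).2).symm
  have e4 : s3 k i j x = s3 i j k x := by
    rw [← e1]; exact ((h i k j).1).symm
  have e5 : s3 k j i x = s3 i j k x := by
    rw [← e3]; exact ((h j k i).1).symm
  rw [e1, e2, e3, e4, e5, s2_comm j i, s2_comm k i, s2_comm k j]
  ring
theorem aw_trans : aw (trans q b x) = wT q b x := by simp [trans]

end transLemmas


/-- **Translations act on `(M,T,w)` as in `Inv.IsTrans`.** -/
theorem isTrans (hq : ∀ a, (q a).IsSymm) (b : Fin n → ℝ) (x : Fin (mm n) → ℝ) :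
    Inv.IsTrans b (R q b) (M x) (M (trans q b x)) (T q x) (T q (trans q b x)) (aw x)
      (aw (trans q b x)) where
  hM := by
    ext i j
    rw [Matrix.mul_assoc, Matrix.mul_apply, Fin.sum_univ_succ]
    simp only [Matrix.mul_apply, Fin.sum_univ_succ, Matrix.transpose_apply]
    refine Fin.cases ?_ (fun i' => ?_) i <;> refine Fin.cases ?_ (fun j' => ?_) j
    · simp [a0_trans]
    · simp [a0_trans, a1_trans]
      ring
    · simp [a0_trans, a1_trans]
      ring
    · simp [a0_trans, a1_trans, s2_trans]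
      ring
  hT := by
    ext i a
    have hqs : ∀ j k, q a j k = q a k j := fun j k => (hq a).apply k j
    have key : ∀ i' : Fin (n+1), (T q x + M x * R q b) i' a =
        T q x i' a + (M x i' 0 * (∑ j, ∑ k, q a j k * (b j * b k)) +
          ∑ j, M x i' j.succ * (2 * ∑ k, q a j k * b k)) := by
      intro i'
      rw [Matrix.add_apply, Matrix.mul_apply, Fin.sum_univ_succ]
      rfl
    refine Fin.cases ?_ (fun i' => ?_) i
    · rw [Matrix.mul_apply, Fin.sum_univ_succ]
      simp only [Matrix.transpose_apply, Inv.Ub_zero_zero, Inv.Ub_succ_zero, zero_mul,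
        Finset.sum_const_zero, add_zero, one_mul]
      rw [key, T_0, T_0, T0_apply, T0_apply, M_00]
      simp only [M_0s, s2_trans]
      have e1 : ∑ j, ∑ k, q a j k * (s2 j k x + b k * a1 j x + b j * a1 k x + b j * b k * a0 x)
          = (∑ j, ∑ k, q a j k * s2 j k x) + (∑ j, ∑ k, q a j k * (b k * a1 j x)) +
            (∑ j, ∑ k, q a j k * (b j * a1 k x)) + (∑ j, ∑ k, q a j k * (b j * b k)) * a0 x := by
        rw [Finset.sum_mul, ← Finset.sum_add_distrib, ← Finset.sum_add_distrib,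
          ← Finset.sum_add_distrib]
        refine Finset.sum_congr rfl fun j _ => ?_
        rw [Finset.sum_mul, ← Finset.sum_add_distrib, ← Finset.sum_add_distrib,
          ← Finset.sum_add_distrib]
        refine Finset.sum_congr rfl fun k _ => ?_
        ring
      have e2 : ∑ j, ∑ k, q a j k * (b j * a1 k x) = ∑ j, ∑ k, q a j k * (b k * a1 j x) := by
        rw [Finset.sum_comm]
        refine Finset.sum_congr rfl fun j _ => Finset.sum_congr rfl fun k _ => ?_
        rw [hqs k j]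
      have e3 : ∑ j, a1 j x * (2 * ∑ k, q a j k * b k) =
          2 * ∑ j, ∑ k, q a j k * (b k * a1 j x) := by
        rw [Finset.mul_sum]
        refine Finset.sum_congr rfl fun j _ => ?_
        rw [Finset.mul_sum, Finset.mul_sum, Finset.mul_sum]
        refine Finset.sum_congr rfl fun k _ => ?_
        ring
      rw [e1, e2, e3]
      ring
    · rw [Matrix.mul_apply, Fin.sum_univ_succ]
      simp only [Matrix.transpose_apply, Inv.Ub_zero_succ, Inv.Ub_succ_succ, ite_mul, one_mul,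
        zero_mul, Finset.sum_ite_eq', Finset.mem_univ, if_true]
      rw [key, key, T_0, T0_apply, T_s, T_s, T1_apply, T1_apply, M_00, M_s0]
      simp only [M_0s, M_ss, s3_trans]
      have e1 : ∑ j, ∑ k, q a j k * (s3 i' j k x + b k * s2 i' j x + b j * s2 i' k x +
            b i' * s2 j k x + b j * b k * a1 i' x + b i' * b k * a1 j x + b i' * b j * a1 k x +
            b i' * b j * b k * a0 x)
          = (∑ j, ∑ k, q a j k * s3 i' j k x) + (∑ j, ∑ k, q a j k * (b k * s2 i' j x)) +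
            (∑ j, ∑ k, q a j k * (b j * s2 i' k x)) + b i' * (∑ j, ∑ k, q a j k * s2 j k x) +
            a1 i' x * (∑ j, ∑ k, q a j k * (b j * b k)) +
            b i' * (∑ j, ∑ k, q a j k * (b k * a1 j x)) +
            b i' * (∑ j, ∑ k, q a j k * (b j * a1 k x)) +
            b i' * ((∑ j, ∑ k, q a j k * (b j * b k)) * a0 x) := by
        simp only [Finset.mul_sum, Finset.sum_mul, ← Finset.sum_add_distrib]
        refine Finset.sum_congr rfl fun j _ => Finset.sum_congr rfl fun k _ => ?_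
        ring
      have e2 : ∑ j, ∑ k, q a j k * (b j * a1 k x) = ∑ j, ∑ k, q a j k * (b k * a1 j x) := by
        rw [Finset.sum_comm]
        refine Finset.sum_congr rfl fun j _ => Finset.sum_congr rfl fun k _ => ?_
        rw [hqs k j]
      have e2' : ∑ j, ∑ k, q a j k * (b j * s2 i' k x) =
          ∑ j, ∑ k, q a j k * (b k * s2 i' j x) := by
        rw [Finset.sum_comm]
        refine Finset.sum_congr rfl fun j _ => Finset.sum_congr rfl fun k _ => ?_
        rw [hqs k j]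
      have e3 : ∑ j, a1 j x * (2 * ∑ k, q a j k * b k) =
          2 * ∑ j, ∑ k, q a j k * (b k * a1 j x) := by
        rw [Finset.mul_sum]
        refine Finset.sum_congr rfl fun j _ => ?_
        rw [Finset.mul_sum, Finset.mul_sum, Finset.mul_sum]
        refine Finset.sum_congr rfl fun k _ => ?_
        ring
      have e3' : ∑ j, s2 i' j x * (2 * ∑ k, q a j k * b k) =
          2 * ∑ j, ∑ k, q a j k * (b k * s2 i' j x) := by
        rw [Finset.mul_sum]
        refine Finset.sum_congr rfl fun j _ => ?_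
        rw [Finset.mul_sum, Finset.mul_sum, Finset.mul_sum]
        refine Finset.sum_congr rfl fun k _ => ?_
        ring
      rw [e1, e2, e2', e3, e3']
      ring
  hw := by
    rw [aw_trans, wT_apply]

end Crest.Agent.R237.Model
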