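import Mathlib
import Crest.Agent.R237.Model
import Crest.Agent.R237.ExtMain
import Crest.Agent.R237.EX

/-!
Row 237, assembly part (helper432): the polynomial moment vector `zP`, and the cubic functional
with given symmetric third moments.
-/

set_option autoImplicit false

namespace Crest.Agent.R237.Asm
open MvPolynomial Matrix

variable {n d : ℕ}

/-! ### cubic functional -/

/-- `Z3 Z (X a * X b * X c) = Z a b c` for a symmetric tensor `Z`. -/
noncomputable def Z3 (Z : Fin n → Fin n → Fin n → ℝ) : MvPolynomial (Fin n) ℝ →ₗ[ℝ] ℝ :=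
  ∑ i, ∑ j, ∑ k, (Z i j k / 6) •
    ((lcoeff ℝ (0 : Fin n →₀ ℕ)).comp
      ((pderiv i).toLinearMap.comp ((pderiv j).toLinearMap.comp (pderiv k).toLinearMap)))

theorem Z3_apply (Z : Fin n → Fin n → Fin n → ℝ) (f : MvPolynomial (Fin n) ℝ) :
    Z3 Z f = ∑ i, ∑ j, ∑ k, (Z i j k / 6) * coeff 0 (pderiv i (pderiv j (pderiv k f))) := by
  simp only [Z3, LinearMap.sum_apply, LinearMap.smul_apply, LinearMap.comp_apply, smul_eq_mul]
  rfl

theorem pd3 (a b c i j k : Fin n) :
    coeff 0 (pderiv i (pderiv j (pderiv k (X a * X b * X c : MvPolynomial (Fin n) ℝ)))) =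
      (if k = a then 1 else 0) * ((if j = b then 1 else 0) * (if i = c then 1 else 0)
        + (if j = c then 1 else 0) * (if i = b then (1 : ℝ) else 0))
      + (if k = b then 1 else 0) * ((if j = a then 1 else 0) * (if i = c then 1 else 0)
        + (if j = c then 1 else 0) * (if i = a then (1 : ℝ) else 0))
      + (if k = c then 1 else 0) * ((if j = a then 1 else 0) * (if i = b then 1 else 0)
        + (if j = b then 1 else 0) * (if i = a then (1 : ℝ) else 0)) := by
  have h1 : pderiv k (X a * X b * X c : MvPolynomial (Fin n) ℝ)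
      = C (if k = a then 1 else 0) * (X b * X c) + C (if k = b then 1 else 0) * (X a * X c)
        + C (if k = c then 1 else 0) * (X a * X b) := by
    rw [pderiv_mul, pderiv_mul, Ext.pd1, Ext.pd1, Ext.pd1]
    ring
  rw [h1]
  simp only [map_add, pderiv_C_mul, coeff_add, coeff_C_mul, Ext.pd2, smul_eq_C_mul]

theorem Z3_XXX (Z : Fin n → Fin n → Fin n → ℝ) (hZ : EX.IsSym3 Z) (a b c : Fin n) :
    Z3 Z (X a * X b * X c) = Z a b c := by
  classical
  rw [Z3_apply]
  simp only [pd3]
  have key : ∀ (p r s : Fin n), ∑ i, ∑ j, ∑ k, Z i j k / 6 *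
      ((if k = p then 1 else 0) * ((if j = r then 1 else 0) * (if i = s then (1 : ℝ) else 0)))
      = Z s r p / 6 := by
    intro p r s
    simp
  have e : ∀ i j k : Fin n, Z i j k / 6 * ((if k = a then 1 else 0) *
        ((if j = b then 1 else 0) * (if i = c then 1 else 0)
        + (if j = c then 1 else 0) * (if i = b then (1 : ℝ) else 0))
      + (if k = b then 1 else 0) * ((if j = a then 1 else 0) * (if i = c then 1 else 0)
        + (if j = c then 1 else 0) * (if i = a then (1 : ℝ) else 0))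
      + (if k = c then 1 else 0) * ((if j = a then 1 else 0) * (if i = b then 1 else 0)
        + (if j = b then 1 else 0) * (if i = a then (1 : ℝ) else 0)))
      = Z i j k / 6 * ((if k = a then 1 else 0) *
          ((if j = b then 1 else 0) * (if i = c then (1 : ℝ) else 0)))
        + Z i j k / 6 * ((if k = a then 1 else 0) *
          ((if j = c then 1 else 0) * (if i = b then (1 : ℝ) else 0)))
        + Z i j k / 6 * ((if k = b then 1 else 0) *
          ((if j = a then 1 else 0) * (if i = c then (1 : ℝ) else 0)))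
        + Z i j k / 6 * ((if k = b then 1 else 0) *
          ((if j = c then 1 else 0) * (if i = a then (1 : ℝ) else 0)))
        + Z i j k / 6 * ((if k = c then 1 else 0) *
          ((if j = a then 1 else 0) * (if i = b then (1 : ℝ) else 0)))
        + Z i j k / 6 * ((if k = c then 1 else 0) *
          ((if j = b then 1 else 0) * (if i = a then (1 : ℝ) else 0))) := by
    intro i j k; ring
  simp only [e, Finset.sum_add_distrib, key]
  have h1 : Z b c a = Z a b c := by rw [(hZ b c a).2, (hZ b a c).1]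
  have h2 : Z c b a = Z a b c := by rw [(hZ c b a).1, h1]
  have h3 : Z c a b = Z a b c := by rw [(hZ c a b).1, (hZ a c b).2]
  have h4 : Z a c b = Z a b c := (hZ a c b).2
  have h5 : Z b a c = Z a b c := (hZ b a c).1
  rw [h1, h2, h3, h4, h5]
  ring

/-! ### quadratic forms as polynomials -/

/-- the quadratic form `uᵀ Q u`. -/
noncomputable def qf (Q : Matrix (Fin n) (Fin n) ℝ) : MvPolynomial (Fin n) ℝ :=
  ∑ j, ∑ k, C (Q j k) * (X j * X k)

theorem qf_homog (Q : Matrix (Fin n) (Fin n) ℝ) : (qf Q).IsHomogeneous 2 := by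
  unfold qf
  refine IsHomogeneous.sum _ _ _ fun j _ => IsHomogeneous.sum _ _ _ fun k _ => ?_
  have h1 : (X j * X k : MvPolynomial (Fin n) ℝ).IsHomogeneous (1 + 1) :=
    (isHomogeneous_X ℝ j).mul (isHomogeneous_X ℝ k)
  have := (isHomogeneous_C (Fin n) (Q j k)).mul h1
  simpa using this

theorem qf_eval (Q : Matrix (Fin n) (Fin n) ℝ) (u : Fin n → ℝ) :
    eval u (qf Q) = ∑ j, ∑ k, Q j k * (u j * u k) := by
  simp [qf]

theorem map_qf (L : MvPolynomial (Fin n) ℝ →ₗ[ℝ] ℝ) (Q : Matrix (Fin n) (Fin n) ℝ) :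
    L (qf Q) = ∑ j, ∑ k, Q j k * L (X j * X k) := by
  simp only [qf, map_sum, ← smul_eq_C_mul, map_smul, smul_eq_mul]

theorem map_X_qf (L : MvPolynomial (Fin n) ℝ →ₗ[ℝ] ℝ) (Q : Matrix (Fin n) (Fin n) ℝ) (i : Fin n) :
    L (X i * qf Q) = ∑ j, ∑ k, Q j k * L (X i * X j * X k) := by
  have : (X i * qf Q : MvPolynomial (Fin n) ℝ) = ∑ j, ∑ k, Q j k • (X i * X j * X k) := by
    simp only [qf, Finset.mul_sum]
    refine Finset.sum_congr rfl fun j _ => Finset.sum_congr rfl fun k _ => ?_
    rw [smul_eq_C_mul]; ring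
  rw [this]
  simp only [map_sum, map_smul, smul_eq_mul]

/-! ### the moment vector -/

variable (q : Fin d → Matrix (Fin n) (Fin n) ℝ)

/-- the polynomials whose values are the coordinates of the model. -/
noncomputable def zP : Fin (Model.mm n) → MvPolynomial (Fin n) ℝ := fun i =>
  Sum.elim (fun _ => 1) (Sum.elim X (Sum.elim (fun p => X p.1 * X p.2)
    (Sum.elim (fun p => X p.1 * X p.2.1 * X p.2.2)
      (fun _ => ∑ a, qf (q a) * qf (q a))))) ((Model.nu n).symm i)

/-- the point of the model given by a functional -/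
theorem map_zP (L : MvPolynomial (Fin n) ℝ →ₗ[ℝ] ℝ) :
    (fun i => L (zP q i)) = Model.pt (L 1) (fun i => L (X i)) (fun i j => L (X i * X j))
      (fun i j k => L (X i * X j * X k)) (∑ a, L (qf (q a) * qf (q a))) := by
  funext i
  unfold zP Model.pt
  rcases (Model.nu n).symm i with ⟨⟩ | i | ⟨i, j⟩ | ⟨i, j, k⟩ | ⟨⟩ <;> simp [map_sum]

theorem eval_zP (u : Fin n → ℝ) : (fun i => eval u (zP q i)) = Model.z q u := by
  funext i
  unfold zP Model.z Model.pt
  rcases (Model.nu n).symm i with ⟨⟩ | i | ⟨i, j⟩ | ⟨i, j, k⟩ | ⟨⟩ <;> simp [qf_eval, sq]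

theorem zP_deg (i : Fin (Model.mm n)) : (zP q i).totalDegree ≤ 4 := by
  unfold zP
  have hX : ∀ i : Fin n, (X i : MvPolynomial (Fin n) ℝ).totalDegree ≤ 1 := fun i => by
    exact (totalDegree_X (R := ℝ) i).le
  rcases (Model.nu n).symm i with ⟨⟩ | i | ⟨i, j⟩ | ⟨i, j, k⟩ | ⟨⟩
  · simp
  · exact (hX i).trans (by norm_num)
  · refine (totalDegree_mul _ _).trans ?_
    have h1 := hX i; have h2 := hX j
    show (X i : MvPolynomial (Fin n) ℝ).totalDegree + (X j : MvPolynomial (Fin n) ℝ).totalDegree ≤ 4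
    omega
  · refine (totalDegree_mul _ _).trans ?_
    have h0 := totalDegree_mul (X i : MvPolynomial (Fin n) ℝ) (X j)
    have h1 := hX i; have h2 := hX j; have h3 := hX k
    show (X i * X j : MvPolynomial (Fin n) ℝ).totalDegree
      + (X k : MvPolynomial (Fin n) ℝ).totalDegree ≤ 4
    omega
  · show (∑ a, qf (q a) * qf (q a)).totalDegree ≤ 4
    refine (totalDegree_finset_sum _ _).trans ?_
    refine Finset.sup_le fun a _ => ?_
    refine (totalDegree_mul _ _).trans ?_
    have := (qf_homog (q a)).totalDegree_le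
    omega

theorem zP_good {r : ℕ} {v : Fin r → Fin n → ℝ} (hv : ∀ a k, eval (v k) (qf (q a)) = 0)
    (i : Fin (Model.mm n)) : zP q i ∈ Ext.Good v := by
  unfold zP
  have hX : ∀ i : Fin n, (X i : MvPolynomial (Fin n) ℝ).totalDegree ≤ 1 := fun i => by
    exact (totalDegree_X (R := ℝ) i).le
  rcases (Model.nu n).symm i with ⟨⟩ | i | ⟨i, j⟩ | ⟨i, j, k⟩ | ⟨⟩
  · exact Ext.Good_of_deg (by simp)
  · exact Ext.Good_of_deg ((hX i).trans (by norm_num))
  · refine Ext.Good_of_deg ((totalDegree_mul _ _).trans ?_)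
    have h1 := hX i; have h2 := hX j
    show (X i : MvPolynomial (Fin n) ℝ).totalDegree + (X j : MvPolynomial (Fin n) ℝ).totalDegree ≤ 3
    omega
  · refine Ext.Good_of_deg ((totalDegree_mul _ _).trans ?_)
    have h0 := totalDegree_mul (X i : MvPolynomial (Fin n) ℝ) (X j)
    have h1 := hX i; have h2 := hX j; have h3 := hX k
    show (X i * X j : MvPolynomial (Fin n) ℝ).totalDegree
      + (X k : MvPolynomial (Fin n) ℝ).totalDegree ≤ 3
    omega
  · show (∑ a, qf (q a) * qf (q a)) ∈ Ext.Good v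
    refine Submodule.sum_mem _ fun a _ => ?_
    exact Ext.Good_of_mul (Ext.mem_VV_of (qf_homog _) (hv a)) (Ext.mem_VV_of (qf_homog _) (hv a))

end Crest.Agent.R237.Asm
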