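import Mathlib
import Crest.Agent.R237.AsmPoly
import Crest.Agent.R237.AsmLin

/-!
Row 237, assembly part (helper432): the exotic point `x̂`.
-/

set_option autoImplicit false

namespace Crest.Agent.R237.Asm
open MvPolynomial Matrix

variable {n d r : ℕ} (q : Fin d → Matrix (Fin n) (Fin n) ℝ)

theorem M_of_map (L : MvPolynomial (Fin n) ℝ →ₗ[ℝ] ℝ) (h1 : L 1 = 1) (hX : ∀ i, L (X i) = 0)
    (Sig : Matrix (Fin n) (Fin n) ℝ) (h2 : ∀ i j, L (X i * X j) = Sig i j) :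
    Model.M (fun i => L (zP q i)) = ext1 Sig := by
  have hs : ∀ i j, Sig i j = Sig j i := fun i j => by rw [← h2, ← h2, mul_comm]
  rw [map_zP]
  ext i j
  refine Fin.cases ?_ (fun i' => ?_) i <;> refine Fin.cases ?_ (fun j' => ?_) j
  · simp [h1]
  · simp [hX]
  · simp [hX]
  · simp only [Model.M_ss, Model.s2_apply, Model.a2_pt, ext1_ss, h2, hs j' i']
    ring

theorem T0_of_map (L : MvPolynomial (Fin n) ℝ →ₗ[ℝ] ℝ) (a : Fin d) :
    Model.T q (fun i => L (zP q i)) 0 a = L (qf (q a)) := by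
  rw [Model.T_0, Model.T0_apply, map_qf, map_zP]
  refine Finset.sum_congr rfl fun j _ => Finset.sum_congr rfl fun k _ => ?_
  rw [Model.s2_apply, Model.a2_pt, Model.a2_pt, mul_comm (X k) (X j)]
  ring

theorem Ts_of_map (L : MvPolynomial (Fin n) ℝ →ₗ[ℝ] ℝ) (i : Fin n) (a : Fin d) :
    Model.T q (fun i => L (zP q i)) i.succ a = L (X i * qf (q a)) := by
  rw [Model.T_s, Model.T1_apply, map_X_qf, map_zP]
  refine Finset.sum_congr rfl fun j _ => Finset.sum_congr rfl fun k _ => ?_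
  rw [Model.s3_apply]
  simp only [Model.a3_pt]
  have e1 : (X i * X k * X j : MvPolynomial (Fin n) ℝ) = X i * X j * X k := by ring
  have e2 : (X j * X i * X k : MvPolynomial (Fin n) ℝ) = X i * X j * X k := by ring
  have e3 : (X j * X k * X i : MvPolynomial (Fin n) ℝ) = X i * X j * X k := by ring
  have e4 : (X k * X i * X j : MvPolynomial (Fin n) ℝ) = X i * X j * X k := by ring
  have e5 : (X k * X j * X i : MvPolynomial (Fin n) ℝ) = X i * X j * X k := by ring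
  rw [e1, e2, e3, e4, e5]
  ring

theorem w_of_map (L : MvPolynomial (Fin n) ℝ →ₗ[ℝ] ℝ) :
    Model.aw (fun i => L (zP q i)) = ∑ a, L (qf (q a) * qf (q a)) := by
  rw [map_zP, Model.aw_pt]

theorem X_qf_homog (i : Fin n) (a : Fin d) : (X i * qf (q a)).IsHomogeneous 3 := by
  have := (isHomogeneous_X ℝ i).mul (qf_homog (q a))
  simpa using this

/-- The exotic functional and its data. -/
theorem exists_flat (v : Fin r → Fin n → ℝ)
    (hspan : ∀ g : MvPolynomial (Fin n) ℝ, g.IsHomogeneous 2 → (∀ k, eval (v k) g = 0) →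
      g ∈ Submodule.span ℝ (Set.range fun a => qf (q a)))
    (hfree : ∀ W : Matrix (Fin d) (Fin d) ℝ, W.IsSymm →
      ∃ T : MvPolynomial (Fin n) ℝ →ₗ[ℝ] ℝ, ∀ a b, T (qf (q a) * qf (q b)) = W a b)
    (P : Matrix (Fin n) (Fin n) ℝ) (hP : P.PosDef) (Z : Fin n → Fin n → Fin n → ℝ)
    (hZ : EX.IsSym3 Z) :
    ∃ L : MvPolynomial (Fin n) ℝ →ₗ[ℝ] ℝ, L 1 = 1 ∧
      (∀ f ∈ Ext.VV v, 0 ≤ L (f * f)) ∧
      Model.M (fun i => L (zP q i)) = ext1 P⁻¹ ∧
      (∀ i a, Model.T q (fun i => L (zP q i)) (Fin.succ i) a = EX.zeta q Z i a) ∧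
      Model.aw (fun i => L (zP q i)) = ∑ a, ((Model.T q (fun i => L (zP q i)) 0 a) ^ 2
        + ∑ i, ∑ j, P i j * (EX.zeta q Z i a * EX.zeta q Z j a)) := by
  have hdet : IsUnit P.det := (Matrix.isUnit_iff_isUnit_det _).1 hP.isUnit
  obtain ⟨L, h1, hX, h2, h3, h4, h5⟩ := Ext.flat_functional v (fun a => qf (q a))
    (fun a => qf_homog (q a)) hspan hfree P⁻¹ hP.inv (Z3 Z)
  have hz : ∀ i a, Z3 Z (X i * qf (q a)) = EX.zeta q Z i a := by
    intro i a
    rw [map_X_qf]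
    simp only [EX.zeta, Matrix.of_apply, Z3_XXX Z hZ]
  have hTs : ∀ i a, Model.T q (fun i => L (zP q i)) (Fin.succ i) a = EX.zeta q Z i a := by
    intro i a
    rw [Ts_of_map, h3 _ (X_qf_homog q i a), hz]
  refine ⟨L, h1, h5, M_of_map q L h1 hX _ h2, hTs, ?_⟩
  rw [w_of_map]
  refine Finset.sum_congr rfl fun a _ => ?_
  rw [h4, T0_of_map, Matrix.nonsing_inv_nonsing_inv _ hdet]
  simp only [hz]
  ring

end Crest.Agent.R237.Asm
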