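import Crest.Agent.R237.H823Key

set_option autoImplicit false
set_option linter.unusedSectionVars false
set_option linter.unusedVariables false

namespace Crest.Agent.R237

open Matrix

namespace HData

variable {m n d : ℕ} (D : HData m n d)
variable (x : Fin m → ℝ) (V : Matrix (Fin (n + 1)) (Fin (n + 1)) ℝ) (lam : Fin (n + 1) → ℝ)

theorem wk_nonneg (k : Fin (n + 1)) : 0 ≤ wk V k := Finset.sum_nonneg fun i _ => sq_nonneg _

theorem V_eq_zero {k : Fin (n + 1)} (h : wk V k = 0) (i : Fin n) : V i.succ k = 0 := by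
  have h1 := (Finset.sum_eq_zero_iff_of_nonneg (fun i _ => sq_nonneg (V i.succ k))).1 h i
    (Finset.mem_univ i)
  exact pow_eq_zero_iff (two_ne_zero) |>.1 h1

theorem row_orth (hV2 : V * Vᵀ = 1) (r s : Fin (n + 1)) :
    ∑ k, V r k * V s k = (1 : Matrix (Fin (n + 1)) (Fin (n + 1)) ℝ) r s := by
  rw [← hV2, Matrix.mul_apply]
  rfl

theorem exists_wk_pos (hn : 0 < n) (hV2 : V * Vᵀ = 1) : ∃ k, 0 < wk V k := by
  by_contra hcon
  push Not at hcon
  have h0 : ∀ k, wk V k = 0 := fun k => le_antisymm (hcon k) (wk_nonneg V k)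
  let i : Fin n := ⟨0, hn⟩
  have h1 := row_orth V hV2 i.succ i.succ
  rw [Matrix.one_apply_eq] at h1
  have h2 : ∑ k, V i.succ k * V i.succ k = 0 := by
    apply Finset.sum_eq_zero
    intro k _
    rw [V_eq_zero V (h0 k) i]; ring
  rw [h2] at h1
  exact zero_ne_one h1

theorem phk_nonneg (k : Fin (n + 1)) : 0 ≤ D.phk x V k :=
  mul_nonneg D.phi_pos.le (Finset.sum_nonneg fun a _ => sq_nonneg _)

theorem Xk_eq_zero {k : Fin (n + 1)} (h : wk V k = 0) : D.Xk x V k = 0 := by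
  ext i a
  rw [Xk, V_eq_zero V h i, zero_mul]
  rfl

theorem Xi_le (s : Finset (Fin (n + 1))) :
    D.Xi (∑ k ∈ s, D.Xk x V k) (∑ k ∈ s, D.Xk x V k) ≤
      (∑ k ∈ s, wk V k) * (∑ k ∈ s, D.phk x V k) := by
  refine (D.H1 _).trans ?_
  have h1 : ∀ i a, ((∑ k ∈ s, D.Xk x V k) i a) ^ 2 ≤
      (∑ k ∈ s, (V i.succ k) ^ 2) * (∑ k ∈ s, (D.Zk x V k a) ^ 2) := by
    intro i a
    rw [Matrix.sum_apply]
    exact Finset.sum_mul_sq_le_sq_mul_sq s (fun k => V i.succ k) (fun k => D.Zk x V k a)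
  have h2 : ∑ i, ∑ a, ((∑ k ∈ s, D.Xk x V k) i a) ^ 2 ≤
      (∑ k ∈ s, wk V k) * (∑ k ∈ s, ∑ a, (D.Zk x V k a) ^ 2) := by
    calc ∑ i, ∑ a, ((∑ k ∈ s, D.Xk x V k) i a) ^ 2
        ≤ ∑ i : Fin n, ∑ a, (∑ k ∈ s, (V i.succ k) ^ 2) * (∑ k ∈ s, (D.Zk x V k a) ^ 2) :=
          Finset.sum_le_sum fun i _ => Finset.sum_le_sum fun a _ => h1 i a
      _ = (∑ i : Fin n, ∑ k ∈ s, (V i.succ k) ^ 2) * (∑ a, ∑ k ∈ s, (D.Zk x V k a) ^ 2) := by
          rw [Finset.sum_mul_sum]
      _ = _ := by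
          congr 1
          · rw [Finset.sum_comm]; rfl
          · rw [Finset.sum_comm]
  calc D.phi * ∑ i, ∑ a, ((∑ k ∈ s, D.Xk x V k) i a) ^ 2
      ≤ D.phi * ((∑ k ∈ s, wk V k) * (∑ k ∈ s, ∑ a, (D.Zk x V k a) ^ 2)) :=
        mul_le_mul_of_nonneg_left h2 D.phi_pos.le
    _ = _ := by
        unfold phk
        rw [← Finset.mul_sum]
        ring

/-- case A of the residue positivity. -/
theorem beta_A (hV1 : Vᵀ * V = 1) (hV2 : V * Vᵀ = 1) (hA : D.M x = V * diagonal lam * Vᵀ)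
    (t : ℝ) (ht : ∀ k, t ≠ lam k) (hN : ∑ k, wk V k * (t - lam k)⁻¹ = 0) :
    0 ≤ D.Xi (∑ k, (t - lam k)⁻¹ • D.Xk x V k) (∑ k, (t - lam k)⁻¹ • D.Xk x V k) := by
  have ht' : ∀ k, t ≠ algebraMap ℝ ℝ (lam k) := ht
  have h1 := det_MA_ne D x V lam hV1 hV2 hA t ht'
  have h2 := inv_MA D x V lam hV1 hV2 hA t ht'
  have h3 := lowTr_Rz (K := ℝ) V lam t
  have h4 := low_Rz_TA D x V lam hV1 hV2 hA t ht'
  rw [MA_real] at h1 h2
  rw [TA_real, ← h2] at h4
  have h5 : lowTr (D.M (D.pt t x))⁻¹ = 0 := by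
    rw [h2, h3, ← hN]
    refine Finset.sum_congr rfl fun k _ => ?_
    rw [div_eq_mul_inv]; rfl
  have h6 := D.H2 (D.pt t x) h1 h5
  have h7 : ∑ k, (t - algebraMap ℝ ℝ (lam k))⁻¹ • (D.Xk x V k).map (algebraMap ℝ ℝ) =
      ∑ k, (t - lam k)⁻¹ • D.Xk x V k := by
    refine Finset.sum_congr rfl fun k _ => ?_
    congr 1
  rw [h4, h7] at h6
  exact h6

/-- case B of the residue positivity. -/
theorem beta_B (hV1 : Vᵀ * V = 1) (hV2 : V * Vᵀ = 1) (hA : D.M x = V * diagonal lam * Vᵀ)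
    (t : ℝ) (k0 : Fin (n + 1)) (hk0 : t = lam k0) (ht : ∀ k, t = lam k → wk V k = 0)
    (hN : ∑ k, wk V k * (t - lam k)⁻¹ = 0) :
    0 ≤ D.Xi (∑ k, (t - lam k)⁻¹ • D.Xk x V k) (∑ k, (t - lam k)⁻¹ • D.Xk x V k) := by
  -- y = t e - x
  have hMy : D.M (D.pt t x) = V * diagonal (fun k => t - lam k) * Vᵀ := by
    have h := MA_diag D x V lam hV2 hA t
    rw [MA_real] at h
    exact h
  have hMyV : D.M (D.pt t x) * V = V * diagonal (fun k => t - lam k) := by
    rw [hMy, Matrix.mul_assoc, hV1, Matrix.mul_one]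
  have hMsymm := D.M_symm (D.pt t x)
  have hv0 : V 0 k0 ≠ 0 := by
    intro h0
    have h1 : (Vᵀ * V) k0 k0 = 1 := by rw [hV1, Matrix.one_apply_eq]
    rw [Matrix.mul_apply, Fin.sum_univ_succ] at h1
    simp only [Matrix.transpose_apply, h0, V_eq_zero V (ht k0 hk0)] at h1
    simp at h1
  have hcol : ∀ r, D.M (D.pt t x) r 0 = 0 := by
    intro r
    have h1 : (D.M (D.pt t x) * V) r k0 = 0 := by
      rw [hMyV, Matrix.mul_diagonal, hk0, sub_self, mul_zero]
    rw [Matrix.mul_apply, Fin.sum_univ_succ] at h1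
    simp only [V_eq_zero V (ht k0 hk0), mul_zero, Finset.sum_const_zero, add_zero] at h1
    rcases mul_eq_zero.1 h1 with h2 | h2
    · exact h2
    · exact absurd h2 hv0
  have hrow : ∀ r, D.M (D.pt t x) 0 r = 0 := by
    intro r
    have := hMsymm.apply r 0
    rw [this]; exact hcol r
  -- products vanish
  have hprod : ∀ (i : Fin n) k, V i.succ k * V 0 k = 0 := by
    intro i k
    have h1 : (D.M (D.pt t x) * V) 0 k = V 0 k * (t - lam k) := by
      rw [hMyV, Matrix.mul_diagonal]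
    rw [Matrix.mul_apply] at h1
    simp only [hrow, zero_mul, Finset.sum_const_zero] at h1
    rcases mul_eq_zero.1 h1.symm with h2 | h2
    · rw [h2, mul_zero]
    · rw [V_eq_zero V (ht k (sub_eq_zero.1 h2)) i, zero_mul]
  set B : Matrix (Fin n) (Fin n) ℝ := fun i j => ∑ k, V i.succ k * (t - lam k)⁻¹ * V j.succ k with hB
  set L : Matrix (Fin n) (Fin n) ℝ := (D.M (D.pt t x)).submatrix Fin.succ Fin.succ with hL
  have hLapp : ∀ i j, L i j = ∑ k, V i.succ k * (t - lam k) * V j.succ k := by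
    intro i j
    rw [hL, Matrix.submatrix_apply, hMy, Matrix.mul_apply]
    simp only [Matrix.mul_diagonal, Matrix.transpose_apply]
  have hLB : L * B = 1 := by
    ext i j
    rw [Matrix.mul_apply]
    have h1 : ∀ l : Fin n, L i l * B l j =
        ∑ k, ∑ k', V i.succ k * (t - lam k) * (V l.succ k * V l.succ k') *
          ((t - lam k')⁻¹ * V j.succ k') := by
      intro l
      rw [hLapp, hB, Finset.sum_mul_sum]
      refine Finset.sum_congr rfl fun k _ => Finset.sum_congr rfl fun k' _ => by ring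
    simp only [h1]
    rw [Finset.sum_comm]
    have h2 : ∀ k, ∑ l : Fin n, ∑ k', V i.succ k * (t - lam k) * (V l.succ k * V l.succ k') *
          ((t - lam k')⁻¹ * V j.succ k') = V i.succ k * V j.succ k := by
      intro k
      rw [Finset.sum_comm]
      have h3 : ∀ k', ∑ l : Fin n, V i.succ k * (t - lam k) * (V l.succ k * V l.succ k') *
          ((t - lam k')⁻¹ * V j.succ k') =
          V i.succ k * (t - lam k) * ((1 : Matrix (Fin (n + 1)) (Fin (n + 1)) ℝ) k k') *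
          ((t - lam k')⁻¹ * V j.succ k') := by
        intro k'
        rw [← Finset.sum_mul, ← Finset.mul_sum]
        have h4 : (1 : Matrix (Fin (n + 1)) (Fin (n + 1)) ℝ) k k' =
            V 0 k * V 0 k' + ∑ l : Fin n, V l.succ k * V l.succ k' := by
          rw [← hV1, Matrix.mul_apply, Fin.sum_univ_succ]
          rfl
        rw [h4]
        have h5 := hprod i k
        have h6 : V i.succ k * (t - lam k) * (V 0 k * V 0 k' +
            ∑ l : Fin n, V l.succ k * V l.succ k') = V i.succ k * (t - lam k) *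
            (∑ l : Fin n, V l.succ k * V l.succ k') + (V i.succ k * V 0 k) * (t - lam k) * V 0 k' := by
          ring
        rw [h6, h5]
        ring
      simp only [h3]
      rw [Finset.sum_eq_single k]
      · rw [Matrix.one_apply_eq]
        by_cases hk : t = lam k
        · rw [V_eq_zero V (ht k hk) i]; ring
        · have : t - lam k ≠ 0 := sub_ne_zero.2 hk
          field_simp
      · intro k' _ hk'
        rw [Matrix.one_apply_ne hk'.symm]; ring
      · simp
    simp only [h2]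
    rw [row_orth V hV2, Matrix.one_apply, Matrix.one_apply]
    simp [Fin.succ_inj]
  have hLdet : L.det ≠ 0 := by
    intro h0
    have h1 := congrArg Matrix.det hLB
    rw [Matrix.det_mul, h0, zero_mul, Matrix.det_one] at h1
    exact zero_ne_one h1
  have hLinv : L⁻¹ = B := Matrix.inv_eq_right_inv hLB
  have htrB : L⁻¹.trace = 0 := by
    rw [hLinv, ← hN]
    show ∑ i, B i i = _
    simp only [hB, wk]
    rw [Finset.sum_comm]
    refine Finset.sum_congr rfl fun k _ => ?_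
    rw [Finset.sum_mul]
    refine Finset.sum_congr rfl fun i _ => by ring
  have hlin : L⁻¹ * (D.T (D.pt t x)).submatrix Fin.succ id =
      ∑ k, (t - lam k)⁻¹ • D.Xk x V k := by
    rw [hLinv]
    ext i a
    rw [Matrix.mul_apply, Matrix.sum_apply]
    have hTlow : ∀ j : Fin n, (D.T (D.pt t x)) j.succ a = D.tau x j.succ a := by
      intro j
      have h1 := D.TA_split x (K := ℝ) t
      rw [TA_real, MA_real] at h1
      rw [h1, Matrix.add_apply, Matrix.mul_apply, Fin.sum_univ_succ, hcol j.succ]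
      simp [D.T_e]
    simp only [Matrix.submatrix_apply, id, hTlow, hB, Matrix.smul_apply, smul_eq_mul, Xk, Zk,
      Matrix.mul_apply, Matrix.transpose_apply]
    have h2 : ∀ k, (t - lam k)⁻¹ * (V i.succ k * ∑ r, V r k * D.tau x r a) =
        ∑ j : Fin n, V i.succ k * (t - lam k)⁻¹ * V j.succ k * D.tau x j.succ a := by
      intro k
      rw [Fin.sum_univ_succ, mul_add, mul_add]
      have h3 : (t - lam k)⁻¹ * (V i.succ k * (V 0 k * D.tau x 0 a)) = 0 := by
        have := hprod i k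
        calc _ = (t - lam k)⁻¹ * ((V i.succ k * V 0 k) * D.tau x 0 a) := by ring
          _ = 0 := by rw [this]; ring
      rw [h3, zero_add, Finset.mul_sum, Finset.mul_sum]
      refine Finset.sum_congr rfl fun j _ => by ring
    simp only [h2]
    rw [Finset.sum_comm]
    refine Finset.sum_congr rfl fun j _ => ?_
    rw [Finset.sum_mul]
  have h := D.H2b (D.pt t x) (fun i => hrow _) hLdet htrB
  rw [hlin] at h
  exact h

/-- the partial fraction theorem. -/
theorem partial_frac (hV1 : Vᵀ * V = 1) (hV2 : V * Vᵀ = 1)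
    (hA : D.M x = V * diagonal lam * Vᵀ) :
    ∃ (S : Finset ℝ) (cf : ℝ → ℝ), (∀ r ∈ S, cf r ≤ 0) ∧ (∀ r ∈ S, ∃ k, lam k ≤ r) ∧
      ∀ z : ℂ, (∀ k, z ≠ lam k) → ∑ k, (wk V k : ℂ) / (z - lam k) ≠ 0 →
        (∑ k, ∑ l, (D.Xi (D.Xk x V k) (D.Xk x V l) : ℂ) / ((z - lam k) * (z - lam l)))
            / (∑ k, (wk V k : ℂ) / (z - lam k))
          - ∑ k, (D.phk x V k : ℂ) / (z - lam k) = ∑ r ∈ S, (cf r : ℂ) / (z - r) := by
  apply core_grouped D.Xi lam (wk V) (D.phk x V) (D.Xk x V) (wk_nonneg V)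
    (exists_wk_pos V D.n_pos hV2) (D.phk_nonneg x V) (fun k h => D.Xk_eq_zero x V h)
    (D.Xi_le x V)
  intro t ht hN
  by_cases h : ∀ k, t ≠ lam k
  · exact D.beta_A x V lam hV1 hV2 hA t h hN
  · push Not at h
    obtain ⟨k0, hk0⟩ := h
    exact D.beta_B x V lam hV1 hV2 hA t k0 hk0 ht hN

theorem k1 : D.K1 := by
  intro x z hz
  obtain ⟨V, lam, hV1, hV2, hA⟩ := exists_diag (D.M x) (D.M_symm x)
  obtain ⟨S, cf, hcf, -, hform⟩ := D.partial_frac x V lam hV1 hV2 hA
  have hzl : ∀ k, z ≠ algebraMap ℝ ℂ (lam k) := by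
    intro k h
    apply hz
    rw [h]; simp
  have hN : ∑ k, (wk V k : ℂ) / (z - lam k) ≠ 0 := by
    intro h
    exact hz (im_zero_of_sum_eq_zero lam (wk V) (wk_nonneg V)
      (exists_wk_pos V D.n_pos hV2) z h)
  have hdet := det_MA_ne D x V lam hV1 hV2 hA z hzl
  have hinv := inv_MA D x V lam hV1 hV2 hA z hzl
  have hlow := lowTr_Rz (K := ℂ) V lam z
  have hlow' : lowTr (D.MA (D.pt z x))⁻¹ ≠ 0 := by
    rw [hinv, hlow]; exact hN
  have hpt : (fun i => z * (D.e i : ℂ) - (x i : ℂ)) = D.pt z x := rfl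
  rw [hpt, D.pA_eq_field (D.pt z x) hdet hlow', FA_eq D x V lam hV1 hV2 hA z hzl]
  apply mul_ne_zero (mul_ne_zero (pow_ne_zero 2 hdet) hlow')
  have hf := hform z hzl hN
  have hre : algebraMap ℝ ℂ D.aa * z + algebraMap ℝ ℂ (D.bb x) +
      ((∑ k, ∑ l, algebraMap ℝ ℂ (D.Xi (D.Xk x V k) (D.Xk x V l)) /
          ((z - algebraMap ℝ ℂ (lam k)) * (z - algebraMap ℝ ℂ (lam l)))) /
        (∑ k, algebraMap ℝ ℂ (wk V k) / (z - algebraMap ℝ ℂ (lam k)))
      - ∑ k, algebraMap ℝ ℂ (D.phk x V k) / (z - algebraMap ℝ ℂ (lam k))) =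
      (D.aa : ℂ) * z + (D.bb x : ℂ) + ∑ r ∈ S, (cf r : ℂ) / (z - r) := by
    rw [← hf]; rfl
  rw [hre]
  intro h0
  have him := congrArg Complex.im h0
  rw [Complex.add_im, Complex.add_im, Complex.im_sum] at him
  have h1 : ∀ r ∈ S, ((cf r : ℂ) / (z - r)).im = - z.im * (cf r / Complex.normSq (z - r)) := by
    intro r _
    rw [Complex.div_im]
    simp
    ring
  rw [Finset.sum_congr rfl h1, ← Finset.mul_sum] at him
  have h2 : ((D.aa : ℂ) * z).im = D.aa * z.im := by simp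
  rw [h2] at him
  simp only [Complex.ofReal_im, add_zero, Complex.zero_im] at him
  have h3 : ∑ r ∈ S, cf r / Complex.normSq (z - r) ≤ 0 :=
    Finset.sum_nonpos fun r hr => div_nonpos_of_nonpos_of_nonneg (hcf r hr)
      (Complex.normSq_nonneg _)
  have h4 : z.im * (D.aa - ∑ r ∈ S, cf r / Complex.normSq (z - r)) = 0 := by
    linear_combination him
  rcases mul_eq_zero.1 h4 with h5 | h5
  · exact hz h5
  · have := D.aa_pos
    linarith

theorem F_neg (y : Fin m → ℝ) : D.F (-y) = - D.F y := by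
  have h1 : (D.M (-y))⁻¹ = - (D.M y)⁻¹ := by
    rw [map_neg]
    by_cases h : IsUnit (D.M y).det
    · apply Matrix.inv_eq_right_inv
      rw [neg_mul_neg, Matrix.mul_nonsing_inv _ h]
    · have h' : ¬ IsUnit (-(D.M y)).det := by
        rw [Matrix.det_neg]
        intro hu
        exact h (isUnit_of_mul_isUnit_right hu)
      rw [Matrix.nonsing_inv_apply_not_isUnit _ h, Matrix.nonsing_inv_apply_not_isUnit _ h',
        neg_zero]
  have h2 : D.lin (-y) = D.lin y := by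
    unfold lin
    rw [h1, map_neg, Matrix.neg_mul, Matrix.mul_neg, neg_neg]
  have h3 : lowTr (D.M (-y))⁻¹ = - lowTr (D.M y)⁻¹ := by
    rw [h1]; unfold lowTr; simp
  unfold F
  rw [h2, h3, h1, map_neg, map_neg]
  have h4 : ((-D.T y)ᵀ * -(D.M y)⁻¹ * -D.T y).trace = - ((D.T y)ᵀ * (D.M y)⁻¹ * D.T y).trace := by
    simp only [Matrix.transpose_neg, Matrix.neg_mul, Matrix.mul_neg, neg_neg, Matrix.trace_neg]
  rw [h4, div_neg]
  ring

theorem k2 : D.K2 := by
  intro x
  obtain ⟨V, lam, hV1, hV2, hA⟩ := exists_diag (D.M x) (D.M_symm x)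
  obtain ⟨S, cf, hcf, hS, hform⟩ := D.partial_frac x V lam hV1 hV2 hA
  refine ⟨S, cf, D.bb x, hcf, ?_⟩
  intro s hs
  have hpos : ∀ k, 0 < lam k + s := by
    intro k
    have h1 : Vᵀ * (D.M x + s • (1 : Matrix (Fin (n + 1)) (Fin (n + 1)) ℝ)) * V =
        diagonal (fun k => lam k + s) := by
      rw [hA, Matrix.mul_add, Matrix.add_mul]
      have h2 : Vᵀ * (V * diagonal lam * Vᵀ) * V = diagonal lam := by
        calc _ = (Vᵀ * V) * diagonal lam * (Vᵀ * V) := by simp only [Matrix.mul_assoc]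
          _ = _ := by rw [hV1]; simp
      have h3 : Vᵀ * (s • (1 : Matrix (Fin (n + 1)) (Fin (n + 1)) ℝ)) * V = diagonal (fun _ => s) := by
        rw [Matrix.mul_smul, Matrix.mul_one, Matrix.smul_mul, hV1]
        rw [← Matrix.diagonal_one, ← Matrix.diagonal_smul]
        congr 1; ext; simp
      rw [h2, h3, Matrix.diagonal_add]
    have h4 := hs.dotProduct_mulVec_pos (x := fun r => V r k) (by
      intro h0
      have h5 : (Vᵀ * V) k k = 1 := by rw [hV1, Matrix.one_apply_eq]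
      rw [Matrix.mul_apply] at h5
      have h6 : ∀ r, V r k = 0 := fun r => congrFun h0 r
      simp [h6] at h5)
    have h7 : (Vᵀ * (D.M x + s • (1 : Matrix (Fin (n + 1)) (Fin (n + 1)) ℝ)) * V) k k =
        lam k + s := by rw [h1, Matrix.diagonal_apply_eq]
    have h8 : (Vᵀ * (D.M x + s • (1 : Matrix (Fin (n + 1)) (Fin (n + 1)) ℝ)) * V) k k =
        star (fun r => V r k) ⬝ᵥ ((D.M x + s • (1 : Matrix (Fin (n + 1)) (Fin (n + 1)) ℝ)) *ᵥ
          (fun r => V r k)) := by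
      rw [Matrix.mul_assoc, Matrix.mul_apply]
      rfl
    rw [← h7, h8]
    exact h4
  have hSpos : ∀ r ∈ S, 0 < s + r := by
    intro r hr
    obtain ⟨k, hk⟩ := hS r hr
    have := hpos k
    linarith
  refine ⟨hSpos, ?_⟩
  have htl : ∀ k, -s ≠ algebraMap ℝ ℝ (lam k) := by
    intro k h
    have h1 : -s = lam k := h
    have := hpos k
    linarith
  have hzl : ∀ k, ((-s : ℝ) : ℂ) ≠ lam k := by
    intro k h
    exact htl k (Complex.ofReal_injective h)
  have hNr : ∑ k, wk V k / (-s - lam k) < 0 := by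
    obtain ⟨k0, hk0⟩ := exists_wk_pos V D.n_pos hV2
    have h1 : ∑ k, wk V k / (-s - lam k) = - ∑ k, wk V k / (lam k + s) := by
      rw [← Finset.sum_neg_distrib]
      refine Finset.sum_congr rfl fun k _ => ?_
      rw [← div_neg]; congr 1; ring
    rw [h1, neg_lt_zero]
    apply Finset.sum_pos'
    · intro k _; exact div_nonneg (wk_nonneg V k) (hpos k).le
    · exact ⟨k0, Finset.mem_univ _, div_pos hk0 (hpos k0)⟩
  have hNc : ∑ k, (wk V k : ℂ) / (((-s : ℝ) : ℂ) - lam k) ≠ 0 := by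
    intro h
    apply hNr.ne
    exact_mod_cast h
  have hf := hform ((-s : ℝ) : ℂ) hzl hNc
  have hfr : (∑ k, ∑ l, (D.Xi (D.Xk x V k) (D.Xk x V l)) / ((-s - lam k) * (-s - lam l)))
            / (∑ k, (wk V k) / (-s - lam k))
          - ∑ k, (D.phk x V k) / (-s - lam k) = ∑ r ∈ S, (cf r) / (-s - r) := by
    exact_mod_cast hf
  have hF := FA_eq (K := ℝ) D x V lam hV1 hV2 hA (-s) htl
  rw [MA_real, TA_real, wA_real, XiA_real] at hF
  have hy : x + s • D.e = - D.pt (-s) x := by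
    ext i
    simp only [Pi.add_apply, Pi.smul_apply, Pi.neg_apply, pt, smul_eq_mul, Algebra.algebraMap_self,
      RingHom.id_apply]
    ring
  rw [hy, F_neg]
  have hFF : D.F (D.pt (-s) x) = D.aa * (-s) + D.bb x + ∑ r ∈ S, (cf r) / (-s - r) := by
    rw [← hfr]
    exact hF
  rw [hFF]
  have h9 : ∑ r ∈ S, cf r / (s + r) = - ∑ r ∈ S, cf r / (-s - r) := by
    rw [← Finset.sum_neg_distrib]
    refine Finset.sum_congr rfl fun r _ => ?_
    rw [← div_neg]; congr 1; ring
  rw [h9]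
  ring

/-- **THEOREM H.** -/
theorem hyp : GeometryTopology.Hyperbolic.IsHyperbolic D.p D.e ∧
    GeometryTopology.Hyperbolic.closedCone D.p D.e = closure D.K0 :=
  theoremH D.k1 D.k2

end HData

end Crest.Agent.R237
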