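import Mathlib
import Crest.Agent.R237.HData
import Crest.Agent.R237.Res
import Crest.Agent.R237.EX

/-! Row 237: construction of `HData` from a scalar model (helper227). -/

set_option autoImplicit false

namespace Crest.Agent.R237

open Matrix Res

/-- `HData` from linear moment data `(M, T, w)` of a model with third moments `tau`, and a form
`Xi` that is invariant under `shift` and nonnegative on the residues `PZ q P Z`, `tr P = 0`. -/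
noncomputable def mkHData {m n d : ℕ} (hn : 2 ≤ n) (q : Fin d → Matrix (Fin n) (Fin n) ℝ)
    (hq : ∀ a, (q a).IsSymm)
    (M : (Fin m → ℝ) →ₗ[ℝ] Matrix (Fin (n + 1)) (Fin (n + 1)) ℝ) (M_symm : ∀ x, (M x).IsSymm)
    (T : (Fin m → ℝ) →ₗ[ℝ] Matrix (Fin (n + 1)) (Fin d) ℝ) (w : (Fin m → ℝ) →ₗ[ℝ] ℝ)
    (tau : (Fin m → ℝ) → Fin n → Fin n → Fin n → ℝ) (htau : ∀ x, Sym3 (tau x))
    (hT0 : ∀ x a, T x 0 a = ∑ j, ∑ k, M x (Fin.succ j) (Fin.succ k) * q a j k)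
    (hT : ∀ x i a, T x (Fin.succ i) a = ctr (tau x) (q a) i)
    (e : Fin m → ℝ) (M_e : M e = 1) (T_e : ∀ (i : Fin n) (a : Fin d), T e i.succ a = 0)
    (w_e : ∑ a, (T e 0 a) ^ 2 < w e)
    (Xi : Matrix (Fin n) (Fin d) ℝ →ₗ[ℝ] Matrix (Fin n) (Fin d) ℝ →ₗ[ℝ] ℝ)
    (Xi_symm : ∀ X Y, Xi X Y = Xi Y X)
    (hshift : ∀ X Y y, Xi (X + shift q y) Y = Xi X Y)
    (hI : ∀ (P : Matrix (Fin n) (Fin n) ℝ) (Z : Fin n → Fin n → Fin n → ℝ), P.IsSymm →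
      P.trace = 0 → Sym3 Z → 0 ≤ Xi (PZ q P Z) (PZ q P Z))
    (phi : ℝ) (phi_pos : 0 < phi) (H1 : ∀ X, Xi X X ≤ phi * ∑ i, ∑ a, (X i a) ^ 2) :
    HData m n d where
  M := M
  M_symm := M_symm
  T := T
  w := w
  e := e
  M_e := M_e
  T_e := T_e
  w_e := w_e
  Xi := Xi
  Xi_symm := Xi_symm
  phi := phi
  phi_pos := phi_pos
  n_pos := by omega
  H1 := H1
  H2 := fun x hdet htr =>
    h2_bilin hn hq Xi Xi_symm hshift hI (M_symm x) hdet htr (htau x) (hT0 x) (hT x)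
  H2b := fun x _ _ htr => h2b_bilin Xi hI (M_symm x) htr (htau x) (hT x)

/-! ### dictionary between `Res` and `EX` -/

theorem sym3_iff {n : ℕ} (Z : Fin n → Fin n → Fin n → ℝ) : Sym3 Z ↔ EX.IsSym3 Z := Iff.rfl

theorem ctr_eq_zeta {n d : ℕ} (q : Fin d → Matrix (Fin n) (Fin n) ℝ)
    (Z : Fin n → Fin n → Fin n → ℝ) (i : Fin n) (a : Fin d) :
    ctr Z (q a) i = EX.zeta q Z i a := by
  simp only [ctr, EX.zeta, Matrix.of_apply]
  exact Finset.sum_congr rfl fun j _ => Finset.sum_congr rfl fun k _ => mul_comm _ _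

theorem PZ_eq {n d : ℕ} (q : Fin d → Matrix (Fin n) (Fin n) ℝ) (P : Matrix (Fin n) (Fin n) ℝ)
    (Z : Fin n → Fin n → Fin n → ℝ) : PZ q P Z = P * EX.zeta q Z := by
  ext i a
  rw [Matrix.mul_apply]
  simp only [PZ, Matrix.of_apply, ctr_eq_zeta]

theorem shift_eq {n d : ℕ} (q : Fin d → Matrix (Fin n) (Fin n) ℝ) (y : Fin n → ℝ) :
    shift q y = EX.transl q ((2 : ℝ) • y) := by
  ext i a
  simp only [shift, EX.transl, Matrix.of_apply, Matrix.mulVec, dotProduct, Finset.mul_sum,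
    Pi.smul_apply, smul_eq_mul]
  exact Finset.sum_congr rfl fun j _ => by ring

/-- the `Xi` part of `EX.exists_EX` in the form needed by `mkHData`. -/
theorem xi_convert {n d : ℕ} {q : Fin d → Matrix (Fin n) (Fin n) ℝ}
    {Xi : Matrix (Fin n) (Fin d) ℝ →ₗ[ℝ] Matrix (Fin n) (Fin d) ℝ →ₗ[ℝ] ℝ}
    (h1 : ∀ X Y y, Xi (X + EX.transl q y) Y = Xi X Y)
    (h2 : ∀ P' : Matrix (Fin n) (Fin n) ℝ, P'.IsSymm → P'.trace = 0 →
      ∀ Z', EX.IsSym3 Z' → 0 ≤ Xi (P' * EX.zeta q Z') (P' * EX.zeta q Z')) :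
    (∀ X Y y, Xi (X + shift q y) Y = Xi X Y) ∧
    (∀ (P : Matrix (Fin n) (Fin n) ℝ) (Z : Fin n → Fin n → Fin n → ℝ), P.IsSymm →
      P.trace = 0 → Sym3 Z → 0 ≤ Xi (PZ q P Z) (PZ q P Z)) := by
  refine ⟨fun X Y y => ?_, fun P Z hP ht hZ => ?_⟩
  · rw [shift_eq, h1]
  · rw [PZ_eq]
    exact h2 P hP ht Z hZ

end Crest.Agent.R237
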