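import Mathlib
import Crest.Agent.R237.Model

/-!
Row 237 (S0367): the concrete model, part 2 (helper756): dilations, the moment points `z u`,
the base point `e`, and all facts on `K0` and its closure.
-/

set_option autoImplicit false

namespace Crest.Agent.R237.Model

open Matrix

variable {n d : ℕ} (q : Fin d → Matrix (Fin n) (Fin n) ℝ)

/-! ### Dilations -/

/-- dilation `u ↦ s u` on functionals -/
noncomputable def dil (s : ℝ) : (Fin (mm n) → ℝ) →ₗ[ℝ] (Fin (mm n) → ℝ) :=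
  ptL a0 (fun i => s • a1 i) (fun i j => s ^ 2 • a2 i j) (fun i j k => s ^ 3 • a3 i j k)
    (s ^ 4 • aw)

section dilLemmas
variable (s : ℝ) (x : Fin (mm n) → ℝ)

theorem a0_dil : a0 (dil s x) = a0 x := by simp [dil]
theorem a1_dil (i : Fin n) : a1 i (dil s x) = s * a1 i x := by simp [dil]
theorem s2_dil (i j : Fin n) : s2 i j (dil s x) = s ^ 2 * s2 i j x := by
  simp only [s2_apply, dil, ptL_apply, a2_pt, LinearMap.smul_apply, smul_eq_mul]
  ring
theorem s3_dil (i j k : Fin n) : s3 i j k (dil s x) = s ^ 3 * s3 i j k x := by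
  simp only [s3_apply, dil, ptL_apply, a3_pt, LinearMap.smul_apply, smul_eq_mul]
  ring
theorem aw_dil : aw (dil s x) = s ^ 4 * aw x := by simp [dil]

theorem isDil : Inv.IsDil s (M x) (M (dil s x)) (T q x) (T q (dil s x)) (aw x)
    (aw (dil s x)) where
  hM := by
    unfold Inv.Ds
    ext i j
    rw [Matrix.mul_diagonal, Matrix.diagonal_mul]
    refine Fin.cases ?_ (fun i' => ?_) i <;> refine Fin.cases ?_ (fun j' => ?_) j
    · simp [a0_dil]
    · simp [a1_dil, mul_comm]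
    · simp [a1_dil]
    · simp [s2_dil]
      ring
  hT := by
    unfold Inv.Ds
    ext i a
    rw [Matrix.smul_apply, Matrix.diagonal_mul, smul_eq_mul]
    refine Fin.cases ?_ (fun i' => ?_) i
    · simp only [T_0, T0_apply, s2_dil, Fin.cases_zero, one_mul]
      rw [Finset.mul_sum]
      refine Finset.sum_congr rfl fun j _ => ?_
      rw [Finset.mul_sum]
      refine Finset.sum_congr rfl fun k _ => ?_
      ring
    · simp only [T_s, T1_apply, s3_dil, Fin.cases_succ]
      rw [← mul_assoc, Finset.mul_sum]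
      refine Finset.sum_congr rfl fun j _ => ?_
      rw [Finset.mul_sum]
      refine Finset.sum_congr rfl fun k _ => ?_
      ring
  hw := aw_dil s x

end dilLemmas

/-! ### The moment points -/

/-- value of the quadratic form `q_a` -/
noncomputable def qv (u : Fin n → ℝ) (a : Fin d) : ℝ := ∑ j, ∑ k, q a j k * (u j * u k)

/-- `(1,u)` -/
def uh (u : Fin n → ℝ) : Fin (n + 1) → ℝ := Fin.cons 1 u

@[simp] theorem uh_0 (u : Fin n → ℝ) : uh u 0 = 1 := rfl
@[simp] theorem uh_s (u : Fin n → ℝ) (i : Fin n) : uh u i.succ = u i := rfl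

section zLemmas
variable (u : Fin n → ℝ)

theorem a0_z : a0 (z q u) = 1 := by simp [z]
theorem a1_z (i : Fin n) : a1 i (z q u) = u i := by simp [z]
theorem s2_z (i j : Fin n) : s2 i j (z q u) = u i * u j := by
  simp only [s2_apply, z, a2_pt]; ring
theorem s3_z (i j k : Fin n) : s3 i j k (z q u) = u i * u j * u k := by
  simp only [s3_apply, z, a3_pt]; ring
theorem aw_z : aw (z q u) = ∑ a, (qv q u a) ^ 2 := by simp [z, qv]

theorem M_z (i j : Fin (n+1)) : M (z q u) i j = uh u i * uh u j := by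
  refine Fin.cases ?_ (fun i' => ?_) i <;> refine Fin.cases ?_ (fun j' => ?_) j
  · simp [a0_z]
  · simp [a1_z]
  · simp [a1_z]
  · simp [s2_z]

theorem T_z (i : Fin (n+1)) (a : Fin d) : T q (z q u) i a = uh u i * qv q u a := by
  refine Fin.cases ?_ (fun i' => ?_) i
  · simp only [T_0, T0_apply, s2_z, uh_0, one_mul, qv]
  · simp only [T_s, T1_apply, s3_z, uh_s, qv]
    rw [Finset.mul_sum]
    refine Finset.sum_congr rfl fun j _ => ?_
    rw [Finset.mul_sum]
    refine Finset.sum_congr rfl fun k _ => ?_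
    ring

theorem qv_add (hq : ∀ a, (q a).IsSymm) (b : Fin n → ℝ) (a : Fin d) :
    qv q (u + b) a = qv q u a + ∑ i, uh u i * R q b i a := by
  have hqs : ∀ j k, q a j k = q a k j := fun j k => (hq a).apply k j
  rw [Fin.sum_univ_succ]
  simp only [uh_0, one_mul, uh_s, R_0, R_s, qv, Matrix.mulVec, dotProduct, Pi.add_apply]
  have e1 : ∑ j, ∑ k, q a j k * ((u j + b j) * (u k + b k)) =
      (∑ j, ∑ k, q a j k * (u j * u k)) + (∑ j, ∑ k, q a j k * (b j * b k)) +
      (∑ j, ∑ k, q a j k * (u j * b k)) + (∑ j, ∑ k, q a j k * (b j * u k)) := by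
    simp only [← Finset.sum_add_distrib]
    refine Finset.sum_congr rfl fun j _ => Finset.sum_congr rfl fun k _ => ?_
    ring
  have e2 : ∑ j, ∑ k, q a j k * (b j * u k) = ∑ j, ∑ k, q a j k * (u j * b k) := by
    rw [Finset.sum_comm]
    refine Finset.sum_congr rfl fun j _ => Finset.sum_congr rfl fun k _ => ?_
    rw [hqs k j]; ring
  have e3 : ∑ j, u j * (2 * ∑ k, q a j k * b k) = 2 * ∑ j, ∑ k, q a j k * (u j * b k) := by
    rw [Finset.mul_sum]
    refine Finset.sum_congr rfl fun j _ => ?_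
    rw [Finset.mul_sum, Finset.mul_sum, Finset.mul_sum]
    refine Finset.sum_congr rfl fun k _ => ?_
    ring
  rw [e1, e2, e3]
  ring

theorem trans_z (hq : ∀ a, (q a).IsSymm) (b : Fin n → ℝ) :
    trans q b (z q u) = z q (u + b) := by
  refine ext_coord ?_ ?_ ?_ ?_ ?_
  · rw [a0_trans, a0_z, a0_z]
  · intro i
    rw [a1_trans, a1_z, a0_z, a1_z]
    simp
  · intro i j
    have : a2 i j (trans q b (z q u)) = s2 i j (z q u) + b j * a1 i (z q u) +
        b i * a1 j (z q u) + (b i * b j) * a0 (z q u) := by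
      simp [trans]
    rw [this, s2_z, a1_z, a1_z, a0_z]
    simp only [z, a2_pt, Pi.add_apply]
    ring
  · intro i j k
    have : a3 i j k (trans q b (z q u)) = s3 i j k (z q u) + b k * s2 i j (z q u) +
        b j * s2 i k (z q u) + b i * s2 j k (z q u) + (b j * b k) * a1 i (z q u) +
        (b i * b k) * a1 j (z q u) + (b i * b j) * a1 k (z q u) +
        (b i * b j * b k) * a0 (z q u) := by
      simp [trans]
    rw [this, s3_z, s2_z, s2_z, s2_z, a1_z, a1_z, a1_z, a0_z]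
    simp only [z, a3_pt, Pi.add_apply]
    ring
  · rw [aw_trans, wT_apply, aw_z, aw_z]
    have e1 : ((R q b)ᵀ * T q (z q u)).trace = ∑ a, (∑ i, uh u i * R q b i a) * qv q u a := by
      simp only [Matrix.trace, Matrix.diag_apply, Matrix.mul_apply, Matrix.transpose_apply, T_z]
      refine Finset.sum_congr rfl fun a _ => ?_
      rw [Finset.sum_mul]
      refine Finset.sum_congr rfl fun i _ => ?_
      ring
    have e2 : ((R q b)ᵀ * M (z q u) * R q b).trace = ∑ a, (∑ i, uh u i * R q b i a) ^ 2 := by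
      simp only [Matrix.trace, Matrix.diag_apply, Matrix.mul_apply, Matrix.transpose_apply, M_z]
      refine Finset.sum_congr rfl fun a _ => ?_
      rw [sq, Finset.sum_mul_sum, Finset.sum_comm]
      refine Finset.sum_congr rfl fun j _ => ?_
      rw [Finset.sum_mul]
      refine Finset.sum_congr rfl fun i _ => ?_
      ring
    rw [e1, e2, Finset.mul_sum, ← Finset.sum_add_distrib, ← Finset.sum_add_distrib]
    refine Finset.sum_congr rfl fun a _ => ?_
    rw [qv_add q u hq b a]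
    ring

theorem dil_z (s : ℝ) : dil s (z q u) = z q (s • u) := by
  refine ext_coord ?_ ?_ ?_ ?_ ?_
  · rw [a0_dil, a0_z, a0_z]
  · intro i
    rw [a1_dil, a1_z, a1_z]
    simp
  · intro i j
    simp only [dil, ptL_apply, z, a2_pt, LinearMap.smul_apply, smul_eq_mul, Pi.smul_apply]
    ring
  · intro i j k
    simp only [dil, ptL_apply, z, a3_pt, LinearMap.smul_apply, smul_eq_mul, Pi.smul_apply]
    ring
  · rw [aw_dil, aw_z, aw_z, Finset.mul_sum]
    refine Finset.sum_congr rfl fun a _ => ?_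
    have : qv q (s • u) a = s ^ 2 * qv q u a := by
      simp only [qv, Pi.smul_apply, smul_eq_mul]
      rw [Finset.mul_sum]
      refine Finset.sum_congr rfl fun j _ => ?_
      rw [Finset.mul_sum]
      refine Finset.sum_congr rfl fun k _ => ?_
      ring
    rw [this]
    ring

end zLemmas

/-- the map sending `z (b + s u)` to `z u` -/
noncomputable def gmap (b : Fin n → ℝ) (s : ℝ) : (Fin (mm n) → ℝ) →ₗ[ℝ] (Fin (mm n) → ℝ) :=
  dil s⁻¹ ∘ₗ trans q (-b)

theorem gmap_z (hq : ∀ a, (q a).IsSymm) (b : Fin n → ℝ) (s : ℝ) (hs : s ≠ 0)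
    (u : Fin n → ℝ) : gmap q b s (z q (b + s • u)) = z q u := by
  unfold gmap
  rw [LinearMap.comp_apply, trans_z q _ hq, dil_z]
  congr 1
  funext i
  simp only [Pi.smul_apply, Pi.add_apply, Pi.neg_apply, smul_eq_mul]
  field_simp
  ring

theorem dil_bound (s : ℝ) (hs : 0 < s) (hs1 : s ≤ 1) (x : Fin (mm n) → ℝ) :
    ‖dil s⁻¹ x‖ ≤ (s⁻¹) ^ 4 * ‖x‖ := by
  have h1 : 1 ≤ s⁻¹ := (one_le_inv₀ hs).2 hs1
  have hp : ∀ k : ℕ, k ≤ 4 → (s⁻¹) ^ k ≤ (s⁻¹) ^ 4 := fun k hk => pow_le_pow_right₀ h1 hk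
  rw [pi_norm_le_iff_of_nonneg (by positivity)]
  intro i
  obtain ⟨k, rfl⟩ := (nu n).surjective i
  have hx : ∀ j, ‖x j‖ ≤ ‖x‖ := norm_le_pi_norm x
  have gen : ∀ (k : ℕ) (j : Fin (mm n)), k ≤ 4 → ‖(s⁻¹) ^ k * x j‖ ≤ (s⁻¹) ^ 4 * ‖x‖ := by
    intro k j hk
    rw [norm_mul, Real.norm_of_nonneg (by positivity)]
    exact mul_le_mul (hp k hk) (hx j) (norm_nonneg _) (by positivity)
  rcases k with ⟨⟩ | i | ⟨i, j⟩ | ⟨i, j, k⟩ | ⟨⟩
  · have h := gen 0 (nu n (Sum.inl ())) (by norm_num)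
    rw [pow_zero, one_mul] at h
    have e : dil s⁻¹ x (nu n (Sum.inl ())) = x (nu n (Sum.inl ())) := a0_dil s⁻¹ x
    rw [e]; exact h
  · have h := gen 1 (nu n (Sum.inr (Sum.inl i))) (by norm_num)
    rw [pow_one] at h
    have e : dil s⁻¹ x (nu n (Sum.inr (Sum.inl i))) = s⁻¹ * x (nu n (Sum.inr (Sum.inl i))) :=
      a1_dil s⁻¹ x i
    rw [e]; exact h
  · have h := gen 2 (nu n (Sum.inr (Sum.inr (Sum.inl (i, j))))) (by norm_num)
    have e : a2 i j (dil s⁻¹ x) = (s⁻¹) ^ 2 * a2 i j x := by simp [dil]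
    have e' : dil s⁻¹ x (nu n (Sum.inr (Sum.inr (Sum.inl (i, j))))) =
      (s⁻¹) ^ 2 * x (nu n (Sum.inr (Sum.inr (Sum.inl (i, j))))) := e
    rw [e']; exact h
  · have h := gen 3 (nu n (Sum.inr (Sum.inr (Sum.inr (Sum.inl (i, j, k)))))) (by norm_num)
    have e : a3 i j k (dil s⁻¹ x) = (s⁻¹) ^ 3 * a3 i j k x := by simp [dil]
    have e' : dil s⁻¹ x (nu n (Sum.inr (Sum.inr (Sum.inr (Sum.inl (i, j, k)))))) =
      (s⁻¹) ^ 3 * x (nu n (Sum.inr (Sum.inr (Sum.inr (Sum.inl (i, j, k)))))) := e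
    rw [e']; exact h
  · have h := gen 4 (nu n (Sum.inr (Sum.inr (Sum.inr (Sum.inr ()))))) (by norm_num)
    have e : aw (dil s⁻¹ x) = (s⁻¹) ^ 4 * aw x := aw_dil s⁻¹ x
    have e' : dil s⁻¹ x (nu n (Sum.inr (Sum.inr (Sum.inr (Sum.inr ()))))) =
      (s⁻¹) ^ 4 * x (nu n (Sum.inr (Sum.inr (Sum.inr (Sum.inr ()))))) := e
    rw [e']; exact h

/-- norm bound for `gmap`: `‖g_{b,s} x‖ ≤ C s⁻⁴` with `C = ‖trans (-b) x‖` -/
theorem gmap_bound (b : Fin n → ℝ) (s : ℝ) (hs : 0 < s) (hs1 : s ≤ 1) (x : Fin (mm n) → ℝ) :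
    ‖gmap q b s x‖ ≤ (s⁻¹) ^ 4 * ‖trans q (-b) x‖ := dil_bound s hs hs1 _

/-! ### The base point -/

/-- the base point `e` -/
noncomputable def e : Fin (mm n) → ℝ :=
  pt 1 0 (fun i j => if i = j then 1 else 0) (fun _ _ _ => 0)
    (∑ a : Fin d, (∑ j, q a j j) ^ 2 + 1)

theorem s2_e (i j : Fin n) : s2 i j (e q) = if i = j then 1 else 0 := by
  simp only [s2_apply, e, a2_pt]
  by_cases h : i = j
  · subst h; simp
  · rw [if_neg h, if_neg (Ne.symm h)]; simp

theorem M_e : M (e q) = 1 := by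
  ext i j
  refine Fin.cases ?_ (fun i' => ?_) i <;> refine Fin.cases ?_ (fun j' => ?_) j
  · simp [e]
  · rw [M_0s, Matrix.one_apply_ne (Fin.succ_ne_zero j').symm]
    simp [e]
  · rw [M_s0, Matrix.one_apply_ne (Fin.succ_ne_zero i')]
    simp [e]
  · rw [M_ss, s2_e, Matrix.one_apply]
    simp [Fin.succ_inj]

theorem T_e_succ (i : Fin n) (a : Fin d) : T q (e q) i.succ a = 0 := by
  rw [T_s, T1_apply]
  simp [s3_apply, e]

theorem T_e_zero (a : Fin d) : T q (e q) 0 a = ∑ j, q a j j := by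
  rw [T_0, T0_apply]
  refine Finset.sum_congr rfl fun j _ => ?_
  simp [s2_e]

theorem aw_e : aw (e q) = ∑ a : Fin d, (∑ j, q a j j) ^ 2 + 1 := by simp [e]

theorem w_e : ∑ a, (T q (e q) 0 a) ^ 2 < aw (e q) := by
  rw [aw_e]
  simp only [T_e_zero]
  linarith

end Crest.Agent.R237.Model
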