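import Mathlib
import Crest.Agent.R237.Model2

/-!
Row 237 (S0367): the concrete model, part 3 (helper756): facts on `K0` and its closure.
`D` is any `HData` whose `M`, `T`, `w` are those of the model.
-/

set_option autoImplicit false

namespace Crest.Agent.R237.Model

open Matrix

variable {n d : ℕ} (q : Fin d → Matrix (Fin n) (Fin n) ℝ)

/-- `D` lives on the model. -/
structure OnModel (D : HData (mm n) n d) : Prop where
  hM : D.M = M
  hT : D.T = T q
  hw : D.w = aw
  hshift : ∀ X Y y, D.Xi (X + Res.shift q y) Y = D.Xi X Y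

section

variable {q} {D : HData (mm n) n d}

theorem F_eq_Fm (x : Fin (mm n) → ℝ) :
    D.F x = Inv.Fm D.phi (fun X => D.Xi X X) (D.M x) (D.T x) (D.w x) := rfl

theorem isUnit_det_of_posDef {N : Type} [Fintype N] [DecidableEq N] {A : Matrix N N ℝ}
    (hA : A.PosDef) : IsUnit A.det := isUnit_iff_ne_zero.mpr hA.det_pos.ne'

/-- translations preserve `K0` -/
theorem trans_K0 (h : OnModel q D) (hq : ∀ a, (q a).IsSymm) (b : Fin n → ℝ)
    {x : Fin (mm n) → ℝ} (hx : x ∈ D.K0) : trans q b x ∈ D.K0 := by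
  have ht := isTrans q hq b x
  obtain ⟨h1, h2⟩ := hx
  rw [F_eq_Fm, h.hM, h.hT, h.hw] at h2
  rw [h.hM] at h1
  refine ⟨?_, ?_⟩
  · rw [h.hM]
    exact ht.posDef h1
  · rw [F_eq_Fm, h.hM, h.hT, h.hw]
    rw [ht.Fm (isUnit_det_of_posDef h1) (M_symm x)]
    · exact h2
    · intro X
      rw [R_low, h.hshift, D.Xi_symm, h.hshift]

/-- dilations preserve `K0` -/
theorem dil_K0 (h : OnModel q D) {s : ℝ} (hs : s ≠ 0) {x : Fin (mm n) → ℝ} (hx : x ∈ D.K0) :
    dil s x ∈ D.K0 := by
  have ht := isDil q s x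
  obtain ⟨h1, h2⟩ := hx
  rw [F_eq_Fm, h.hM, h.hT, h.hw] at h2
  rw [h.hM] at h1
  refine ⟨?_, ?_⟩
  · rw [h.hM]
    exact ht.posDef hs h1
  · rw [F_eq_Fm, h.hM, h.hT, h.hw]
    rw [ht.Fm hs]
    · positivity
    · intro r X
      simp only [map_smul, LinearMap.smul_apply, smul_eq_mul]
      ring

theorem gmap_K0 (h : OnModel q D) (hq : ∀ a, (q a).IsSymm) (b : Fin n → ℝ) {s : ℝ}
    (hs : s ≠ 0) {x : Fin (mm n) → ℝ} (hx : x ∈ D.K0) : gmap q b s x ∈ D.K0 :=
  dil_K0 h (inv_ne_zero hs) (trans_K0 h hq (-b) hx)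

/-- a linear map preserving a set preserves its closure -/
theorem mapsTo_closure {m' : ℕ} (g : (Fin m' → ℝ) →ₗ[ℝ] (Fin m' → ℝ)) {K : Set (Fin m' → ℝ)}
    (hg : ∀ x ∈ K, g x ∈ K) {x : Fin m' → ℝ} (hx : x ∈ closure K) : g x ∈ closure K := by
  have hc : Continuous g := g.continuous_of_finiteDimensional
  exact map_mem_closure hc hx (fun y hy => hg y hy)

theorem trans_closure (h : OnModel q D) (hq : ∀ a, (q a).IsSymm) (b : Fin n → ℝ)
    {x : Fin (mm n) → ℝ} (hx : x ∈ closure D.K0) : trans q b x ∈ closure D.K0 :=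
  mapsTo_closure _ (fun _ hy => trans_K0 h hq b hy) hx

/-- **`hgK` of `NS.ns`.** -/
theorem gmap_closure (h : OnModel q D) (hq : ∀ a, (q a).IsSymm) (b : Fin n → ℝ) {s : ℝ}
    (hs : 0 < s) {x : Fin (mm n) → ℝ} (hx : x ∈ closure D.K0) :
    gmap q b s x ∈ closure D.K0 :=
  mapsTo_closure _ (fun _ hy => gmap_K0 h hq b hs.ne' hy) hx

/-! ### The moment points are in the closure -/

/-- the matrix `diag(1+ε, ε, …, ε)` -/
theorem M_z0 (ε : ℝ) : M (z q 0 + ε • e q) =
    Matrix.diagonal (Fin.cases (1 + ε) (fun _ => ε)) := by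
  ext i j
  rw [map_add, map_smul, M_e, Matrix.add_apply, M_z, Matrix.smul_apply, smul_eq_mul]
  refine Fin.cases ?_ (fun i' => ?_) i <;> refine Fin.cases ?_ (fun j' => ?_) j
  · simp
  · rw [Matrix.one_apply_ne (Fin.succ_ne_zero j').symm,
      Matrix.diagonal_apply_ne _ (Fin.succ_ne_zero j').symm]
    simp
  · rw [Matrix.one_apply_ne (Fin.succ_ne_zero i'),
      Matrix.diagonal_apply_ne _ (Fin.succ_ne_zero i')]
    simp
  · by_cases hij : i' = j'
    · subst hij; simp
    · have : i'.succ ≠ j'.succ := fun hh => hij (Fin.succ_inj.mp hh)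
      rw [Matrix.one_apply_ne this, Matrix.diagonal_apply_ne _ this]
      simp

theorem z0_mem (h : OnModel q D) {ε : ℝ} (hε : 0 < ε) : z q 0 + ε • e q ∈ D.K0 := by
  have hqv : ∀ a, qv q (0 : Fin n → ℝ) a = 0 := by
    intro a; simp [qv]
  have hT0 : ∀ a, T q (z q 0 + ε • e q) 0 a = ε * T q (e q) 0 a := by
    intro a
    rw [map_add, map_smul, Matrix.add_apply, T_z, hqv, Matrix.smul_apply, smul_eq_mul]
    ring
  have hT1 : ∀ i a, T q (z q 0 + ε • e q) (Fin.succ i) a = 0 := by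
    intro i a
    rw [map_add, map_smul, Matrix.add_apply, T_z, hqv, Matrix.smul_apply, T_e_succ]
    simp
  have hw0 : aw (z q 0 + ε • e q) = ε * aw (e q) := by
    rw [map_add, map_smul, aw_z, smul_eq_mul]
    simp [hqv]
  have hMd := M_z0 (q := q) ε
  have hpd : (M (z q 0 + ε • e q)).PosDef := by
    rw [hMd]
    refine Matrix.PosDef.diagonal ?_
    intro i
    refine Fin.cases ?_ (fun i' => ?_) i
    · show 0 < 1 + ε
      linarith
    · exact hε
  have hinv : (M (z q 0 + ε • e q))⁻¹ =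
      Matrix.diagonal (Fin.cases (1 + ε)⁻¹ (fun _ => ε⁻¹)) := by
    refine Matrix.inv_eq_right_inv ?_
    rw [hMd, Matrix.diagonal_mul_diagonal, ← Matrix.diagonal_one]
    congr 1
    funext i
    refine Fin.cases ?_ (fun i' => ?_) i
    · show (1 + ε) * (1 + ε)⁻¹ = 1
      exact mul_inv_cancel₀ (by linarith)
    · show ε * ε⁻¹ = 1
      exact mul_inv_cancel₀ hε.ne'
  have hlin : Inv.linM (M (z q 0 + ε • e q)) (T q (z q 0 + ε • e q)) = 0 := by
    unfold Inv.linM
    ext i a
    rw [hinv, Matrix.submatrix_apply, Matrix.diagonal_mul]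
    simp only [id, Matrix.zero_apply]
    rw [hT1]
    simp
  have htr : ((T q (z q 0 + ε • e q))ᵀ * (M (z q 0 + ε • e q))⁻¹ *
      T q (z q 0 + ε • e q)).trace = ε ^ 2 * (1 + ε)⁻¹ * ∑ a, (T q (e q) 0 a) ^ 2 := by
    rw [hinv]
    simp only [Matrix.trace, Matrix.diag_apply]
    rw [Finset.mul_sum]
    refine Finset.sum_congr rfl fun a _ => ?_
    rw [Matrix.mul_apply, Fin.sum_univ_succ]
    simp only [hT1, mul_zero, Finset.sum_const_zero, add_zero, Matrix.mul_diagonal,
      Matrix.transpose_apply]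
    rw [hT0]
    simp only [Fin.cases_zero]
    ring
  refine ⟨by rw [h.hM]; exact hpd, ?_⟩
  rw [F_eq_Fm, h.hM, h.hT, h.hw]
  unfold Inv.Fm
  rw [hlin, htr, hw0]
  have h0 : (fun X => D.Xi X X) (0 : Matrix (Fin n) (Fin d) ℝ) = 0 := by simp
  rw [h0, zero_div, add_zero]
  refine mul_pos D.phi_pos ?_
  have hwe := w_e q
  have hS : 0 ≤ ∑ a, (T q (e q) 0 a) ^ 2 := Finset.sum_nonneg fun a _ => sq_nonneg _
  set S := ∑ a, (T q (e q) 0 a) ^ 2 with hSdef
  have h1 : ε ^ 2 * (1 + ε)⁻¹ ≤ ε := by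
    rw [← div_eq_mul_inv, div_le_iff₀ (by linarith)]
    nlinarith
  have h2 : ε ^ 2 * (1 + ε)⁻¹ * S ≤ ε * S := mul_le_mul_of_nonneg_right h1 hS
  have h3 : ε * S < ε * aw (e q) := mul_lt_mul_of_pos_left hwe hε
  linarith

theorem z0_closure (h : OnModel q D) : z q 0 ∈ closure D.K0 := by
  rw [mem_closure_iff_seq_limit]
  refine ⟨fun k => z q 0 + (1 / ((k : ℝ) + 1)) • e q, fun k => z0_mem h (by positivity), ?_⟩
  have h1 : Filter.Tendsto (fun k : ℕ => z q 0 + (1 / ((k : ℝ) + 1)) • e q) Filter.atTop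
      (nhds (z q 0 + (0 : ℝ) • e q)) :=
    (tendsto_const_nhds).add ((tendsto_one_div_add_atTop_nhds_zero_nat).smul_const _)
  simpa using h1

/-- **all moment points are in the closure of `K0`** -/
theorem z_closure (h : OnModel q D) (hq : ∀ a, (q a).IsSymm) (u : Fin n → ℝ) :
    z q u ∈ closure D.K0 := by
  have := trans_closure h hq u (z0_closure h)
  rwa [trans_z q _ hq, zero_add] at this

/-! ### Continuity of `F` and exclusion -/

theorem continuous_Xi : Continuous fun X : Matrix (Fin n) (Fin d) ℝ => D.Xi X X := by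
  have h1 : (fun X : Matrix (Fin n) (Fin d) ℝ => D.Xi X X) =
      fun X => ∑ i, ∑ a, X i a * D.Xi (Matrix.single i a 1) X := by
    funext X
    have hX : D.Xi X = ∑ i, ∑ a, X i a • D.Xi (Matrix.single i a 1) := by
      conv_lhs => rw [Matrix.matrix_eq_sum_single X]
      rw [map_sum]
      refine Finset.sum_congr rfl fun i _ => ?_
      rw [map_sum]
      refine Finset.sum_congr rfl fun a _ => ?_
      have h2 : Matrix.single i a (X i a) = X i a • (Matrix.single i a (1:ℝ)) := by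
        rw [Matrix.smul_single, smul_eq_mul, mul_one]
      rw [h2, map_smul]
    rw [hX]
    simp only [LinearMap.sum_apply, LinearMap.smul_apply, smul_eq_mul]
  rw [h1]
  refine continuous_finsetSum _ fun i _ => continuous_finsetSum _ fun a _ => ?_
  refine Continuous.mul ?_ ?_
  · exact continuous_id.matrix_elem i a
  · exact (D.Xi (Matrix.single i a 1)).continuous_of_finiteDimensional

theorem F_eq_adj (y : Fin (mm n) → ℝ) : D.F y =
    D.phi * (D.w y - ((D.T y)ᵀ * (D.M y).adjugate * D.T y).trace / (D.M y).det) +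
    D.Xi (((D.M y).adjugate * D.T y).submatrix Fin.succ id)
      (((D.M y).adjugate * D.T y).submatrix Fin.succ id) /
      ((D.M y).det * lowTr (D.M y).adjugate) := by
  have hinv : (D.M y)⁻¹ = ((D.M y).det)⁻¹ • (D.M y).adjugate := by
    rw [Matrix.inv_def, Ring.inverse_eq_inv']
  have h1 : ((D.T y)ᵀ * (D.M y)⁻¹ * D.T y).trace =
      ((D.T y)ᵀ * (D.M y).adjugate * D.T y).trace / (D.M y).det := by
    rw [hinv, Matrix.mul_smul, Matrix.smul_mul, Matrix.trace_smul, smul_eq_mul, div_eq_inv_mul]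
  have h2 : D.lin y = ((D.M y).det)⁻¹ • (((D.M y).adjugate * D.T y).submatrix Fin.succ id) := by
    unfold HData.lin
    rw [hinv, Matrix.smul_mul]
    rfl
  have h3 : lowTr (D.M y)⁻¹ = ((D.M y).det)⁻¹ * lowTr (D.M y).adjugate := by
    rw [hinv]
    unfold lowTr
    rw [Finset.mul_sum]
    rfl
  unfold HData.F
  rw [h1, h2, h3]
  simp only [map_smul, LinearMap.smul_apply, smul_eq_mul]
  congr 1
  by_cases hd : (D.M y).det = 0
  · rw [hd]; simp
  · by_cases hl : lowTr (D.M y).adjugate = 0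
    · rw [hl]; simp
    · field_simp

theorem continuousAt_F (x : Fin (mm n) → ℝ) (hdet : (D.M x).det ≠ 0)
    (htr : lowTr (D.M x)⁻¹ ≠ 0) : ContinuousAt D.F x := by
  have hM : Continuous fun y => D.M y := D.M.continuous_of_finiteDimensional
  have hT : Continuous fun y => D.T y := D.T.continuous_of_finiteDimensional
  have hw : Continuous fun y => D.w y := D.w.continuous_of_finiteDimensional
  have hMd : Continuous fun y => (D.M y).det := hM.matrix_det
  have hadj : Continuous fun y => (D.M y).adjugate := hM.matrix_adjugate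
  have hlow : Continuous fun y => lowTr (D.M y).adjugate := by
    unfold lowTr
    exact continuous_finsetSum _ fun i _ => hadj.matrix_elem _ _
  have h3 : lowTr (D.M x).adjugate ≠ 0 := by
    intro h0
    apply htr
    have hinv : (D.M x)⁻¹ = ((D.M x).det)⁻¹ • (D.M x).adjugate := by
      rw [Matrix.inv_def, Ring.inverse_eq_inv']
    have h4 : lowTr (D.M x)⁻¹ = ((D.M x).det)⁻¹ * lowTr (D.M x).adjugate := by
      rw [hinv]
      unfold lowTr
      rw [Finset.mul_sum]
      rfl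
    rw [h4, h0, mul_zero]
  have hY : Continuous fun y => ((D.M y).adjugate * D.T y).submatrix Fin.succ (id : Fin d → Fin d) :=
    (hadj.matrix_mul hT).matrix_submatrix _ _
  have hN1 : Continuous fun y => ((D.T y)ᵀ * (D.M y).adjugate * D.T y).trace :=
    ((hT.matrix_transpose.matrix_mul hadj).matrix_mul hT).matrix_trace
  have hN2 : Continuous fun y => D.Xi (((D.M y).adjugate * D.T y).submatrix Fin.succ id)
      (((D.M y).adjugate * D.T y).submatrix Fin.succ id) := continuous_Xi.comp hY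
  have hF : D.F = fun y => D.phi * (D.w y - ((D.T y)ᵀ * (D.M y).adjugate * D.T y).trace /
      (D.M y).det) + D.Xi (((D.M y).adjugate * D.T y).submatrix Fin.succ id)
      (((D.M y).adjugate * D.T y).submatrix Fin.succ id) /
      ((D.M y).det * lowTr (D.M y).adjugate) := funext fun y => F_eq_adj y
  rw [hF]
  refine ContinuousAt.add ?_ ?_
  · exact continuousAt_const.mul (hw.continuousAt.sub (hN1.continuousAt.div hMd.continuousAt hdet))
  · exact hN2.continuousAt.div (hMd.mul hlow).continuousAt (mul_ne_zero hdet h3)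

theorem lowTr_inv_pos {A : Matrix (Fin (n+1)) (Fin (n+1)) ℝ} (hA : A.PosDef) (hn : 0 < n) :
    0 < lowTr A⁻¹ := by
  unfold lowTr
  have h1 : (A⁻¹).PosDef := hA.inv
  have : Nonempty (Fin n) := ⟨⟨0, hn⟩⟩
  refine Finset.sum_pos (fun i _ => ?_) Finset.univ_nonempty
  exact h1.diag_pos

/-- **Exclusion**: a point with `M` positive definite and `F < 0` is not in the closure. -/
theorem not_mem_closure {x : Fin (mm n) → ℝ} (hpd : (D.M x).PosDef) (hF : D.F x < 0) :
    x ∉ closure D.K0 := by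
  intro hx
  have hcont := continuousAt_F (D := D) x hpd.det_pos.ne'
    (lowTr_inv_pos hpd D.n_pos).ne'
  have hev : ∀ᶠ y in nhds x, D.F y < 0 := hcont.eventually (gt_mem_nhds hF)
  rw [mem_closure_iff_frequently] at hx
  obtain ⟨y, hy1, hy2⟩ := (hx.and_eventually hev).exists
  exact absurd hy1.2 (not_lt.mpr hy2.le)

end

/-! ### Polynomial form of the moment points and the hypotheses of `NS.ns` -/

/-- the polynomial `u^T q_a u` -/
noncomputable def qP (a : Fin d) : MvPolynomial (Fin n) ℝ :=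
  ∑ i, ∑ j, MvPolynomial.C (q a i j) * (MvPolynomial.X i * MvPolynomial.X j)

/-- the coordinates of `z u` as polynomials -/
noncomputable def zP : Fin (mm n) → MvPolynomial (Fin n) ℝ := fun i =>
  Sum.elim (fun _ => 1) (Sum.elim (fun i => MvPolynomial.X i)
    (Sum.elim (fun p => MvPolynomial.X p.1 * MvPolynomial.X p.2)
    (Sum.elim (fun p => MvPolynomial.X p.1 * MvPolynomial.X p.2.1 * MvPolynomial.X p.2.2)
      (fun _ => ∑ a, qP q a ^ 2)))) ((nu n).symm i)

theorem eval_qP (u : Fin n → ℝ) (a : Fin d) : MvPolynomial.eval u (qP q a) = qv q u a := by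
  simp [qP, qv]

theorem eval_zP (u : Fin n → ℝ) (i : Fin (mm n)) : MvPolynomial.eval u (zP q i) = z q u i := by
  unfold zP z pt
  rcases h : (nu n).symm i with ⟨⟩ | i | ⟨i, j⟩ | ⟨i, j, k⟩ | ⟨⟩
  · simp
  · simp
  · simp
  · simp
  · simp [eval_qP, qv]

theorem eval_zP' (u : Fin n → ℝ) : (fun i => MvPolynomial.eval u (zP q i)) = z q u :=
  funext fun i => eval_zP q u i

theorem qP_homog (a : Fin d) : (qP q a).IsHomogeneous 2 := by
  unfold qP
  refine MvPolynomial.IsHomogeneous.sum _ _ _ fun i _ => ?_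
  refine MvPolynomial.IsHomogeneous.sum _ _ _ fun j _ => ?_
  exact ((MvPolynomial.isHomogeneous_X ℝ i).mul (MvPolynomial.isHomogeneous_X ℝ j)).C_mul _

theorem zP_deg (i : Fin (mm n)) : (zP q i).totalDegree ≤ 4 := by
  unfold zP
  rcases (nu n).symm i with ⟨⟩ | i | ⟨i, j⟩ | ⟨i, j, k⟩ | ⟨⟩
  · simp
  · simp only [Sum.elim_inr, Sum.elim_inl]
    exact (MvPolynomial.isHomogeneous_X ℝ i).totalDegree_le.trans (by norm_num)
  · simp only [Sum.elim_inr, Sum.elim_inl]
    exact (((MvPolynomial.isHomogeneous_X ℝ i).mul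
      (MvPolynomial.isHomogeneous_X ℝ j)).totalDegree_le).trans (by norm_num)
  · simp only [Sum.elim_inr, Sum.elim_inl]
    exact ((((MvPolynomial.isHomogeneous_X ℝ i).mul
      (MvPolynomial.isHomogeneous_X ℝ j)).mul
      (MvPolynomial.isHomogeneous_X ℝ k)).totalDegree_le).trans (by norm_num)
  · simp only [Sum.elim_inr]
    have h1 : (∑ a, qP q a ^ 2).IsHomogeneous (2 * 2) :=
      MvPolynomial.IsHomogeneous.sum _ _ _ fun a _ => (qP_homog q a).pow 2
    exact h1.totalDegree_le.trans (by norm_num)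

/-- **`hgz` of `NS.ns`** -/
theorem gmap_zP (hq : ∀ a, (q a).IsSymm) (b : Fin n → ℝ) (s : ℝ) (hs : 0 < s)
    (u : Fin n → ℝ) :
    gmap q b s (fun i => MvPolynomial.eval (fun j => b j + s * u j) (zP q i)) =
      fun i => MvPolynomial.eval u (zP q i) := by
  rw [eval_zP', eval_zP']
  exact gmap_z q hq b s hs.ne' u

/-- **`hgb` of `NS.ns`** -/
theorem gmap_hgb (b : Fin n → ℝ) (x : Fin (mm n) → ℝ) :
    ∃ C : ℝ, ∀ s, 0 < s → s ≤ 1 → ∀ i, s ^ 4 * |gmap q b s x i| ≤ C := by
  refine ⟨‖trans q (-b) x‖, fun s hs hs1 i => ?_⟩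
  have h1 := gmap_bound q b s hs hs1 x
  have h2 : |gmap q b s x i| ≤ ‖gmap q b s x‖ := by
    rw [← Real.norm_eq_abs]; exact norm_le_pi_norm _ i
  have h3 : s ^ 4 * |gmap q b s x i| ≤ s ^ 4 * ((s⁻¹) ^ 4 * ‖trans q (-b) x‖) :=
    mul_le_mul_of_nonneg_left (h2.trans h1) (by positivity)
  refine h3.trans (le_of_eq ?_)
  rw [← mul_assoc, ← mul_pow, mul_inv_cancel₀ hs.ne', one_pow, one_mul]

end Crest.Agent.R237.Model
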