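import Mathlib

/-!
Generic jets: a ring homomorphism `σ : ℝ →+* ℝ[x₁..x_c]/(x)^J`, the identity modulo `(x)`,
fixing a given countable set of reals and moving a generic point `b` to `b + x`.
-/

set_option autoImplicit false

namespace Crest.Agent.R237.Sigma

open MvPolynomial

/-- The ideal of polynomials without constant term. -/
noncomputable abbrev mI (c : ℕ) : Ideal (MvPolynomial (Fin c) ℝ) :=
  idealOfVars (Fin c) ℝ

theorem mem_mI {c : ℕ} (p : MvPolynomial (Fin c) ℝ) : p ∈ mI c ↔ constantCoeff p = 0 := by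
  have h := mem_pow_idealOfVars_iff' (σ := Fin c) (R := ℝ) 1 p
  rw [pow_one] at h
  rw [h]
  constructor
  · intro h
    exact h 0 (by simp)
  · intro h x hx
    have : x = 0 := by
      have : Finsupp.degree x = 0 := by omega
      exact (Finsupp.degree_eq_zero_iff x).mp this
    rw [this]; exact h

/-- Truncated polynomial ring. -/
abbrev Jet (c J : ℕ) : Type := MvPolynomial (Fin c) ℝ ⧸ (mI c) ^ J

/-- The residue map. -/
noncomputable def res (c J : ℕ) (hJ : 0 < J) : Jet c J →+* ℝ :=
  Ideal.Quotient.lift ((mI c) ^ J) (constantCoeff (R := ℝ) (σ := Fin c)) (by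
    intro a ha
    have : a ∈ mI c := Ideal.pow_le_self hJ.ne' ha
    exact (mem_mI a).mp this)

theorem res_mk (c J : ℕ) (hJ : 0 < J) (p : MvPolynomial (Fin c) ℝ) :
    res c J hJ (Ideal.Quotient.mk _ p) = constantCoeff p := by
  unfold res
  exact Ideal.Quotient.lift_mk _ _ _

theorem res_surj (c J : ℕ) (hJ : 0 < J) : Function.Surjective (res c J hJ) := by
  intro a
  exact ⟨Ideal.Quotient.mk _ (C a), by simp [res_mk]⟩

theorem res_ker_nilp (c J : ℕ) (hJ : 0 < J) : IsNilpotent (RingHom.ker (res c J hJ)) := by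
  refine ⟨J, ?_⟩
  have h1 : RingHom.ker (res c J hJ) = (mI c).map (Ideal.Quotient.mk ((mI c) ^ J)) := by
    apply le_antisymm
    · intro a ha
      obtain ⟨p, rfl⟩ := Ideal.Quotient.mk_surjective a
      rw [RingHom.mem_ker, res_mk] at ha
      exact Ideal.mem_map_of_mem _ ((mem_mI p).mpr ha)
    · rw [Ideal.map_le_iff_le_comap]
      intro p hp
      rw [Ideal.mem_comap, RingHom.mem_ker, res_mk]
      exact (mem_mI p).mp hp
  rw [h1, ← Ideal.map_pow, Ideal.zero_eq_bot, Ideal.map_quotient_self]

/-- There are arbitrarily many reals algebraically independent over a countable field. -/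
theorem exists_algInd (K : Subfield ℝ) (hK : Countable K) (c : ℕ) :
    ∃ b : Fin c → ℝ, AlgebraicIndependent K b := by
  obtain ⟨s, hs⟩ := exists_isTranscendenceBasis K ℝ
  have hinf : s.Infinite := by
    intro hfin
    have hc : Countable s := hfin.countable.to_subtype
    by_cases hne : Nonempty s
    · have h := hs.lift_cardinalMk_eq_max_lift
      simp only [Cardinal.lift_id, Cardinal.mk_real] at h
      have h2 : Cardinal.mk K ⊔ Cardinal.mk s ⊔ Cardinal.aleph0 ≤ Cardinal.aleph0 := by
        simp only [sup_le_iff, le_refl, and_true]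
        exact ⟨Cardinal.mk_le_aleph0_iff.mpr hK, Cardinal.mk_le_aleph0_iff.mpr hc⟩
      rw [← h] at h2
      exact absurd h2 (not_le.mpr Cardinal.aleph0_lt_continuum)
    · have he : IsEmpty s := not_nonempty_iff.mp hne
      have halg : Algebra.IsAlgebraic K ℝ := by
        have := hs.isEmpty_iff_isAlgebraic.mp he
        exact this
      have h3 := Algebra.IsAlgebraic.cardinalMk_le_max K ℝ
      have h4 : Cardinal.mk K ⊔ Cardinal.aleph0 ≤ Cardinal.aleph0 := by
        simp only [sup_le_iff, le_refl, and_true]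
        exact Cardinal.mk_le_aleph0_iff.mpr hK
      have h5 := h3.trans h4
      rw [Cardinal.mk_real] at h5
      exact absurd h5 (not_le.mpr Cardinal.aleph0_lt_continuum)
  have := hinf.to_subtype
  obtain ⟨f⟩ : Nonempty (ℕ ↪ s) := ⟨Infinite.natEmbedding s⟩
  refine ⟨fun i => (f i : ℝ), ?_⟩
  exact hs.1.comp (fun i : Fin c => f i) (fun i j h => Fin.ext (f.injective h))

section
variable (K : Subfield ℝ) {c : ℕ} (b : Fin c → ℝ)

open scoped IntermediateField.algebraAdjoinAdjoin in
theorem smooth_real (_hb : AlgebraicIndependent K b) :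
    Algebra.FormallySmooth (Algebra.adjoin K (Set.range b)) ℝ := by
  have h1 : Algebra.FormallySmooth (Algebra.adjoin K (Set.range b))
      (IntermediateField.adjoin K (Set.range b)) :=
    .of_isLocalization (nonZeroDivisors _)
  obtain ⟨t, ht⟩ := exists_isTranscendenceBasis (IntermediateField.adjoin K (Set.range b)) ℝ
  have h2 : Algebra.IsAlgebraic (IntermediateField.adjoin
      (IntermediateField.adjoin K (Set.range b)) (Set.range ((↑) : t → ℝ))) ℝ :=
    ht.isAlgebraic_field
  have h3 : Algebra.FormallySmooth (IntermediateField.adjoin K (Set.range b)) ℝ :=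
    Algebra.FormallySmooth.of_algebraicIndependent_of_isSeparable ht.1
  exact Algebra.FormallySmooth.comp _ (IntermediateField.adjoin K (Set.range b)) _

end

/-- The generic jet homomorphism. -/
theorem exists_sigma (S : Set ℝ) (hS : S.Countable) (c J : ℕ) (hJ : 0 < J) :
    ∃ (b : Fin c → ℝ) (σ : ℝ →+* Jet c J),
      (∀ a, res c J hJ (σ a) = a) ∧
      (∀ a ∈ S, σ a = Ideal.Quotient.mk _ (C a)) ∧
      (∀ i, σ (b i) = Ideal.Quotient.mk _ (C (b i) + X i)) := by
  let K : Subfield ℝ := Subfield.closure S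
  have hK : Countable K := by
    have := hS.to_subtype
    have h := Subfield.cardinalMk_closure_le_max S
    exact Cardinal.mk_le_aleph0_iff.mp (h.trans (max_le (Cardinal.mk_le_aleph0_iff.mpr this) le_rfl))
  obtain ⟨b, hb⟩ := exists_algInd K hK c
  let P := Algebra.adjoin K (Set.range b)
  -- the structure map of the truncated ring
  let algKO : Algebra K (Jet c J) :=
    ((Ideal.Quotient.mk ((mI c) ^ J)).comp ((C : ℝ →+* MvPolynomial (Fin c) ℝ).comp
      (algebraMap K ℝ))).toAlgebra
  let φ : MvPolynomial (Fin c) K →ₐ[K] Jet c J :=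
    MvPolynomial.aeval (fun i => Ideal.Quotient.mk ((mI c) ^ J) (C (b i) + X i))
  let ψ : P →+* Jet c J := (φ : MvPolynomial (Fin c) K →+* Jet c J).comp
    (hb.aevalEquiv.symm : P →+* MvPolynomial (Fin c) K)
  let algPO : Algebra P (Jet c J) := ψ.toAlgebra
  have hsm : Algebra.FormallySmooth P ℝ := smooth_real K b hb
  have hψ : ∀ p : P, res c J hJ (ψ p) = (p : ℝ) := by
    intro p
    obtain ⟨q, rfl⟩ := hb.aevalEquiv.surjective p
    have e1 : ψ (hb.aevalEquiv q) = φ q := by
      simp [ψ]
    have e2 : ((hb.aevalEquiv q : P) : ℝ) = aeval b q := hb.algebraMap_aevalEquiv q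
    rw [e1, e2]
    have e3 : (res c J hJ).comp (φ : MvPolynomial (Fin c) K →+* Jet c J) =
        (aeval b : MvPolynomial (Fin c) K →ₐ[K] ℝ) := by
      apply MvPolynomial.ringHom_ext
      · intro r
        have : φ (C r) = Ideal.Quotient.mk ((mI c) ^ J) (C (r : ℝ)) := by
          rw [MvPolynomial.algHom_C]; rfl
        simp [this, res_mk]
        rfl
      · intro i
        simp [φ, res_mk]
    exact congrArg (fun f => f q) e3
  let g : Jet c J →ₐ[P] ℝ := { res c J hJ with commutes' := fun p => hψ p }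
  have hg : Function.Surjective g := res_surj c J hJ
  have hgn : IsNilpotent (RingHom.ker (g : Jet c J →+* ℝ)) := res_ker_nilp c J hJ
  let τ : ℝ →ₐ[P] Jet c J :=
    Algebra.FormallySmooth.liftOfSurjective (AlgHom.id P ℝ) g hg hgn
  have hτ : ∀ a, g (τ a) = a := fun a =>
    Algebra.FormallySmooth.liftOfSurjective_apply (AlgHom.id P ℝ) g hg hgn a
  refine ⟨b, (τ : ℝ →+* Jet c J), fun a => hτ a, ?_, ?_⟩
  · intro a ha
    have haK : a ∈ K := Subfield.subset_closure ha
    let p : P := algebraMap K P ⟨a, haK⟩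
    have e1 : algebraMap P ℝ p = a := rfl
    have e2 : τ (algebraMap P ℝ p) = algebraMap P (Jet c J) p := τ.commutes p
    rw [e1] at e2
    have e3 : algebraMap P (Jet c J) p = φ (hb.aevalEquiv.symm p) := rfl
    have e4 : hb.aevalEquiv.symm p = C ⟨a, haK⟩ := by
      exact hb.aevalEquiv.symm.commutes _
    rw [e3, e4, MvPolynomial.algHom_C] at e2
    exact e2
  · intro i
    let p : P := hb.aevalEquiv (X i)
    have e1 : algebraMap P ℝ p = b i := by
      rw [hb.algebraMap_aevalEquiv]; simp
    have e2 : τ (algebraMap P ℝ p) = algebraMap P (Jet c J) p := τ.commutes p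
    rw [e1] at e2
    have e3 : algebraMap P (Jet c J) p = φ (hb.aevalEquiv.symm p) := rfl
    rw [e3, AlgEquiv.symm_apply_apply] at e2
    simpa [φ] using e2

end Crest.Agent.R237.Sigma
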