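import Mathlib
import Crest.Agent.R237.Sigma

/-!
Scaled truncated functionals on jets of order four and the basic lower bound.
-/

set_option autoImplicit false

namespace Crest.Agent.R237.Jets

open MvPolynomial Crest.Agent.R237.Sigma

variable {c : ℕ}

/-- `S_ε(p) = ∑_{i<5} ε^i L(p_i)`. -/
noncomputable def Sc (L : MvPolynomial (Fin c) ℝ →ₗ[ℝ] ℝ) (ε : ℝ) :
    MvPolynomial (Fin c) ℝ →ₗ[ℝ] ℝ :=
  ∑ i ∈ Finset.range 5, (ε ^ i) • (L ∘ₗ homogeneousComponent i)

theorem Sc_apply (L : MvPolynomial (Fin c) ℝ →ₗ[ℝ] ℝ) (ε : ℝ) (p : MvPolynomial (Fin c) ℝ) :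
    Sc L ε p = ∑ i ∈ Finset.range 5, ε ^ i * L (homogeneousComponent i p) := by
  simp [Sc, LinearMap.sum_apply]

theorem hc_of_mem_pow {n i : ℕ} (hi : i < n) {p : MvPolynomial (Fin c) ℝ}
    (hp : p ∈ (mI c) ^ n) : homogeneousComponent i p = 0 := by
  rw [mem_pow_idealOfVars_iff] at hp
  apply homogeneousComponent_eq_zero'
  intro d hd h
  have := hp d hd
  omega

theorem Sc_of_mem_pow (L : MvPolynomial (Fin c) ℝ →ₗ[ℝ] ℝ) (ε : ℝ)
    {p : MvPolynomial (Fin c) ℝ} (hp : p ∈ (mI c) ^ 5) : Sc L ε p = 0 := by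
  rw [Sc_apply]
  apply Finset.sum_eq_zero
  intro i hi
  rw [hc_of_mem_pow (Finset.mem_range.mp hi) hp]
  simp

/-- A representative of a jet. -/
noncomputable def rep (a : Jet c 5) : MvPolynomial (Fin c) ℝ :=
  (Ideal.Quotient.mk_surjective a).choose

theorem mk_rep (a : Jet c 5) : Ideal.Quotient.mk _ (rep a) = a :=
  (Ideal.Quotient.mk_surjective a).choose_spec

/-- The functional on jets. -/
noncomputable def ell (L : MvPolynomial (Fin c) ℝ →ₗ[ℝ] ℝ) (ε : ℝ) (a : Jet c 5) : ℝ :=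
  Sc L ε (rep a)

theorem ell_mk (L : MvPolynomial (Fin c) ℝ →ₗ[ℝ] ℝ) (ε : ℝ) (p : MvPolynomial (Fin c) ℝ) :
    ell L ε (Ideal.Quotient.mk _ p) = Sc L ε p := by
  unfold ell
  have h : rep (Ideal.Quotient.mk ((mI c) ^ 5) p) - p ∈ (mI c) ^ 5 := by
    rw [← Ideal.Quotient.eq]
    exact mk_rep _
  have h2 := Sc_of_mem_pow L ε h
  rw [map_sub] at h2
  linarith

theorem ell_add (L : MvPolynomial (Fin c) ℝ →ₗ[ℝ] ℝ) (ε : ℝ) (a b : Jet c 5) :
    ell L ε (a + b) = ell L ε a + ell L ε b := by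
  obtain ⟨p, rfl⟩ := Ideal.Quotient.mk_surjective a
  obtain ⟨q, rfl⟩ := Ideal.Quotient.mk_surjective b
  rw [← map_add, ell_mk, ell_mk, ell_mk, map_add]

theorem ell_zero (L : MvPolynomial (Fin c) ℝ →ₗ[ℝ] ℝ) (ε : ℝ) :
    ell L ε (0 : Jet c 5) = 0 := by
  have h := ell_add L ε 0 0
  rw [add_zero] at h
  linarith

theorem ell_sum {ι : Type*} (L : MvPolynomial (Fin c) ℝ →ₗ[ℝ] ℝ) (ε : ℝ)
    (s : Finset ι) (f : ι → Jet c 5) :
    ell L ε (∑ i ∈ s, f i) = ∑ i ∈ s, ell L ε (f i) := by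
  classical
  induction s using Finset.induction_on with
  | empty => simp [ell_zero]
  | insert a s ha ih => rw [Finset.sum_insert ha, Finset.sum_insert ha, ell_add, ih]

theorem ell_mul_mk (L : MvPolynomial (Fin c) ℝ →ₗ[ℝ] ℝ) (ε r : ℝ) (a : Jet c 5) :
    ell L ε (Ideal.Quotient.mk _ (C r) * a) = r * ell L ε a := by
  obtain ⟨p, rfl⟩ := Ideal.Quotient.mk_surjective a
  rw [← map_mul, ell_mk, ell_mk, ← smul_eq_C_mul, map_smul, smul_eq_mul]

/-- Homogeneous pieces. -/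
theorem Sc_homog (L : MvPolynomial (Fin c) ℝ →ₗ[ℝ] ℝ) (ε : ℝ) {p : MvPolynomial (Fin c) ℝ}
    {n : ℕ} (hp : p.IsHomogeneous n) : Sc L ε p = if n < 5 then ε ^ n * L p else 0 := by
  rw [Sc_apply]
  have h : ∀ i ∈ Finset.range 5, ε ^ i * L (homogeneousComponent i p) =
      if i = n then ε ^ n * L p else 0 := by
    intro i _
    rw [homogeneousComponent_of_mem (m := i) (n := n) hp]
    split_ifs with h
    · rw [h]
    · simp
  rw [Finset.sum_congr rfl h, Finset.sum_ite_eq']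
  simp

theorem Sc_one (L : MvPolynomial (Fin c) ℝ →ₗ[ℝ] ℝ) (ε : ℝ) : Sc L ε 1 = L 1 := by
  rw [Sc_homog L ε (isHomogeneous_one (Fin c) ℝ)]
  simp

theorem aeval_scale {p : MvPolynomial (Fin c) ℝ} {n : ℕ} (hp : p.IsHomogeneous n) (ε : ℝ) :
    aeval (fun i => C ε * X i) p = C (ε ^ n) * p := by
  conv_rhs => rw [p.as_sum]
  conv_lhs => rw [p.as_sum]
  rw [map_sum, Finset.mul_sum]
  apply Finset.sum_congr rfl
  intro d hd
  have hdeg : d.degree = n := by
    have := hp (mem_support_iff.mp hd)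
    rw [Finsupp.degree_eq_weight_one]
    exact this
  rw [aeval_monomial, monomial_eq]
  simp only [mul_pow, algebraMap_eq]
  rw [Finsupp.prod_mul]
  have : (d.prod fun (_ : Fin c) k => (C ε : MvPolynomial (Fin c) ℝ) ^ k) = C (ε ^ n) := by
    rw [Finsupp.prod, Finset.prod_pow_eq_pow_sum, ← map_pow]
    rw [← hdeg]
    rfl
  rw [this]
  ring

/-- Scaling of polynomials of degree at most four. -/
theorem Sc_eq_scale (L : MvPolynomial (Fin c) ℝ →ₗ[ℝ] ℝ) (ε : ℝ) (p : MvPolynomial (Fin c) ℝ)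
    (hp : p.totalDegree ≤ 4) :
    Sc L ε p = L (aeval (fun i => C ε * X i) p) := by
  have h1 : p = ∑ i ∈ Finset.range 5, homogeneousComponent i p := by
    have h2 := sum_homogeneousComponent p
    conv_lhs => rw [← h2]
    apply Finset.sum_subset
    · intro i hi
      rw [Finset.mem_range] at hi ⊢
      omega
    · intro i _ hi
      apply homogeneousComponent_eq_zero
      rw [Finset.mem_range] at hi
      omega
  have h3 : aeval (fun i => C ε * X i) p =
      ∑ i ∈ Finset.range 5, C (ε ^ i) * homogeneousComponent i p := by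
    conv_lhs => rw [h1]
    rw [map_sum]
    apply Finset.sum_congr rfl
    intro i _
    have h4 := homogeneousComponent_isHomogeneous i p
    exact aeval_scale h4 ε
  rw [h3, Sc_apply, map_sum]
  apply Finset.sum_congr rfl
  intro i _
  rw [← smul_eq_C_mul, map_smul, smul_eq_mul]

/-- Truncation in degrees at most four. -/
noncomputable def tr4 (p : MvPolynomial (Fin c) ℝ) : MvPolynomial (Fin c) ℝ :=
  ∑ i ∈ Finset.range 5, homogeneousComponent i p

theorem sub_tr4_mem (p : MvPolynomial (Fin c) ℝ) : p - tr4 p ∈ (mI c) ^ 5 := by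
  rw [mem_pow_idealOfVars_iff']
  intro x hx
  unfold tr4
  rw [coeff_sub, coeff_sum]
  simp only [coeff_homogeneousComponent]
  rw [Finset.sum_ite_eq]
  simp [hx]

theorem Sc_sq_tr4 (L : MvPolynomial (Fin c) ℝ →ₗ[ℝ] ℝ) (ε : ℝ) (p : MvPolynomial (Fin c) ℝ) :
    Sc L ε (p * p) = Sc L ε (tr4 p * tr4 p) := by
  have h : p * p - tr4 p * tr4 p ∈ (mI c) ^ 5 := by
    have : p * p - tr4 p * tr4 p = (p + tr4 p) * (p - tr4 p) := by ring
    rw [this]
    exact Ideal.mul_mem_left _ _ (sub_tr4_mem p)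
  have h2 := Sc_of_mem_pow L ε h
  rw [map_sub] at h2
  linarith

/-- Coefficient functionals are controlled by a strictly positive form. -/
theorem control (L : MvPolynomial (Fin c) ℝ →ₗ[ℝ] ℝ)
    (hL : ∀ h : MvPolynomial (Fin c) ℝ, h.totalDegree ≤ 2 → h ≠ 0 → 0 < L (h * h))
    (f : MvPolynomial (Fin c) ℝ →ₗ[ℝ] ℝ) :
    ∃ C : ℝ, 0 ≤ C ∧ ∀ h : MvPolynomial (Fin c) ℝ, h.totalDegree ≤ 2 →
      f h ^ 2 ≤ C * L (h * h) := by
  let E := restrictTotalDegree (Fin c) ℝ 2
  let B : E →ₗ[ℝ] (E →ₗ[ℝ] ℝ) := LinearMap.mk₂ ℝ (fun x y => L ((x : MvPolynomial (Fin c) ℝ) * y))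
    (by intro x y z; simp [add_mul])
    (by intro r x y; simp)
    (by intro x y z; simp [mul_add])
    (by intro r x y; simp)
  have hB : ∀ x y : E, B x y = L ((x : MvPolynomial (Fin c) ℝ) * y) := fun x y => rfl
  have hpos : ∀ x : E, x ≠ 0 → 0 < B x x := by
    intro x hx
    rw [hB]
    apply hL _ ((mem_restrictTotalDegree _ _ _).mp x.2)
    intro h
    exact hx (Subtype.ext h)
  have hinj : Function.Injective B := by
    rw [injective_iff_map_eq_zero]
    intro x hx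
    by_contra hne
    have := hpos x hne
    rw [hx] at this
    simp at this
  have hsurj : Function.Surjective B := by
    have hfr : Module.finrank ℝ E = Module.finrank ℝ (E →ₗ[ℝ] ℝ) :=
      (Subspace.dual_finrank_eq (K := ℝ) (V := E)).symm
    exact (LinearMap.injective_iff_surjective_of_finrank_eq_finrank hfr).mp hinj
  obtain ⟨v, hv⟩ := hsurj (f ∘ₗ E.subtype)
  have hnn : ∀ x : E, 0 ≤ B x x := by
    intro x
    by_cases hx : x = 0
    · rw [hx]; simp
    · exact (hpos x hx).le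
  refine ⟨B v v, hnn v, ?_⟩
  intro h hh
  let x : E := ⟨h, (mem_restrictTotalDegree _ _ _).mpr hh⟩
  have e1 : f h = B v x := by
    rw [hv]; rfl
  have hsymm : B x v = B v x := by rw [hB, hB, mul_comm]
  have h2 : ∀ t : ℝ, 0 ≤ B x x * (t * t) + (2 * B v x) * t + B v v := by
    intro t
    have := hnn (t • x + v)
    simp only [map_add, map_smul, LinearMap.add_apply, LinearMap.smul_apply, smul_eq_mul] at this
    rw [hsymm] at this
    nlinarith [this]
  have h3 := discrim_le_zero h2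
  unfold discrim at h3
  rw [e1]
  have e2 : L (h * h) = B x x := rfl
  rw [e2]
  nlinarith [h3]

theorem hc_one_eq (p : MvPolynomial (Fin c) ℝ) :
    homogeneousComponent 1 p = ∑ j, C (coeff (Finsupp.single j 1) p) * X j := by
  ext d
  rw [coeff_homogeneousComponent, coeff_sum]
  simp only [coeff_C_mul, coeff_X]
  split_ifs with h
  · obtain ⟨j, hj⟩ : ∃ j, d = Finsupp.single j 1 := by
      have := Finsupp.range_single_one (σ := Fin c)
      have h2 : d ∈ {d : Fin c →₀ ℕ | d.degree = 1} := h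
      rw [← this] at h2
      obtain ⟨j, hj⟩ := h2
      exact ⟨j, hj.symm⟩
    subst hj
    rw [Finset.sum_eq_single j]
    · simp
    · intro i _ hij
      rw [if_neg]
      · simp
      · intro he
        have := congrArg (fun f => f i) he
        simp [hij.symm] at this
    · simp
  · symm
    apply Finset.sum_eq_zero
    intro j _
    rw [if_neg]
    · simp
    · intro he
      apply h
      rw [← he]
      simp

/-- The error seminorm. -/
noncomputable def Un (L : MvPolynomial (Fin c) ℝ →ₗ[ℝ] ℝ) (p : MvPolynomial (Fin c) ℝ) : ℝ :=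
  |L (homogeneousComponent 3 p)| + |L (homogeneousComponent 4 p)| +
    ∑ j, |L (X j * homogeneousComponent 3 p)|

theorem Un_nonneg (L : MvPolynomial (Fin c) ℝ →ₗ[ℝ] ℝ) (p : MvPolynomial (Fin c) ℝ) :
    0 ≤ Un L p := by
  unfold Un
  positivity

set_option maxHeartbeats 4000000 in
theorem Sc_sq_lower (L : MvPolynomial (Fin c) ℝ →ₗ[ℝ] ℝ)
    (hL : ∀ h : MvPolynomial (Fin c) ℝ, h.totalDegree ≤ 2 → h ≠ 0 → 0 < L (h * h)) :
    ∃ C : ℝ, 0 ≤ C ∧ ∀ ε : ℝ, 0 < ε → ε ≤ 1 → ∀ p : MvPolynomial (Fin c) ℝ,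
      -(C * ε ^ 6 * Un L p ^ 2) ≤ Sc L ε (p * p) := by
  -- constants
  have hc0 := control L hL (lcoeff ℝ 0)
  have hc1 : ∀ j : Fin c, ∃ C : ℝ, 0 ≤ C ∧ ∀ h : MvPolynomial (Fin c) ℝ, h.totalDegree ≤ 2 →
      (coeff (Finsupp.single j 1) h) ^ 2 ≤ C * L (h * h) :=
    fun j => control L hL (lcoeff ℝ (Finsupp.single j 1))
  obtain ⟨C0, hC0, hc0⟩ := hc0
  choose C1 hC1 hc1 using hc1
  let D : ℝ := C0 + ∑ j, C1 j
  have hD0 : C0 ≤ D := by
    have : 0 ≤ ∑ j, C1 j := Finset.sum_nonneg fun j _ => hC1 j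
    simp only [D]; linarith
  have hD1 : ∀ j, C1 j ≤ D := by
    intro j
    have := Finset.single_le_sum (f := C1) (fun i _ => hC1 i) (Finset.mem_univ j)
    simp only [D]; linarith
  have hDn : 0 ≤ D := hC0.trans hD0
  have hLn : ∀ h : MvPolynomial (Fin c) ℝ, h.totalDegree ≤ 2 → 0 ≤ L (h * h) := by
    intro h hh
    by_cases h0 : h = 0
    · rw [h0]; simp
    · exact (hL h hh h0).le
  refine ⟨D, hDn, ?_⟩
  intro ε hε hε1 p
  set p0 := homogeneousComponent 0 p with hp0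
  set p1 := homogeneousComponent 1 p with hp1
  set p2 := homogeneousComponent 2 p with hp2
  set p3 := homogeneousComponent 3 p with hp3
  set p4 := homogeneousComponent 4 p with hp4
  have H0 : p0.IsHomogeneous 0 := homogeneousComponent_isHomogeneous 0 p
  have H1 : p1.IsHomogeneous 1 := homogeneousComponent_isHomogeneous 1 p
  have H2 : p2.IsHomogeneous 2 := homogeneousComponent_isHomogeneous 2 p
  have H3 : p3.IsHomogeneous 3 := homogeneousComponent_isHomogeneous 3 p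
  have H4 : p4.IsHomogeneous 4 := homogeneousComponent_isHomogeneous 4 p
  have ht : tr4 p = p0 + p1 + p2 + p3 + p4 := by
    simp only [tr4, Finset.sum_range_succ, Finset.sum_range_zero]
    simp only [hp0, hp1, hp2, hp3, hp4]
    ring
  set α : ℝ := coeff 0 p with hα
  have e0 : p0 = C α := by rw [hp0, homogeneousComponent_zero]
  have e1 : p1 = ∑ j, C (coeff (Finsupp.single j 1) p) * X j := hc_one_eq p
  -- expansion
  have hex : Sc L ε (p * p) = L (p0 * p0) + 2 * ε * L (p0 * p1) +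
      ε ^ 2 * (L (p1 * p1) + 2 * L (p0 * p2)) +
      ε ^ 3 * (2 * L (p0 * p3) + 2 * L (p1 * p2)) +
      ε ^ 4 * (2 * L (p0 * p4) + 2 * L (p1 * p3) + L (p2 * p2)) := by
    rw [Sc_sq_tr4, ht]
    have : (p0 + p1 + p2 + p3 + p4) * (p0 + p1 + p2 + p3 + p4) =
      p0 * p0 + 2 • (p0 * p1) + p1 * p1 + 2 • (p0 * p2) + 2 • (p0 * p3) + 2 • (p1 * p2) +
      2 • (p0 * p4) + 2 • (p1 * p3) + p2 * p2 + 2 • (p1 * p4) + 2 • (p2 * p3) +
      2 • (p2 * p4) + p3 * p3 + 2 • (p3 * p4) + p4 * p4 := by ring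
    rw [this]
    simp only [map_add, map_nsmul]
    rw [Sc_homog L ε (H0.mul H0), Sc_homog L ε (H0.mul H1), Sc_homog L ε (H1.mul H1),
      Sc_homog L ε (H0.mul H2), Sc_homog L ε (H0.mul H3), Sc_homog L ε (H1.mul H2),
      Sc_homog L ε (H0.mul H4), Sc_homog L ε (H1.mul H3), Sc_homog L ε (H2.mul H2),
      Sc_homog L ε (H1.mul H4), Sc_homog L ε (H2.mul H3), Sc_homog L ε (H2.mul H4),
      Sc_homog L ε (H3.mul H3), Sc_homog L ε (H3.mul H4), Sc_homog L ε (H4.mul H4)]
    norm_num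
    ring
  -- the square
  set h : MvPolynomial (Fin c) ℝ := p0 + ε • p1 + ε ^ 2 • p2 with hh
  have hhd : h.totalDegree ≤ 2 := by
    have a0 : p0.totalDegree ≤ 2 := H0.totalDegree_le.trans (by norm_num)
    have a1 : (ε • p1).totalDegree ≤ 2 :=
      (totalDegree_smul_le _ _).trans (H1.totalDegree_le.trans (by norm_num))
    have a2 : (ε ^ 2 • p2).totalDegree ≤ 2 :=
      (totalDegree_smul_le _ _).trans H2.totalDegree_le
    exact (totalDegree_add _ _).trans (max_le ((totalDegree_add _ _).trans (max_le a0 a1)) a2)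
  have hhh : L (h * h) = L (p0 * p0) + 2 * ε * L (p0 * p1) +
      ε ^ 2 * (L (p1 * p1) + 2 * L (p0 * p2)) +
      ε ^ 3 * (2 * L (p1 * p2)) + ε ^ 4 * L (p2 * p2) := by
    have : h * h = p0 * p0 + (2 * ε) • (p0 * p1) + (ε ^ 2) • (p1 * p1) +
        (2 * ε ^ 2) • (p0 * p2) + (2 * ε ^ 3) • (p1 * p2) + (ε ^ 4) • (p2 * p2) := by
      rw [hh]
      simp only [smul_eq_C_mul, map_mul, map_pow, map_ofNat]
      ring
    rw [this]
    simp only [map_add, map_smul, smul_eq_mul]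
    ring
  have hdiff : Sc L ε (p * p) = L (h * h) + 2 * ε ^ 3 * L (p0 * p3) +
      2 * ε ^ 4 * L (p0 * p4) + 2 * ε ^ 4 * L (p1 * p3) := by
    rw [hex, hhh]; ring
  -- coefficients of h
  have k0 : coeff 0 h = α := by
    have b1 : coeff 0 p1 = 0 := by
      rw [hp1, coeff_homogeneousComponent]; simp
    have b2 : coeff 0 p2 = 0 := by
      rw [hp2, coeff_homogeneousComponent]; simp
    rw [hh, coeff_add, coeff_add, coeff_smul, coeff_smul, b1, b2, e0]
    simp
  have k1 : ∀ j, coeff (Finsupp.single j 1) h = ε * coeff (Finsupp.single j 1) p := by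
    intro j
    have b0 : coeff (Finsupp.single j 1) p0 = 0 := by
      rw [hp0, coeff_homogeneousComponent]; simp
    have b1 : coeff (Finsupp.single j 1) p1 = coeff (Finsupp.single j 1) p := by
      rw [hp1, coeff_homogeneousComponent]; simp
    have b2 : coeff (Finsupp.single j 1) p2 = 0 := by
      rw [hp2, coeff_homogeneousComponent]; simp
    rw [hh, coeff_add, coeff_add, coeff_smul, coeff_smul, b0, b1, b2]
    simp
  set T : ℝ := L (h * h) with hT
  have hTn : 0 ≤ T := hLn h hhd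
  set s : ℝ := Real.sqrt (D * T) with hs
  have hsn : 0 ≤ s := Real.sqrt_nonneg _
  have hs2 : s ^ 2 = D * T := Real.sq_sqrt (mul_nonneg hDn hTn)
  have m0 : |α| ≤ s := by
    apply Real.abs_le_sqrt
    have := hc0 h hhd
    have e : lcoeff ℝ 0 h = α := k0
    rw [e] at this
    exact this.trans (mul_le_mul_of_nonneg_right hD0 hTn)
  have m1 : ∀ j, |ε * coeff (Finsupp.single j 1) p| ≤ s := by
    intro j
    apply Real.abs_le_sqrt
    have := hc1 j h hhd
    rw [k1 j] at this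
    exact this.trans (mul_le_mul_of_nonneg_right (hD1 j) hTn)
  -- the three cross terms
  have c1 : L (p0 * p3) = α * L p3 := by
    rw [e0, ← smul_eq_C_mul, map_smul, smul_eq_mul]
  have c2 : L (p0 * p4) = α * L p4 := by
    rw [e0, ← smul_eq_C_mul, map_smul, smul_eq_mul]
  have c3 : L (p1 * p3) = ∑ j, coeff (Finsupp.single j 1) p * L (X j * p3) := by
    rw [e1, Finset.sum_mul, map_sum]
    apply Finset.sum_congr rfl
    intro j _
    rw [mul_assoc, ← smul_eq_C_mul, map_smul, smul_eq_mul]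
  have d1 : |α * L p3| ≤ s * |L p3| := by
    rw [abs_mul]; exact mul_le_mul_of_nonneg_right m0 (abs_nonneg _)
  have d2 : |ε * (α * L p4)| ≤ s * |L p4| := by
    rw [abs_mul, abs_mul, abs_of_pos hε]
    have := mul_le_mul_of_nonneg_right m0 (abs_nonneg (L p4))
    have h3 : 0 ≤ |α| * |L p4| := by positivity
    nlinarith
  have d3 : |ε * L (p1 * p3)| ≤ s * ∑ j, |L (X j * p3)| := by
    rw [c3, Finset.mul_sum, Finset.mul_sum]
    refine (Finset.abs_sum_le_sum_abs _ _).trans (Finset.sum_le_sum fun j _ => ?_)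
    rw [← mul_assoc, abs_mul]
    exact mul_le_mul_of_nonneg_right (m1 j) (abs_nonneg _)
  have hU : Un L p = |L p3| + |L p4| + ∑ j, |L (X j * p3)| := rfl
  have hUn : 0 ≤ Un L p := Un_nonneg L p
  have hfin : T - 2 * ε ^ 3 * (s * Un L p) ≤ Sc L ε (p * p) := by
    rw [hdiff, c1, c2, hU]
    have f1 := (abs_le.mp d1).1
    have f2 := (abs_le.mp d2).1
    have f3 := (abs_le.mp d3).1
    have g1 : 0 ≤ 2 * ε ^ 3 := by positivity
    have q1 := mul_le_mul_of_nonneg_left f1 g1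
    have q2 := mul_le_mul_of_nonneg_left f2 g1
    have q3 := mul_le_mul_of_nonneg_left f3 g1
    nlinarith [q1, q2, q3]
  refine le_trans ?_ hfin
  -- complete the square
  set r : ℝ := Real.sqrt T with hr
  have hr2 : r ^ 2 = T := Real.sq_sqrt hTn
  have hsr : s = Real.sqrt D * r := by
    rw [hs, hr, Real.sqrt_mul hDn]
  have hD2 : Real.sqrt D ^ 2 = D := Real.sq_sqrt hDn
  have hsq := sq_nonneg (r - Real.sqrt D * ε ^ 3 * Un L p)
  have hsq2 : (r - Real.sqrt D * ε ^ 3 * Un L p) ^ 2 =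
      r ^ 2 - 2 * ε ^ 3 * (Real.sqrt D * r * Un L p) +
        Real.sqrt D ^ 2 * ε ^ 6 * Un L p ^ 2 := by ring
  rw [hsq2, hr2, hD2] at hsq
  rw [hsr]
  linarith

theorem Un_sum_le (L : MvPolynomial (Fin c) ℝ →ₗ[ℝ] ℝ) {k : ℕ} (w : Fin k → ℝ)
    (P : Fin k → MvPolynomial (Fin c) ℝ) :
    Un L (∑ i, C (w i) * P i) ≤ ∑ i, |w i| * Un L (P i) := by
  have hf : ∀ f : MvPolynomial (Fin c) ℝ →ₗ[ℝ] ℝ,
      |f (∑ i, C (w i) * P i)| ≤ ∑ i, |w i| * |f (P i)| := by
    intro f
    rw [map_sum]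
    refine (Finset.abs_sum_le_sum_abs _ _).trans (Finset.sum_le_sum fun i _ => ?_)
    rw [← smul_eq_C_mul, map_smul, smul_eq_mul, abs_mul]
  have h3 := hf (L ∘ₗ homogeneousComponent 3)
  have h4 := hf (L ∘ₗ homogeneousComponent 4)
  have h5 : ∀ j, _ := fun j : Fin c =>
    hf (L ∘ₗ (LinearMap.mulLeft ℝ (X j)) ∘ₗ homogeneousComponent 3)
  simp only [LinearMap.comp_apply, LinearMap.mulLeft_apply] at h3 h4 h5
  unfold Un
  have h6 := Finset.sum_le_sum (s := Finset.univ) (fun j _ => h5 j)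
  calc _ ≤ ∑ i, |w i| * |L (homogeneousComponent 3 (P i))| +
        ∑ i, |w i| * |L (homogeneousComponent 4 (P i))| +
        ∑ j, ∑ i, |w i| * |L (X j * homogeneousComponent 3 (P i))| := by
          linarith
    _ = _ := by
      rw [Finset.sum_comm, ← Finset.sum_add_distrib, ← Finset.sum_add_distrib]
      apply Finset.sum_congr rfl
      intro i _
      rw [← Finset.mul_sum]
      ring

/-- Lower bound for a family. -/
theorem family_lower (L : MvPolynomial (Fin c) ℝ →ₗ[ℝ] ℝ)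
    (hL : ∀ h : MvPolynomial (Fin c) ℝ, h.totalDegree ≤ 2 → h ≠ 0 → 0 < L (h * h))
    {k : ℕ} (X : Fin k → Fin k → Jet c 5) :
    ∃ C' : ℝ, 0 ≤ C' ∧ ∀ ε : ℝ, 0 < ε → ε ≤ 1 → ∀ w : Fin k → ℝ,
      -(C' * ε ^ 6 * ∑ i, w i ^ 2) ≤
        ∑ l, ell L ε ((∑ i, Ideal.Quotient.mk _ (C (w i)) * X l i) *
          (∑ i, Ideal.Quotient.mk _ (C (w i)) * X l i)) := by
  obtain ⟨D, hD, h⟩ := Sc_sq_lower L hL
  refine ⟨D * ∑ l, ∑ i, Un L (rep (X l i)) ^ 2, by positivity, ?_⟩
  intro ε hε hε1 w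
  have h1 : ∀ l, -(D * ε ^ 6 * ((∑ i, w i ^ 2) * ∑ i, Un L (rep (X l i)) ^ 2)) ≤
      ell L ε ((∑ i, Ideal.Quotient.mk _ (C (w i)) * X l i) *
          (∑ i, Ideal.Quotient.mk _ (C (w i)) * X l i)) := by
    intro l
    have e : (∑ i, Ideal.Quotient.mk ((mI c) ^ 5) (C (w i)) * X l i) =
        Ideal.Quotient.mk _ (∑ i, C (w i) * rep (X l i)) := by
      rw [map_sum]
      apply Finset.sum_congr rfl
      intro i _
      rw [map_mul, mk_rep]
    rw [e, ← map_mul, ell_mk]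
    refine le_trans ?_ (h ε hε hε1 _)
    have h2 := Un_sum_le L w (fun i => rep (X l i))
    have h3 : Un L (∑ i, C (w i) * rep (X l i)) ^ 2 ≤
        (∑ i, |w i| * Un L (rep (X l i))) ^ 2 :=
      pow_le_pow_left₀ (Un_nonneg L _) h2 2
    have h4 : (∑ i, |w i| * Un L (rep (X l i))) ^ 2 ≤
        (∑ i, |w i| ^ 2) * ∑ i, Un L (rep (X l i)) ^ 2 :=
      Finset.sum_mul_sq_le_sq_mul_sq _ _ _
    simp only [sq_abs] at h4
    have h5 := h3.trans h4
    have h6 : 0 ≤ D * ε ^ 6 := by positivity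
    have := mul_le_mul_of_nonneg_left h5 h6
    linarith
  refine le_trans (le_of_eq ?_) (Finset.sum_le_sum fun l _ => h1 l)
  rw [Finset.sum_neg_distrib, ← Finset.mul_sum, ← Finset.mul_sum]
  ring

end Crest.Agent.R237.Jets
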