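import Mathlib
import Crest.Prelude.Def_Hyperbolic
import Crest.Agent.R237.Sigma
import Crest.Agent.R237.Jets

/-!
The non-shadow criterion: a closed spectrahedral shadow containing a polynomial family of
points and invariant under a compatible family of linear maps contains the image of every
strictly positive functional.
-/

set_option autoImplicit false

namespace Crest.Agent.R237.NS

open MvPolynomial Crest.Agent.R237.Sigma Crest.Agent.R237.Jets
open Crest.GeometryTopology.Hyperbolic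
open Matrix

section lin

variable {k : ℕ}

open scoped MatrixOrder in
theorem psd_factor {M : Matrix (Fin k) (Fin k) ℝ} (hM : M.PosSemidef) :
    ∃ R : Matrix (Fin k) (Fin k) ℝ, M = Rᵀ * R := by
  obtain ⟨B, hB⟩ := CStarAlgebra.nonneg_iff_eq_star_mul_self.mp hM.nonneg
  refine ⟨B, ?_⟩
  rw [hB, star_eq_conjTranspose, conjTranspose_eq_transpose_of_trivial]

theorem quad_factor {M R : Matrix (Fin k) (Fin k) ℝ} (h : M = Rᵀ * R) (w : Fin k → ℝ) :
    w ⬝ᵥ (M *ᵥ w) = ∑ l, (∑ i, R l i * w i) ^ 2 := by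
  rw [h, ← Matrix.mulVec_mulVec, Matrix.dotProduct_mulVec, Matrix.vecMul_transpose]
  simp only [dotProduct, mulVec, sq]

theorem exists_rel_interior (𝓕 : Set (Matrix (Fin k) (Fin k) ℝ)) (hne : 𝓕.Nonempty)
    (hpsd : ∀ M ∈ 𝓕, M.PosSemidef)
    (hmid : ∀ M ∈ 𝓕, ∀ M' ∈ 𝓕, (1 / 2 : ℝ) • M + (1 / 2 : ℝ) • M' ∈ 𝓕) :
    ∃ M0 ∈ 𝓕, ∀ M ∈ 𝓕, ∀ v, M0 *ᵥ v = 0 → M *ᵥ v = 0 := by
  classical
  let f : 𝓕 → ℕ := fun M => Module.finrank ℝ
    (LinearMap.ker (M : Matrix (Fin k) (Fin k) ℝ).mulVecLin)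
  have : Nonempty 𝓕 := hne.to_subtype
  obtain ⟨M0, hM0⟩ : ∃ M0 : 𝓕, ∀ M, f M0 ≤ f M := by
    obtain ⟨n, ⟨M0, rfl⟩, hn⟩ := WellFounded.has_min (wellFounded_lt (α := ℕ)) (Set.range f)
      (Set.range_nonempty f)
    exact ⟨M0, fun M => not_lt.mp (hn _ ⟨M, rfl⟩)⟩
  refine ⟨M0, M0.2, ?_⟩
  intro M hM v hv
  let Mm : 𝓕 := ⟨(1 / 2 : ℝ) • M0.1 + (1 / 2 : ℝ) • M, hmid _ M0.2 _ hM⟩
  have hker : ∀ u, Mm.1 *ᵥ u = 0 → M0.1 *ᵥ u = 0 ∧ M *ᵥ u = 0 := by
    intro u hu
    have h1 : u ⬝ᵥ (Mm.1 *ᵥ u) = 0 := by rw [hu]; simp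
    have h2 : Mm.1 *ᵥ u = (1 / 2 : ℝ) • (M0.1 *ᵥ u) +
        (1 / 2 : ℝ) • (M *ᵥ u) := by
      simp only [Mm, Matrix.add_mulVec, Matrix.smul_mulVec]
    rw [h2, dotProduct_add, dotProduct_smul, dotProduct_smul] at h1
    have p0 := (hpsd _ M0.2).dotProduct_mulVec_nonneg u
    have p1 := (hpsd _ hM).dotProduct_mulVec_nonneg u
    simp only [star_trivial] at p0 p1
    simp only [smul_eq_mul] at h1
    have q0 : star u ⬝ᵥ (M0.1 *ᵥ u) = 0 := by
      simp only [star_trivial]; linarith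
    have q1 : star u ⬝ᵥ (M *ᵥ u) = 0 := by
      simp only [star_trivial]; linarith
    exact ⟨((hpsd _ M0.2).dotProduct_mulVec_zero_iff u).mp q0,
      ((hpsd _ hM).dotProduct_mulVec_zero_iff u).mp q1⟩
  have hle : LinearMap.ker Mm.1.mulVecLin ≤
      LinearMap.ker M0.1.mulVecLin := by
    intro u hu
    rw [LinearMap.mem_ker, Matrix.mulVecLin_apply] at hu ⊢
    exact (hker u hu).1
  have heq := Submodule.eq_of_le_of_finrank_le hle (hM0 Mm)
  have hv' : v ∈ LinearMap.ker Mm.1.mulVecLin := by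
    rw [heq, LinearMap.mem_ker, Matrix.mulVecLin_apply]; exact hv
  rw [LinearMap.mem_ker, Matrix.mulVecLin_apply] at hv'
  exact (hker v hv').2

theorem exists_section (M : Matrix (Fin k) (Fin k) ℝ) (hM : M.PosSemidef) :
    ∃ c0 : ℝ, 0 < c0 ∧ ∃ Q : Matrix (Fin k) (Fin k) ℝ, M * Q = 0 ∧
      ∀ w : Fin k → ℝ, c0 * ∑ i, (w - Q *ᵥ w) i ^ 2 ≤ w ⬝ᵥ (M *ᵥ w) := by
  classical
  obtain ⟨R, hR⟩ := psd_factor hM
  let ρ := R.mulVecLin
  obtain ⟨s, hs⟩ := LinearMap.exists_rightInverse_of_surjective ρ.rangeRestrict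
    (LinearMap.range_rangeRestrict ρ)
  obtain ⟨S, hS⟩ := LinearMap.exists_extend s
  have hρ : ∀ w, ρ (S (ρ w)) = ρ w := by
    intro w
    have h1 : S (ρ w) = s (ρ.rangeRestrict w) := by
      have := congrArg (fun f => f (ρ.rangeRestrict w)) hS
      simpa using this
    rw [h1]
    have h2 := congrArg (fun f => f (ρ.rangeRestrict w)) hs
    have h3 := congrArg Subtype.val h2
    simpa using h3
  let T : Matrix (Fin k) (Fin k) ℝ := LinearMap.toMatrix' S
  have hSv : ∀ v, S v = T *ᵥ v := fun v => (LinearMap.toMatrix'_mulVec S v).symm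
  have hT : ∀ v i, S v i = ∑ j, T i j * v j := by
    intro v i
    rw [hSv]; rfl
  let D : ℝ := (∑ i, ∑ j, T i j ^ 2) + 1
  have hD : 0 < D := by positivity
  let Q : Matrix (Fin k) (Fin k) ℝ := 1 - T * R
  have hQ : ∀ w, w - Q *ᵥ w = S (ρ w) := by
    intro w
    simp only [Q, Matrix.sub_mulVec, Matrix.one_mulVec, hSv, ρ, Matrix.mulVecLin_apply,
      Matrix.mulVec_mulVec]
    abel
  refine ⟨1 / D, by positivity, Q, ?_, ?_⟩
  · have h0 : R * Q = 0 := by
      apply Matrix.toLin'.injective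
      apply LinearMap.ext
      intro w
      have h1 : Q *ᵥ w = w - S (ρ w) := by rw [← hQ]; abel
      have h2 : R *ᵥ (Q *ᵥ w) = 0 := by
        rw [h1]
        have h2 : ρ (w - S (ρ w)) = 0 := by rw [map_sub, hρ w, sub_self]
        simpa [ρ] using h2
      simpa [Matrix.toLin'_apply, Matrix.mulVec_mulVec] using h2
    rw [hR, Matrix.mul_assoc, h0, Matrix.mul_zero]
  · intro w
    rw [hQ]
    have h1 : w ⬝ᵥ (M *ᵥ w) = ∑ i, (ρ w i) ^ 2 := by
      rw [quad_factor hR]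
      rfl
    rw [h1]
    have h2 : ∑ i, S (ρ w) i ^ 2 ≤ D * ∑ j, (ρ w j) ^ 2 := by
      have h3 : ∀ i, S (ρ w) i ^ 2 ≤ (∑ j, T i j ^ 2) * ∑ j, (ρ w j) ^ 2 := by
        intro i
        rw [hT]
        exact Finset.sum_mul_sq_le_sq_mul_sq _ _ _
      refine (Finset.sum_le_sum fun i _ => h3 i).trans ?_
      rw [← Finset.sum_mul]
      apply mul_le_mul_of_nonneg_right
      · simp only [D]; linarith
      · positivity
    rw [one_div, inv_mul_le_iff₀ hD]
    exact h2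

end lin

section main

variable {c : ℕ}

/-- Evaluation at the generic point, transported by `σ`. -/
theorem sigma_eval (S : Set ℝ) (b : Fin c → ℝ) (σ : ℝ →+* Jet c 5)
    (hσ : ∀ a ∈ S, σ a = Ideal.Quotient.mk _ (C a))
    (hb : ∀ i, σ (b i) = Ideal.Quotient.mk _ (C (b i) + X i))
    (p : MvPolynomial (Fin c) ℝ) (hp : ∀ d, coeff d p ∈ S) :
    σ (eval b p) = Ideal.Quotient.mk _ (aeval (fun i => C (b i) + X i) p) := by
  rw [eval_eq', map_sum, aeval_def, eval₂_eq', map_sum]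
  apply Finset.sum_congr rfl
  intro d _
  rw [map_mul, map_mul, hσ _ (hp d), map_prod, map_prod]
  congr 1
  apply Finset.prod_congr rfl
  intro i _
  rw [map_pow, map_pow, hb]

theorem totalDegree_shift (b : Fin c → ℝ) (p : MvPolynomial (Fin c) ℝ) :
    (aeval (fun i => C (b i) + X i) p : MvPolynomial (Fin c) ℝ).totalDegree ≤
      p.totalDegree := by
  rw [aeval_def, eval₂_eq']
  apply totalDegree_finsetSum_le
  intro d hd
  refine (totalDegree_mul _ _).trans ?_
  have h1 : (algebraMap ℝ (MvPolynomial (Fin c) ℝ) (coeff d p)).totalDegree = 0 := by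
    rw [algebraMap_eq, totalDegree_C]
  rw [h1, zero_add]
  refine (totalDegree_finsetProd _ _).trans ?_
  have h2 : ∀ i : Fin c, ((C (b i) + X i : MvPolynomial (Fin c) ℝ) ^ d i).totalDegree ≤ d i := by
    intro i
    refine (totalDegree_pow _ _).trans ?_
    have : (C (b i) + X i : MvPolynomial (Fin c) ℝ).totalDegree ≤ 1 := by
      refine (totalDegree_add _ _).trans ?_
      simp
    calc _ ≤ d i * 1 := Nat.mul_le_mul_left _ this
      _ = d i := by ring
  refine (Finset.sum_le_sum fun i _ => h2 i).trans ?_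
  have h3 := le_totalDegree hd
  rw [Finsupp.sum_fintype] at h3
  · exact h3
  · simp

/-- **Non-shadow criterion.** -/
theorem ns {m c : ℕ} (K : Set (Fin m → ℝ)) (hK : IsSpectrahedralShadow K) (hcl : IsClosed K)
    (z : Fin m → MvPolynomial (Fin c) ℝ) (hdeg : ∀ i, (z i).totalDegree ≤ 4)
    (hz : ∀ u : Fin c → ℝ, (fun i => eval u (z i)) ∈ K)
    (g : (Fin c → ℝ) → ℝ → (Fin m → ℝ) →ₗ[ℝ] (Fin m → ℝ))
    (hgK : ∀ b ε, 0 < ε → ∀ x ∈ K, g b ε x ∈ K)
    (hgz : ∀ b ε, 0 < ε → ∀ u : Fin c → ℝ,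
      g b ε (fun i => eval (fun j => b j + ε * u j) (z i)) = fun i => eval u (z i))
    (hgb : ∀ b x, ∃ C : ℝ, ∀ ε, 0 < ε → ε ≤ 1 → ∀ i, ε ^ 4 * |g b ε x i| ≤ C)
    (L : MvPolynomial (Fin c) ℝ →ₗ[ℝ] ℝ) (hL1 : L 1 = 1)
    (hL : ∀ h : MvPolynomial (Fin c) ℝ, h.totalDegree ≤ 2 → h ≠ 0 → 0 < L (h * h)) :
    (fun i => L (z i)) ∈ K := by
  classical
  obtain ⟨k, a, A0, A, B, hA0, hA, hB, hKeq⟩ := hK
  let F : (Fin m → ℝ) → (Fin a → ℝ) → Matrix (Fin k) (Fin k) ℝ :=
    fun x y => A0 + ∑ i, x i • A i + ∑ j, y j • B j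
  have hmem : ∀ x, x ∈ K ↔ ∃ y, (F x y).PosSemidef := by
    intro x; rw [hKeq]; rfl
  have hsymm : ∀ x y, (F x y)ᵀ = F x y := by
    intro x y
    simp only [F, Matrix.transpose_add, Matrix.transpose_sum, Matrix.transpose_smul]
    rw [hA0.eq]
    simp only [(hA _).eq, (hB _).eq]
  have haff : ∀ (t : ℝ) (x x' : Fin m → ℝ) (y y' : Fin a → ℝ),
      F ((1 - t) • x + t • x') ((1 - t) • y + t • y') = (1 - t) • F x y + t • F x' y' := by
    intro t x x' y y'
    simp only [F, Pi.add_apply, Pi.smul_apply, smul_eq_mul, add_smul, mul_smul,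
      Finset.sum_add_distrib, ← Finset.smul_sum, smul_add]
    have : A0 = (1 - t) • A0 + t • A0 := by rw [← add_smul]; simp
    conv_lhs => rw [this]
    abel
  -- relative interior point
  let 𝓕 : Set (Matrix (Fin k) (Fin k) ℝ) := {M | ∃ x y, M = F x y ∧ M.PosSemidef}
  have hne : 𝓕.Nonempty := by
    obtain ⟨y, hy⟩ := (hmem _).mp (hz 0)
    exact ⟨_, _, y, rfl, hy⟩
  obtain ⟨M0, ⟨x0, y0, hM0, hM0psd⟩, hM0ker⟩ := exists_rel_interior 𝓕 hne
    (by rintro M ⟨x, y, _, h⟩; exact h)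
    (by
      rintro M ⟨x, y, hM, h⟩ M' ⟨x', y', hM', h'⟩
      refine ⟨(1 - (1 / 2 : ℝ)) • x + (1 / 2 : ℝ) • x',
        (1 - (1 / 2 : ℝ)) • y + (1 / 2 : ℝ) • y', ?_, ?_⟩
      · rw [haff, ← hM, ← hM']; norm_num
      · exact (h.smul (by norm_num)).add (h'.smul (by norm_num)))
  obtain ⟨c0, hc0, Q, hMQ, hsec⟩ := exists_section M0 hM0psd
  -- the countable set
  let S : Set ℝ := (Set.range fun p : Fin k × Fin k => A0 p.1 p.2) ∪
    (Set.range fun p : Fin m × Fin k × Fin k => A p.1 p.2.1 p.2.2) ∪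
    (Set.range fun p : Fin a × Fin k × Fin k => B p.1 p.2.1 p.2.2) ∪
    (Set.range fun p : Fin k × Fin k => Q p.1 p.2) ∪
    (Set.range fun p : Fin m × (Fin c →₀ ℕ) => coeff p.2 (z p.1))
  have hS : S.Countable := by
    refine ((((Set.countable_range _).union (Set.countable_range _)).union
      (Set.countable_range _)).union (Set.countable_range _)).union (Set.countable_range _)
  obtain ⟨b, σ, hres, hσ, hσb⟩ := exists_sigma S hS c 5 (by norm_num)
  have sA0 : ∀ i j, σ (A0 i j) = Ideal.Quotient.mk _ (C (A0 i j)) := fun i j =>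
    hσ _ (Or.inl (Or.inl (Or.inl (Or.inl ⟨(i, j), rfl⟩))))
  have sA : ∀ s i j, σ (A s i j) = Ideal.Quotient.mk _ (C (A s i j)) := fun s i j =>
    hσ _ (Or.inl (Or.inl (Or.inl (Or.inr ⟨(s, i, j), rfl⟩))))
  have sB : ∀ s i j, σ (B s i j) = Ideal.Quotient.mk _ (C (B s i j)) := fun s i j =>
    hσ _ (Or.inl (Or.inl (Or.inr ⟨(s, i, j), rfl⟩)))
  have sQ : ∀ i j, σ (Q i j) = Ideal.Quotient.mk _ (C (Q i j)) := fun i j =>
    hσ _ (Or.inl (Or.inr ⟨(i, j), rfl⟩))
  have sz : ∀ s, σ (eval b (z s)) = Ideal.Quotient.mk _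
      (aeval (fun i => C (b i) + X i) (z s)) := fun s =>
    sigma_eval S b σ hσ hσb (z s) (fun d => Or.inr ⟨(s, d), rfl⟩)
  obtain ⟨y, hy⟩ := (hmem _).mp (hz b)
  obtain ⟨R, hR⟩ := psd_factor hy
  set N : Matrix (Fin k) (Fin k) ℝ := F (fun i => eval b (z i)) y with hN
  let zs : Fin m → MvPolynomial (Fin c) ℝ := fun i => aeval (fun j => C (b j) + X j) (z i)
  let xe : ℝ → Fin m → ℝ := fun ε i => Sc L ε (zs i)
  let ye : ℝ → Fin a → ℝ := fun ε j => ell L ε (σ (y j))
  let G : ℝ → Matrix (Fin k) (Fin k) ℝ := fun ε => F (xe ε) (ye ε)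
  have hFapp : ∀ x y i j, F x y i j = A0 i j + ∑ s, x s * A s i j + ∑ t, y t * B t i j := by
    intro x y i j
    simp [F, Matrix.add_apply, Matrix.sum_apply, Matrix.smul_apply]
  have ellC : ∀ ε r, ell L ε (Ideal.Quotient.mk _ (C r)) = r := by
    intro ε r
    have := ell_mul_mk L ε r 1
    rw [mul_one] at this
    rw [this]
    have h1 : ell L ε (1 : Jet c 5) = 1 := by
      have : (1 : Jet c 5) = Ideal.Quotient.mk _ 1 := by simp
      rw [this, ell_mk, Sc_one, hL1]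
    rw [h1, mul_one]
  have claim1 : ∀ ε i j, G ε i j = ell L ε (σ (N i j)) := by
    intro ε i j
    have e1 : N i j = A0 i j + ∑ s, eval b (z s) * A s i j + ∑ t, y t * B t i j :=
      hFapp _ _ i j
    rw [e1, map_add, map_add, map_sum, map_sum, ell_add, ell_add, ell_sum, ell_sum, sA0, ellC]
    simp only [G]
    rw [hFapp]
    congr 1
    · congr 1
      apply Finset.sum_congr rfl
      intro s _
      rw [map_mul, sA, sz, mul_comm (Ideal.Quotient.mk _ _), ell_mul_mk, ell_mk, mul_comm]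
    · apply Finset.sum_congr rfl
      intro t _
      rw [map_mul, sB, mul_comm (σ (y t)), ell_mul_mk, mul_comm]
  have hNij : ∀ i j, N i j = ∑ l, R l i * R l j := by
    intro i j
    rw [hR, Matrix.mul_apply]
    rfl
  have claim2 : ∀ ε (w : Fin k → ℝ), w ⬝ᵥ (G ε *ᵥ w) =
      ∑ l, ell L ε ((∑ i, Ideal.Quotient.mk _ (C (w i)) * σ (R l i)) *
        (∑ i, Ideal.Quotient.mk _ (C (w i)) * σ (R l i))) := by
    intro ε w
    have e1 : ∀ l, ell L ε ((∑ i, Ideal.Quotient.mk _ (C (w i)) * σ (R l i)) *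
        (∑ i, Ideal.Quotient.mk _ (C (w i)) * σ (R l i))) =
        ∑ i, ∑ j, w i * (w j * ell L ε (σ (R l i) * σ (R l j))) := by
      intro l
      rw [Finset.sum_mul_sum, ell_sum]
      apply Finset.sum_congr rfl
      intro i _
      rw [ell_sum]
      apply Finset.sum_congr rfl
      intro j _
      have : Ideal.Quotient.mk ((mI c) ^ 5) (C (w i)) * σ (R l i) *
          (Ideal.Quotient.mk _ (C (w j)) * σ (R l j)) =
          Ideal.Quotient.mk _ (C (w i)) * (Ideal.Quotient.mk _ (C (w j)) *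
            (σ (R l i) * σ (R l j))) := by ring
      rw [this, ell_mul_mk, ell_mul_mk]
    simp only [e1]
    have eG : ∀ i j, G ε i j = ∑ l, ell L ε (σ (R l i) * σ (R l j)) := by
      intro i j
      rw [claim1, hNij, map_sum, ell_sum]
      apply Finset.sum_congr rfl
      intro l _
      rw [map_mul]
    have e2 : w ⬝ᵥ (G ε *ᵥ w) =
        ∑ i, ∑ j, ∑ l, w i * (w j * ell L ε (σ (R l i) * σ (R l j))) := by
      simp only [dotProduct, mulVec, Finset.mul_sum, eG, Finset.sum_mul]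
      apply Finset.sum_congr rfl
      intro i _
      apply Finset.sum_congr rfl
      intro j _
      apply Finset.sum_congr rfl
      intro l _
      ring
    rw [e2, Finset.sum_comm]
    have e3 : ∀ j : Fin k, ∑ i, ∑ l, w i * (w j * ell L ε (σ (R l i) * σ (R l j))) =
        ∑ l, ∑ i, w i * (w j * ell L ε (σ (R l i) * σ (R l j))) :=
      fun j => Finset.sum_comm
    simp only [e3]
    rw [Finset.sum_comm]
    apply Finset.sum_congr rfl
    intro l _
    exact Finset.sum_comm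
  -- kernel
  have hNQ : N * Q = 0 := by
    apply Matrix.toLin'.injective
    apply LinearMap.ext
    intro w
    have h1 : M0 *ᵥ (Q *ᵥ w) = 0 := by
      rw [Matrix.mulVec_mulVec, hMQ, Matrix.zero_mulVec]
    have h2 := hM0ker N ⟨_, y, hN, hy⟩ _ h1
    simpa [Matrix.toLin'_apply, Matrix.mulVec_mulVec] using h2
  have hGQ : ∀ ε, G ε * Q = 0 := by
    intro ε
    ext i j
    rw [Matrix.mul_apply, Matrix.zero_apply]
    have h1 : ∑ s, N i s * Q s j = 0 := by
      have := congrArg (fun M => M i j) hNQ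
      simpa [Matrix.mul_apply] using this
    have h2 : ell L ε (σ (∑ s, N i s * Q s j)) = 0 := by
      rw [h1, map_zero, ell_zero]
    rw [map_sum, ell_sum] at h2
    rw [← h2]
    apply Finset.sum_congr rfl
    intro s _
    rw [map_mul, sQ, mul_comm (σ (N i s)), ell_mul_mk, claim1, mul_comm]
  have hGsymm : ∀ ε, (G ε)ᵀ = G ε := fun ε => hsymm _ _
  have hproj : ∀ ε (w : Fin k → ℝ), w ⬝ᵥ (G ε *ᵥ w) =
      (w - Q *ᵥ w) ⬝ᵥ (G ε *ᵥ (w - Q *ᵥ w)) := by
    intro ε w
    have h1 : G ε *ᵥ (Q *ᵥ w) = 0 := by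
      rw [Matrix.mulVec_mulVec, hGQ, Matrix.zero_mulVec]
    have h2 : (Q *ᵥ w) ⬝ᵥ (G ε *ᵥ w) = 0 := by
      rw [Matrix.dotProduct_mulVec, ← Matrix.mulVec_transpose, hGsymm, h1, zero_dotProduct]
    rw [Matrix.mulVec_sub, h1, sub_zero, sub_dotProduct, h2, sub_zero]
  obtain ⟨C', hC', hlow⟩ := family_lower L hL (fun l i => σ (R l i))
  have hlow2 : ∀ ε, 0 < ε → ε ≤ 1 → ∀ w : Fin k → ℝ,
      -(C' * ε ^ 6 * ∑ i, (w - Q *ᵥ w) i ^ 2) ≤ w ⬝ᵥ (G ε *ᵥ w) := by
    intro ε hε hε1 w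
    rw [hproj, claim2]
    exact hlow ε hε hε1 _
  -- the transported functional
  have hgx : ∀ ε, 0 < ε → g b ε (xe ε) = fun i => L (z i) := by
    intro ε hε
    let Γ := LinearMap.toMatrix' (g b ε)
    have hΓ : ∀ x i, g b ε x i = ∑ s, Γ i s * x s := by
      intro x i
      have : g b ε x = Γ *ᵥ x := (LinearMap.toMatrix'_mulVec (g b ε) x).symm
      rw [this]; rfl
    have hxe : ∀ s, xe ε s = L (aeval (fun j => C (b j) + C ε * X j) (z s)) := by
      intro s
      simp only [xe]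
      rw [Sc_eq_scale L ε (zs s) ((totalDegree_shift b (z s)).trans (hdeg s))]
      congr 1
      simp only [zs]
      rw [← AlgHom.comp_apply]
      congr 1
      ext1 j
      simp
    funext i
    rw [hΓ]
    have hpoly : ∑ s, C (Γ i s) * aeval (fun j => C (b j) + C ε * X j) (z s) = z i := by
      apply MvPolynomial.funext
      intro u
      rw [map_sum]
      have h1 := congrFun (hgz b ε hε u) i
      rw [hΓ] at h1
      rw [← h1]
      apply Finset.sum_congr rfl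
      intro s _
      rw [map_mul, eval_C]
      congr 1
      have h2 : (eval u) ((aeval fun j => C (b j) + C ε * X j) (z s)) =
          eval (fun j => b j + ε * u j) (z s) := by
        rw [aeval_def, ← coe_eval₂Hom, ← RingHom.comp_apply]
        have : (eval u).comp (eval₂Hom (algebraMap ℝ (MvPolynomial (Fin c) ℝ))
            (fun j => C (b j) + C ε * X j)) = eval (fun j => b j + ε * u j) := by
          apply MvPolynomial.ringHom_ext
          · intro r; simp
          · intro j; simp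
        rw [this]
      exact h2
    have h3 := congrArg L hpoly
    rw [map_sum] at h3
    rw [← h3]
    apply Finset.sum_congr rfl
    intro s _
    rw [← smul_eq_C_mul, map_smul, smul_eq_mul, hxe]
  -- points of K
  let κ : ℝ := C' / c0
  have hκ : 0 ≤ κ := div_nonneg hC' hc0.le
  let P : ℝ → Fin m → ℝ := fun ε =>
    (1 - κ * ε ^ 6) • (fun i => L (z i)) + (κ * ε ^ 6) • g b ε x0
  have hP : ∀ ε, 0 < ε → ε ≤ 1 → κ * ε ^ 6 ≤ 1 → P ε ∈ K := by
    intro ε hε hε1 ht
    set t : ℝ := κ * ε ^ 6 with htdef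
    have ht0 : 0 ≤ t := by positivity
    have hx : (1 - t) • xe ε + t • x0 ∈ K := by
      rw [hmem]
      refine ⟨(1 - t) • ye ε + t • y0, ?_⟩
      rw [haff, ← hM0]
      apply Matrix.PosSemidef.of_dotProduct_mulVec_nonneg
      · have h1 : ((1 - t) • F (xe ε) (ye ε) + t • M0)ᵀ =
            (1 - t) • F (xe ε) (ye ε) + t • M0 := by
          rw [Matrix.transpose_add, Matrix.transpose_smul, Matrix.transpose_smul, hsymm, hM0,
            hsymm]
        rw [Matrix.IsHermitian, Matrix.conjTranspose_eq_transpose_of_trivial, h1]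
      · intro w
        have h1 := hlow2 ε hε hε1 w
        have h2 := hsec w
        have h3 : 0 ≤ ∑ i, (w - Q *ᵥ w) i ^ 2 := by positivity
        simp only [star_trivial, Matrix.add_mulVec, Matrix.smul_mulVec, dotProduct_add,
          dotProduct_smul, smul_eq_mul]
        have h4 : c0 * t = C' * ε ^ 6 := by
          simp only [htdef, κ]
          field_simp
        have h5 : w ⬝ᵥ (F (xe ε) (ye ε) *ᵥ w) = w ⬝ᵥ (G ε *ᵥ w) := rfl
        rw [h5]
        have h6 : (1 - t) * (-(C' * ε ^ 6 * ∑ i, (w - Q *ᵥ w) i ^ 2)) ≤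
            (1 - t) * (w ⬝ᵥ (G ε *ᵥ w)) := mul_le_mul_of_nonneg_left h1 (by linarith)
        have h7 := mul_le_mul_of_nonneg_left h2 ht0
        have h8 : 0 ≤ t * (C' * ε ^ 6) * ∑ i, (w - Q *ᵥ w) i ^ 2 := by positivity
        have h9 : t * (c0 * ∑ i, (w - Q *ᵥ w) i ^ 2) =
            C' * ε ^ 6 * ∑ i, (w - Q *ᵥ w) i ^ 2 := by
          rw [← h4]; ring
        rw [h9] at h7
        nlinarith [h6, h7, h8]
    have h1 := hgK b ε hε _ hx
    rw [map_add, map_smul, map_smul, hgx ε hε] at h1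
    exact h1
  -- limit
  obtain ⟨Cb, hCb⟩ := hgb b x0
  have hlim : Filter.Tendsto P (nhdsWithin 0 (Set.Ioi 0)) (nhds (fun i => L (z i))) := by
    rw [tendsto_pi_nhds]
    intro i
    have e1 : ∀ ε, P ε i = L (z i) + κ * (ε ^ 6 * (g b ε x0 i - L (z i))) := by
      intro ε
      simp only [P, Pi.add_apply, Pi.smul_apply, smul_eq_mul]
      ring
    simp only [e1]
    have e2 : Filter.Tendsto (fun ε : ℝ => ε ^ 6 * (g b ε x0 i - L (z i)))
        (nhdsWithin 0 (Set.Ioi 0)) (nhds 0) := by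
      have hb1 : ∀ ε ∈ Set.Ioc (0 : ℝ) 1,
          |ε ^ 6 * (g b ε x0 i - L (z i))| ≤ ε ^ 2 * (Cb + |L (z i)|) := by
        rintro ε ⟨hε, hε1⟩
        have h1 := hCb ε hε hε1 i
        rw [abs_mul, abs_of_pos (by positivity : (0 : ℝ) < ε ^ 6)]
        have h2 : |g b ε x0 i - L (z i)| ≤ |g b ε x0 i| + |L (z i)| := abs_sub _ _
        have h3 : ε ^ 4 ≤ 1 := pow_le_one₀ hε.le hε1
        have h4 : ε ^ 4 * |L (z i)| ≤ |L (z i)| := by
          have := mul_le_mul_of_nonneg_right h3 (abs_nonneg (L (z i)))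
          linarith
        calc ε ^ 6 * |g b ε x0 i - L (z i)| ≤ ε ^ 6 * (|g b ε x0 i| + |L (z i)|) := by
              apply mul_le_mul_of_nonneg_left h2 (by positivity)
          _ = ε ^ 2 * (ε ^ 4 * |g b ε x0 i| + ε ^ 4 * |L (z i)|) := by ring
          _ ≤ ε ^ 2 * (Cb + |L (z i)|) := by
              apply mul_le_mul_of_nonneg_left (by linarith) (by positivity)
      have hb2 : Filter.Tendsto (fun ε : ℝ => ε ^ 2 * (Cb + |L (z i)|))
          (nhdsWithin 0 (Set.Ioi 0)) (nhds 0) := by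
        have : Filter.Tendsto (fun ε : ℝ => ε ^ 2 * (Cb + |L (z i)|)) (nhds 0)
            (nhds ((0 : ℝ) ^ 2 * (Cb + |L (z i)|))) := by
          apply Continuous.tendsto
          fun_prop
        have h0 : (0 : ℝ) ^ 2 * (Cb + |L (z i)|) = 0 := by ring
        rw [h0] at this
        exact this.mono_left nhdsWithin_le_nhds
      rw [tendsto_zero_iff_abs_tendsto_zero]
      refine squeeze_zero' (Filter.Eventually.of_forall fun ε => abs_nonneg _) ?_ hb2
      have : Set.Ioc (0 : ℝ) 1 ∈ nhdsWithin (0 : ℝ) (Set.Ioi 0) :=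
        Ioc_mem_nhdsGT (by norm_num)
      filter_upwards [this] with ε hε using hb1 ε hε
    have e3 := (e2.const_mul κ).const_add (L (z i))
    simpa using e3
  refine hcl.mem_of_tendsto hlim ?_
  have h1 : Set.Ioc (0 : ℝ) 1 ∈ nhdsWithin (0 : ℝ) (Set.Ioi 0) :=
    Ioc_mem_nhdsGT (by norm_num)
  have h2 : ∀ᶠ ε : ℝ in nhdsWithin 0 (Set.Ioi 0), κ * ε ^ 6 ≤ 1 := by
    have : Filter.Tendsto (fun ε : ℝ => κ * ε ^ 6) (nhdsWithin 0 (Set.Ioi 0)) (nhds 0) := by
      have : Filter.Tendsto (fun ε : ℝ => κ * ε ^ 6) (nhds 0) (nhds (κ * 0 ^ 6)) := by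
        apply Continuous.tendsto
        fun_prop
      have h0 : κ * (0 : ℝ) ^ 6 = 0 := by ring
      rw [h0] at this
      exact this.mono_left nhdsWithin_le_nhds
    exact (this.eventually (gt_mem_nhds (by norm_num : (0 : ℝ) < 1))).mono fun ε h => h.le
  filter_upwards [h1, h2] with ε hε hε2 using hP ε hε.1 hε.2 hε2

end main

end Crest.Agent.R237.NS
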