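import Mathlib
import Crest.Agent.R237.AsmFlat
import Crest.Agent.R237.Model3
import Crest.Agent.R237.Inst
import Crest.Agent.R237.H823Final
import Crest.Agent.R237.NS

/-!
Row 237 (S0367): assembly (helper432).
-/

set_option autoImplicit false

namespace Crest.Agent.R237.Asm
open Matrix Crest.GeometryTopology MvPolynomial

variable {n d r : ℕ}

/-- The assembly: everything except the concrete data. -/
theorem assemble (hn : 2 ≤ n) (q : Fin d → Matrix (Fin n) (Fin n) ℝ) (hq : ∀ a, (q a).IsSymm)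
    (v : Fin r → Fin n → ℝ) (hv : ∀ a k, eval (v k) (qf (q a)) = 0)
    (hspan : ∀ g : MvPolynomial (Fin n) ℝ, g.IsHomogeneous 2 → (∀ k, eval (v k) g = 0) →
      g ∈ Submodule.span ℝ (Set.range fun a => qf (q a)))
    (hfree : ∀ W : Matrix (Fin d) (Fin d) ℝ, W.IsSymm →
      ∃ T : MvPolynomial (Fin n) ℝ →ₗ[ℝ] ℝ, ∀ a b, T (qf (q a) * qf (q b)) = W a b)
    (Xi : Matrix (Fin n) (Fin d) ℝ →ₗ[ℝ] Matrix (Fin n) (Fin d) ℝ →ₗ[ℝ] ℝ)
    (P : Matrix (Fin n) (Fin n) ℝ) (Z : Fin n → Fin n → Fin n → ℝ) (phi : ℝ)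
    (hP : P.PosDef) (hZ : EX.IsSym3 Z) (Xi_symm : ∀ X Y, Xi X Y = Xi Y X)
    (hX1 : ∀ X Y y, Xi (X + EX.transl q y) Y = Xi X Y)
    (hX2 : ∀ P' : Matrix (Fin n) (Fin n) ℝ, P'.IsSymm → P'.trace = 0 → ∀ Z', EX.IsSym3 Z' →
      0 ≤ Xi (P' * EX.zeta q Z') (P' * EX.zeta q Z'))
    (phi_pos : 0 < phi) (H1 : ∀ X, Xi X X ≤ phi * ∑ i, ∑ a, X i a ^ 2)
    (hneg : Xi (P * EX.zeta q Z) (P * EX.zeta q Z) < 0) :
    ∃ (m : ℕ) (p : MvPolynomial (Fin m) ℝ) (e : Fin m → ℝ),
      Hyperbolic.IsHyperbolic p e ∧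
        ¬ Hyperbolic.IsSpectrahedralShadow (Hyperbolic.closedCone p e) := by
  obtain ⟨hshift, hI⟩ := xi_convert (q := q) hX1 hX2
  let D : HData (Model.mm n) n d := mkHData hn q hq Model.M Model.M_symm (Model.T q) Model.aw
    (fun x i j k => Model.s3 i j k x) Model.s3_sym (Model.hT0 q) (Model.hT1 q) (Model.e q)
    (Model.M_e q) (Model.T_e_succ q) (Model.w_e q) Xi Xi_symm hshift hI phi phi_pos H1
  have hD : Model.OnModel q D := ⟨rfl, rfl, rfl, hshift⟩
  refine ⟨Model.mm n, D.p, D.e, D.hyp.1, ?_⟩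
  rw [D.hyp.2]
  intro hsh
  obtain ⟨L, hL1, hLpos, hM, hT, hw⟩ := exists_flat q v hspan hfree P hP Z hZ
  -- `L` is in the closed cone by the non-shadow criterion
  have hmem : (fun i => L (zP q i)) ∈ closure D.K0 := by
    refine Ext.mem_of_nonneg v (zP q) (zP_good q hv) (closure D.K0) isClosed_closure ?_ L hL1 hLpos
    intro L' hL'1 hL'
    obtain ⟨δ, hδ, hL'⟩ := hL'
    refine NS.ns (closure D.K0) hsh isClosed_closure (zP q) (zP_deg q) ?_ (Model.gmap q) ?_ ?_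
      (Model.gmap_hgb q) L' hL'1 ?_
    · intro u
      rw [eval_zP]
      exact Model.z_closure hD hq u
    · intro b s hs x hx
      exact Model.gmap_closure hD hq b hs hx
    · intro b s hs u
      rw [eval_zP, eval_zP]
      exact Model.gmap_z q hq b s hs.ne' u
    · intro h hdeg h0
      refine lt_of_lt_of_le (mul_pos hδ ?_) (hL' h hdeg)
      obtain ⟨m, hm⟩ := MvPolynomial.support_nonempty.2 h0
      refine Finset.sum_pos' (fun m _ => sq_nonneg _) ⟨m, hm, ?_⟩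
      have := MvPolynomial.mem_support_iff.1 hm
      positivity
  -- but it is not
  have hdet : IsUnit P.det := (Matrix.isUnit_iff_isUnit_det _).1 hP.isUnit
  have hflat := F_flat D (fun i => L (zP q i)) P⁻¹ hP.inv hM (EX.zeta q Z) hT (by
    rw [Matrix.nonsing_inv_nonsing_inv _ hdet]; exact hw)
  rw [Matrix.nonsing_inv_nonsing_inv _ hdet] at hflat
  have htr : 0 < P.trace := by
    have : Nonempty (Fin n) := ⟨⟨0, by omega⟩⟩
    exact hP.trace_pos
  have hF : D.F (fun i => L (zP q i)) < 0 := by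
    rw [hflat.2]
    exact div_neg_of_neg_of_pos hneg htr
  exact Model.not_mem_closure hflat.1 hF hmem

end Crest.Agent.R237.Asm
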