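import Mathlib
import Crest.Prelude.Def_Hyperbolic

/-!
Row 237, piece C1a: the polynomial `p = det(H11) h22 - tr (Λ H21 adj(H11) H21ᵀ)`,
its homogeneity and its value at complex points.
-/

set_option autoImplicit false

namespace Crest.Agent.R237.C

open Matrix

/-- The linear form `ℓ` as a polynomial. -/
noncomputable def lin {m : ℕ} (l : (Fin m → ℝ) → ℝ) : MvPolynomial (Fin m) ℝ :=
  ∑ i, MvPolynomial.C (l (Pi.single i 1)) * MvPolynomial.X i

theorem lin_homog {m : ℕ} (l : (Fin m → ℝ) → ℝ) : (lin l).IsHomogeneous 1 := by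
  unfold lin
  refine MvPolynomial.IsHomogeneous.sum _ _ _ ?_
  intro i _
  exact MvPolynomial.isHomogeneous_C_mul_X _ _

/-- Data of a "module cone". -/
structure Data (m : ℕ) (n q : Type) [Fintype n] [DecidableEq n] [Fintype q] where
  H11 : (Fin m → ℝ) →ₗ[ℝ] Matrix n n ℝ
  H21 : (Fin m → ℝ) →ₗ[ℝ] Matrix q n ℝ
  h22 : (Fin m → ℝ) →ₗ[ℝ] ℝ
  Lam : Matrix q q ℝ
  e : Fin m → ℝ
  symm11 : ∀ x, (H11 x).IsSymm
  e_pos : (H11 e).PosDef
  e21 : H21 e = 0
  e22 : 0 < h22 e

variable {m : ℕ} {n q : Type} [Fintype n] [DecidableEq n] [Fintype q]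

namespace Data

variable (D : Data m n q)

/-- matrix of linear forms -/
noncomputable def M11 : Matrix n n (MvPolynomial (Fin m) ℝ) :=
  Matrix.of fun i j => lin (fun x => D.H11 x i j)

noncomputable def M21 : Matrix q n (MvPolynomial (Fin m) ℝ) :=
  Matrix.of fun i j => lin (fun x => D.H21 x i j)

/-- The polynomial. -/
noncomputable def p : MvPolynomial (Fin m) ℝ :=
  D.M11.det * lin (fun x => D.h22 x) -
    ∑ a, ∑ b, MvPolynomial.C (D.Lam a b) * (D.M21 * D.M11.adjugate * D.M21ᵀ) a b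

theorem det_homog {N : Type} [Fintype N] [DecidableEq N]
    (A : Matrix N N (MvPolynomial (Fin m) ℝ)) (hA : ∀ i j, (A i j).IsHomogeneous 1) :
    A.det.IsHomogeneous (Fintype.card N) := by
  rw [Matrix.det_apply]
  refine MvPolynomial.IsHomogeneous.sum _ _ _ ?_
  intro σ _
  have h1 : (∏ i, A (σ i) i).IsHomogeneous (∑ _i : N, 1) :=
    MvPolynomial.IsHomogeneous.prod _ _ _ (fun i _ => hA _ _)
  have h2 : (∑ _i : N, 1) = Fintype.card N := by simp
  rw [h2] at h1
  rcases Int.units_eq_one_or (Equiv.Perm.sign σ) with h | h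
  · rw [h, one_smul]; exact h1
  · rw [h]
    simpa using h1.neg

theorem adj_homog {N : Type} [Fintype N] [DecidableEq N]
    (A : Matrix N N (MvPolynomial (Fin m) ℝ)) (hA : ∀ i j, (A i j).IsHomogeneous 1) (i j : N) :
    (A.adjugate i j).IsHomogeneous (Fintype.card N - 1) := by
  rw [Matrix.adjugate_apply, Matrix.det_apply]
  refine MvPolynomial.IsHomogeneous.sum _ _ _ ?_
  intro σ _
  have h1 : (∏ k, (A.updateRow j (Pi.single i 1)) (σ k) k).IsHomogeneous
      (∑ k : N, if σ k = j then 0 else 1) := by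
    refine MvPolynomial.IsHomogeneous.prod _ _ _ (fun k _ => ?_)
    by_cases hk : σ k = j
    · rw [if_pos hk, hk, Matrix.updateRow_self]
      by_cases hki : k = i
      · subst hki
        simpa using MvPolynomial.isHomogeneous_one (Fin m) ℝ
      · rw [Pi.single_eq_of_ne hki]
        exact MvPolynomial.isHomogeneous_zero _ _ _
    · rw [if_neg hk, Matrix.updateRow_ne hk]
      exact hA _ _
  have h2 : (∑ k : N, if σ k = j then 0 else 1) = Fintype.card N - 1 := by
    have h3 : (∑ k : N, if σ k = j then 0 else 1) = ∑ k : N, if k = j then 0 else 1 :=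
      Equiv.sum_comp σ (fun k => if k = j then 0 else 1)
    rw [h3]
    have h4 : (∑ k : N, if k = j then 0 else 1) = ∑ k : N, if k ≠ j then 1 else 0 := by
      refine Finset.sum_congr rfl (fun k _ => ?_)
      by_cases h : k = j <;> simp [h]
    rw [h4, ← Finset.card_filter, Finset.filter_ne' , Finset.card_erase_of_mem (Finset.mem_univ _),
      Finset.card_univ]
  rw [h2] at h1
  rcases Int.units_eq_one_or (Equiv.Perm.sign σ) with h | h
  · rw [h, one_smul]; exact h1
  · rw [h]
    simpa using h1.neg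

theorem M11_homog (i j : n) : (D.M11 i j).IsHomogeneous 1 := by
  have : D.M11 i j = lin (fun x => D.H11 x i j) := rfl
  rw [this]
  exact lin_homog _

theorem M21_homog (i : q) (j : n) : (D.M21 i j).IsHomogeneous 1 := by
  have : D.M21 i j = lin (fun x => D.H21 x i j) := rfl
  rw [this]
  exact lin_homog _

theorem prod_homog [Nonempty n] (a b : q) :
    ((D.M21 * D.M11.adjugate * D.M21ᵀ) a b).IsHomogeneous (Fintype.card n + 1) := by
  have hcard : Fintype.card n + 1 = (1 + (Fintype.card n - 1)) + 1 := by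
    have : 0 < Fintype.card n := Fintype.card_pos
    omega
  have h21 : ∀ i j, (D.M21 i j).IsHomogeneous 1 := D.M21_homog
  have hadj : ∀ i j, (D.M11.adjugate i j).IsHomogeneous (Fintype.card n - 1) :=
    fun i j => adj_homog _ D.M11_homog i j
  have h1 : ∀ c, ((D.M21 * D.M11.adjugate) a c).IsHomogeneous (1 + (Fintype.card n - 1)) := by
    intro c
    rw [Matrix.mul_apply]
    exact MvPolynomial.IsHomogeneous.sum _ _ _ (fun d _ => (h21 a d).mul (hadj d c))
  have h2 : ∀ d, ((D.M21 * D.M11.adjugate) a d * D.M21ᵀ d b).IsHomogeneous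
      ((1 + (Fintype.card n - 1)) + 1) := by
    intro d
    rw [Matrix.transpose_apply]
    exact (h1 d).mul (h21 b d)
  rw [Matrix.mul_apply, hcard]
  exact MvPolynomial.IsHomogeneous.sum _ _ _ (fun d _ => h2 d)

theorem p_homog [Nonempty n] : D.p.IsHomogeneous (Fintype.card n + 1) := by
  unfold p
  have h1 : (D.M11.det * lin (fun x => D.h22 x)).IsHomogeneous (Fintype.card n + 1) :=
    (det_homog _ D.M11_homog).mul (lin_homog _)
  have h2 : (∑ a, ∑ b, MvPolynomial.C (D.Lam a b) *
      (D.M21 * D.M11.adjugate * D.M21ᵀ) a b).IsHomogeneous (Fintype.card n + 1) := by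
    refine MvPolynomial.IsHomogeneous.sum _ _ _ (fun a _ => ?_)
    refine MvPolynomial.IsHomogeneous.sum _ _ _ (fun b _ => ?_)
    have h3 := D.prod_homog a b
    generalize (D.M21 * D.M11.adjugate * D.M21ᵀ) a b = Y at h3 ⊢
    exact h3.C_mul _
  exact h1.sub h2

end Data

/-- evaluation of `lin` in any real algebra -/
theorem aeval_lin {R : Type} [CommRing R] [Algebra ℝ R] (l : (Fin m → ℝ) →ₗ[ℝ] ℝ)
    (v : Fin m → R) :
    MvPolynomial.aeval v (lin (fun x => l x)) = ∑ i, algebraMap ℝ R (l (Pi.single i 1)) * v i := by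
  unfold lin
  simp

theorem aeval_lin_point (l : (Fin m → ℝ) →ₗ[ℝ] ℝ) (e x : Fin m → ℝ) (z : ℂ) :
    MvPolynomial.aeval (fun i => z * (e i : ℂ) - (x i : ℂ)) (lin (fun x => l x)) =
      z * (l e : ℂ) - (l x : ℂ) := by
  rw [aeval_lin]
  have h1 : ∀ y : Fin m → ℝ, l y = ∑ i, l (Pi.single i 1) * y i := by
    intro y
    conv_lhs => rw [LinearMap.pi_apply_eq_sum_univ l y]
    refine Finset.sum_congr rfl (fun i _ => ?_)
    have : (fun j => if i = j then (1:ℝ) else 0) = Pi.single i 1 := by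
      funext j
      by_cases h : i = j
      · subst h; simp
      · rw [if_neg h, Pi.single_eq_of_ne (Ne.symm h)]
    rw [this, smul_eq_mul, mul_comm]
  rw [h1 e, h1 x]
  push_cast
  rw [Finset.mul_sum, ← Finset.sum_sub_distrib]
  refine Finset.sum_congr rfl (fun i _ => ?_)
  simp only [Complex.coe_algebraMap]
  ring

theorem eval_lin (l : (Fin m → ℝ) →ₗ[ℝ] ℝ) (x : Fin m → ℝ) :
    MvPolynomial.eval x (lin (fun x => l x)) = l x := by
  have h1 : l x = ∑ i, l (Pi.single i 1) * x i := by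
    conv_lhs => rw [LinearMap.pi_apply_eq_sum_univ l x]
    refine Finset.sum_congr rfl (fun i _ => ?_)
    have : (fun j => if i = j then (1:ℝ) else 0) = Pi.single i 1 := by
      funext j
      by_cases h : i = j
      · subst h; simp
      · rw [if_neg h, Pi.single_eq_of_ne (Ne.symm h)]
    rw [this, smul_eq_mul, mul_comm]
  rw [h1]
  unfold lin
  simp

namespace Data

variable (D : Data m n q)

/-- real value of `p` -/
theorem eval_p (x : Fin m → ℝ) :
    MvPolynomial.eval x D.p = (D.H11 x).det * D.h22 x -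
      ∑ a, ∑ b, D.Lam a b * (D.H21 x * (D.H11 x).adjugate * (D.H21 x)ᵀ) a b := by
  have h11 : D.M11.map (MvPolynomial.eval x) = D.H11 x := by
    ext i j
    exact eval_lin (m := m) (Matrix.entryLinearMap ℝ ℝ i j ∘ₗ D.H11) x
  have h21 : D.M21.map (MvPolynomial.eval x) = D.H21 x := by
    ext i j
    exact eval_lin (m := m) (Matrix.entryLinearMap ℝ ℝ i j ∘ₗ D.H21) x
  have hdet : MvPolynomial.eval x D.M11.det = (D.H11 x).det := by
    rw [RingHom.map_det, RingHom.mapMatrix_apply, h11]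
  have hadj : (D.M11.adjugate).map (MvPolynomial.eval x) = (D.H11 x).adjugate := by
    rw [← RingHom.mapMatrix_apply, RingHom.map_adjugate, RingHom.mapMatrix_apply, h11]
  have hprod : ∀ a b, MvPolynomial.eval x ((D.M21 * D.M11.adjugate * D.M21ᵀ) a b) =
      (D.H21 x * (D.H11 x).adjugate * (D.H21 x)ᵀ) a b := by
    intro a b
    have : ((D.M21 * D.M11.adjugate * D.M21ᵀ).map (MvPolynomial.eval x)) =
        D.H21 x * (D.H11 x).adjugate * (D.H21 x)ᵀ := by
      rw [Matrix.map_mul, Matrix.map_mul, Matrix.transpose_map, h21, hadj]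
    have h2 := congrFun (congrFun this a) b
    simpa using h2
  unfold p
  rw [map_sub, map_mul, hdet, eval_lin]
  congr 1
  rw [map_sum]
  refine Finset.sum_congr rfl (fun a _ => ?_)
  rw [map_sum]
  refine Finset.sum_congr rfl (fun b _ => ?_)
  rw [map_mul, hprod, MvPolynomial.eval_C]

/-- complexified matrices at `z e - x` -/
noncomputable def c11 (x : Fin m → ℝ) (z : ℂ) : Matrix n n ℂ :=
  Matrix.of fun i j => z * (D.H11 D.e i j : ℂ) - (D.H11 x i j : ℂ)

noncomputable def c21 (x : Fin m → ℝ) : Matrix q n ℂ :=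
  Matrix.of fun i j => - (D.H21 x i j : ℂ)

/-- complex value of `p` along lines in direction `e` -/
theorem lineEvalC_p (x : Fin m → ℝ) (z : ℂ) :
    Crest.GeometryTopology.Hyperbolic.lineEvalC D.p D.e x z =
      (D.c11 x z).det * (z * (D.h22 D.e : ℂ) - (D.h22 x : ℂ)) -
      ∑ a, ∑ b, (D.Lam a b : ℂ) * (D.c21 x * (D.c11 x z).adjugate * (D.c21 x)ᵀ) a b := by
  unfold Crest.GeometryTopology.Hyperbolic.lineEvalC
  set v : Fin m → ℂ := fun i => z * (D.e i : ℂ) - (x i : ℂ) with hv
  set φ : MvPolynomial (Fin m) ℝ →ₐ[ℝ] ℂ := MvPolynomial.aeval v with hφ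
  have h11 : D.M11.map φ = D.c11 x z := by
    ext i j
    exact aeval_lin_point (m := m) (Matrix.entryLinearMap ℝ ℝ i j ∘ₗ D.H11) D.e x z
  have h21 : D.M21.map φ = D.c21 x := by
    ext i j
    have h := aeval_lin_point (m := m) (Matrix.entryLinearMap ℝ ℝ i j ∘ₗ D.H21) D.e x z
    have h0 : (Matrix.entryLinearMap ℝ ℝ i j ∘ₗ D.H21) D.e = 0 := by
      rw [LinearMap.comp_apply, D.e21]; rfl
    rw [h0] at h
    have h1 : (D.M21.map φ) i j = z * ((0:ℝ):ℂ) -
      (((Matrix.entryLinearMap ℝ ℝ i j ∘ₗ D.H21) x : ℝ) : ℂ) := h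
    rw [h1]
    simp only [Complex.ofReal_zero, mul_zero, zero_sub, c21, Matrix.of_apply]
    rfl
  have hdet : φ D.M11.det = (D.c11 x z).det := by
    rw [AlgHom.map_det, AlgHom.mapMatrix_apply, h11]
  have hadj : (D.M11.adjugate).map φ = (D.c11 x z).adjugate := by
    rw [← AlgHom.mapMatrix_apply, AlgHom.map_adjugate, AlgHom.mapMatrix_apply, h11]
  have hprod : ∀ a b, φ ((D.M21 * D.M11.adjugate * D.M21ᵀ) a b) =
      (D.c21 x * (D.c11 x z).adjugate * (D.c21 x)ᵀ) a b := by
    intro a b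
    have : ((D.M21 * D.M11.adjugate * D.M21ᵀ).map φ) =
        D.c21 x * (D.c11 x z).adjugate * (D.c21 x)ᵀ := by
      rw [Matrix.map_mul, Matrix.map_mul, Matrix.transpose_map, h21, hadj]
    have h2 := congrFun (congrFun this a) b
    simpa using h2
  unfold p
  rw [map_sub, map_mul, hdet, aeval_lin_point]
  congr 1
  rw [map_sum]
  refine Finset.sum_congr rfl (fun a _ => ?_)
  rw [map_sum]
  refine Finset.sum_congr rfl (fun b _ => ?_)
  rw [map_mul, hprod]
  congr 1
  simp [hφ]

end Data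

end Crest.Agent.R237.C
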