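/-
Row 237, dimension count lemma (helper979).

If `F : ℝ^σ → ℝ^κ` is a polynomial map whose derivative at one point has rank `≥ r`, and if
finitely many polynomial maps `G_i : ℝ^{τ_i} → ℝ^κ` have `< r` variables each, then every nonempty
open set `U` contains a point `x` with `F x` not in the closure of the union of the images of the
`G_i`.
-/
import Mathlib

set_option autoImplicit false

open MvPolynomial

namespace Crest.Agent.R237.Count

variable {σ τ κ ρ : Type*}

/-- Chain rule for `aeval`. -/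
theorem pderiv_aeval [Fintype ρ] (F : ρ → MvPolynomial σ ℝ) (j : σ) (Φ : MvPolynomial ρ ℝ) :
    pderiv j (aeval F Φ) = ∑ k, aeval F (pderiv k Φ) * pderiv j (F k) := by
  classical
  induction Φ using MvPolynomial.induction_on with
  | C a =>
    simp
  | add p q hp hq =>
    simp only [map_add, hp, hq, add_mul, Finset.sum_add_distrib]
  | mul_X p i hp =>
    simp only [map_mul, aeval_X, pderiv_mul, hp, map_add, add_mul, Finset.sum_add_distrib,
      Finset.sum_mul]
    congr 1
    · refine Finset.sum_congr rfl fun k _ => ?_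
      ring
    · rw [Finset.sum_eq_single i]
      · simp
      · intro k _ hk
        rw [pderiv_X_of_ne (Ne.symm hk)]
        simp
      · intro h
        exact absurd (Finset.mem_univ i) h

theorem totalDegree_pderiv_le [Fintype ρ] (Φ : MvPolynomial ρ ℝ) (k : ρ) (d : ℕ)
    (h : Φ.totalDegree ≤ d + 1) : (pderiv k Φ).totalDegree ≤ d := by
  classical
  rw [MvPolynomial.totalDegree, Finset.sup_le_iff]
  intro m hm
  rw [MvPolynomial.mem_support_iff, coeff_pderiv] at hm
  have h1 : coeff (m + Finsupp.single k 1) Φ ≠ 0 := fun h0 => hm (by rw [h0, zero_mul])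
  have h2 : (m + Finsupp.single k 1) ∈ Φ.support := MvPolynomial.mem_support_iff.2 h1
  have h3 := le_totalDegree h2
  have h4 : ((m + Finsupp.single k 1).sum fun _ e => e) = (m.sum fun _ e => e) + 1 := by
    rw [Finsupp.sum_add_index' (fun _ => rfl) (fun _ _ _ => rfl)]
    simp
  omega

theorem eq_C_of_pderiv_eq_zero (Φ : MvPolynomial ρ ℝ) (h : ∀ k, pderiv k Φ = 0) :
    Φ = C (coeff 0 Φ) := by
  classical
  ext m
  rw [coeff_C]
  split_ifs with hm
  · rw [← hm]
  · obtain ⟨k, hk⟩ : ∃ k, m k ≠ 0 := by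
      by_contra hcon
      push Not at hcon
      exact hm (Finsupp.ext fun k => (hcon k).symm)
    have h1 : m - Finsupp.single k 1 + Finsupp.single k 1 = m := by
      apply tsub_add_cancel_of_le
      rw [Finsupp.single_le_iff]
      omega
    have h2 := congrArg (coeff (m - Finsupp.single k 1)) (h k)
    rw [coeff_pderiv, h1, coeff_zero] at h2
    rcases mul_eq_zero.1 h2 with h3 | h3
    · exact h3
    · exfalso
      have : (0 : ℝ) < (((m - Finsupp.single k 1 : ρ →₀ ℕ) k : ℕ) : ℝ) + 1 := by positivity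
      exact this.ne' h3

/-- Jacobian criterion: if the Jacobian at `x0` has a right inverse, the polynomials are
algebraically independent. -/
theorem algebraicIndependent_of_jacobian [Fintype ρ] [DecidableEq ρ] [Fintype σ]
    (F : ρ → MvPolynomial σ ℝ) (x0 : σ → ℝ) (B : Matrix σ ρ ℝ)
    (hB : (Matrix.of fun k j => eval x0 (pderiv j (F k))) * B = 1) :
    AlgebraicIndependent ℝ F := by
  rw [algebraicIndependent_iff]
  -- the polynomial matrix
  set J : Matrix ρ σ (MvPolynomial σ ℝ) := Matrix.of fun k j => pderiv j (F k) with hJ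
  obtain ⟨BC, hBC⟩ : ∃ BC : Matrix σ ρ (MvPolynomial σ ℝ), BC = B.map (C : ℝ → MvPolynomial σ ℝ) :=
    ⟨_, rfl⟩
  obtain ⟨D, hD⟩ : ∃ D : Matrix ρ ρ (MvPolynomial σ ℝ), D = J * BC := ⟨_, rfl⟩
  have hdet : D.det ≠ 0 := by
    intro h0
    have h1 : (eval x0) D.det = 0 := by rw [h0, map_zero]
    rw [RingHom.map_det, RingHom.mapMatrix_apply, hD, Matrix.map_mul] at h1
    have h2 : (J.map (eval x0)) * (BC.map (eval x0)) = 1 := by
      rw [← hB, hBC]
      congr 1
      ext a b
      simp
    rw [h2, Matrix.det_one] at h1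
    exact one_ne_zero h1
  have key : ∀ d : ℕ, ∀ Φ : MvPolynomial ρ ℝ, Φ.totalDegree ≤ d → aeval F Φ = 0 → Φ = 0 := by
    intro d
    induction d with
    | zero =>
      intro Φ hd h0
      have hC : Φ = C (coeff 0 Φ) := totalDegree_eq_zero_iff_eq_C.1 (Nat.le_zero.1 hd)
      rw [hC] at h0 ⊢
      rw [aeval_C, algebraMap_eq, C_eq_zero] at h0
      rw [h0, C_0]
    | succ d ih =>
      intro Φ hd h0
      have hv : (fun k => aeval F (pderiv k Φ)) = 0 := by
        apply Matrix.eq_zero_of_vecMul_eq_zero hdet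
        have h1 : Matrix.vecMul (fun k => aeval F (pderiv k Φ)) J = 0 := by
          ext1 j
          have := pderiv_aeval F j Φ
          rw [h0, map_zero] at this
          rw [Matrix.vecMul, dotProduct]
          exact this.symm
        rw [hD, ← Matrix.vecMul_vecMul, h1, Matrix.zero_vecMul]
      have hk : ∀ k, pderiv k Φ = 0 := fun k =>
        ih _ (totalDegree_pderiv_le Φ k d hd) (congrFun hv k)
      have hC := eq_C_of_pderiv_eq_zero Φ hk
      rw [hC] at h0 ⊢
      rw [aeval_C, algebraMap_eq, C_eq_zero] at h0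
      rw [h0, C_0]
  exact fun Φ h0 => key _ Φ le_rfl h0

/-- A nonzero polynomial does not vanish identically on a nonempty open set. -/
theorem exists_eval_ne_zero [Fintype σ] {p : MvPolynomial σ ℝ} (hp : p ≠ 0) {U : Set (σ → ℝ)}
    (hU : IsOpen U) (hne : U.Nonempty) : ∃ x ∈ U, eval x p ≠ 0 := by
  classical
  by_contra hcon
  push Not at hcon
  obtain ⟨x, hx⟩ := hne
  obtain ⟨ε, hε, hball⟩ := Metric.isOpen_iff.1 hU x hx
  apply hp
  apply funext_set (fun i => Set.Ioo (x i - ε) (x i + ε))
    (fun i => Set.Ioo_infinite (by linarith))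
  intro y hy
  rw [map_zero]
  apply hcon
  apply hball
  rw [Metric.mem_ball, dist_pi_lt_iff hε]
  intro i
  have := hy i (Set.mem_univ i)
  rw [Real.dist_eq, abs_lt]
  constructor <;> linarith [this.1, this.2]

/-- More than `card τ` polynomials in the variables `τ` are algebraically dependent. -/
theorem exists_relation [Fintype ρ] [Fintype τ] (G : ρ → MvPolynomial τ ℝ)
    (h : Fintype.card τ < Fintype.card ρ) : ∃ Φ : MvPolynomial ρ ℝ, Φ ≠ 0 ∧ aeval G Φ = 0 := by
  by_contra hcon
  push Not at hcon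
  have hind : AlgebraicIndependent ℝ G := by
    rw [algebraicIndependent_iff]
    intro Φ hΦ
    by_contra hne
    exact hcon Φ hne hΦ
  have h1 := hind.lift_cardinalMk_le_trdeg
  rw [MvPolynomial.trdeg_of_isDomain] at h1
  simp only [Cardinal.mk_fintype, Cardinal.lift_natCast, Nat.cast_le] at h1
  omega

theorem eval_aeval' (x : σ → ℝ) (H : ρ → MvPolynomial σ ℝ) (Φ : MvPolynomial ρ ℝ) :
    eval x (aeval H Φ) = eval (fun i => eval x (H i)) Φ := by
  induction Φ using MvPolynomial.induction_on with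
  | C a => simp
  | add p q hp hq => simp only [map_add, hp, hq]
  | mul_X p i hp => simp only [map_mul, aeval_X, eval_X, hp]

/-- From a rank bound to a factorisation of the identity. -/
theorem exists_mul_mul_eq_one [Fintype κ] [Fintype σ] {r : ℕ} (J : Matrix κ σ ℝ)
    (hr : r ≤ J.rank) : ∃ (A : Matrix (Fin r) κ ℝ) (B : Matrix σ (Fin r) ℝ), A * J * B = 1 := by
  classical
  -- linearly independent vectors in the range
  have h1 : (r : Cardinal) ≤ Module.rank ℝ (LinearMap.range J.mulVecLin) := by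
    rw [← Module.finrank_eq_rank]
    exact_mod_cast hr
  obtain ⟨f, hf⟩ := Module.le_rank_iff_exists_linearMap.1 h1
  have hpre : ∀ i : Fin r, ∃ b : σ → ℝ, J.mulVecLin b = (f (Pi.single i 1) : κ → ℝ) := fun i =>
    (f (Pi.single i 1)).2
  choose b hb using hpre
  set g : (Fin r → ℝ) →ₗ[ℝ] (κ → ℝ) := (LinearMap.range J.mulVecLin).subtype ∘ₗ f with hg
  have hginj : Function.Injective g := (Submodule.injective_subtype _).comp hf
  obtain ⟨a, ha⟩ := g.exists_leftInverse_of_injective (LinearMap.ker_eq_bot.2 hginj)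
  refine ⟨LinearMap.toMatrix' a, Matrix.of fun s i => b i s, ?_⟩
  have h2 : J * (Matrix.of fun s i => b i s) = LinearMap.toMatrix' g := by
    ext k i
    rw [LinearMap.toMatrix'_apply]
    have := congrFun (hb i) k
    rw [Matrix.mulVecLin_apply, Matrix.mulVec, dotProduct] at this
    rw [Matrix.mul_apply]
    exact this
  rw [Matrix.mul_assoc, h2, ← LinearMap.toMatrix'_comp, ha, LinearMap.toMatrix'_id]

/-- **Dimension count.** -/
theorem count {ι : Type*} [Finite ι] [Fintype σ] [Fintype κ] {τ : ι → Type*} [∀ i, Fintype (τ i)]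
    (F : κ → MvPolynomial σ ℝ) (x0 : σ → ℝ) {r : ℕ}
    (hr : r ≤ (Matrix.of fun (k : κ) (j : σ) => eval x0 (pderiv j (F k))).rank)
    (G : (i : ι) → κ → MvPolynomial (τ i) ℝ) (hm : ∀ i, Fintype.card (τ i) < r)
    (U : Set (σ → ℝ)) (hU : IsOpen U) (hne : U.Nonempty) :
    ∃ x ∈ U, (fun k => eval x (F k)) ∉
      closure (⋃ i, Set.range fun (y : τ i → ℝ) => fun k => eval y (G i k)) := by
  classical
  cases nonempty_fintype ι
  set J : Matrix κ σ ℝ := Matrix.of fun (k : κ) (j : σ) => eval x0 (pderiv j (F k)) with hJ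
  obtain ⟨A, B, hAB⟩ := exists_mul_mul_eq_one J hr
  -- algebraically independent linear combinations
  have hind : AlgebraicIndependent ℝ (fun i : Fin r => ∑ k, C (A i k) * F k) := by
    apply algebraicIndependent_of_jacobian _ x0 B
    rw [← hAB]
    congr 1
    ext i j
    simp [Matrix.mul_apply, hJ]
  have hrel : ∀ i, ∃ Φ : MvPolynomial (Fin r) ℝ, Φ ≠ 0 ∧
      aeval (fun a : Fin r => ∑ k, C (A a k) * G i k) Φ = 0 := fun i =>
    exists_relation _ (by rw [Fintype.card_fin]; exact hm i)
  choose Φ hΦ0 hΦ using hrel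
  set Ψ : MvPolynomial (Fin r) ℝ := ∏ i, Φ i with hΨ
  have hΨ0 : Ψ ≠ 0 := Finset.prod_ne_zero_iff.2 fun i _ => hΦ0 i
  have hne' : aeval (fun i : Fin r => ∑ k, C (A i k) * F k) Ψ ≠ 0 := fun h0 =>
    hΨ0 ((algebraicIndependent_iff.1 hind) _ h0)
  obtain ⟨x, hxU, hx⟩ := exists_eval_ne_zero hne' hU hne
  refine ⟨x, hxU, fun hmem => hx ?_⟩
  -- the closed zero set
  have hcl : IsClosed {z : κ → ℝ | eval (fun i : Fin r => ∑ k, A i k * z k) Ψ = 0} := by
    apply isClosed_eq _ continuous_const
    exact (MvPolynomial.continuous_eval Ψ).comp (by fun_prop)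
  have hsub : (⋃ i, Set.range fun (y : τ i → ℝ) => fun k => eval y (G i k)) ⊆
      {z : κ → ℝ | eval (fun i : Fin r => ∑ k, A i k * z k) Ψ = 0} := by
    rintro z hz
    obtain ⟨i, hi⟩ := Set.mem_iUnion.1 hz
    obtain ⟨y, rfl⟩ := hi
    change eval (fun a : Fin r => ∑ k, A a k * eval y (G i k)) Ψ = 0
    rw [hΨ, map_prod]
    apply Finset.prod_eq_zero (Finset.mem_univ i)
    have := congrArg (eval y) (hΦ i)
    rw [map_zero, eval_aeval'] at this
    simpa only [map_sum, map_mul, eval_C] using this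
  have hz : eval (fun a : Fin r => ∑ k, A a k * eval x (F k)) Ψ = 0 :=
    hcl.closure_subset_iff.2 hsub hmem
  rw [eval_aeval']
  simpa only [map_sum, map_mul, eval_C] using hz

end Crest.Agent.R237.Count
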