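/-
Row 237, dimension count for bilinear maps (helper979): composable and coordinate-free versions
of `Crest.Agent.R237.Count.count`.
-/
import Mathlib
import Crest.Agent.R237.Count

set_option autoImplicit false

open MvPolynomial Module

namespace Crest.Agent.R237.Count

/-! ### Small sets -/

section small

variable {σ τ κ : Type*} [Fintype κ]

/-- `S` is `r`-small: after every linear map to `ℝ^r` some nonzero polynomial vanishes on it. -/
def Small (r : ℕ) (S : Set (κ → ℝ)) : Prop :=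
  ∀ A : Matrix (Fin r) κ ℝ, ∃ Φ : MvPolynomial (Fin r) ℝ, Φ ≠ 0 ∧
    ∀ z ∈ S, eval (A.mulVec z) Φ = 0

theorem Small.mono {r : ℕ} {S T : Set (κ → ℝ)} (hT : Small r T) (h : S ⊆ T) : Small r S :=
  fun A => (hT A).imp fun _ hΦ => ⟨hΦ.1, fun z hz => hΦ.2 z (h hz)⟩

theorem Small.union {r : ℕ} {S T : Set (κ → ℝ)} (hS : Small r S) (hT : Small r T) :
    Small r (S ∪ T) := by
  intro A
  obtain ⟨Φ, h1, h2⟩ := hS A
  obtain ⟨Ψ, h3, h4⟩ := hT A
  refine ⟨Φ * Ψ, mul_ne_zero h1 h3, ?_⟩
  rintro z (hz | hz)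
  · rw [map_mul, h2 z hz, zero_mul]
  · rw [map_mul, h4 z hz, mul_zero]

theorem Small.iUnion {r : ℕ} {ι : Type*} [Finite ι] {S : ι → Set (κ → ℝ)}
    (hS : ∀ i, Small r (S i)) : Small r (⋃ i, S i) := by
  classical
  cases nonempty_fintype ι
  intro A
  choose Φ h1 h2 using fun i => hS i A
  refine ⟨∏ i, Φ i, Finset.prod_ne_zero_iff.2 fun i _ => h1 i, ?_⟩
  intro z hz
  obtain ⟨i, hi⟩ := Set.mem_iUnion.1 hz
  rw [map_prod]
  exact Finset.prod_eq_zero (Finset.mem_univ i) (h2 i z hi)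

theorem Small.closure' {r : ℕ} {S : Set (κ → ℝ)} (hS : Small r S) : Small r (closure S) := by
  intro A
  obtain ⟨Φ, h1, h2⟩ := hS A
  refine ⟨Φ, h1, ?_⟩
  have hcl : IsClosed {z : κ → ℝ | eval (A.mulVec z) Φ = 0} := by
    apply isClosed_eq _ continuous_const
    exact (MvPolynomial.continuous_eval Φ).comp (by fun_prop)
  intro z hz
  have h3 : S ⊆ {z : κ → ℝ | eval (A.mulVec z) Φ = 0} := fun z hz => h2 z hz
  exact hcl.closure_subset_iff.2 h3 hz

theorem small_range [Fintype τ] {r : ℕ} (G : κ → MvPolynomial τ ℝ) (h : Fintype.card τ < r) :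
    Small r (Set.range fun (y : τ → ℝ) => fun k => eval y (G k)) := by
  intro A
  obtain ⟨Φ, hΦ0, hΦ⟩ := exists_relation (fun a : Fin r => ∑ k, C (A a k) * G k)
    (by rw [Fintype.card_fin]; exact h)
  refine ⟨Φ, hΦ0, ?_⟩
  rintro _ ⟨y, rfl⟩
  have := congrArg (eval y) hΦ
  rw [map_zero, eval_aeval'] at this
  simp only [map_sum, map_mul, eval_C] at this
  exact this

/-- Dimension count, composable form. -/
theorem count_small [Fintype σ] (F : κ → MvPolynomial σ ℝ) (x0 : σ → ℝ) {r : ℕ}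
    (hr : r ≤ (Matrix.of fun (k : κ) (j : σ) => eval x0 (pderiv j (F k))).rank)
    {S : Set (κ → ℝ)} (hS : Small r S) (U : Set (σ → ℝ)) (hU : IsOpen U) (hne : U.Nonempty) :
    ∃ x ∈ U, (fun k => eval x (F k)) ∉ closure S := by
  classical
  set J : Matrix κ σ ℝ := Matrix.of fun (k : κ) (j : σ) => eval x0 (pderiv j (F k)) with hJ
  obtain ⟨A, B, hAB⟩ := exists_mul_mul_eq_one J hr
  have hind : AlgebraicIndependent ℝ (fun i : Fin r => ∑ k, C (A i k) * F k) := by
    apply algebraicIndependent_of_jacobian _ x0 B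
    rw [← hAB]
    congr 1
    ext i j
    simp [Matrix.mul_apply, hJ]
  obtain ⟨Ψ, hΨ0, hΨ⟩ := hS.closure' A
  have hne' : aeval (fun i : Fin r => ∑ k, C (A i k) * F k) Ψ ≠ 0 := fun h0 =>
    hΨ0 ((algebraicIndependent_iff.1 hind) _ h0)
  obtain ⟨x, hxU, hx⟩ := exists_eval_ne_zero hne' hU hne
  refine ⟨x, hxU, fun hmem => hx ?_⟩
  have hz := hΨ _ hmem
  rw [eval_aeval']
  simp only [map_sum, map_mul, eval_C]
  exact hz

end small

/-! ### Bilinear polynomials -/

section polys

variable {a b κ σ : Type*} [Fintype a] [Fintype b]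

/-- The polynomial `Σ_{i,j} c_{ij} s_i t_j`. -/
noncomputable def bil (c : a → b → ℝ) (s : a → MvPolynomial σ ℝ) (t : b → MvPolynomial σ ℝ) :
    MvPolynomial σ ℝ :=
  ∑ i, ∑ j, C (c i j) * (s i * t j)

theorem eval_bil (c : a → b → ℝ) (s : a → MvPolynomial σ ℝ) (t : b → MvPolynomial σ ℝ)
    (x : σ → ℝ) : eval x (bil c s t) = ∑ i, ∑ j, c i j * (eval x (s i) * eval x (t j)) := by
  simp only [bil, map_sum, map_mul, eval_C]

theorem pderiv_bil (c : a → b → ℝ) (s : a → MvPolynomial σ ℝ) (t : b → MvPolynomial σ ℝ)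
    (k : σ) : pderiv k (bil c s t) =
      bil c (fun i => pderiv k (s i)) t + bil c s (fun j => pderiv k (t j)) := by
  simp only [bil, map_sum, ← Finset.sum_add_distrib]
  refine Finset.sum_congr rfl fun i _ => Finset.sum_congr rfl fun j _ => ?_
  rw [pderiv_C_mul, pderiv_mul]
  ring

theorem eval_pderiv_inl [DecidableEq a] (c : a → b → ℝ) (x : a ⊕ b → ℝ) (i : a) :
    eval x (pderiv (Sum.inl i) (bil c (fun i => X (Sum.inl i)) (fun j => X (Sum.inr j)))) =
      ∑ j, c i j * x (Sum.inr j) := by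
  classical
  rw [pderiv_bil, map_add, eval_bil, eval_bil, Finset.sum_eq_single i]
  · simp
  · intro i' _ hi'
    refine Finset.sum_eq_zero fun j _ => ?_
    rw [pderiv_X_of_ne (by simpa using hi')]
    simp
  · intro h
    exact absurd (Finset.mem_univ i) h

theorem eval_pderiv_inr [DecidableEq b] (c : a → b → ℝ) (x : a ⊕ b → ℝ) (j : b) :
    eval x (pderiv (Sum.inr j) (bil c (fun i => X (Sum.inl i)) (fun j => X (Sum.inr j)))) =
      ∑ i, c i j * x (Sum.inl i) := by
  classical
  rw [pderiv_bil, map_add, eval_bil, eval_bil]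
  have h1 : ∑ i, ∑ j', c i j' * (eval x (pderiv (Sum.inr j)
      (X (Sum.inl i) : MvPolynomial (a ⊕ b) ℝ)) * eval x (X (Sum.inr j'))) = 0 := by
    refine Finset.sum_eq_zero fun i _ => Finset.sum_eq_zero fun j' _ => ?_
    rw [pderiv_X_of_ne (by simp)]
    simp
  rw [h1, zero_add]
  refine Finset.sum_congr rfl fun i _ => ?_
  rw [Finset.sum_eq_single j]
  · simp
  · intro j' _ hj'
    rw [pderiv_X_of_ne (by simpa using hj')]
    simp
  · intro h
    exact absurd (Finset.mem_univ j) h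

end polys

section bilinear

variable {U W G : Type*} [AddCommGroup U] [Module ℝ U] [AddCommGroup W] [Module ℝ W]
  [AddCommGroup G] [Module ℝ G]

theorem bilin_sum_sum {a b : Type*} [Fintype a] [Fintype b] (β : U →ₗ[ℝ] W →ₗ[ℝ] G)
    (p : a → U) (q : b → W) (x : a → ℝ) (y : b → ℝ) :
    β (∑ i, x i • p i) (∑ j, y j • q j) = ∑ i, ∑ j, (x i * y j) • β (p i) (q j) := by
  have h1 : β (∑ i, x i • p i) = ∑ i, x i • β (p i) := by
    rw [map_sum]
    exact Finset.sum_congr rfl fun i _ => map_smul _ _ _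
  rw [h1, LinearMap.sum_apply]
  refine Finset.sum_congr rfl fun i _ => ?_
  rw [LinearMap.smul_apply, map_sum, Finset.smul_sum]
  refine Finset.sum_congr rfl fun j _ => ?_
  rw [map_smul, smul_smul]

theorem repr_bilin {a b g : Type*} [Fintype a] [Fintype b] (β : U →ₗ[ℝ] W →ₗ[ℝ] G)
    (p : a → U) (q : b → W) (bG : Basis g ℝ G) (x : a → ℝ) (y : b → ℝ) (k : g) :
    bG.repr (β (∑ i, x i • p i) (∑ j, y j • q j)) k =
      ∑ i, ∑ j, bG.repr (β (p i) (q j)) k * (x i * y j) := by
  rw [bilin_sum_sum]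
  simp only [map_sum, map_smul, Finsupp.coe_finsetSum, Finset.sum_apply, Finsupp.smul_apply,
    smul_eq_mul]
  refine Finset.sum_congr rfl fun i _ => Finset.sum_congr rfl fun j _ => ?_
  ring

/-- The image of a bilinear map is small, by the projective dimension count. -/
theorem small_bilin [FiniteDimensional ℝ U] [FiniteDimensional ℝ W] {g : ℕ}
    (bG : Basis (Fin g) ℝ G) (β : U →ₗ[ℝ] W →ₗ[ℝ] G) {r : ℕ} (hr0 : 0 < r)
    (hr : finrank ℝ U + finrank ℝ W < r + 1) :
    Small r {z : Fin g → ℝ | ∃ u w, z = fun k => bG.repr (β u w) k} := by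
  classical
  set a := finrank ℝ U with ha
  set b := finrank ℝ W with hb
  set bU : Basis (Fin a) ℝ U := finBasis ℝ U with hbU
  set bW : Basis (Fin b) ℝ W := finBasis ℝ W with hbW
  -- chart polynomials
  set P : (i0 : Fin a) → Fin g → MvPolynomial ({i : Fin a // i ≠ i0} ⊕ Fin b) ℝ := fun i0 k =>
    bil (fun i j => bG.repr (β (bU i) (bW j)) k)
      (fun i => if h : i = i0 then 1 else X (Sum.inl ⟨i, h⟩)) (fun j => X (Sum.inr j)) with hP
  have hsub : {z : Fin g → ℝ | ∃ u w, z = fun k => bG.repr (β u w) k} ⊆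
      (Set.range fun (y : Fin 0 → ℝ) => fun k => eval y ((0 : Fin g → MvPolynomial (Fin 0) ℝ) k)) ∪
      ⋃ i0, Set.range fun (y : {i : Fin a // i ≠ i0} ⊕ Fin b → ℝ) => fun k => eval y (P i0 k) := by
    rintro z ⟨u, w, rfl⟩
    by_cases hu : u = 0
    · left
      refine ⟨0, ?_⟩
      funext k
      simp [hu]
    · right
      obtain ⟨i0, hi0⟩ : ∃ i0, bU.repr u i0 ≠ 0 := by
        by_contra hcon
        push Not at hcon
        apply hu
        apply bU.repr.injective
        rw [map_zero]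
        exact Finsupp.ext hcon
      set c := bU.repr u i0 with hc
      refine Set.mem_iUnion.2 ⟨i0, Sum.elim (fun i => c⁻¹ * bU.repr u i.1)
        (fun j => c * bW.repr w j), ?_⟩
      funext k
      simp only [hP]
      rw [eval_bil]
      have h1 : β u w = β (∑ i, (c⁻¹ * bU.repr u i) • bU i) (∑ j, (c * bW.repr w j) • bW j) := by
        have e1 : ∑ i, (c⁻¹ * bU.repr u i) • bU i = c⁻¹ • u := by
          conv_rhs => rw [← bU.sum_repr u, Finset.smul_sum]
          simp only [smul_smul]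
        have e2 : ∑ j, (c * bW.repr w j) • bW j = c • w := by
          conv_rhs => rw [← bW.sum_repr w, Finset.smul_sum]
          simp only [smul_smul]
        rw [e1, e2, map_smul, map_smul, LinearMap.smul_apply, smul_smul, mul_inv_cancel₀ hi0,
          one_smul]
      rw [h1, repr_bilin β (fun i => bU i) (fun j => bW j) bG]
      refine Finset.sum_congr rfl fun i _ => Finset.sum_congr rfl fun j _ => ?_
      congr 1
      by_cases hi : i = i0
      · rw [dif_pos hi, hi, ← hc, inv_mul_cancel₀ hi0]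
        simp
      · rw [dif_neg hi]
        simp
  refine Small.mono (Small.union (small_range _ ?_) (Small.iUnion fun i0 => small_range _ ?_)) hsub
  · simpa using hr0
  · rw [Fintype.card_sum, Fintype.card_fin, Fintype.card_subtype_compl, Fintype.card_fin,
      Fintype.card_subtype_eq]
    have := i0.pos
    omega

end bilinear

/-! ### Coordinate-free small sets -/

section smallG

variable {G : Type*} [AddCommGroup G] [Module ℝ G]

/-- `S ⊆ G` is `r`-small: after every linear map `G → ℝ^r` some nonzero polynomial vanishes on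
`S`. -/
def SmallG (r : ℕ) (S : Set G) : Prop :=
  ∀ A : G →ₗ[ℝ] (Fin r → ℝ), ∃ Φ : MvPolynomial (Fin r) ℝ, Φ ≠ 0 ∧ ∀ g ∈ S, eval (A g) Φ = 0

theorem SmallG.mono {r : ℕ} {S T : Set G} (hT : SmallG r T) (h : S ⊆ T) : SmallG r S :=
  fun A => (hT A).imp fun _ hΦ => ⟨hΦ.1, fun z hz => hΦ.2 z (h hz)⟩

theorem SmallG.union {r : ℕ} {S T : Set G} (hS : SmallG r S) (hT : SmallG r T) :
    SmallG r (S ∪ T) := by
  intro A
  obtain ⟨Φ, h1, h2⟩ := hS A
  obtain ⟨Ψ, h3, h4⟩ := hT A
  refine ⟨Φ * Ψ, mul_ne_zero h1 h3, ?_⟩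
  rintro z (hz | hz)
  · rw [map_mul, h2 z hz, zero_mul]
  · rw [map_mul, h4 z hz, mul_zero]

theorem SmallG.iUnion {r : ℕ} {ι : Type*} [Finite ι] {S : ι → Set G}
    (hS : ∀ i, SmallG r (S i)) : SmallG r (⋃ i, S i) := by
  classical
  cases nonempty_fintype ι
  intro A
  choose Φ h1 h2 using fun i => hS i A
  refine ⟨∏ i, Φ i, Finset.prod_ne_zero_iff.2 fun i _ => h1 i, ?_⟩
  intro z hz
  obtain ⟨i, hi⟩ := Set.mem_iUnion.1 hz
  rw [map_prod]
  exact Finset.prod_eq_zero (Finset.mem_univ i) (h2 i z hi)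

/-- Image of a small set under a linear map. -/
theorem SmallG.image {r : ℕ} {S : Set G} (hS : SmallG r S) {G' : Type*} [AddCommGroup G']
    [Module ℝ G'] (L : G →ₗ[ℝ] G') : SmallG r (L '' S) := by
  intro A
  obtain ⟨Φ, h1, h2⟩ := hS (A ∘ₗ L)
  refine ⟨Φ, h1, ?_⟩
  rintro _ ⟨g, hg, rfl⟩
  exact h2 g hg

/-- The image of a bilinear map is small, by the projective dimension count. -/
theorem smallG_bilin {U W : Type*} [AddCommGroup U] [Module ℝ U] [FiniteDimensional ℝ U]
    [AddCommGroup W] [Module ℝ W] [FiniteDimensional ℝ W]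
    (β : U →ₗ[ℝ] W →ₗ[ℝ] G) {r : ℕ} (hr0 : 0 < r) (hr : finrank ℝ U + finrank ℝ W < r + 1) :
    SmallG r {g : G | ∃ u w, g = β u w} := by
  classical
  intro A
  obtain ⟨Φ, h1, h2⟩ := small_bilin (Pi.basisFun ℝ (Fin r)) (β.compr₂ A) hr0 hr 1
  refine ⟨Φ, h1, ?_⟩
  rintro _ ⟨u, w, rfl⟩
  have := h2 (A (β u w)) ⟨u, w, by funext k; simp⟩
  rwa [Matrix.one_mulVec] at this

/-- Restricting the first argument to a proper subspace. -/
theorem smallG_bilin_submodule {U W : Type*} [AddCommGroup U] [Module ℝ U]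
    [FiniteDimensional ℝ U] [AddCommGroup W] [Module ℝ W] [FiniteDimensional ℝ W]
    (β : U →ₗ[ℝ] W →ₗ[ℝ] G) (K : Submodule ℝ U) {r : ℕ} (hr0 : 0 < r)
    (hr : finrank ℝ K + finrank ℝ W < r + 1) :
    SmallG r {g : G | ∃ u ∈ K, ∃ w, g = β u w} := by
  refine (smallG_bilin (β ∘ₗ K.subtype) hr0 hr).mono ?_
  rintro _ ⟨u, hu, w, rfl⟩
  exact ⟨⟨u, hu⟩, w, rfl⟩

/-- The image of a polynomial map in `< r` variables is small. -/
theorem smallG_range {τ g : Type*} [Fintype τ] [Fintype g] (bG : Basis g ℝ G)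
    (P : g → MvPolynomial τ ℝ) {r : ℕ} (h : Fintype.card τ < r) :
    SmallG r (Set.range fun y : τ → ℝ => ∑ k, eval y (P k) • bG k) := by
  classical
  intro A
  obtain ⟨Φ, h1, h2⟩ := small_range P h (Matrix.of fun i k => A (bG k) i)
  refine ⟨Φ, h1, ?_⟩
  rintro _ ⟨y, rfl⟩
  have h3 := h2 _ ⟨y, rfl⟩
  have h4 : (Matrix.of fun i k => A (bG k) i).mulVec (fun k => eval y (P k)) =
      A (∑ k, eval y (P k) • bG k) := by
    funext i
    rw [map_sum, Finset.sum_apply, Matrix.mulVec, dotProduct]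
    refine Finset.sum_congr rfl fun k _ => ?_
    rw [map_smul, Pi.smul_apply, smul_eq_mul, Matrix.of_apply, mul_comm]
  rwa [h4] at h3

end smallG

/-- **Dimension count for bilinear maps, composable form.**  Let `β : U × W → G` be bilinear and
suppose that the kernel of its differential at `(u0, w0)` is contained in the line
`ℝ (u0, -w0)`.  Let `S` be `(dim U + dim W - 1)`-small.  Then every nonempty open subset of
`U × W` contains a point `(u, w)` with `β u w ∉ closure S`. -/
theorem count_bilin_small {U W G : Type*}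
    [AddCommGroup U] [Module ℝ U] [TopologicalSpace U] [IsTopologicalAddGroup U]
    [ContinuousSMul ℝ U] [FiniteDimensional ℝ U]
    [AddCommGroup W] [Module ℝ W] [TopologicalSpace W] [IsTopologicalAddGroup W]
    [ContinuousSMul ℝ W] [FiniteDimensional ℝ W]
    [AddCommGroup G] [Module ℝ G] [TopologicalSpace G] [IsTopologicalAddGroup G]
    [ContinuousSMul ℝ G] [FiniteDimensional ℝ G] [T2Space G]
    (β : U →ₗ[ℝ] W →ₗ[ℝ] G)
    (u0 : U) (w0 : W)
    (hker : ∀ (u : U) (w : W), β u w0 + β u0 w = 0 → ∃ s : ℝ, u = s • u0 ∧ w = -(s • w0))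
    {S : Set G} (hS : SmallG (finrank ℝ U + finrank ℝ W - 1) S)
    (O : Set (U × W)) (hO : IsOpen O) (hne : O.Nonempty) :
    ∃ p ∈ O, β p.1 p.2 ∉ closure S := by
  classical
  set a := finrank ℝ U with ha
  set b := finrank ℝ W with hb
  set g := finrank ℝ G with hg
  set bU : Basis (Fin a) ℝ U := finBasis ℝ U with hbU
  set bW : Basis (Fin b) ℝ W := finBasis ℝ W with hbW
  set bG : Basis (Fin g) ℝ G := finBasis ℝ G with hbG
  -- the main polynomial map
  set F : Fin g → MvPolynomial (Fin a ⊕ Fin b) ℝ := fun k =>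
    bil (fun i j => bG.repr (β (bU i) (bW j)) k) (fun i => X (Sum.inl i)) (fun j => X (Sum.inr j))
    with hF
  set φ : (Fin a ⊕ Fin b → ℝ) → U × W := fun x =>
    (∑ i, x (Sum.inl i) • bU i, ∑ j, x (Sum.inr j) • bW j) with hφ
  have hFe : ∀ x k, eval x (F k) = bG.repr (β (φ x).1 (φ x).2) k := by
    intro x k
    simp only [hF, hφ]
    rw [eval_bil, repr_bilin β (fun i => bU i) (fun j => bW j) bG (fun i => x (Sum.inl i))
      (fun j => x (Sum.inr j)) k]
    simp only [eval_X]
  have hφc : Continuous φ := by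
    simp only [hφ]
    fun_prop
  have hφsurj : ∀ p : U × W, ∃ x, φ x = p := by
    rintro ⟨u, w⟩
    refine ⟨Sum.elim (fun i => bU.repr u i) (fun j => bW.repr w j), ?_⟩
    simp only [hφ, Sum.elim_inl, Sum.elim_inr, bU.sum_repr, bW.sum_repr]
  -- the base point
  set x0 : Fin a ⊕ Fin b → ℝ := Sum.elim (fun i => bU.repr u0 i) (fun j => bW.repr w0 j) with hx0
  have hrank : a + b - 1 ≤
      (Matrix.of fun (k : Fin g) (j : Fin a ⊕ Fin b) => eval x0 (pderiv j (F k))).rank := by
    set Jm : Matrix (Fin g) (Fin a ⊕ Fin b) ℝ :=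
      Matrix.of fun (k : Fin g) (j : Fin a ⊕ Fin b) => eval x0 (pderiv j (F k)) with hJm
    have hJv : ∀ v : Fin a ⊕ Fin b → ℝ, ∀ k,
        Jm.mulVec v k = bG.repr (β (φ v).1 w0 + β u0 (φ v).2) k := by
      intro v k
      have e1 : (φ v).1 = ∑ i, v (Sum.inl i) • bU i := rfl
      have e2 : (φ v).2 = ∑ j, v (Sum.inr j) • bW j := rfl
      have e3 : β (φ v).1 w0 = β (∑ i, v (Sum.inl i) • bU i) (∑ j, bW.repr w0 j • bW j) := by
        rw [bW.sum_repr, e1]
      have e4 : β u0 (φ v).2 = β (∑ i, bU.repr u0 i • bU i) (∑ j, v (Sum.inr j) • bW j) := by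
        rw [bU.sum_repr, e2]
      rw [map_add, Finsupp.add_apply, e3, e4,
        repr_bilin β (fun i => bU i) (fun j => bW j) bG (fun i => v (Sum.inl i))
          (fun j => bW.repr w0 j) k,
        repr_bilin β (fun i => bU i) (fun j => bW j) bG (fun i => bU.repr u0 i)
          (fun j => v (Sum.inr j)) k]
      rw [Matrix.mulVec, dotProduct, Fintype.sum_sum_type]
      congr 1
      · refine Finset.sum_congr rfl fun i _ => ?_
        simp only [hJm, Matrix.of_apply, hF]
        rw [eval_pderiv_inl, Finset.sum_mul]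
        refine Finset.sum_congr rfl fun j _ => ?_
        simp only [hx0, Sum.elim_inr]
        ring
      · rw [Finset.sum_comm]
        refine Finset.sum_congr rfl fun j _ => ?_
        simp only [hJm, Matrix.of_apply, hF]
        rw [eval_pderiv_inr, Finset.sum_mul]
        refine Finset.sum_congr rfl fun i _ => ?_
        simp only [hx0, Sum.elim_inl]
        ring
    have hkd : finrank ℝ (LinearMap.ker Jm.mulVecLin) ≤ 1 := by
      set v0 : Fin a ⊕ Fin b → ℝ :=
        Sum.elim (fun i => bU.repr u0 i) (fun j => -(bW.repr w0 j)) with hv0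
      have hle : LinearMap.ker Jm.mulVecLin ≤ Submodule.span ℝ {v0} := by
        intro v hv
        rw [LinearMap.mem_ker, Matrix.mulVecLin_apply] at hv
        have h0 : β (φ v).1 w0 + β u0 (φ v).2 = 0 := by
          apply bG.repr.injective
          rw [map_zero]
          ext k
          rw [← hJv v k, hv]
          rfl
        obtain ⟨s, h1, h2⟩ := hker _ _ h0
        rw [Submodule.mem_span_singleton]
        refine ⟨s, ?_⟩
        have e1 : ∀ i, bU.repr (φ v).1 i = v (Sum.inl i) := by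
          intro i
          have : (φ v).1 = ∑ i, v (Sum.inl i) • bU i := rfl
          rw [this, bU.repr_sum_self]
        have e2 : ∀ j, bW.repr (φ v).2 j = v (Sum.inr j) := by
          intro j
          have : (φ v).2 = ∑ j, v (Sum.inr j) • bW j := rfl
          rw [this, bW.repr_sum_self]
        funext x
        rcases x with i | j
        · rw [← e1 i, h1]
          simp [hv0]
        · rw [← e2 j, h2]
          simp [hv0]
      exact (Submodule.finrank_mono hle).trans
        ((finrank_span_le_card ({v0} : Set (Fin a ⊕ Fin b → ℝ))).trans (by simp))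
    have hrn := LinearMap.finrank_range_add_finrank_ker Jm.mulVecLin
    rw [Module.finrank_fintype_fun_eq_card, Fintype.card_sum, Fintype.card_fin,
      Fintype.card_fin] at hrn
    change a + b - 1 ≤ finrank ℝ (LinearMap.range Jm.mulVecLin)
    omega
  set r := a + b - 1 with hr
  have hsm : Small r ((fun z : G => fun k => bG.repr z k) '' S) := by
    intro A
    obtain ⟨Φ, h1, h2⟩ := hS (Matrix.mulVecLin A ∘ₗ bG.equivFun.toLinearMap)
    refine ⟨Φ, h1, ?_⟩
    rintro _ ⟨z, hz, rfl⟩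
    exact h2 z hz
  obtain ⟨x, hx, hxn⟩ := count_small F x0 hrank hsm (φ ⁻¹' O) (hO.preimage hφc)
    (by
      obtain ⟨p, hp⟩ := hne
      obtain ⟨x, hx⟩ := hφsurj p
      exact ⟨x, by rw [Set.mem_preimage, hx]; exact hp⟩)
  refine ⟨φ x, hx, fun hcl => hxn ?_⟩
  -- transport the closure along the coordinate map
  have hcont : Continuous fun z : G => fun k => bG.repr z k := by
    have : Continuous bG.equivFun.toLinearMap := LinearMap.continuous_of_finiteDimensional _
    exact this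
  have h1 : (fun k => eval x (F k)) = (fun z : G => fun k => bG.repr z k) (β (φ x).1 (φ x).2) := by
    funext k
    exact hFe x k
  rw [h1]
  exact image_closure_subset_closure_image hcont (Set.mem_image_of_mem _ hcl)

/-- **Dimension count for bilinear maps.**  Let `β : U × W → G` be bilinear and suppose that the
kernel of its differential at `(u0, w0)` is contained in the line `ℝ (u0, -w0)`.  Let
`β' j : U' j × W' j → G` be finitely many bilinear maps with
`dim U' j + dim W' j < dim U + dim W`.  Then every nonempty open subset of `U × W` contains a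
point `(u, w)` such that `β u w` is not in the closure of `⋃_j {β' j u' w'}`. -/
theorem count_bilin {U W G : Type*}
    [AddCommGroup U] [Module ℝ U] [TopologicalSpace U] [IsTopologicalAddGroup U]
    [ContinuousSMul ℝ U] [FiniteDimensional ℝ U]
    [AddCommGroup W] [Module ℝ W] [TopologicalSpace W] [IsTopologicalAddGroup W]
    [ContinuousSMul ℝ W] [FiniteDimensional ℝ W]
    [AddCommGroup G] [Module ℝ G] [TopologicalSpace G] [IsTopologicalAddGroup G]
    [ContinuousSMul ℝ G] [FiniteDimensional ℝ G] [T2Space G]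
    (β : U →ₗ[ℝ] W →ₗ[ℝ] G) (hdim : 2 ≤ finrank ℝ U + finrank ℝ W)
    (u0 : U) (w0 : W)
    (hker : ∀ (u : U) (w : W), β u w0 + β u0 w = 0 → ∃ s : ℝ, u = s • u0 ∧ w = -(s • w0))
    {J : Type*} [Finite J] {U' W' : J → Type*}
    [∀ j, AddCommGroup (U' j)] [∀ j, Module ℝ (U' j)] [∀ j, FiniteDimensional ℝ (U' j)]
    [∀ j, AddCommGroup (W' j)] [∀ j, Module ℝ (W' j)] [∀ j, FiniteDimensional ℝ (W' j)]
    (β' : (j : J) → U' j →ₗ[ℝ] W' j →ₗ[ℝ] G)
    (hdim' : ∀ j, finrank ℝ (U' j) + finrank ℝ (W' j) < finrank ℝ U + finrank ℝ W)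
    (O : Set (U × W)) (hO : IsOpen O) (hne : O.Nonempty) :
    ∃ p ∈ O, β p.1 p.2 ∉ closure {g | ∃ j u w, g = β' j u w} := by
  refine count_bilin_small β u0 w0 hker ?_ O hO hne
  refine (SmallG.iUnion (S := fun j => {g | ∃ u w, g = β' j u w}) fun j =>
    smallG_bilin (β' j) (by omega) (by have := hdim' j; omega)).mono ?_
  rintro _ ⟨j, u, w, rfl⟩
  exact Set.mem_iUnion.2 ⟨j, u, w, rfl⟩

/-- **LEMMA DC.**  `β : U × W → G` bilinear with one-dimensional differential kernel at
`(u0, w0)`, `K` a proper subspace of `U`, `β₂ : U₂ × W₂ → G` a further bilinear map with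
`dim U₂ + dim W₂ < dim U + dim W`.  Every nonempty open subset of `U × W` contains `(u, w)` with
`β u w` not in the closure of `{β u' w' | u' ∈ K} ∪ {β₂ u' w'}`. -/
theorem count_bilin_submodule {U W G U₂ W₂ : Type*}
    [AddCommGroup U] [Module ℝ U] [TopologicalSpace U] [IsTopologicalAddGroup U]
    [ContinuousSMul ℝ U] [FiniteDimensional ℝ U]
    [AddCommGroup W] [Module ℝ W] [TopologicalSpace W] [IsTopologicalAddGroup W]
    [ContinuousSMul ℝ W] [FiniteDimensional ℝ W]
    [AddCommGroup G] [Module ℝ G] [TopologicalSpace G] [IsTopologicalAddGroup G]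
    [ContinuousSMul ℝ G] [FiniteDimensional ℝ G] [T2Space G]
    [AddCommGroup U₂] [Module ℝ U₂] [FiniteDimensional ℝ U₂]
    [AddCommGroup W₂] [Module ℝ W₂] [FiniteDimensional ℝ W₂]
    (β : U →ₗ[ℝ] W →ₗ[ℝ] G) (hdim : 2 ≤ finrank ℝ U + finrank ℝ W)
    (u0 : U) (w0 : W)
    (hker : ∀ (u : U) (w : W), β u w0 + β u0 w = 0 → ∃ s : ℝ, u = s • u0 ∧ w = -(s • w0))
    (K : Submodule ℝ U) (hK : K ≠ ⊤)
    (β₂ : U₂ →ₗ[ℝ] W₂ →ₗ[ℝ] G)
    (hdim₂ : finrank ℝ U₂ + finrank ℝ W₂ < finrank ℝ U + finrank ℝ W)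
    (O : Set (U × W)) (hO : IsOpen O) (hne : O.Nonempty) :
    ∃ p ∈ O, β p.1 p.2 ∉
      closure ({g | ∃ u ∈ K, ∃ w, g = β u w} ∪ {g | ∃ u w, g = β₂ u w}) := by
  have hKd : finrank ℝ K < finrank ℝ U := Submodule.finrank_lt hK
  refine count_bilin_small β u0 w0 hker (SmallG.union ?_ ?_) O hO hne
  · exact smallG_bilin_submodule β K (by omega) (by omega)
  · exact smallG_bilin β₂ (by omega) (by omega)

end Crest.Agent.R237.Count
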