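import Mathlib

/-!
Row 237, dimension count (helper930).

`dimCount`: for a bilinear map `β : U × W → G` whose differential at one point `(u0,w0)` has a
one-dimensional kernel, and a non-zero linear functional `τ` on `U`, the closure of the image of
`{τ = 0}` does not contain `β u w` for all `(u,w)` in a non-empty open set.
-/

set_option autoImplicit false

namespace Crest.Agent.R237.Dim

open MvPolynomial Module

theorem exists_relation {σ : Type} [Fintype σ] {m : ℕ} (hkm : Fintype.card σ < m)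
    (H : Fin m → MvPolynomial σ ℝ) :
    ∃ Φ : MvPolynomial (Fin m) ℝ, Φ ≠ 0 ∧ aeval H Φ = 0 := by
  by_contra hcon
  push Not at hcon
  have hind : AlgebraicIndependent ℝ H := by
    rw [algebraicIndependent_iff]
    intro p hp
    by_contra hne
    exact hcon p hne hp
  have h1 := hind.cardinalMk_le_trdeg
  rw [MvPolynomial.trdeg_of_isDomain] at h1
  simp at h1
  omega

theorem eq_zero_of_open {σ : Type*} [Fintype σ] (Φ : MvPolynomial σ ℝ) (O : Set (σ → ℝ))
    (hO : IsOpen O) (x0 : σ → ℝ) (hx0 : x0 ∈ O) (h : ∀ x ∈ O, eval x Φ = 0) : Φ = 0 := by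
  obtain ⟨ε, hε, hball⟩ := Metric.isOpen_iff.1 hO x0 hx0
  refine funext_set (fun i => Metric.ball (x0 i) ε) ?_ ?_
  · intro i
    rw [Real.ball_eq_Ioo]
    exact Set.Ioo_infinite (by linarith)
  · intro x hx
    rw [map_zero]
    apply h
    apply hball
    rw [Metric.mem_ball, dist_pi_lt_iff hε]
    intro i
    exact hx i trivial

theorem eval_aeval' {σ ρ : Type*} (x : σ → ℝ) (H : ρ → MvPolynomial σ ℝ) (Φ : MvPolynomial ρ ℝ) :
    eval x (aeval H Φ) = eval (fun i => eval x (H i)) Φ := by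
  induction Φ using MvPolynomial.induction_on with
  | C a => simp
  | add p q hp hq => rw [map_add, map_add, map_add, hp, hq]
  | mul_X p i hp => rw [map_mul, map_mul, map_mul, hp, aeval_X, eval_X]

theorem bilin_poly {U W : Type*} [AddCommGroup U] [Module ℝ U] [AddCommGroup W] [Module ℝ W]
    (f : U →ₗ[ℝ] W →ₗ[ℝ] ℝ) {ι κ : Type} [Fintype ι] [Fintype κ] (u1 : U) (k : ι → U)
    (b : κ → W) :
    ∃ P : MvPolynomial (ι ⊕ κ) ℝ, ∀ (y : ι → ℝ) (z : κ → ℝ),
      eval (Sum.elim y z) P = f (u1 + ∑ i, y i • k i) (∑ j, z j • b j) := by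
  refine ⟨∑ j, X (Sum.inr j) * (C (f u1 (b j)) + ∑ i, X (Sum.inl i) * C (f (k i) (b j))), ?_⟩
  intro y z
  simp only [map_sum, map_mul, map_add, eval_X, eval_C, Sum.elim_inr, Sum.elim_inl,
    map_smul, LinearMap.add_apply, LinearMap.sum_apply, LinearMap.smul_apply, smul_eq_mul]

theorem dimCount {U W G : Type*} [NormedAddCommGroup U] [NormedSpace ℝ U] [FiniteDimensional ℝ U]
    [NormedAddCommGroup W] [NormedSpace ℝ W] [FiniteDimensional ℝ W]
    [AddCommGroup G] [Module ℝ G] [TopologicalSpace G] [IsTopologicalAddGroup G]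
    [ContinuousSMul ℝ G] [T2Space G] [FiniteDimensional ℝ G]
    (β : U →ₗ[ℝ] W →ₗ[ℝ] G) (τ : U →ₗ[ℝ] ℝ) (hτ : τ ≠ 0) (hdim : 2 ≤ finrank ℝ U)
    (u0 : U) (w0 : W)
    (hker : ∀ u w, β u w0 + β u0 w = 0 → ∃ s : ℝ, u = s • u0 ∧ w = -(s • w0))
    (O : Set (U × W)) (hO : IsOpen O) (hne : O.Nonempty) :
    ∃ p ∈ O, β p.1 p.2 ∉ closure {g : G | ∃ u w, τ u = 0 ∧ g = β u w} := by
  classical
  -- the differential
  let D : U × W →ₗ[ℝ] G := (β.flip w0).coprod (β u0)
  have hD : ∀ u w, D (u, w) = β u w0 + β u0 w := fun u w => by simp [D]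
  have hkerD : finrank ℝ (LinearMap.ker D) ≤ 1 := by
    have hle : LinearMap.ker D ≤ Submodule.span ℝ {((u0, -w0) : U × W)} := by
      rintro ⟨u, w⟩ h
      rw [LinearMap.mem_ker, hD] at h
      obtain ⟨s, hs1, hs2⟩ := hker u w h
      rw [Submodule.mem_span_singleton]
      exact ⟨s, by simp [hs1, hs2]⟩
    refine (Submodule.finrank_mono hle).trans ((finrank_span_le_card _).trans ?_)
    simp
  have hrn := LinearMap.finrank_range_add_finrank_ker D
  rw [Module.finrank_prod] at hrn
  set r := finrank ℝ (LinearMap.range D) with hr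
  have hrge : finrank ℝ U + finrank ℝ W ≤ r + 1 := by omega
  -- projection onto the range of the differential, in coordinates
  obtain ⟨pr, hpr⟩ := LinearMap.exists_leftInverse_of_injective (LinearMap.range D).subtype
    (by simp)
  let bR := finBasis ℝ (LinearMap.range D)
  let ℓ : G →ₗ[ℝ] (Fin r → ℝ) := bR.equivFun.toLinearMap ∘ₗ pr
  have hℓD : Function.Surjective (ℓ ∘ₗ D) := by
    intro y
    obtain ⟨⟨g, v, hv⟩, hg⟩ := bR.equivFun.surjective y
    refine ⟨v, ?_⟩
    have h1 : pr g = ⟨g, v, hv⟩ := by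
      have := LinearMap.congr_fun hpr ⟨g, v, hv⟩
      simpa using this
    simp only [ℓ, LinearMap.comp_apply, hv, LinearEquiv.coe_coe, h1, hg]
  have hℓc : Continuous ℓ := LinearMap.continuous_of_finiteDimensional ℓ
  -- coordinate form of the bilinear map
  let f : Fin r → U →ₗ[ℝ] W →ₗ[ℝ] ℝ := fun i => β.compr₂ ((LinearMap.proj i) ∘ₗ ℓ)
  have hf : ∀ i u w, f i u w = ℓ (β u w) i := fun i u w => by simp [f]
  -- bases
  have hkt : finrank ℝ (LinearMap.ker τ) + 1 = finrank ℝ U := by
    have h1 := LinearMap.finrank_range_add_finrank_ker τ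
    have h2 : finrank ℝ (LinearMap.range τ) = 1 := by
      have : LinearMap.range τ = ⊤ := LinearMap.range_eq_top.2 (LinearMap.surjective hτ)
      rw [this, finrank_top]
      simp
    omega
  obtain ⟨m, hm⟩ : ∃ m, finrank ℝ (LinearMap.ker τ) = m + 1 := ⟨finrank ℝ U - 2, by omega⟩
  let bK : Basis (Fin (m + 1)) ℝ (LinearMap.ker τ) := finBasisOfFinrankEq ℝ _ hm
  let bU := finBasis ℝ U
  let bW := finBasis ℝ W
  -- the relation on the chart
  choose H hH using fun i : Fin r =>
    bilin_poly (f i) (bK 0 : U) (fun j : Fin m => (bK j.succ : U)) (fun j => bW j)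
  have hcard : Fintype.card (Fin m ⊕ Fin (finrank ℝ W)) < r := by
    simp
    omega
  obtain ⟨Φ, hΦ0, hΦ⟩ := exists_relation hcard H
  have hchart : ∀ (y : Fin m → ℝ) (w : W),
      eval (ℓ (β ((bK 0 : U) + ∑ j, y j • (bK j.succ : U)) w)) Φ = 0 := by
    intro y w
    have h1 : eval (Sum.elim y (fun j => bW.repr w j)) (aeval H Φ) = 0 := by
      rw [hΦ, map_zero]
    rw [eval_aeval'] at h1
    have h2 : ℓ (β ((bK 0 : U) + ∑ j, y j • (bK j.succ : U)) w)
        = fun i => eval (Sum.elim y fun j => bW.repr w j) (H i) := by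
      funext i
      rw [hH, hf, bW.sum_repr]
    rw [h2]
    exact h1
  have hK : ∀ u, τ u = 0 → ∀ w, eval (ℓ (β u w)) Φ = 0 := by
    intro u hu w
    obtain ⟨c, hc⟩ : ∃ c : Fin (m + 1) → ℝ, u = ∑ i, c i • (bK i : U) := by
      refine ⟨bK.repr ⟨u, hu⟩, ?_⟩
      have h1 := congrArg Subtype.val (bK.sum_repr ⟨u, hu⟩)
      rw [← Submodule.coe_subtype, map_sum] at h1
      simp only [map_smul, Submodule.coe_subtype] at h1
      exact h1.symm
    rw [Fin.sum_univ_succ] at hc
    -- the case of a non-zero leading coefficient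
    have hnz : ∀ s : ℝ, s ≠ 0 → eval (ℓ (β (s • (bK 0 : U) + ∑ i : Fin m, c i.succ • (bK i.succ : U)) w)) Φ
        = 0 := by
      intro s hs
      have h1 := hchart (fun i => s⁻¹ * c i.succ) (s • w)
      have h2 : β (s • (bK 0 : U) + ∑ i : Fin m, c i.succ • (bK i.succ : U)) w
          = β ((bK 0 : U) + ∑ j : Fin m, (s⁻¹ * c j.succ) • (bK j.succ : U)) (s • w) := by
        have h3 : s • (bK 0 : U) + ∑ i : Fin m, c i.succ • (bK i.succ : U)
            = s • ((bK 0 : U) + ∑ j : Fin m, (s⁻¹ * c j.succ) • (bK j.succ : U)) := by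
          rw [smul_add, Finset.smul_sum]
          congr 1
          refine Finset.sum_congr rfl fun i _ => ?_
          rw [smul_smul, ← mul_assoc, mul_inv_cancel₀ hs, one_mul]
        rw [h3, map_smul, LinearMap.smul_apply, map_smul]
      rw [h2]
      exact h1
    have hcont : Continuous fun s : ℝ =>
        eval (ℓ (β (s • (bK 0 : U) + ∑ i : Fin m, c i.succ • (bK i.succ : U)) w)) Φ := by
      have h1 : Continuous fun s : ℝ =>
          ℓ (β (s • (bK 0 : U) + ∑ i : Fin m, c i.succ • (bK i.succ : U)) w) := by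
        have h2 : (fun s : ℝ =>
            ℓ (β (s • (bK 0 : U) + ∑ i : Fin m, c i.succ • (bK i.succ : U)) w))
            = fun s : ℝ => s • ℓ (β (bK 0 : U) w)
              + ℓ (β (∑ i : Fin m, c i.succ • (bK i.succ : U)) w) := by
          funext s
          simp only [map_add, LinearMap.add_apply, map_smul, LinearMap.smul_apply]
        rw [h2]
        fun_prop
      exact (MvPolynomial.continuous_eval Φ).comp h1
    have hall : ∀ s : ℝ, eval (ℓ (β (s • (bK 0 : U) + ∑ i : Fin m, c i.succ • (bK i.succ : U)) w)) Φ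
        = 0 := by
      intro s
      have hcl : IsClosed {s : ℝ | eval (ℓ (β (s • (bK 0 : U) + ∑ i : Fin m, c i.succ • (bK i.succ : U)) w)) Φ
        = 0} := isClosed_eq hcont continuous_const
      have hsub : ({0}ᶜ : Set ℝ) ⊆ {s : ℝ | eval (ℓ (β (s • (bK 0 : U) + ∑ i : Fin m, c i.succ • (bK i.succ : U)) w)) Φ
        = 0} := fun s hs => hnz s hs
      have := hcl.closure_subset_iff.2 hsub
      rw [(dense_compl_singleton (0 : ℝ)).closure_eq] at this
      exact this (Set.mem_univ s)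
    rw [hc]
    exact hall (c 0)
  have hclos : ∀ g ∈ closure {g : G | ∃ u w, τ u = 0 ∧ g = β u w}, eval (ℓ g) Φ = 0 := by
    have hcl : IsClosed {g : G | eval (ℓ g) Φ = 0} :=
      isClosed_eq ((MvPolynomial.continuous_eval Φ).comp hℓc) continuous_const
    have hsub : {g : G | ∃ u w, τ u = 0 ∧ g = β u w} ⊆ {g : G | eval (ℓ g) Φ = 0} := by
      rintro g ⟨u, w, hu, rfl⟩
      exact hK u hu w
    exact fun g hg => (hcl.closure_subset_iff.2 hsub) hg
  by_contra hcon
  push Not at hcon
  -- the full polynomial map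
  choose PF hPF using fun i : Fin r => bilin_poly (f i) (0 : U) (fun j => bU j) (fun j => bW j)
  have hPF' : ∀ (x : Fin (finrank ℝ U) ⊕ Fin (finrank ℝ W) → ℝ), eval x (aeval PF Φ)
      = eval (ℓ (β (∑ i, x (Sum.inl i) • bU i) (∑ j, x (Sum.inr j) • bW j))) Φ := by
    intro x
    rw [eval_aeval']
    congr 1
    congr 1
    funext i
    have h1 := hPF i (fun i => x (Sum.inl i)) (fun j => x (Sum.inr j))
    have h2 : Sum.elim (fun i => x (Sum.inl i)) (fun j => x (Sum.inr j)) = x := by
      funext k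
      cases k <;> rfl
    rw [h2, zero_add, hf] at h1
    exact h1
  have hΨ : aeval PF Φ = 0 := by
    obtain ⟨⟨ua, wa⟩, ha⟩ := hne
    let T : (Fin (finrank ℝ U) ⊕ Fin (finrank ℝ W) → ℝ) → U × W := fun x =>
      (∑ i, x (Sum.inl i) • bU i, ∑ j, x (Sum.inr j) • bW j)
    have hT : Continuous T := by
      refine Continuous.prodMk ?_ ?_
      · fun_prop
      · fun_prop
    refine eq_zero_of_open (aeval PF Φ) (T ⁻¹' O) (hO.preimage hT)
      (Sum.elim (fun i => bU.repr ua i) (fun j => bW.repr wa j)) ?_ ?_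
    · rw [Set.mem_preimage]
      have : T (Sum.elim (fun i => bU.repr ua i) (fun j => bW.repr wa j)) = (ua, wa) := by
        simp only [T, Sum.elim_inl, Sum.elim_inr, bU.sum_repr, bW.sum_repr]
      rw [this]
      exact ha
    · intro x hx
      rw [hPF']
      exact hclos _ (hcon _ hx)
  have hall : ∀ u w, eval (ℓ (β u w)) Φ = 0 := by
    intro u w
    have h1 := hPF' (Sum.elim (fun i => bU.repr u i) (fun j => bW.repr w j))
    rw [hΨ, map_zero] at h1
    simp only [Sum.elim_inl, Sum.elim_inr, bU.sum_repr, bW.sum_repr] at h1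
    exact h1.symm
  -- the image contains an open set
  let β' : U →L[ℝ] W →L[ℝ] (Fin r → ℝ) := LinearMap.toContinuousLinearMap
    ((LinearMap.toContinuousLinearMap (𝕜 := ℝ) (E := W) (F' := Fin r → ℝ)).toLinearMap ∘ₗ
      (β.compr₂ ℓ))
  have hβ' : ∀ u w, β' u w = ℓ (β u w) := fun u w => by simp [β']
  have hbil := β'.isBoundedBilinearMap
  have hder := hbil.hasStrictFDerivAt (u0, w0)
  have hsurj : (hbil.deriv (u0, w0)).range = ⊤ := by
    rw [LinearMap.range_eq_top]
    intro y
    obtain ⟨⟨u, w⟩, huw⟩ := hℓD y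
    refine ⟨(u, w), ?_⟩
    rw [← huw]
    simp only [ContinuousLinearMap.coe_coe, IsBoundedBilinearMap.deriv_apply, hβ',
      LinearMap.comp_apply, hD, map_add]
    abel
  have hmap := hder.map_nhds_eq_of_surj hsurj
  have hrange : Set.range (fun p : U × W => β' p.1 p.2) ∈ nhds (β' u0 w0) := by
    have : Set.range (fun p : U × W => β' p.1 p.2) ∈
        Filter.map (fun p : U × W => β' p.1 p.2) (nhds (u0, w0)) :=
      Filter.range_mem_map
    rw [hmap] at this
    exact this
  obtain ⟨V, hVsub, hVo, hVmem⟩ := mem_nhds_iff.1 hrange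
  apply hΦ0
  refine eq_zero_of_open Φ V hVo _ hVmem ?_
  intro x hx
  obtain ⟨⟨u, w⟩, rfl⟩ := hVsub hx
  change eval (β' u w) Φ = 0
  rw [hβ']
  exact hall u w

end Crest.Agent.R237.Dim
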