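import Mathlib

/-! Row 237: extension of functionals.  Finsler's lemma, strictly positive extension of a
functional that is positive on `V = P₁ + V₀`, the flat functional, and the final
perturbation argument. -/

set_option autoImplicit false

namespace Crest.Agent.R237.Ext

open MvPolynomial

/-! ### Finsler's lemma -/

theorem continuous_quad {n : ℕ} (B : (Fin n → ℝ) →ₗ[ℝ] (Fin n → ℝ) →ₗ[ℝ] ℝ) :
    Continuous fun x => B x x := by
  have h : ∀ x : Fin n → ℝ, B x x = ∑ i, ∑ j, x i * (x j * B (Pi.single i 1) (Pi.single j 1)) := by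
    intro x
    have h1 : x = ∑ i, x i • Pi.single (M := fun _ => ℝ) i (1 : ℝ) := by
      conv_lhs => rw [← Finset.univ_sum_single x]
      refine Finset.sum_congr rfl fun i _ => ?_
      rw [← Pi.single_smul]
      simp
    conv_lhs => rw [h1]
    simp only [map_sum, LinearMap.sum_apply, map_smul, LinearMap.smul_apply, smul_eq_mul,
      Finset.mul_sum]
    rw [Finset.sum_comm]
    exact Finset.sum_congr rfl fun i _ => Finset.sum_congr rfl fun j _ => by ring
  simp_rw [h]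
  fun_prop

theorem finsler_fin {n : ℕ} (B0 B1 B2 : (Fin n → ℝ) →ₗ[ℝ] (Fin n → ℝ) →ₗ[ℝ] ℝ)
    (h2 : ∀ x, 0 ≤ B2 x x) (h : ∀ x, x ≠ 0 → B2 x x = 0 → 0 < B1 x x) :
    ∃ τ : ℝ, 0 ≤ τ ∧ ∃ δ : ℝ, 0 < δ ∧ ∀ x, δ * B0 x x ≤ B1 x x + τ * B2 x x := by
  have c0 := continuous_quad B0
  have c1 := continuous_quad B1
  have c2 := continuous_quad B2
  let S : Set (Fin n → ℝ) := Metric.sphere 0 1
  have hS : IsCompact S := isCompact_sphere 0 1
  rcases S.eq_empty_or_nonempty with hE | hNE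
  · -- then the space is trivial
    refine ⟨0, le_rfl, 1, one_pos, fun x => ?_⟩
    by_cases hx : x = 0
    · simp [hx]
    · exfalso
      have : (‖x‖⁻¹ • x) ∈ S := by
        simp [S, norm_smul, hx]
      rw [hE] at this
      exact this
  -- bound for B1 below on the sphere
  obtain ⟨x1, hx1, hmin1⟩ := hS.exists_isMinOn hNE c1.continuousOn
  obtain ⟨x0, hx0, hmax0⟩ := hS.exists_isMaxOn hNE c0.continuousOn
  let A : Set (Fin n → ℝ) := S ∩ {x | B1 x x ≤ 0}
  have hA : IsCompact A := hS.inter_right (isClosed_le c1 continuous_const)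
  have key : ∃ τ : ℝ, 0 ≤ τ ∧ ∀ x ∈ S, 0 < B1 x x + τ * B2 x x := by
    rcases A.eq_empty_or_nonempty with hAE | hANE
    · refine ⟨0, le_rfl, fun x hx => ?_⟩
      by_contra hcon
      have : x ∈ A := ⟨hx, by simpa using hcon⟩
      rw [hAE] at this
      exact this
    · obtain ⟨x2, hx2, hmin2⟩ := hA.exists_isMinOn hANE c2.continuousOn
      have hx2ne : x2 ≠ 0 := by
        intro h0
        have := hx2.1
        simp [S, h0] at this
      have hpos : 0 < B2 x2 x2 := by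
        rcases (h2 x2).lt_or_eq with hlt | heq
        · exact hlt
        · exact absurd (h x2 hx2ne heq.symm) (not_lt.2 hx2.2)
      refine ⟨(|B1 x1 x1| + 1) / B2 x2 x2, by positivity, fun x hx => ?_⟩
      by_cases hxA : B1 x x ≤ 0
      · have hb2 : B2 x2 x2 ≤ B2 x x := hmin2 ⟨hx, hxA⟩
        have hb1 : B1 x1 x1 ≤ B1 x x := hmin1 hx
        have h3 : |B1 x1 x1| + 1 ≤ (|B1 x1 x1| + 1) / B2 x2 x2 * B2 x x := by
          rw [div_mul_eq_mul_div, le_div_iff₀ hpos]
          exact mul_le_mul_of_nonneg_left hb2 (by positivity)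
        have h4 := neg_abs_le (B1 x1 x1)
        linarith
      · push Not at hxA
        have : 0 ≤ (|B1 x1 x1| + 1) / B2 x2 x2 * B2 x x := mul_nonneg (by positivity) (h2 x)
        linarith
  obtain ⟨τ, hτ0, hτ⟩ := key
  have c3 : Continuous fun x => B1 x x + τ * B2 x x := by fun_prop
  obtain ⟨x3, hx3, hmin3⟩ := hS.exists_isMinOn hNE c3.continuousOn
  have hm : 0 < B1 x3 x3 + τ * B2 x3 x3 := hτ x3 hx3
  refine ⟨τ, hτ0, (B1 x3 x3 + τ * B2 x3 x3) / (|B0 x0 x0| + 1), by positivity, fun x => ?_⟩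
  by_cases hx : x = 0
  · simp [hx]
  have hnx : 0 < ‖x‖ := norm_pos_iff.2 hx
  set y : Fin n → ℝ := ‖x‖⁻¹ • x with hy
  have hyS : y ∈ S := by simp [S, hy, norm_smul, hx]
  have hxy : x = ‖x‖ • y := by
    rw [hy, smul_smul, mul_inv_cancel₀ hnx.ne', one_smul]
  have e : ∀ B : (Fin n → ℝ) →ₗ[ℝ] (Fin n → ℝ) →ₗ[ℝ] ℝ, B x x = ‖x‖ ^ 2 * B y y := by
    intro B
    conv_lhs => rw [hxy]
    simp only [map_smul, LinearMap.smul_apply, smul_eq_mul]
    ring
  rw [e B0, e B1, e B2]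
  have h5 : B0 y y ≤ |B0 x0 x0| + 1 := by
    have := hmax0 hyS
    have h6 := le_abs_self (B0 x0 x0)
    simp only [Set.mem_ofPred_eq] at this
    linarith
  have h7 : B1 x3 x3 + τ * B2 x3 x3 ≤ B1 y y + τ * B2 y y := hmin3 hyS
  have h8 : (B1 x3 x3 + τ * B2 x3 x3) / (|B0 x0 x0| + 1) * B0 y y ≤
      B1 x3 x3 + τ * B2 x3 x3 := by
    rw [div_mul_eq_mul_div, div_le_iff₀ (by positivity)]
    exact mul_le_mul_of_nonneg_left h5 hm.le
  have h9 : 0 ≤ ‖x‖ ^ 2 := by positivity
  nlinarith [mul_le_mul_of_nonneg_left (h8.trans h7) h9]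

/-- Finsler's lemma on a finite-dimensional space. -/
theorem finsler {W : Type*} [AddCommGroup W] [Module ℝ W] [FiniteDimensional ℝ W]
    (B0 B1 B2 : W →ₗ[ℝ] W →ₗ[ℝ] ℝ)
    (h2 : ∀ x, 0 ≤ B2 x x) (h : ∀ x, x ≠ 0 → B2 x x = 0 → 0 < B1 x x) :
    ∃ τ : ℝ, 0 ≤ τ ∧ ∃ δ : ℝ, 0 < δ ∧ ∀ x, δ * B0 x x ≤ B1 x x + τ * B2 x x := by
  let e : W ≃ₗ[ℝ] (Fin (Module.finrank ℝ W) → ℝ) := (Module.finBasis ℝ W).equivFun
  let pull : (W →ₗ[ℝ] W →ₗ[ℝ] ℝ) →
      ((Fin (Module.finrank ℝ W) → ℝ) →ₗ[ℝ] (Fin (Module.finrank ℝ W) → ℝ) →ₗ[ℝ] ℝ) :=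
    fun B => B.compl₁₂ e.symm.toLinearMap e.symm.toLinearMap
  obtain ⟨τ, hτ, δ, hδ, hb⟩ := finsler_fin (pull B0) (pull B1) (pull B2)
    (fun x => by simpa [pull] using h2 (e.symm x))
    (fun x hx hx2 => by
      have : e.symm x ≠ 0 := by simpa using hx
      simpa [pull] using h (e.symm x) this (by simpa [pull] using hx2))
  refine ⟨τ, hτ, δ, hδ, fun x => ?_⟩
  have := hb (e x)
  simpa [pull] using this

/-! ### Top coefficients along a direction -/

/-- Restriction of a polynomial to the line `t ↦ t • v`. -/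
noncomputable def lineHom {c : ℕ} (v : Fin c → ℝ) :
    MvPolynomial (Fin c) ℝ →ₐ[ℝ] Polynomial ℝ :=
  aeval fun i => Polynomial.C (v i) * Polynomial.X

/-- The `n`-th coefficient of `t ↦ f (t v)`; for `n` the degree this is "evaluation at infinity". -/
noncomputable def top {c : ℕ} (n : ℕ) (v : Fin c → ℝ) : MvPolynomial (Fin c) ℝ →ₗ[ℝ] ℝ :=
  (Polynomial.lcoeff ℝ n).comp (lineHom v).toLinearMap

theorem lineHom_monomial {c : ℕ} (v : Fin c → ℝ) (m : Fin c →₀ ℕ) (r : ℝ) :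
    lineHom v (monomial m r) =
      Polynomial.monomial (Finsupp.degree m) (r * ∏ i, v i ^ m i) := by
  rw [lineHom, aeval_monomial]
  rw [Finsupp.prod_fintype _ _ (by intro i; simp)]
  simp only [mul_pow, Finset.prod_mul_distrib]
  rw [Finset.prod_pow_eq_pow_sum]
  rw [← Polynomial.C_mul_X_pow_eq_monomial, Finsupp.degree_eq_sum]
  simp [Polynomial.algebraMap_eq, mul_assoc]

theorem natDegree_lineHom_le {c : ℕ} (v : Fin c → ℝ) (f : MvPolynomial (Fin c) ℝ) :
    (lineHom v f).natDegree ≤ f.totalDegree := by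
  conv_lhs => rw [f.as_sum]
  rw [map_sum]
  refine Polynomial.natDegree_sum_le_of_forall_le _ _ fun m hm => ?_
  rw [lineHom_monomial]
  refine (Polynomial.natDegree_monomial_le _).trans ?_
  exact MvPolynomial.le_totalDegree hm

theorem coeff_mul_of_le {p q : Polynomial ℝ} {m n : ℕ} (hp : p.natDegree ≤ m)
    (hq : q.natDegree ≤ n) : (p * q).coeff (m + n) = p.coeff m * q.coeff n := by
  rw [Polynomial.coeff_mul, Finset.sum_eq_single (m, n)]
  · rintro ⟨i, j⟩ hij hne
    have h : i + j = m + n := by simpa using hij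
    rcases lt_trichotomy i m with h1 | h1 | h1
    · rw [Polynomial.coeff_eq_zero_of_natDegree_lt (p := q) (by omega), mul_zero]
    · exact absurd (by rw [h1, show j = n by omega]) hne
    · rw [Polynomial.coeff_eq_zero_of_natDegree_lt (p := p) (by omega), zero_mul]
  · simp

theorem top_mul {c : ℕ} (v : Fin c → ℝ) {f g : MvPolynomial (Fin c) ℝ} {m n : ℕ}
    (hf : f.totalDegree ≤ m) (hg : g.totalDegree ≤ n) :
    top (m + n) v (f * g) = top m v f * top n v g := by
  simp only [top, LinearMap.comp_apply, AlgHom.toLinearMap_apply, map_mul,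
    Polynomial.lcoeff_apply]
  exact coeff_mul_of_le ((natDegree_lineHom_le v f).trans hf)
    ((natDegree_lineHom_le v g).trans hg)

theorem top_eq_zero {c : ℕ} (v : Fin c → ℝ) {f : MvPolynomial (Fin c) ℝ} {n : ℕ}
    (hf : f.totalDegree < n) : top n v f = 0 := by
  simp only [top, LinearMap.comp_apply, AlgHom.toLinearMap_apply, Polynomial.lcoeff_apply]
  exact Polynomial.coeff_eq_zero_of_natDegree_lt ((natDegree_lineHom_le v f).trans_lt hf)

theorem top_homogeneous {c : ℕ} (v : Fin c → ℝ) {f : MvPolynomial (Fin c) ℝ} {n : ℕ}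
    (hf : f.IsHomogeneous n) : top n v f = eval v f := by
  have h : lineHom v f = Polynomial.monomial n (eval v f) := by
    conv_lhs => rw [f.as_sum]
    rw [map_sum]
    have : ∀ m ∈ f.support, lineHom v (monomial m (coeff m f)) =
        Polynomial.monomial n (coeff m f * ∏ i, v i ^ m i) := by
      intro m hm
      rw [lineHom_monomial]
      have : Finsupp.degree m = n := by
        by_contra hne
        exact (mem_support_iff.1 hm) (hf.coeff_eq_zero hne)
      rw [this]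
    rw [Finset.sum_congr rfl this, ← map_sum, eval_eq']
  simp [top, h]

/-! ### The space `V = P₁ + V₀` -/

/-- Polynomials of degree `≤ 2` whose quadratic part vanishes at the given points. -/
noncomputable def VV {c r : ℕ} (v : Fin r → Fin c → ℝ) : Submodule ℝ (MvPolynomial (Fin c) ℝ) where
  carrier := {f | f.totalDegree ≤ 2 ∧ ∀ k, top 2 (v k) f = 0}
  add_mem' := by
    rintro f g ⟨hf, hf'⟩ ⟨hg, hg'⟩
    refine ⟨(totalDegree_add f g).trans (max_le hf hg), fun k => ?_⟩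
    rw [map_add, hf', hg', add_zero]
  zero_mem' := by simp
  smul_mem' := by
    rintro a f ⟨hf, hf'⟩
    refine ⟨(totalDegree_smul_le a f).trans hf, fun k => ?_⟩
    rw [map_smul, hf', smul_zero]

theorem mem_VV {c r : ℕ} {v : Fin r → Fin c → ℝ} {f : MvPolynomial (Fin c) ℝ} :
    f ∈ VV v ↔ f.totalDegree ≤ 2 ∧ ∀ k, top 2 (v k) f = 0 := Iff.rfl

/-- The bilinear form `(f, g) ↦ L (f g)`. -/
noncomputable def mulForm {c : ℕ} (L : MvPolynomial (Fin c) ℝ →ₗ[ℝ] ℝ)
    (W : Submodule ℝ (MvPolynomial (Fin c) ℝ)) : W →ₗ[ℝ] W →ₗ[ℝ] ℝ :=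
  LinearMap.mk₂ ℝ (fun f g => L ((f : MvPolynomial (Fin c) ℝ) * g))
    (by intro a b d; simp [add_mul]) (by intro t a b; simp)
    (by intro a b d; simp [mul_add]) (by intro t a b; simp)

@[simp] theorem mulForm_apply {c : ℕ} (L : MvPolynomial (Fin c) ℝ →ₗ[ℝ] ℝ)
    (W : Submodule ℝ (MvPolynomial (Fin c) ℝ)) (f g : W) :
    mulForm L W f g = L ((f : MvPolynomial (Fin c) ℝ) * g) := rfl

/-- The coefficient scalar product. -/
noncomputable def coefForm {c : ℕ} (s : Finset (Fin c →₀ ℕ))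
    (W : Submodule ℝ (MvPolynomial (Fin c) ℝ)) : W →ₗ[ℝ] W →ₗ[ℝ] ℝ :=
  LinearMap.mk₂ ℝ (fun f g => ∑ m ∈ s, coeff m (f : MvPolynomial (Fin c) ℝ) * coeff m (g : _))
    (by intro a b d; simp [add_mul, Finset.sum_add_distrib])
    (by intro t a b; simp [Finset.mul_sum, mul_assoc])
    (by intro a b d; simp [mul_add, Finset.sum_add_distrib])
    (by intro t a b; simp [Finset.mul_sum, mul_left_comm])

@[simp] theorem coefForm_apply {c : ℕ} (s : Finset (Fin c →₀ ℕ))
    (W : Submodule ℝ (MvPolynomial (Fin c) ℝ)) (f g : W) :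
    coefForm s W f g = ∑ m ∈ s, coeff m (f : MvPolynomial (Fin c) ℝ) * coeff m (g : _) := rfl

theorem ext_strict {c r : ℕ} (v : Fin r → Fin c → ℝ) (L0 : MvPolynomial (Fin c) ℝ →ₗ[ℝ] ℝ)
    (h : ∀ f ∈ VV v, f ≠ 0 → 0 < L0 (f * f)) :
    ∃ L : MvPolynomial (Fin c) ℝ →ₗ[ℝ] ℝ,
      (∀ f : MvPolynomial (Fin c) ℝ, f.totalDegree ≤ 3 → L f = L0 f) ∧
      (∀ f ∈ VV v, ∀ g ∈ VV v, L (f * g) = L0 (f * g)) ∧
      ∃ δ : ℝ, 0 < δ ∧ ∀ f : MvPolynomial (Fin c) ℝ, f.totalDegree ≤ 2 →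
        δ * ∑ m ∈ f.support, (coeff m f) ^ 2 ≤ L (f * f) := by
  classical
  let W := restrictTotalDegree (Fin c) ℝ 2
  let s : Finset (Fin c →₀ ℕ) := (Finsupp.finite_of_degree_le (σ := Fin c) 2).toFinset
  let T : MvPolynomial (Fin c) ℝ →ₗ[ℝ] ℝ := ∑ k, top 4 (v k)
  have hT : ∀ f g : MvPolynomial (Fin c) ℝ, f.totalDegree ≤ 2 → g.totalDegree ≤ 2 →
      T (f * g) = ∑ k, top 2 (v k) f * top 2 (v k) g := by
    intro f g hf hg
    simp only [T, LinearMap.sum_apply]
    exact Finset.sum_congr rfl fun k _ => top_mul (v k) hf hg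
  have hW : ∀ f : W, (f : MvPolynomial (Fin c) ℝ).totalDegree ≤ 2 := fun f =>
    (mem_restrictTotalDegree _ _ _).1 f.2
  obtain ⟨τ, hτ, δ, hδ, hb⟩ := finsler (coefForm s W) (mulForm L0 W) (mulForm T W)
    (fun f => by
      rw [mulForm_apply, hT _ _ (hW f) (hW f)]
      exact Finset.sum_nonneg fun k _ => mul_self_nonneg _)
    (fun f hf hf2 => by
      rw [mulForm_apply, hT _ _ (hW f) (hW f)] at hf2
      rw [mulForm_apply]
      refine h f (mem_VV.2 ⟨hW f, fun k => ?_⟩) (by simpa using hf)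
      have := (Finset.sum_eq_zero_iff_of_nonneg (fun k _ => mul_self_nonneg _)).1 hf2 k
        (Finset.mem_univ k)
      simpa using this)
  refine ⟨L0 + τ • T, ?_, ?_, δ, hδ, ?_⟩
  · intro f hf
    have : T f = 0 := by
      simp only [T, LinearMap.sum_apply]
      exact Finset.sum_eq_zero fun k _ => top_eq_zero _ (by omega)
    simp [this]
  · intro f hf g hg
    have : T (f * g) = 0 := by
      rw [hT f g hf.1 hg.1]
      exact Finset.sum_eq_zero fun k _ => by rw [hf.2 k, zero_mul]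
    simp [this]
  · intro f hf
    have := hb ⟨f, (mem_restrictTotalDegree _ _ _).2 hf⟩
    simp only [mulForm_apply, coefForm_apply] at this
    simp only [LinearMap.add_apply, LinearMap.smul_apply, smul_eq_mul]
    refine le_trans ?_ this
    refine mul_le_mul_of_nonneg_left ?_ hδ.le
    have hsub : f.support ⊆ s := by
      intro m hm
      simp only [s, Set.Finite.mem_toFinset]
      exact (MvPolynomial.le_totalDegree hm).trans hf
    rw [Finset.sum_congr rfl (fun m _ => pow_two (coeff m f))]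
    exact Finset.sum_le_sum_of_subset_of_nonneg hsub fun m _ _ => mul_self_nonneg _

end Crest.Agent.R237.Ext
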