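import Mathlib

/-!
Row 237, certificate LKC (helper782, triangular certificate by helper215): for the Moebius-Kantor
space `V_0` the kernel of the differential of `(P, Z) ↦ P * zeta q Z` modulo translations at the
point `(P0, Z0)` is one dimensional.
-/

set_option autoImplicit false
set_option linter.unusedVariables false
set_option linter.unusedSimpArgs false
set_option linter.unusedTactic false

namespace Crest.Agent.R237.LKC

open Matrix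

/-- the 19 binomials `u_{p1} u_{p2} - u_{p3} u_{p4}`. -/
def pr : Fin 19 → (Fin 8 × Fin 8) × (Fin 8 × Fin 8) :=
  ![((0, 1), (1, 3)), ((0, 3), (1, 3)), ((1, 2), (2, 4)), ((1, 4), (2, 4)), ((2, 3), (3, 5)), ((2, 5), (3, 5)), ((3, 4), (4, 6)), ((3, 6), (4, 6)), ((4, 5), (5, 7)), ((4, 7), (5, 7)), ((5, 6), (6, 0)), ((5, 0), (6, 0)), ((6, 7), (7, 1)), ((6, 1), (7, 1)), ((7, 0), (0, 2)), ((7, 2), (0, 2)), ((0, 4), (1, 5)), ((0, 4), (2, 6)), ((0, 4), (3, 7))]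

/-- symmetric matrix with ones at `(i,j)` and `(j,i)` (for `i ≠ j`). -/
def sy (p : Fin 8 × Fin 8) : Matrix (Fin 8) (Fin 8) ℝ :=
  Matrix.single p.1 p.2 1 + Matrix.single p.2 p.1 1

/-- the matrix of the quadratic form `2 (u_{p1} u_{p2} - u_{p3} u_{p4})`. -/
def q (a : Fin 19) : Matrix (Fin 8) (Fin 8) ℝ := sy (pr a).1 - sy (pr a).2

/-- the involution `(0 4)(1 7)(2 5)`. -/
def sg : Fin 8 → Fin 8 := ![4, 7, 5, 3, 0, 2, 6, 1]

/-- the point `P0`: permutation matrix of `sg`. -/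
def P0 : Matrix (Fin 8) (Fin 8) ℝ := Matrix.of fun i j => if j = sg i then 1 else 0

/-- the third index completing `{k,l}` to one of the monomials `035, 123, 467`. -/
def thd : Fin 8 → Fin 8 → Option (Fin 8) := ![
  ![none, none, none, some 5, none, some 3, none, none],
  ![none, none, some 3, some 2, none, none, none, none],
  ![none, some 3, none, some 1, none, none, none, none],
  ![some 5, some 2, some 1, none, none, some 0, none, none],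
  ![none, none, none, none, none, none, some 7, some 6],
  ![some 3, none, none, some 0, none, none, none, none],
  ![none, none, none, none, some 7, none, none, some 4],
  ![none, none, none, none, some 6, none, some 4, none]]

/-- the point `Z0`. -/
def Z0 (j k l : Fin 8) : ℝ := if thd k l = some j then 1 else 0


theorem Z0_symm : ∀ i j k, Z0 i j k = Z0 j i k ∧ Z0 i j k = Z0 i k j := by
  have h : ∀ i j k : Fin 8, ((thd j k = some i ↔ thd i k = some j) ∧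
      (thd j k = some i ↔ thd k j = some i)) := by decide
  intro i j k
  obtain ⟨h1, h2⟩ := h i j k
  unfold Z0
  constructor
  · simp only [h1]
  · simp only [h2]

/-- sorted values of a function of a pair. -/
def sE (e : Fin 8 → Fin 8 → ℝ) (i j : Fin 8) : ℝ := if i ≤ j then e i j else e j i

/-- sorted values of a function of a triple. -/
def sZ (z : Fin 8 → Fin 8 → Fin 8 → ℝ) (i j k : Fin 8) : ℝ :=
  if i ≤ j then (if j ≤ k then z i j k else if i ≤ k then z i k j else z k i j)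
  else (if i ≤ k then z j i k else if j ≤ k then z j k i else z k j i)

/-- `E`-term. -/
def tE (e : Fin 8 → Fin 8 → ℝ) (i : Fin 8) (o : Option (Fin 8)) : ℝ :=
  match o with
  | none => 0
  | some j => sE e i j

/-- the scalar form of the equation for the form `a` and the row `i`. -/
def eqn (e : Fin 8 → Fin 8 → ℝ) (z : Fin 8 → Fin 8 → Fin 8 → ℝ) (y : Fin 8 → ℝ)
    (a : Fin 19) (i : Fin 8) : Prop :=
  2 * (tE e i (thd (pr a).1.1 (pr a).1.2) - tE e i (thd (pr a).2.1 (pr a).2.2))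
    + 2 * (sZ z (sg i) (pr a).1.1 (pr a).1.2 - sZ z (sg i) (pr a).2.1 (pr a).2.2)
    + ((if i = (pr a).1.1 then y (pr a).1.2 else 0) + (if i = (pr a).1.2 then y (pr a).1.1 else 0)
      - ((if i = (pr a).2.1 then y (pr a).2.2 else 0)
        + (if i = (pr a).2.2 then y (pr a).2.1 else 0))) = 0


section core
variable (e : Fin 8 → Fin 8 → ℝ) (z : Fin 8 → Fin 8 → Fin 8 → ℝ) (y : Fin 8 → ℝ)
  (h : ∀ a i, eqn e z y a i)
include h

theorem h_0_0 : 2 * (0 - e 0 2) + 2 * (z 0 1 4 - z 1 3 4) + (y 1 + 0 - (0 + 0)) = 0 := h 0 0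
theorem h_0_1 : 2 * (0 - e 1 2) + 2 * (z 0 1 7 - z 1 3 7) + (0 + y 0 - (y 3 + 0)) = 0 := h 0 1
theorem h_0_2 : 2 * (0 - e 2 2) + 2 * (z 0 1 5 - z 1 3 5) + (0 + 0 - (0 + 0)) = 0 := h 0 2
theorem h_0_5 : 2 * (0 - e 2 5) + 2 * (z 0 1 2 - z 1 2 3) + (0 + 0 - (0 + 0)) = 0 := h 0 5
theorem h_0_6 : 2 * (0 - e 2 6) + 2 * (z 0 1 6 - z 1 3 6) + (0 + 0 - (0 + 0)) = 0 := h 0 6
theorem h_1_0 : 2 * (e 0 5 - e 0 2) + 2 * (z 0 3 4 - z 1 3 4) + (y 3 + 0 - (0 + 0)) = 0 := h 1 0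
theorem h_1_1 : 2 * (e 1 5 - e 1 2) + 2 * (z 0 3 7 - z 1 3 7) + (0 + 0 - (y 3 + 0)) = 0 := h 1 1
theorem h_1_2 : 2 * (e 2 5 - e 2 2) + 2 * (z 0 3 5 - z 1 3 5) + (0 + 0 - (0 + 0)) = 0 := h 1 2
theorem h_1_5 : 2 * (e 5 5 - e 2 5) + 2 * (z 0 2 3 - z 1 2 3) + (0 + 0 - (0 + 0)) = 0 := h 1 5
theorem h_1_6 : 2 * (e 5 6 - e 2 6) + 2 * (z 0 3 6 - z 1 3 6) + (0 + 0 - (0 + 0)) = 0 := h 1 6
theorem h_2_1 : 2 * (e 1 3 - 0) + 2 * (z 1 2 7 - z 2 4 7) + (y 2 + 0 - (0 + 0)) = 0 := h 2 1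
theorem h_2_2 : 2 * (e 2 3 - 0) + 2 * (z 1 2 5 - z 2 4 5) + (0 + y 1 - (y 4 + 0)) = 0 := h 2 2
theorem h_2_3 : 2 * (e 3 3 - 0) + 2 * (z 1 2 3 - z 2 3 4) + (0 + 0 - (0 + 0)) = 0 := h 2 3
theorem h_2_4 : 2 * (e 3 4 - 0) + 2 * (z 0 1 2 - z 0 2 4) + (0 + 0 - (0 + y 2)) = 0 := h 2 4
theorem h_2_6 : 2 * (e 3 6 - 0) + 2 * (z 1 2 6 - z 2 4 6) + (0 + 0 - (0 + 0)) = 0 := h 2 6
theorem h_3_1 : 2 * (0 - 0) + 2 * (z 1 4 7 - z 2 4 7) + (y 4 + 0 - (0 + 0)) = 0 := h 3 1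
theorem h_3_2 : 2 * (0 - 0) + 2 * (z 1 4 5 - z 2 4 5) + (0 + 0 - (y 4 + 0)) = 0 := h 3 2
theorem h_3_3 : 2 * (0 - 0) + 2 * (z 1 3 4 - z 2 3 4) + (0 + 0 - (0 + 0)) = 0 := h 3 3
theorem h_3_4 : 2 * (0 - 0) + 2 * (z 0 1 4 - z 0 2 4) + (0 + y 1 - (0 + y 2)) = 0 := h 3 4
theorem h_3_6 : 2 * (0 - 0) + 2 * (z 1 4 6 - z 2 4 6) + (0 + 0 - (0 + 0)) = 0 := h 3 6
theorem h_4_0 : 2 * (e 0 1 - e 0 0) + 2 * (z 2 3 4 - z 3 4 5) + (0 + 0 - (0 + 0)) = 0 := h 4 0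
theorem h_4_1 : 2 * (e 1 1 - e 0 1) + 2 * (z 2 3 7 - z 3 5 7) + (0 + 0 - (0 + 0)) = 0 := h 4 1
theorem h_4_4 : 2 * (e 1 4 - e 0 4) + 2 * (z 0 2 3 - z 0 3 5) + (0 + 0 - (0 + 0)) = 0 := h 4 4
theorem h_4_6 : 2 * (e 1 6 - e 0 6) + 2 * (z 2 3 6 - z 3 5 6) + (0 + 0 - (0 + 0)) = 0 := h 4 6
theorem h_5_0 : 2 * (0 - e 0 0) + 2 * (z 2 4 5 - z 3 4 5) + (0 + 0 - (0 + 0)) = 0 := h 5 0
theorem h_5_1 : 2 * (0 - e 0 1) + 2 * (z 2 5 7 - z 3 5 7) + (0 + 0 - (0 + 0)) = 0 := h 5 1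
theorem h_5_4 : 2 * (0 - e 0 4) + 2 * (z 0 2 5 - z 0 3 5) + (0 + 0 - (0 + 0)) = 0 := h 5 4
theorem h_5_6 : 2 * (0 - e 0 6) + 2 * (z 2 5 6 - z 3 5 6) + (0 + 0 - (0 + 0)) = 0 := h 5 6
theorem h_5_7 : 2 * (0 - e 0 7) + 2 * (z 1 2 5 - z 1 3 5) + (0 + 0 - (0 + 0)) = 0 := h 5 7
theorem h_6_1 : 2 * (0 - e 1 7) + 2 * (z 3 4 7 - z 4 6 7) + (0 + 0 - (0 + 0)) = 0 := h 6 1
theorem h_6_2 : 2 * (0 - e 2 7) + 2 * (z 3 4 5 - z 4 5 6) + (0 + 0 - (0 + 0)) = 0 := h 6 2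
theorem h_6_4 : 2 * (0 - e 4 7) + 2 * (z 0 3 4 - z 0 4 6) + (0 + y 3 - (y 6 + 0)) = 0 := h 6 4
theorem h_6_5 : 2 * (0 - e 5 7) + 2 * (z 2 3 4 - z 2 4 6) + (0 + 0 - (0 + 0)) = 0 := h 6 5
theorem h_6_7 : 2 * (0 - e 7 7) + 2 * (z 1 3 4 - z 1 4 6) + (0 + 0 - (0 + 0)) = 0 := h 6 7
theorem h_7_1 : 2 * (0 - e 1 7) + 2 * (z 3 6 7 - z 4 6 7) + (0 + 0 - (0 + 0)) = 0 := h 7 1
theorem h_7_2 : 2 * (0 - e 2 7) + 2 * (z 3 5 6 - z 4 5 6) + (0 + 0 - (0 + 0)) = 0 := h 7 2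
theorem h_7_4 : 2 * (0 - e 4 7) + 2 * (z 0 3 6 - z 0 4 6) + (0 + 0 - (y 6 + 0)) = 0 := h 7 4
theorem h_7_5 : 2 * (0 - e 5 7) + 2 * (z 2 3 6 - z 2 4 6) + (0 + 0 - (0 + 0)) = 0 := h 7 5
theorem h_7_7 : 2 * (0 - e 7 7) + 2 * (z 1 3 6 - z 1 4 6) + (0 + 0 - (0 + 0)) = 0 := h 7 7
theorem h_8_3 : 2 * (0 - 0) + 2 * (z 3 4 5 - z 3 5 7) + (0 + 0 - (0 + 0)) = 0 := h 8 3
theorem h_8_4 : 2 * (0 - 0) + 2 * (z 0 4 5 - z 0 5 7) + (y 5 + 0 - (0 + 0)) = 0 := h 8 4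
theorem h_8_6 : 2 * (0 - 0) + 2 * (z 4 5 6 - z 5 6 7) + (0 + 0 - (0 + 0)) = 0 := h 8 6
theorem h_8_7 : 2 * (0 - 0) + 2 * (z 1 4 5 - z 1 5 7) + (0 + 0 - (0 + y 5)) = 0 := h 8 7
theorem h_9_3 : 2 * (e 3 6 - 0) + 2 * (z 3 4 7 - z 3 5 7) + (0 + 0 - (0 + 0)) = 0 := h 9 3
theorem h_9_4 : 2 * (e 4 6 - 0) + 2 * (z 0 4 7 - z 0 5 7) + (y 7 + 0 - (0 + 0)) = 0 := h 9 4
theorem h_9_5 : 2 * (e 5 6 - 0) + 2 * (z 2 4 7 - z 2 5 7) + (0 + 0 - (y 7 + 0)) = 0 := h 9 5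
theorem h_9_6 : 2 * (e 6 6 - 0) + 2 * (z 4 6 7 - z 5 6 7) + (0 + 0 - (0 + 0)) = 0 := h 9 6
theorem h_9_7 : 2 * (e 6 7 - 0) + 2 * (z 1 4 7 - z 1 5 7) + (0 + y 4 - (0 + y 5)) = 0 := h 9 7
theorem h_10_0 : 2 * (0 - 0) + 2 * (z 4 5 6 - z 0 4 6) + (0 + 0 - (0 + y 6)) = 0 := h 10 0
theorem h_10_1 : 2 * (0 - 0) + 2 * (z 5 6 7 - z 0 6 7) + (0 + 0 - (0 + 0)) = 0 := h 10 1
theorem h_10_3 : 2 * (0 - 0) + 2 * (z 3 5 6 - z 0 3 6) + (0 + 0 - (0 + 0)) = 0 := h 10 3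
theorem h_10_5 : 2 * (0 - 0) + 2 * (z 2 5 6 - z 0 2 6) + (y 6 + 0 - (0 + 0)) = 0 := h 10 5
theorem h_10_7 : 2 * (0 - 0) + 2 * (z 1 5 6 - z 0 1 6) + (0 + 0 - (0 + 0)) = 0 := h 10 7
theorem h_11_0 : 2 * (e 0 3 - 0) + 2 * (z 0 4 5 - z 0 4 6) + (0 + y 5 - (0 + y 6)) = 0 := h 11 0
theorem h_11_1 : 2 * (e 1 3 - 0) + 2 * (z 0 5 7 - z 0 6 7) + (0 + 0 - (0 + 0)) = 0 := h 11 1
theorem h_11_5 : 2 * (e 3 5 - 0) + 2 * (z 0 2 5 - z 0 2 6) + (y 0 + 0 - (0 + 0)) = 0 := h 11 5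
theorem h_11_7 : 2 * (e 3 7 - 0) + 2 * (z 0 1 5 - z 0 1 6) + (0 + 0 - (0 + 0)) = 0 := h 11 7
theorem h_12_0 : 2 * (e 0 4 - 0) + 2 * (z 4 6 7 - z 1 4 7) + (0 + 0 - (0 + 0)) = 0 := h 12 0
theorem h_12_2 : 2 * (e 2 4 - 0) + 2 * (z 5 6 7 - z 1 5 7) + (0 + 0 - (0 + 0)) = 0 := h 12 2
theorem h_12_3 : 2 * (e 3 4 - 0) + 2 * (z 3 6 7 - z 1 3 7) + (0 + 0 - (0 + 0)) = 0 := h 12 3
theorem h_12_4 : 2 * (e 4 4 - 0) + 2 * (z 0 6 7 - z 0 1 7) + (0 + 0 - (0 + 0)) = 0 := h 12 4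
theorem h_12_5 : 2 * (e 4 5 - 0) + 2 * (z 2 6 7 - z 1 2 7) + (0 + 0 - (0 + 0)) = 0 := h 12 5
theorem h_13_0 : 2 * (0 - 0) + 2 * (z 1 4 6 - z 1 4 7) + (0 + 0 - (0 + 0)) = 0 := h 13 0
theorem h_13_2 : 2 * (0 - 0) + 2 * (z 1 5 6 - z 1 5 7) + (0 + 0 - (0 + 0)) = 0 := h 13 2
theorem h_13_3 : 2 * (0 - 0) + 2 * (z 1 3 6 - z 1 3 7) + (0 + 0 - (0 + 0)) = 0 := h 13 3
theorem h_13_4 : 2 * (0 - 0) + 2 * (z 0 1 6 - z 0 1 7) + (0 + 0 - (0 + 0)) = 0 := h 13 4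
theorem h_13_5 : 2 * (0 - 0) + 2 * (z 1 2 6 - z 1 2 7) + (0 + 0 - (0 + 0)) = 0 := h 13 5
theorem h_14_0 : 2 * (0 - 0) + 2 * (z 0 4 7 - z 0 2 4) + (0 + y 7 - (y 2 + 0)) = 0 := h 14 0
theorem h_14_2 : 2 * (0 - 0) + 2 * (z 0 5 7 - z 0 2 5) + (0 + 0 - (0 + y 0)) = 0 := h 14 2
theorem h_14_3 : 2 * (0 - 0) + 2 * (z 0 3 7 - z 0 2 3) + (0 + 0 - (0 + 0)) = 0 := h 14 3
theorem h_14_6 : 2 * (0 - 0) + 2 * (z 0 6 7 - z 0 2 6) + (0 + 0 - (0 + 0)) = 0 := h 14 6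
theorem h_14_7 : 2 * (0 - 0) + 2 * (z 0 1 7 - z 0 1 2) + (y 0 + 0 - (0 + 0)) = 0 := h 14 7
theorem h_15_0 : 2 * (0 - 0) + 2 * (z 2 4 7 - z 0 2 4) + (0 + 0 - (y 2 + 0)) = 0 := h 15 0
theorem h_15_2 : 2 * (0 - 0) + 2 * (z 2 5 7 - z 0 2 5) + (0 + y 7 - (0 + y 0)) = 0 := h 15 2
theorem h_15_3 : 2 * (0 - 0) + 2 * (z 2 3 7 - z 0 2 3) + (0 + 0 - (0 + 0)) = 0 := h 15 3
theorem h_15_6 : 2 * (0 - 0) + 2 * (z 2 6 7 - z 0 2 6) + (0 + 0 - (0 + 0)) = 0 := h 15 6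
theorem h_15_7 : 2 * (0 - 0) + 2 * (z 1 2 7 - z 0 1 2) + (y 2 + 0 - (0 + 0)) = 0 := h 15 7
theorem h_16_0 : 2 * (0 - 0) + 2 * (z 0 4 4 - z 1 4 5) + (y 4 + 0 - (0 + 0)) = 0 := h 16 0
theorem h_16_1 : 2 * (0 - 0) + 2 * (z 0 4 7 - z 1 5 7) + (0 + 0 - (y 5 + 0)) = 0 := h 16 1
theorem h_16_3 : 2 * (0 - 0) + 2 * (z 0 3 4 - z 1 3 5) + (0 + 0 - (0 + 0)) = 0 := h 16 3
theorem h_16_4 : 2 * (0 - 0) + 2 * (z 0 0 4 - z 0 1 5) + (0 + y 0 - (0 + 0)) = 0 := h 16 4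
theorem h_16_5 : 2 * (0 - 0) + 2 * (z 0 2 4 - z 1 2 5) + (0 + 0 - (0 + y 1)) = 0 := h 16 5
theorem h_16_6 : 2 * (0 - 0) + 2 * (z 0 4 6 - z 1 5 6) + (0 + 0 - (0 + 0)) = 0 := h 16 6
theorem h_17_0 : 2 * (0 - 0) + 2 * (z 0 4 4 - z 2 4 6) + (y 4 + 0 - (0 + 0)) = 0 := h 17 0
theorem h_17_1 : 2 * (0 - 0) + 2 * (z 0 4 7 - z 2 6 7) + (0 + 0 - (0 + 0)) = 0 := h 17 1
theorem h_17_2 : 2 * (0 - 0) + 2 * (z 0 4 5 - z 2 5 6) + (0 + 0 - (y 6 + 0)) = 0 := h 17 2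
theorem h_17_3 : 2 * (0 - 0) + 2 * (z 0 3 4 - z 2 3 6) + (0 + 0 - (0 + 0)) = 0 := h 17 3
theorem h_17_4 : 2 * (0 - 0) + 2 * (z 0 0 4 - z 0 2 6) + (0 + y 0 - (0 + 0)) = 0 := h 17 4
theorem h_17_7 : 2 * (0 - 0) + 2 * (z 0 1 4 - z 1 2 6) + (0 + 0 - (0 + 0)) = 0 := h 17 7
theorem h_18_0 : 2 * (0 - 0) + 2 * (z 0 4 4 - z 3 4 7) + (y 4 + 0 - (0 + 0)) = 0 := h 18 0
theorem h_18_2 : 2 * (0 - 0) + 2 * (z 0 4 5 - z 3 5 7) + (0 + 0 - (0 + 0)) = 0 := h 18 2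
theorem h_18_4 : 2 * (0 - 0) + 2 * (z 0 0 4 - z 0 3 7) + (0 + y 0 - (0 + 0)) = 0 := h 18 4
theorem h_18_5 : 2 * (0 - 0) + 2 * (z 0 2 4 - z 2 3 7) + (0 + 0 - (0 + 0)) = 0 := h 18 5
theorem h_18_6 : 2 * (0 - 0) + 2 * (z 0 4 6 - z 3 6 7) + (0 + 0 - (0 + 0)) = 0 := h 18 6
theorem h_18_7 : 2 * (0 - 0) + 2 * (z 0 1 4 - z 1 3 7) + (0 + 0 - (0 + y 3)) = 0 := h 18 7
theorem f_E17 : e 1 7 = e 0 4 := by
  linear_combination (-1/2) * h_3_6 e z y h + (-1/2) * h_6_1 e z y h + (-1/2) * h_12_0 e z y h + (1/2) * h_13_0 e z y h + (1/2) * h_17_0 e z y h + (-1/2) * h_18_0 e z y h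
theorem f_y5 : y 5 = 0 := by
  linear_combination (1) * h_6_1 e z y h + (-1) * h_7_1 e z y h + (-1) * h_8_7 e z y h + (1) * h_13_2 e z y h + (-1) * h_16_0 e z y h + (1) * h_16_6 e z y h + (1) * h_18_0 e z y h + (-1) * h_18_6 e z y h
theorem f_E24 : e 2 4 = 0 := by
  linear_combination (-1/2) * h_10_1 e z y h + (1/2) * h_12_2 e z y h + (-1/2) * h_14_6 e z y h + (1/2) * h_15_6 e z y h + (-1/2) * h_16_1 e z y h + (1/2) * h_17_1 e z y h + (-1/2) * f_y5 e z y h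
theorem f_E66 : e 6 6 = e 0 4 := by
  linear_combination (1/2) * h_7_1 e z y h + (1/2) * h_9_6 e z y h + (1/2) * h_12_2 e z y h + (-1/2) * h_13_2 e z y h + (-1/2) * h_16_6 e z y h + (1/2) * h_18_6 e z y h + (1) * f_E17 e z y h + (-1) * f_E24 e z y h
theorem f_E35 : e 3 5 = 0 := by
  linear_combination (1/2) * h_8_4 e z y h + (-1/2) * h_10_5 e z y h + (1/2) * h_11_5 e z y h + (1/2) * h_14_2 e z y h + (-1/2) * h_17_2 e z y h + (-1/2) * f_y5 e z y h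
theorem f_E44 : e 4 4 = 0 := by
  linear_combination (1/2) * h_10_1 e z y h + (-1/2) * h_10_7 e z y h + (-1/2) * h_12_2 e z y h + (1/2) * h_12_4 e z y h + (1/2) * h_13_2 e z y h + (-1/2) * h_13_4 e z y h + (1) * f_E24 e z y h
theorem f_y6 : y 6 = 0 := by
  linear_combination (-1) * h_7_1 e z y h + (1) * h_8_6 e z y h + (-1) * h_9_6 e z y h + (-1) * h_10_0 e z y h + (-1) * h_18_6 e z y h + (-2) * f_E17 e z y h + (2) * f_E66 e z y h
theorem f_E13 : e 1 3 = 0 := by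
  linear_combination (1/2) * h_8_4 e z y h + (-1/2) * h_10_5 e z y h + (1/2) * h_11_1 e z y h + (1/2) * h_14_6 e z y h + (-1/2) * h_17_2 e z y h + (-1/2) * f_y5 e z y h
theorem f_E37 : e 3 7 = 0 := by
  linear_combination (-1/2) * h_10_7 e z y h + (1/2) * h_11_7 e z y h + (1/2) * h_13_2 e z y h + (1/2) * h_15_6 e z y h + (-1/2) * h_16_1 e z y h + (1/2) * h_16_4 e z y h + (1/2) * h_17_1 e z y h + (-1/2) * h_17_4 e z y h + (-1/2) * f_y5 e z y h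
theorem f_E03 : e 0 3 = 0 := by
  linear_combination (-1/2) * h_8_4 e z y h + (1/2) * h_10_1 e z y h + (1/2) * h_11_0 e z y h + (-1/2) * h_11_1 e z y h + (-1/2) * h_12_2 e z y h + (1/2) * h_13_2 e z y h + (1/2) * h_16_6 e z y h + (1/2) * f_y6 e z y h + (1) * f_E13 e z y h + (1) * f_E24 e z y h
theorem f_E36 : e 3 6 = 0 := by
  linear_combination (-1/2) * h_6_1 e z y h + (1/2) * h_8_6 e z y h + (1/2) * h_9_3 e z y h + (-1/2) * h_9_6 e z y h + (-1/2) * h_10_0 e z y h + (1/2) * h_11_0 e z y h + (-1/2) * h_18_2 e z y h + (-1) * f_E03 e z y h + (-1/2) * f_y5 e z y h + (-1) * f_E17 e z y h + (1) * f_E66 e z y h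
theorem f_E27 : e 2 7 = 0 := by
  linear_combination (1/2) * h_6_1 e z y h + (-1/2) * h_6_2 e z y h + (1/2) * h_8_3 e z y h + (-1/2) * h_8_6 e z y h + (-1/2) * h_9_3 e z y h + (1/2) * h_9_6 e z y h + (1) * f_E17 e z y h + (-1) * f_E66 e z y h + (1) * f_E36 e z y h
theorem f_E06 : e 0 6 = 0 := by
  linear_combination (-1/2) * h_5_6 e z y h + (1/2) * h_6_2 e z y h + (-1/2) * h_7_2 e z y h + (-1/2) * h_8_3 e z y h + (-1/2) * h_17_2 e z y h + (1/2) * h_18_2 e z y h + (-1/2) * f_y6 e z y h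
theorem f_E34 : e 3 4 = 0 := by
  linear_combination (-1/2) * h_2_1 e z y h + (1/2) * h_2_4 e z y h + (-1/2) * h_15_0 e z y h + (1/2) * h_15_7 e z y h + (1) * f_E13 e z y h
theorem f_y3 : y 3 = 0 := by
  linear_combination (1) * h_2_6 e z y h + (1) * h_6_1 e z y h + (-1) * h_7_1 e z y h + (1) * h_12_3 e z y h + (-1) * h_17_0 e z y h + (1) * h_17_7 e z y h + (1) * h_18_0 e z y h + (-1) * h_18_7 e z y h + (-2) * f_E36 e z y h + (-2) * f_E34 e z y h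
theorem f_E47 : e 4 7 = 0 := by
  linear_combination (-1/2) * h_5_6 e z y h + (-1/2) * h_7_4 e z y h + (-1/2) * h_10_3 e z y h + (1/2) * h_11_0 e z y h + (-1/2) * h_17_2 e z y h + (-1) * f_E03 e z y h + (-1/2) * f_y5 e z y h + (-1) * f_E06 e z y h + (-1/2) * f_y6 e z y h
theorem f_E45 : e 4 5 = 0 := by
  linear_combination (1/2) * h_2_6 e z y h + (1/2) * h_8_7 e z y h + (1/2) * h_12_5 e z y h + (-1/2) * h_13_5 e z y h + (1/2) * h_16_0 e z y h + (-1/2) * h_16_1 e z y h + (-1/2) * h_17_0 e z y h + (1/2) * h_17_1 e z y h + (-1) * f_E36 e z y h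
theorem f_E77 : e 7 7 = 0 := by
  linear_combination (-1/2) * h_3_6 e z y h + (-1/2) * h_6_1 e z y h + (1/2) * h_7_1 e z y h + (-1/2) * h_7_7 e z y h + (-1/2) * h_12_3 e z y h + (1/2) * h_13_3 e z y h + (1/2) * h_17_0 e z y h + (-1/2) * h_18_0 e z y h + (1) * f_E34 e z y h
theorem f_E22 : e 2 2 = 0 := by
  linear_combination (-1/2) * h_0_2 e z y h + (-1/2) * h_6_4 e z y h + (-1/2) * h_10_7 e z y h + (1/2) * h_11_7 e z y h + (1/2) * h_16_3 e z y h + (-1/2) * h_16_6 e z y h + (1/2) * f_y3 e z y h + (-1) * f_E47 e z y h + (-1/2) * f_y6 e z y h + (-1) * f_E37 e z y h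
theorem f_E16 : e 1 6 = 0 := by
  linear_combination (1/2) * h_4_6 e z y h + (-1/2) * h_5_6 e z y h + (-1/2) * h_6_4 e z y h + (1/2) * h_11_0 e z y h + (-1/2) * h_17_2 e z y h + (1/2) * h_17_3 e z y h + (1/2) * f_y3 e z y h + (-1) * f_E47 e z y h + (-1) * f_E03 e z y h + (-1/2) * f_y5 e z y h + (-1/2) * f_y6 e z y h
theorem f_E56 : e 5 6 = 0 := by
  linear_combination (-1/2) * h_0_6 e z y h + (1/2) * h_1_6 e z y h + (-1/2) * h_7_4 e z y h + (-1/2) * h_10_7 e z y h + (-1/2) * h_16_6 e z y h + (-1) * f_E47 e z y h + (-1/2) * f_y6 e z y h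
theorem f_E46 : e 4 6 = 0 := by
  linear_combination (1/2) * h_9_4 e z y h + (-1/2) * h_9_5 e z y h + (-1/2) * h_14_0 e z y h + (1/2) * h_14_2 e z y h + (1/2) * h_15_0 e z y h + (-1/2) * h_15_2 e z y h + (1) * f_E56 e z y h
theorem f_E26 : e 2 6 = 0 := by
  linear_combination (-1/2) * h_0_6 e z y h + (-1/2) * h_10_7 e z y h + (1/2) * h_12_3 e z y h + (-1/2) * h_13_3 e z y h + (-1/2) * h_16_6 e z y h + (1/2) * h_18_6 e z y h + (-1) * f_E34 e z y h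
theorem f_E57 : e 5 7 = 0 := by
  linear_combination (-1/2) * h_3_3 e z y h + (1/2) * h_3_6 e z y h + (-1/2) * h_6_5 e z y h + (1/2) * h_6_7 e z y h + (1) * f_E77 e z y h
theorem f_y7 : y 7 = 0 := by
  linear_combination (1) * h_9_4 e z y h + (-1) * h_10_1 e z y h + (1) * h_11_1 e z y h + (1) * h_12_2 e z y h + (-1) * h_16_1 e z y h + (-2) * f_E46 e z y h + (-2) * f_E13 e z y h + (-1) * f_y5 e z y h + (-2) * f_E24 e z y h
theorem f_y2 : y 2 = 0 := by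
  linear_combination (1) * h_2_4 e z y h + (1) * h_12_5 e z y h + (-1) * h_14_0 e z y h + (1) * h_15_7 e z y h + (1) * h_17_1 e z y h + (-2) * f_E34 e z y h + (1) * f_y7 e z y h + (-2) * f_E45 e z y h
theorem f_y1 : y 1 = 0 := by
  linear_combination (-1) * h_2_1 e z y h + (1) * h_3_4 e z y h + (-1) * h_13_5 e z y h + (-1) * h_15_0 e z y h + (-1) * h_17_7 e z y h + (2) * f_E13 e z y h + (1) * f_y2 e z y h
theorem f_E01 : e 0 1 = 0 := by
  linear_combination (-1/2) * h_5_1 e z y h + (-1/2) * h_8_4 e z y h + (1/2) * h_9_4 e z y h + (-1/2) * h_9_5 e z y h + (-1/2) * h_14_0 e z y h + (1/2) * h_15_0 e z y h + (1/2) * h_18_2 e z y h + (1/2) * f_y5 e z y h + (-1) * f_E46 e z y h + (1) * f_E56 e z y h + (-1/2) * f_y7 e z y h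
theorem f_E11 : e 1 1 = 0 := by
  linear_combination (1/2) * h_4_1 e z y h + (-1/2) * h_5_1 e z y h + (-1/2) * h_9_4 e z y h + (1/2) * h_14_0 e z y h + (-1/2) * h_14_2 e z y h + (1/2) * h_15_2 e z y h + (1/2) * h_18_5 e z y h + (1) * f_E46 e z y h + (1/2) * f_y2 e z y h + (-1/2) * f_y7 e z y h
theorem f_E05 : e 0 5 = 0 := by
  linear_combination (-1/2) * h_0_0 e z y h + (1/2) * h_1_0 e z y h + (-1/2) * h_6_4 e z y h + (-1/2) * h_12_3 e z y h + (-1/2) * h_18_6 e z y h + (1/2) * h_18_7 e z y h + (-1) * f_E47 e z y h + (-1/2) * f_y6 e z y h + (1/2) * f_y1 e z y h + (1/2) * f_y3 e z y h + (1) * f_E34 e z y h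
theorem f_E15 : e 1 5 = 0 := by
  linear_combination (-1/2) * h_0_1 e z y h + (1/2) * h_1_1 e z y h + (1/2) * h_2_4 e z y h + (-1/2) * h_14_3 e z y h + (1/2) * h_14_7 e z y h + (1/2) * h_15_3 e z y h + (1/2) * h_18_5 e z y h + (-1) * f_E34 e z y h + (1/2) * f_y2 e z y h
theorem f_E07 : e 0 7 = 0 := by
  linear_combination (1/2) * h_0_0 e z y h + (-1/2) * h_1_0 e z y h + (-1/2) * h_3_4 e z y h + (-1/2) * h_5_7 e z y h + (1/2) * h_16_3 e z y h + (-1/2) * h_16_5 e z y h + (-1/2) * f_y2 e z y h + (1) * f_E05 e z y h + (1/2) * f_y3 e z y h + (-1/2) * f_y1 e z y h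
theorem f_E12 : e 1 2 = 0 := by
  linear_combination (-1/2) * h_1_1 e z y h + (-1/2) * h_10_7 e z y h + (1/2) * h_11_7 e z y h + (1/2) * h_12_3 e z y h + (1/2) * h_16_4 e z y h + (-1/2) * h_16_6 e z y h + (-1/2) * h_18_4 e z y h + (1/2) * h_18_6 e z y h + (-1) * f_E37 e z y h + (1) * f_E15 e z y h + (-1/2) * f_y3 e z y h + (-1) * f_E34 e z y h
theorem f_y0 : y 0 = 0 := by
  linear_combination (1) * h_0_1 e z y h + (1) * h_10_7 e z y h + (-1) * h_12_3 e z y h + (1) * h_13_4 e z y h + (1) * h_16_6 e z y h + (-1) * h_18_6 e z y h + (2) * f_E12 e z y h + (1) * f_y3 e z y h + (2) * f_E34 e z y h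
theorem f_E00 : e 0 0 = 0 := by
  linear_combination (-1/2) * h_4_0 e z y h + (1/2) * h_4_6 e z y h + (-1/2) * h_5_6 e z y h + (1/2) * h_6_5 e z y h + (-1/2) * h_7_5 e z y h + (-1/2) * h_8_3 e z y h + (-1/2) * h_17_2 e z y h + (1/2) * h_18_2 e z y h + (1) * f_E01 e z y h + (-1) * f_E16 e z y h + (-1/2) * f_y6 e z y h
theorem f_E02 : e 0 2 = 0 := by
  linear_combination (-1/2) * h_0_0 e z y h + (1/2) * h_2_6 e z y h + (-1/2) * h_3_3 e z y h + (-1/2) * h_6_5 e z y h + (1/2) * h_17_7 e z y h + (1/2) * f_y1 e z y h + (-1) * f_E36 e z y h + (-1) * f_E57 e z y h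
theorem f_E55 : e 5 5 = 0 := by
  linear_combination (-1/2) * h_0_5 e z y h + (-1/2) * h_1_1 e z y h + (1/2) * h_1_5 e z y h + (1/2) * h_2_4 e z y h + (-1/2) * h_3_4 e z y h + (1/2) * h_14_3 e z y h + (1/2) * h_18_7 e z y h + (-1) * f_E34 e z y h + (1/2) * f_y1 e z y h + (1) * f_E15 e z y h + (-1) * f_E12 e z y h
theorem f_E23 : e 2 3 = 0 := by
  linear_combination (1/2) * h_2_2 e z y h + (-1/2) * h_3_2 e z y h + (-1/2) * h_5_7 e z y h + (-1/2) * h_7_5 e z y h + (-1/2) * h_16_0 e z y h + (1/2) * h_16_3 e z y h + (1/2) * h_17_0 e z y h + (-1/2) * h_17_3 e z y h + (-1) * f_E07 e z y h + (-1/2) * f_y1 e z y h + (-1) * f_E57 e z y h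
theorem f_E67 : e 6 7 = 0 := by
  linear_combination (1/2) * h_2_1 e z y h + (-1/2) * h_2_6 e z y h + (-1/2) * h_3_1 e z y h + (-1/2) * h_8_7 e z y h + (1/2) * h_9_7 e z y h + (1/2) * h_13_5 e z y h + (-1/2) * h_16_0 e z y h + (1/2) * h_17_0 e z y h + (-1) * f_E13 e z y h + (-1/2) * f_y2 e z y h + (1) * f_E36 e z y h
theorem f_E14 : e 1 4 = 0 := by
  linear_combination (-1/2) * h_4_1 e z y h + (1/2) * h_4_4 e z y h + (-1/2) * h_5_4 e z y h + (-1/2) * h_10_5 e z y h + (1/2) * h_11_5 e z y h + (1/2) * h_15_3 e z y h + (-1/2) * h_17_2 e z y h + (1/2) * h_18_2 e z y h + (1) * f_E11 e z y h + (-1) * f_E01 e z y h + (-1) * f_E35 e z y h + (-1/2) * f_y0 e z y h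
theorem f_E25 : e 2 5 = e 0 4 := by
  linear_combination (1/2) * h_1_2 e z y h + (1/2) * h_4_4 e z y h + (-1/2) * h_5_7 e z y h + (1/2) * h_15_3 e z y h + (-1/2) * h_16_5 e z y h + (1/2) * h_18_5 e z y h + (-1) * f_E14 e z y h + (-1) * f_E07 e z y h + (1) * f_E22 e z y h + (-1/2) * f_y1 e z y h
theorem f_E33 : e 3 3 = e 0 4 := by
  linear_combination (-1/2) * h_0_0 e z y h + (1/2) * h_0_5 e z y h + (1/2) * h_2_3 e z y h + (-1/2) * h_2_4 e z y h + (-1/2) * h_3_3 e z y h + (1/2) * h_3_4 e z y h + (1) * f_E34 e z y h + (-1) * f_E02 e z y h + (1) * f_E25 e z y h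
theorem f_y4 : y 4 = 0 := by
  linear_combination (-1) * h_3_2 e z y h + (1) * h_4_0 e z y h + (-1) * h_5_0 e z y h + (-1) * h_6_5 e z y h + (-1) * h_16_0 e z y h + (1) * h_17_0 e z y h + (-2) * f_E01 e z y h + (-2) * f_E57 e z y h
end core

/-! ### The matrix form -/

/-- symmetric 3-tensors (shape of helper930). -/
def IsSym3 {n : ℕ} (Z : Fin n → Fin n → Fin n → ℝ) : Prop :=
  ∀ i j k, Z i j k = Z j i k ∧ Z i j k = Z i k j

/-- `zeta q Z i a = Z(u_i v_a)`. -/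
def zeta {n d : ℕ} (q : Fin d → Matrix (Fin n) (Fin n) ℝ) (Z : Fin n → Fin n → Fin n → ℝ) :
    Matrix (Fin n) (Fin d) ℝ := Matrix.of fun i a => ∑ j, ∑ k, q a j k * Z i j k

/-- `transl q y i a = (q_a y)_i`. -/
def transl {n d : ℕ} (q : Fin d → Matrix (Fin n) (Fin n) ℝ) (y : Fin n → ℝ) :
    Matrix (Fin n) (Fin d) ℝ := Matrix.of fun i a => ∑ j, q a i j * y j

theorem q_symm (a : Fin 19) : (q a).IsSymm := by
  unfold q sy Matrix.IsSymm
  simp only [Matrix.transpose_sub, Matrix.transpose_add, Matrix.transpose_single]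
  abel

theorem sum_single2 (p r : Fin 8) (f : Fin 8 → Fin 8 → ℝ) :
    ∑ j, ∑ k, (Matrix.single p r (1 : ℝ)) j k * f j k = f p r := by
  simp [Matrix.single_apply, ite_and]

theorem sum_single1 (p r i : Fin 8) (f : Fin 8 → ℝ) :
    ∑ j, (Matrix.single p r (1 : ℝ)) i j * f j = if i = p then f r else 0 := by
  by_cases h : i = p
  · subst h; simp [Matrix.single_apply]
  · simp [Matrix.single_apply, h, Ne.symm h]

theorem zeta_q {Z : Fin 8 → Fin 8 → Fin 8 → ℝ} (hZ : IsSym3 Z) (i : Fin 8) (a : Fin 19) :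
    zeta q Z i a = 2 * (Z i (pr a).1.1 (pr a).1.2 - Z i (pr a).2.1 (pr a).2.2) := by
  simp only [zeta, Matrix.of_apply, q, sy, Matrix.sub_apply, Matrix.add_apply, sub_mul, add_mul,
    Finset.sum_sub_distrib, Finset.sum_add_distrib, sum_single2]
  rw [(hZ i (pr a).1.2 (pr a).1.1).2, (hZ i (pr a).2.2 (pr a).2.1).2]
  ring

theorem transl_q (y : Fin 8 → ℝ) (i : Fin 8) (a : Fin 19) :
    transl q y i a =
      ((if i = (pr a).1.1 then y (pr a).1.2 else 0) + (if i = (pr a).1.2 then y (pr a).1.1 else 0)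
      - ((if i = (pr a).2.1 then y (pr a).2.2 else 0)
        + (if i = (pr a).2.2 then y (pr a).2.1 else 0))) := by
  simp only [transl, Matrix.of_apply, q, sy, Matrix.sub_apply, Matrix.add_apply, sub_mul, add_mul,
    Finset.sum_sub_distrib, Finset.sum_add_distrib, sum_single1]

theorem sE_eq {D : Matrix (Fin 8) (Fin 8) ℝ} (hD : D.IsSymm) (i j : Fin 8) :
    sE D i j = D i j := by
  unfold sE
  split_ifs
  · rfl
  · exact hD.apply i j

theorem sZ_eq {Z : Fin 8 → Fin 8 → Fin 8 → ℝ} (hZ : IsSym3 Z) (i j k : Fin 8) :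
    sZ Z i j k = Z i j k := by
  have h1 : ∀ i j k, Z i j k = Z j i k := fun i j k => (hZ i j k).1
  have h2 : ∀ i j k, Z i j k = Z i k j := fun i j k => (hZ i j k).2
  unfold sZ
  split_ifs
  · rfl
  · exact (h2 i j k).symm
  · rw [h1 k i j, h2 i k j]
  · exact (h1 i j k).symm
  · rw [h2 j k i, h1 j i k]
  · rw [h1 k j i, h2 j k i, h1 j i k]

theorem sum_Z0 (f : Fin 8 → ℝ) (k l : Fin 8) :
    ∑ j, f j * Z0 j k l = match thd k l with
      | none => 0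
      | some j => f j := by
  unfold Z0
  cases h : thd k l with
  | none => simp
  | some j => simp

theorem P0_mul {d : ℕ} (X : Matrix (Fin 8) (Fin d) ℝ) (i : Fin 8) (a : Fin d) :
    (P0 * X) i a = X (sg i) a := by
  simp [Matrix.mul_apply, P0]

theorem P0_symm : P0.IsSymm := by
  have h : ∀ i j : Fin 8, (i = sg j) ↔ (j = sg i) := by decide
  ext i j
  simp only [Matrix.transpose_apply, P0, Matrix.of_apply, h i j]

theorem P0_sq : P0 * P0 = 1 := by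
  have h : ∀ i j : Fin 8, (j = sg (sg i)) ↔ (i = j) := by decide
  ext i j
  rw [P0_mul]
  simp only [P0, Matrix.of_apply, h i j, Matrix.one_apply]

theorem eqn_of {D : Matrix (Fin 8) (Fin 8) ℝ} (hD : D.IsSymm) {Z : Fin 8 → Fin 8 → Fin 8 → ℝ}
    (hZ : IsSym3 Z) (y : Fin 8 → ℝ)
    (h : D * zeta q Z0 + P0 * zeta q Z + transl q y = 0) (a : Fin 19) (i : Fin 8) :
    eqn D Z y a i := by
  have h1 := congrFun (congrFun h i) a
  rw [Matrix.add_apply, Matrix.add_apply, P0_mul, zeta_q hZ, transl_q, Matrix.mul_apply] at h1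
  simp only [zeta_q (show IsSym3 Z0 from Z0_symm)] at h1
  have h2 : ∑ x, D i x * (2 * (Z0 x (pr a).1.1 (pr a).1.2 - Z0 x (pr a).2.1 (pr a).2.2))
      = 2 * ((∑ x, D i x * Z0 x (pr a).1.1 (pr a).1.2)
          - ∑ x, D i x * Z0 x (pr a).2.1 (pr a).2.2) := by
    rw [← Finset.sum_sub_distrib, Finset.mul_sum]
    exact Finset.sum_congr rfl fun x _ => by ring
  rw [h2, sum_Z0, sum_Z0] at h1
  unfold eqn
  have h3 : ∀ o : Option (Fin 8), tE D i o = match o with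
      | none => 0
      | some j => D i j := by
    intro o
    cases o with
    | none => rfl
    | some j => exact sE_eq hD i j
  rw [h3, h3, sZ_eq hZ, sZ_eq hZ]
  exact h1

/-- **LKC**. -/
theorem lkc (D : Matrix (Fin 8) (Fin 8) ℝ) (hD : D.IsSymm) (Z' : Fin 8 → Fin 8 → Fin 8 → ℝ)
    (hZ : IsSym3 Z') (y : Fin 8 → ℝ)
    (h : D * zeta q Z0 + P0 * zeta q Z' + transl q y = 0) :
    ∃ s : ℝ, D = s • P0 ∧ zeta q Z' = -(s • zeta q Z0) := by
  have H := eqn_of hD hZ y h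
  have hy : y = 0 := by
    funext i
    fin_cases i
    · exact f_y0 D Z' y H
    · exact f_y1 D Z' y H
    · exact f_y2 D Z' y H
    · exact f_y3 D Z' y H
    · exact f_y4 D Z' y H
    · exact f_y5 D Z' y H
    · exact f_y6 D Z' y H
    · exact f_y7 D Z' y H
  have hle : ∀ i j : Fin 8, i ≤ j → D i j = D 0 4 * P0 i j := by
    intro i j hij
    have hs : ∀ i j : Fin 8, P0 i j = if j = sg i then 1 else 0 := fun _ _ => rfl
    rw [hs]
    revert hij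
    fin_cases i <;> fin_cases j <;> intro hij
    · rw [if_neg (by decide), mul_zero]; exact f_E00 D Z' y H
    · rw [if_neg (by decide), mul_zero]; exact f_E01 D Z' y H
    · rw [if_neg (by decide), mul_zero]; exact f_E02 D Z' y H
    · rw [if_neg (by decide), mul_zero]; exact f_E03 D Z' y H
    · rw [if_pos (by decide), mul_one]; rfl
    · rw [if_neg (by decide), mul_zero]; exact f_E05 D Z' y H
    · rw [if_neg (by decide), mul_zero]; exact f_E06 D Z' y H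
    · rw [if_neg (by decide), mul_zero]; exact f_E07 D Z' y H
    · exact absurd hij (by decide)
    · rw [if_neg (by decide), mul_zero]; exact f_E11 D Z' y H
    · rw [if_neg (by decide), mul_zero]; exact f_E12 D Z' y H
    · rw [if_neg (by decide), mul_zero]; exact f_E13 D Z' y H
    · rw [if_neg (by decide), mul_zero]; exact f_E14 D Z' y H
    · rw [if_neg (by decide), mul_zero]; exact f_E15 D Z' y H
    · rw [if_neg (by decide), mul_zero]; exact f_E16 D Z' y H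
    · rw [if_pos (by decide), mul_one]; exact f_E17 D Z' y H
    · exact absurd hij (by decide)
    · exact absurd hij (by decide)
    · rw [if_neg (by decide), mul_zero]; exact f_E22 D Z' y H
    · rw [if_neg (by decide), mul_zero]; exact f_E23 D Z' y H
    · rw [if_neg (by decide), mul_zero]; exact f_E24 D Z' y H
    · rw [if_pos (by decide), mul_one]; exact f_E25 D Z' y H
    · rw [if_neg (by decide), mul_zero]; exact f_E26 D Z' y H
    · rw [if_neg (by decide), mul_zero]; exact f_E27 D Z' y H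
    · exact absurd hij (by decide)
    · exact absurd hij (by decide)
    · exact absurd hij (by decide)
    · rw [if_pos (by decide), mul_one]; exact f_E33 D Z' y H
    · rw [if_neg (by decide), mul_zero]; exact f_E34 D Z' y H
    · rw [if_neg (by decide), mul_zero]; exact f_E35 D Z' y H
    · rw [if_neg (by decide), mul_zero]; exact f_E36 D Z' y H
    · rw [if_neg (by decide), mul_zero]; exact f_E37 D Z' y H
    · exact absurd hij (by decide)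
    · exact absurd hij (by decide)
    · exact absurd hij (by decide)
    · exact absurd hij (by decide)
    · rw [if_neg (by decide), mul_zero]; exact f_E44 D Z' y H
    · rw [if_neg (by decide), mul_zero]; exact f_E45 D Z' y H
    · rw [if_neg (by decide), mul_zero]; exact f_E46 D Z' y H
    · rw [if_neg (by decide), mul_zero]; exact f_E47 D Z' y H
    · exact absurd hij (by decide)
    · exact absurd hij (by decide)
    · exact absurd hij (by decide)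
    · exact absurd hij (by decide)
    · exact absurd hij (by decide)
    · rw [if_neg (by decide), mul_zero]; exact f_E55 D Z' y H
    · rw [if_neg (by decide), mul_zero]; exact f_E56 D Z' y H
    · rw [if_neg (by decide), mul_zero]; exact f_E57 D Z' y H
    · exact absurd hij (by decide)
    · exact absurd hij (by decide)
    · exact absurd hij (by decide)
    · exact absurd hij (by decide)
    · exact absurd hij (by decide)
    · exact absurd hij (by decide)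
    · rw [if_pos (by decide), mul_one]; exact f_E66 D Z' y H
    · rw [if_neg (by decide), mul_zero]; exact f_E67 D Z' y H
    · exact absurd hij (by decide)
    · exact absurd hij (by decide)
    · exact absurd hij (by decide)
    · exact absurd hij (by decide)
    · exact absurd hij (by decide)
    · exact absurd hij (by decide)
    · exact absurd hij (by decide)
    · rw [if_neg (by decide), mul_zero]; exact f_E77 D Z' y H
  have hP : D = D 0 4 • P0 := by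
    ext i j
    rw [Matrix.smul_apply, smul_eq_mul]
    rcases le_total i j with hij | hij
    · exact hle i j hij
    · rw [← hD.apply i j, hle j i hij, P0_symm.apply i j]
  refine ⟨D 0 4, hP, ?_⟩
  have h0 : transl q y = 0 := by
    rw [hy]; ext i a; simp [transl]
  rw [h0, add_zero] at h
  have h5 : P0 * (D 0 4 • zeta q Z0 + zeta q Z') = 0 := by
    rw [Matrix.mul_add, Matrix.mul_smul, ← Matrix.smul_mul, ← hP]
    exact h
  have h6 : D 0 4 • zeta q Z0 + zeta q Z' = 0 := by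
    have := congrArg (fun X => P0 * X) h5
    simpa only [← Matrix.mul_assoc, P0_sq, Matrix.one_mul, Matrix.mul_zero] using this
  exact eq_neg_of_add_eq_zero_right h6

/-- **LKC** for any common scale of the forms. -/
theorem lkc_scale {c : ℝ} (hc : c ≠ 0) (D : Matrix (Fin 8) (Fin 8) ℝ) (hD : D.IsSymm)
    (Z' : Fin 8 → Fin 8 → Fin 8 → ℝ) (hZ : IsSym3 Z') (y : Fin 8 → ℝ)
    (h : D * zeta (fun a => c • q a) Z0 + P0 * zeta (fun a => c • q a) Z'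
      + transl (fun a => c • q a) y = 0) :
    ∃ s : ℝ, D = s • P0 ∧
      zeta (fun a => c • q a) Z' = -(s • zeta (fun a => c • q a) Z0) := by
  have hz : ∀ Z : Fin 8 → Fin 8 → Fin 8 → ℝ, zeta (fun a => c • q a) Z = c • zeta q Z := by
    intro Z
    ext i a
    simp only [zeta, Matrix.of_apply, Matrix.smul_apply, smul_eq_mul, Finset.mul_sum, mul_assoc]
  have ht : transl (fun a => c • q a) y = c • transl q y := by
    ext i a
    simp only [transl, Matrix.of_apply, Matrix.smul_apply, smul_eq_mul, Finset.mul_sum, mul_assoc]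
  rw [hz, hz, ht, Matrix.mul_smul, Matrix.mul_smul, ← smul_add, ← smul_add] at h
  have h' := (smul_eq_zero.1 h).resolve_left hc
  obtain ⟨s, h1, h2⟩ := lkc D hD Z' hZ y h'
  refine ⟨s, h1, ?_⟩
  rw [hz, hz, h2, smul_neg, smul_comm]

end Crest.Agent.R237.LKC
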