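import Crest.Agent.R237.F1
import Crest.Agent.R237.LKC

/-! Row 237: the matrices of `LKC` and of `V0` agree (helper868). -/

set_option autoImplicit false

namespace Crest.Agent.R237.F1

theorem pr_eq_tb : LKC.pr = tb := rfl

theorem q_eq (a : Fin 19) : LKC.q a = V0.q a := by
  ext i j
  have h := congrArg (Int.cast : ℤ → ℝ) (qi_tb a i j)
  push_cast at h
  have h1 : V0.q a i j = (V0.qi a i j : ℝ) := rfl
  rw [h1, h]
  have hp : LKC.pr a = tb a := congrFun pr_eq_tb a
  simp only [LKC.q, LKC.sy, hp, Matrix.sub_apply, Matrix.add_apply, Matrix.single_apply]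
  simp only [eq_comm (a := i), eq_comm (a := j)]

theorem q_eq' : LKC.q = V0.q := funext q_eq

end Crest.Agent.R237.F1
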