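import Mathlib

/-!
Row 237 (S0367), certificate FREE.  The 19 binomial quadrics of the Moebius-Kantor space
`V₀ ⊆ ℝ[u_0..u_7]_2` have linearly independent products (`Sym² V₀ → S⁴` is injective), in the
dual form: every symmetric `19 × 19` matrix `W` is `W a b = T (q_a q_b)` for a linear functional
`T` on quartics.  Exact integer certificate, checked by the kernel.
-/

set_option autoImplicit false

namespace Crest.Agent.R237.Free

open MvPolynomial

/-- insertion of `(p, c)` in a sorted sparse vector -/
def ins (p : ℕ) (c : ℤ) : List (ℕ × ℤ) → List (ℕ × ℤ)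
  | [] => [(p, c)]
  | (p', c') :: l =>
    bif Nat.blt p p' then (p, c) :: (p', c') :: l
    else bif Nat.beq p p' then
      (bif decide (c + c' = 0) then l else (p, c + c') :: l)
    else (p', c') :: ins p c l

/-- evaluation of a sparse vector -/
noncomputable def ev (W : ℕ → ℝ) (l : List (ℕ × ℤ)) : ℝ :=
  (l.map fun t => (t.2 : ℝ) * W t.1).sum

lemma ev_nil (W : ℕ → ℝ) : ev W [] = 0 := rfl

lemma ev_cons (W : ℕ → ℝ) (t : ℕ × ℤ) (l : List (ℕ × ℤ)) :
    ev W (t :: l) = (t.2 : ℝ) * W t.1 + ev W l := by
  simp [ev]

lemma ev_ins (W : ℕ → ℝ) (p : ℕ) (c : ℤ) (l : List (ℕ × ℤ)) :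
    ev W (ins p c l) = (c : ℝ) * W p + ev W l := by
  induction l with
  | nil => simp [ins, ev_cons, ev_nil]
  | cons t l ih =>
    obtain ⟨p', c'⟩ := t
    rw [ins]
    cases h1 : Nat.blt p p'
    · cases h2 : Nat.beq p p'
      · simp only [cond_false, ev_cons, ih]; ring
      · have hp : p = p' := Nat.eq_of_beq_eq_true h2
        subst hp
        by_cases h3 : c + c' = 0
        · have : (c : ℝ) + c' = 0 := by exact_mod_cast h3
          simp only [cond_false, cond_true, h3, decide_true, ev_cons]
          linear_combination (-W p) * this
        · simp only [cond_false, cond_true, h3, decide_false, ev_cons, Int.cast_add]; ring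
    · simp only [cond_true, ev_cons]

/-- add `k • l` to the accumulator -/
def addS (k : ℤ) (l acc : List (ℕ × ℤ)) : List (ℕ × ℤ) :=
  l.foldr (fun t r => ins t.1 (k * t.2) r) acc

lemma ev_addS (W : ℕ → ℝ) (k : ℤ) (l acc : List (ℕ × ℤ)) :
    ev W (addS k l acc) = (k : ℝ) * ev W l + ev W acc := by
  induction l with
  | nil => simp [addS, ev_nil]
  | cons t l ih =>
    have : addS k (t :: l) acc = ins t.1 (k * t.2) (addS k l acc) := rfl
    rw [this, ev_ins, ih, ev_cons]; push_cast; ring

/-- decoding of a sparse vector: base `4096` digits `8 p + (c + 4)` -/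
def dec : ℕ → ℕ → List (ℕ × ℤ)
  | 0, _ => []
  | f + 1, n => bif Nat.beq n 0 then [] else
      (n % 4096 / 8, Int.subNatNat (n % 8) 4) :: dec f (n / 4096)

/-- lookup in an association list -/
def look (k : ℕ) : List (ℕ × ℕ) → List (ℕ × ℤ)
  | [] => []
  | (k', v) :: l => bif Nat.beq k k' then dec 20 v else look k l

set_option maxHeartbeats 0 in
set_option maxRecDepth 100000 in
/-- the table: quartic monomial `u_a u_b u_c u_d` (key `5^a+5^b+5^c+5^d`) to a sparse combination
of the entries `W i j` (index `19 i + j`), encoded. -/
def tab : List (ℕ × ℕ) :=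
  [(12, 5),
   (32, 12899759024420347126632571),
   (36, 19906347535109749435514761237),
   (56, 2347427),
   (60, 325),
   (132, 13),
   (152, 12899759024420347126632723),
   (160, 4859948128688903670779971),
   (176, 2961629),
   (180, 2011477),
   (252, 165),
   (276, 94852883294355154003611516850211),
   (280, 5653672414681622623997987),
   (300, 645),
   (632, 4186211597877231298982724417992930485584151136101485293637),
   (636, 19906347535109749985270575133),
   (652, 2780030169930580676995),
   (660, 333),
   (676, 573),
   (752, 60917396300315612786576163375263958039963938885),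
   (760, 4859948128688903804997699),
   (776, 1184204367783927263301),
   (800, 491),
   (876, 839731),
   (880, 51),
   (900, 14055718457412774391081138056656244361703493),
   (1252, 726502655324893253),
   (1256, 216422043500649438542347790233669),
   (1260, 485),
   (1276, 9077589467484858736183377316357591986909253),
   (1376, 837786105717821101488357346279469125),
   (1380, 4186211597877231222344704792162882229328873786480768888901),
   (1400, 249517655246092749973815965185164217946560662908997),
   (1500, 965),
   (3132, 837786099409711549907886398821937221),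
   (3136, 23118766031344808352513839235),
   (3152, 505362303605650267),
   (3156, 336422323472617859),
   (3160, 37226418835591679229461516002470051084782325827),
   (3176, 3584221),
   (3180, 2044253),
   (3252, 837786099409711568359143420289396805),
   (3260, 249700253758670012264364935343168634348677263315011),
   (3300, 653),
   (3376, 5653672414681622624612397),
   (3380, 1380291116865630523437),
   (3752, 30556139739),
   (3756, 549),
   (3760, 886464680932106335285164480435990749),
   (3800, 499),
   (4000, 3431571889016790622691108709047654985797),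
   (4376, 235633184073375210610455986559282598521810605887555),
   (4380, 2150771),
   (4400, 371),
   (4500, 114712591643605),
   (6252, 1765),
   (6256, 125168421286107),
   (6260, 12181940557806971788775491),
   (6276, 3494587),
   (6280, 19907963177140871865164943427),
   (6300, 805),
   (6376, 699),
   (6380, 4860169580253143841951811),
   (6876, 5977373),
   (6880, 1022023470064428458156018992727925898149533592402055235),
   (6900, 249517625420183732664553744076999603235602020225091),
   (7000, 14872409428369029322425516859805842966630467),
   (7500, 1285),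
   (15632, 204537621926199108864229910032453),
   (15636, 331876800131420259),
   (15652, 114720410022747),
   (15656, 82134356316547),
   (15660, 3149355197712859517331),
   (15676, 179812401803919922977367343509573),
   (15680, 3633617178084671915551351391315304960067),
   (15752, 204537621926199110553769246765125),
   (15760, 19781398781),
   (15780, 14883294925610423819086845835631777605275715),
   (15800, 4850731764253619644575813),
   (15876, 872507),
   (15880, 59),
   (15900, 14055718457412774545861421899191735885803589),
   (16260, 3149355197713128534565),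
   (16300, 887113559544421976408947939083178203),
   (16500, 973),
   (16880, 249517655246092749973815965185337158987001457061957),
   (16900, 60917396300315612786576163375284224238287106117),
   (18760, 8632229),
   (18780, 12181949780897533666840643),
   (18800, 899),
   (18880, 49897266669275971721590263875),
   (19000, 3431571889016790660470040572004816695365),
   (19380, 204379205836102039192438852341827),
   (19400, 837137227104673952620050146658668611),
   (20000, 28006003819),
   (21876, 1613),
   (21880, 1651),
   (21900, 3461811),
   (22000, 691),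
   (22500, 5944597),
   (31256, 29848907845),
   (31260, 2085),
   (31276, 125031150112989),
   (31280, 2115),
   (31300, 3142437039621624090691),
   (31376, 4731885),
   (31380, 330240182039400515),
   (31400, 14044832082749435879419234875261984453218371),
   (31500, 1125),
   (31876, 1005),
   (31880, 70034357801027),
   (31900, 3428914082224344606398189963610847236163),
   (34380, 122279281438789),
   (34400, 512127598886244573),
   (34500, 79390276768739),
   (35000, 4117475),
   (37500, 1605),
   (78132, 52837412964025741830687010933),
   (78136, 19781374051),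
   (78160, 768885546316616083),
   (78180, 39798192132515),
   (78252, 52837412964025741830687633677),
   (78260, 4829437),
   (78280, 3151660510768039473699),
   (78300, 12300660957),
   (78376, 23157442210534231237443801227),
   (78380, 17159270779142220869214162063599083820395737798385305081139267),
   (78400, 19869362569650233637136019525),
   (78752, 165720593944643),
   (78760, 768885546316640805),
   (78800, 2372157),
   (78876, 153982552695418949),
   (78880, 9177444421),
   (78900, 887113559544421976392878571139674181),
   (79000, 3431571889020466862587736586569006755909),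
   (79376, 52876089147918643885044511267),
   (79380, 2183547),
   (79400, 379),
   (79500, 114712591676381),
   (81252, 8478710883217561912718171),
   (81256, 2248771),
   (81260, 1957),
   (81300, 14851420381),
   (81376, 219),
   (81500, 909),
   (82500, 1293),
   (84376, 1459),
   (84380, 216422043501025513921175602188837),
   (84400, 14872409428369029323133883361451335817154627),
   (84500, 3630959333097907549420256995532454809667),
   (93752, 469894807104893787),
   (93800, 2789596474725160333381),
   (93876, 1181),
   (93900, 45862695459),
   (94000, 1211),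
   (94400, 187853603222051),
   (95000, 28006003827),
   (96900, 27972457309),
   (97000, 6829213),
   (100000, 1451),
   (109376, 29714690117),
   (109380, 1933),
   (109400, 1963),
   (109500, 327987832469901379),
   (110000, 69484601987139),
   (112500, 121729391407173),
   (156252, 2245),
   (156256, 588646448063689093),
   (156276, 2253),
   (156280, 590898247877374341),
   (156300, 2405),
   (156376, 180287809474074164356604755464259),
   (156380, 2125),
   (156400, 11463965790500381208916357),
   (156500, 13627000841340385218572357),
   (156876, 6083891),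
   (156880, 3431571911209498263225003404975644389445),
   (156900, 6116667),
   (157000, 1022771576393486742454905325370874786061379349202120773),
   (157500, 1445),
   (159376, 1331),
   (159380, 837786108233095161259216476450369605),
   (159400, 1339),
   (159500, 965901628070595894360828374673993790545279287868829765),
   (171876, 2411305291334474117509),
   (171900, 2420530915171142578565),
   (172000, 8705971),
   (172500, 57572223173941314593768634509245512935444623429),
   (175000, 3431571899325080457954214425276098850885),
   (187500, 1925)]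

/-- the quadrics: `q_a = u_i u_j - u_k u_l` as a list of `(i, j, coefficient)` -/
def ql : Fin 19 → List (Fin 8 × Fin 8 × ℤ) :=
  ![[(0, 1, 1), (1, 3, -1)],
    [(0, 3, 1), (1, 3, -1)],
    [(1, 2, 1), (2, 4, -1)],
    [(1, 4, 1), (2, 4, -1)],
    [(2, 3, 1), (3, 5, -1)],
    [(2, 5, 1), (3, 5, -1)],
    [(3, 4, 1), (4, 6, -1)],
    [(3, 6, 1), (4, 6, -1)],
    [(4, 5, 1), (5, 7, -1)],
    [(4, 7, 1), (5, 7, -1)],
    [(5, 6, 1), (6, 0, -1)],
    [(5, 0, 1), (6, 0, -1)],
    [(6, 7, 1), (7, 1, -1)],
    [(6, 1, 1), (7, 1, -1)],
    [(7, 0, 1), (0, 2, -1)],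
    [(7, 2, 1), (0, 2, -1)],
    [(0, 4, 1), (1, 5, -1)],
    [(0, 4, 1), (2, 6, -1)],
    [(0, 4, 1), (3, 7, -1)]]

/-- the products as combinations of table entries -/
def comb (a b : Fin 19) : List (ℕ × ℤ) :=
  (ql a).foldr (fun t r => (ql b).foldr (fun t' r' =>
    addS (t.2.2 * t'.2.2) (look (5 ^ t.1.val + 5 ^ t.2.1.val + 5 ^ t'.1.val + 5 ^ t'.2.1.val) tab) r')
    r) []

/-- the check -/
def chk : Bool :=
  (List.finRange 19).all fun a => (List.finRange 19).all fun b =>
    bif Nat.ble a.val b.val then
      match comb a b with
      | [(p, c)] => Nat.beq p (19 * a.val + b.val) && decide (c = 1)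
      | _ => false
    else true

lemma chk_true : chk = true := by
  decide +kernel

lemma comb_eq (a b : Fin 19) (hab : a ≤ b) : comb a b = [(19 * a.val + b.val, 1)] := by
  have h := chk_true
  rw [chk, List.all_eq_true] at h
  have h1 := h a (List.mem_finRange a)
  rw [List.all_eq_true] at h1
  have h2 := h1 b (List.mem_finRange b)
  have h3 : Nat.ble a.val b.val = true := Nat.ble_eq_true_of_le hab
  rw [h3, cond_true] at h2
  revert h2
  rcases comb a b with _ | ⟨⟨p, c⟩, _ | ⟨t, l⟩⟩
  · intro h; simp at h
  · intro h
    simp only [Bool.and_eq_true, decide_eq_true_eq] at h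
    rw [Nat.eq_of_beq_eq_true h.1, h.2]
  · intro h; simp at h

/-- the quadric `q_a` as a polynomial -/
noncomputable def qp (a : Fin 19) : MvPolynomial (Fin 8) ℝ :=
  ((ql a).map fun t => C (t.2.2 : ℝ) * X t.1 * X t.2.1).sum

/-- key of an exponent vector -/
noncomputable def key (s : Fin 8 →₀ ℕ) : ℕ := ∑ i, s i * 5 ^ i.val

/-- the functional on polynomials with `T (X^s) = ev W (look (key s) tab)` -/
noncomputable def TT (W : ℕ → ℝ) : MvPolynomial (Fin 8) ℝ →ₗ[ℝ] ℝ :=
  (basisMonomials (Fin 8) ℝ).constr ℝ fun s => ev W (look (key s) tab)

lemma TT_mon (W : ℕ → ℝ) (i j k l : Fin 8) :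
    TT W (X i * X j * (X k * X l)) =
      ev W (look (5 ^ i.val + 5 ^ j.val + 5 ^ k.val + 5 ^ l.val) tab) := by
  have h : (X i * X j * (X k * X l) : MvPolynomial (Fin 8) ℝ) =
      basisMonomials (Fin 8) ℝ (Finsupp.single i 1 + Finsupp.single j 1 +
        (Finsupp.single k 1 + Finsupp.single l 1)) := by
    simp [X, monomial_mul]
  rw [TT, h, Module.Basis.constr_basis]
  congr 2
  simp only [key, Finsupp.add_apply, add_mul, Finset.sum_add_distrib, Finsupp.single_apply]
  simp only [ite_mul, one_mul, zero_mul, Finset.sum_ite_eq, Finset.mem_univ, if_true]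
  ring

lemma TT_inner (W : ℕ → ℝ) (t : Fin 8 × Fin 8 × ℤ) (l : List (Fin 8 × Fin 8 × ℤ))
    (r : List (ℕ × ℤ)) :
    ev W (l.foldr (fun t' r' =>
      addS (t.2.2 * t'.2.2) (look (5 ^ t.1.val + 5 ^ t.2.1.val + 5 ^ t'.1.val + 5 ^ t'.2.1.val) tab)
        r') r) =
      TT W (C (t.2.2 : ℝ) * X t.1 * X t.2.1 *
        (l.map fun t => C (t.2.2 : ℝ) * X t.1 * X t.2.1).sum) + ev W r := by
  induction l with
  | nil => simp
  | cons t' l ih =>
    rw [List.foldr_cons, ev_addS, ih, List.map_cons, List.sum_cons, mul_add, map_add]
    have h : (C (t.2.2 : ℝ) * X t.1 * X t.2.1 * (C (t'.2.2 : ℝ) * X t'.1 * X t'.2.1) :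
        MvPolynomial (Fin 8) ℝ) =
        ((t.2.2 : ℝ) * (t'.2.2 : ℝ)) • (X t.1 * X t.2.1 * (X t'.1 * X t'.2.1)) := by
      rw [smul_eq_C_mul, C_mul]; ring
    rw [h, map_smul, TT_mon, smul_eq_mul]; push_cast; ring

lemma TT_outer (W : ℕ → ℝ) (l' l : List (Fin 8 × Fin 8 × ℤ)) :
    ev W (l.foldr (fun t r => l'.foldr (fun t' r' =>
      addS (t.2.2 * t'.2.2) (look (5 ^ t.1.val + 5 ^ t.2.1.val + 5 ^ t'.1.val + 5 ^ t'.2.1.val) tab)
        r') r) []) =
      TT W ((l.map fun t => C (t.2.2 : ℝ) * X t.1 * X t.2.1).sum *
        (l'.map fun t => C (t.2.2 : ℝ) * X t.1 * X t.2.1).sum) := by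
  induction l with
  | nil => simp [ev_nil]
  | cons t l ih =>
    rw [List.foldr_cons, TT_inner, ih, List.map_cons, List.sum_cons, add_mul, map_add]

lemma TT_qp (W : ℕ → ℝ) (a b : Fin 19) (hab : a ≤ b) :
    TT W (qp a * qp b) = W (19 * a.val + b.val) := by
  have h := TT_outer W (ql b) (ql a)
  have h2 := comb_eq a b hab
  rw [comb] at h2
  rw [qp, qp, ← h, h2, ev_cons, ev_nil]
  simp

/-- FREE, dual form. -/
theorem free (W : Fin 19 → Fin 19 → ℝ) (hW : ∀ a b, W a b = W b a) :
    ∃ T : MvPolynomial (Fin 8) ℝ →ₗ[ℝ] ℝ, ∀ a b, T (qp a * qp b) = W a b := by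
  refine ⟨TT (fun n => W (Fin.ofNat 19 (n / 19)) (Fin.ofNat 19 (n % 19))), fun a b => ?_⟩
  have key : ∀ a b : Fin 19, a ≤ b →
      TT (fun n => W (Fin.ofNat 19 (n / 19)) (Fin.ofNat 19 (n % 19))) (qp a * qp b) = W a b := by
    intro a b hab
    rw [TT_qp _ a b hab]
    have h1 : (19 * a.val + b.val) / 19 = a.val := by omega
    have h2 : (19 * a.val + b.val) % 19 = b.val := by omega
    simp only [h1, h2]
    congr 1 <;> (apply Fin.ext; simp [Fin.ofNat])
  rcases le_total a b with h | h
  · exact key a b h
  · rw [mul_comm, key b a h, hW]

end Crest.Agent.R237.Free
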