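import Mathlib

/-!
Row 237: the frozen space `V_0` (Moebius--Kantor, `c = 8`, `d = 19`) (helper432).
-/

set_option autoImplicit false

namespace Crest.Agent.R237.V0

/-- the (unsymmetrised) monomial `u_a u_b` as symmetric integer matrix with entries `1`. -/
def mono (a b i j : Fin 8) : ℤ := (if i = a ∧ j = b ∨ i = b ∧ j = a then 1 else 0)

/-- The 19 quadratic forms (symmetric integer matrices, zero diagonal). -/
def qi (k : Fin 19) (i j : Fin 8) : ℤ :=
  if k.val < 16 then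
    let s : Fin 8 := ⟨(k.val / 2) % 8, Nat.mod_lt _ (by norm_num)⟩
    if k.val % 2 = 0 then mono s (s + 1) i j - mono (s + 1) (s + 3) i j
    else mono s (s + 3) i j - mono (s + 1) (s + 3) i j
  else if k.val = 16 then mono 0 4 i j - mono 1 5 i j
  else if k.val = 17 then mono 0 4 i j - mono 2 6 i j
  else mono 0 4 i j - mono 3 7 i j

/-- The 17 points at infinity. -/
def pti (k : Fin 17) (i : Fin 8) : ℤ :=
  if k.val < 8 then (if i.val = k.val then 1 else 0)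
  else if k.val < 16 then
    let s : Fin 8 := ⟨(k.val - 8) % 8, Nat.mod_lt _ (by norm_num)⟩
    (if i = s ∨ i = s + 1 ∨ i = s + 3 then 1 else 0)
  else 1

/-- The 19 quadratic forms as real symmetric matrices; `v_a(u) = uᵀ (q a) u`. -/
def q (k : Fin 19) : Matrix (Fin 8) (Fin 8) ℝ := Matrix.of fun i j => (qi k i j : ℝ)

/-- The 17 points at infinity. -/
def pt (k : Fin 17) (i : Fin 8) : ℝ := (pti k i : ℝ)

theorem qi_symm : ∀ k i j, qi k i j = qi k j i := by decide +kernel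

theorem q_symm (k : Fin 19) : (q k).IsSymm := by
  ext i j
  simp only [q, Matrix.transpose_apply, Matrix.of_apply]
  rw [qi_symm]

theorem qi_pti : ∀ (a : Fin 19) (k : Fin 17), ∑ i, ∑ j, qi a i j * (pti k i * pti k j) = 0 := by
  decide +kernel

theorem q_pt (a : Fin 19) (k : Fin 17) : ∑ i, ∑ j, q a i j * (pt k i * pt k j) = 0 := by
  have h := congrArg (Int.cast : ℤ → ℝ) (qi_pti a k)
  push_cast at h
  simpa [q, pt] using h


/-- coefficients of a quadratic form of `V_0` in the basis `q`. -/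
def coe (Q : Matrix (Fin 8) (Fin 8) ℝ) : Fin 19 → ℝ :=
  ![Q 0 1, Q 0 3, Q 1 2, Q 1 4, Q 2 3, Q 2 5, Q 3 4, Q 3 6, Q 4 5, Q 4 7, Q 5 6, Q 5 0,
    Q 6 7, Q 6 1, Q 7 0, Q 7 2, -Q 1 5, -Q 2 6, -Q 3 7]

set_option maxHeartbeats 4000000 in
/-- F1: every quadratic form vanishing at the 17 points is in the span of the `q a`. -/
theorem span_q (Q : Matrix (Fin 8) (Fin 8) ℝ) (hQ : Q.IsSymm)
    (h : ∀ k : Fin 17, ∑ i, ∑ j, Q i j * (pt k i * pt k j) = 0) :
    Q = ∑ a, coe Q a • q a := by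
  have hs : ∀ i j, Q i j = Q j i := fun i j => hQ.apply j i
  have h0 := h 0
  have h1 := h 1
  have h2 := h 2
  have h3 := h 3
  have h4 := h 4
  have h5 := h 5
  have h6 := h 6
  have h7 := h 7
  have h8 := h 8
  have h9 := h 9
  have h10 := h 10
  have h11 := h 11
  have h12 := h 12
  have h13 := h 13
  have h14 := h 14
  have h15 := h 15
  have h16 := h 16
  clear h
  simp [Fin.sum_univ_eight, pt, pti] at h0 h1 h2 h3 h4 h5 h6 h7
  simp [Fin.sum_univ_eight, pt, pti] at h8 h9 h10 h11 h12 h13 h14 h15 h16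
  have hs' : ∀ i j, j < i → Q i j = Q j i := fun i j _ => hs i j
  rw [hs 1 0, hs 3 0, hs 3 1] at h8
  rw [hs 2 1, hs 4 1, hs 4 2] at h9
  rw [hs 3 2, hs 5 2, hs 5 3] at h10
  rw [hs 4 3, hs 6 3, hs 6 4] at h11
  rw [hs 5 4, hs 7 4, hs 7 5] at h12
  rw [hs 5 0, hs 6 0, hs 6 5] at h13
  rw [hs 6 1, hs 7 1, hs 7 6] at h14
  rw [hs 2 0, hs 7 0, hs 7 2] at h15
  rw [hs 1 0, hs 2 0, hs 3 0, hs 4 0, hs 5 0, hs 6 0, hs 7 0, hs 2 1, hs 3 1, hs 4 1, hs 5 1, hs 6 1, hs 7 1, hs 3 2, hs 4 2, hs 5 2, hs 6 2, hs 7 2, hs 4 3, hs 5 3, hs 6 3, hs 7 3, hs 5 4, hs 6 4, hs 7 4, hs 6 5, hs 7 5, hs 7 6] at h16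
  have l0 : Q 0 1 + Q 0 3 + Q 1 3 = 0 := by linarith only [h8, h0, h1, h3]
  have l1 : Q 1 2 + Q 1 4 + Q 2 4 = 0 := by linarith only [h9, h1, h2, h4]
  have l2 : Q 2 3 + Q 2 5 + Q 3 5 = 0 := by linarith only [h10, h2, h3, h5]
  have l3 : Q 3 4 + Q 3 6 + Q 4 6 = 0 := by linarith only [h11, h3, h4, h6]
  have l4 : Q 4 5 + Q 4 7 + Q 5 7 = 0 := by linarith only [h12, h4, h5, h7]
  have l5 : Q 0 5 + Q 0 6 + Q 5 6 = 0 := by linarith only [h13, h0, h5, h6]
  have l6 : Q 1 6 + Q 1 7 + Q 6 7 = 0 := by linarith only [h14, h1, h6, h7]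
  have l7 : Q 0 2 + Q 0 7 + Q 2 7 = 0 := by linarith only [h15, h0, h2, h7]
  have mm : Q 0 4 + Q 1 5 + Q 2 6 + Q 3 7 = 0 := by
    linarith only [h16, h0, h1, h2, h3, h4, h5, h6, h7, l0, l1, l2, l3, l4, l5, l6, l7]
  clear h8 h9 h10 h11 h12 h13 h14 h15 h16
  have key : ∀ i j : Fin 8, i ≤ j → Q i j = ∑ a, coe Q a * (qi a i j : ℝ) := by
    intro i j hij
    fin_cases i <;> fin_cases j <;> first
      | (exfalso; revert hij; decide)
      | (simp [Fin.sum_univ_succ, coe, qi, mono]; done)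
      | (simp [Fin.sum_univ_succ, coe, qi, mono]
         try simp only [hs 5 0, hs 6 1, hs 7 0, hs 7 2]
         try linarith only [h0, h1, h2, h3, h4, h5, h6, h7, l0, l1, l2, l3, l4, l5, l6, l7, mm])
  ext i j
  rw [Matrix.sum_apply]
  simp only [Matrix.smul_apply, smul_eq_mul, q, Matrix.of_apply]
  rcases le_total i j with hij | hij
  · exact key i j hij
  · rw [hs i j, key j i hij]
    refine Finset.sum_congr rfl fun a _ => by rw [qi_symm]

end Crest.Agent.R237.V0
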