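import Crest.Agent.R237.Free
import Crest.Agent.R237.V0

/-!
Row 237 (S0367): FREE for the frozen basis `V0.q` of the Moebius--Kantor space, in the form used
by `Ext.flat_functional`.
-/

set_option autoImplicit false

namespace Crest.Agent.R237.Free

open MvPolynomial

lemma qi_ql : ∀ (a : Fin 19) (i j : Fin 8), V0.qi a i j =
    ((ql a).map fun t => t.2.2 * ((if i = t.1 ∧ j = t.2.1 then 1 else 0) +
      (if i = t.2.1 ∧ j = t.1 then 1 else 0))).sum := by
  decide +kernel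

lemma sum_pair (a b : Fin 8) :
    ∑ i, ∑ j, C (if i = a ∧ j = b then (1 : ℝ) else 0) * (X i * X j : MvPolynomial (Fin 8) ℝ) =
      X a * X b := by
  rw [Finset.sum_eq_single a, Finset.sum_eq_single b]
  · simp
  · intro j _ hj; simp [hj]
  · simp
  · intro i _ hi; simp [hi]
  · simp

lemma sum_list (l : List (Fin 8 × Fin 8 × ℤ)) :
    ∑ i, ∑ j, C ((((l.map fun t => t.2.2 * ((if i = t.1 ∧ j = t.2.1 then 1 else 0) +
      (if i = t.2.1 ∧ j = t.1 then 1 else 0))).sum : ℤ)) : ℝ) *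
        (X i * X j : MvPolynomial (Fin 8) ℝ) =
      2 * (l.map fun t => C (t.2.2 : ℝ) * X t.1 * X t.2.1).sum := by
  induction l with
  | nil => simp
  | cons t l ih =>
    simp only [List.map_cons, List.sum_cons, Int.cast_add, C_add, add_mul, Finset.sum_add_distrib]
    rw [ih]
    have h1 := sum_pair t.1 t.2.1
    have h2 := sum_pair t.2.1 t.1
    have h3 : ∑ i, ∑ j, C (((t.2.2 * ((if i = t.1 ∧ j = t.2.1 then 1 else 0) +
        (if i = t.2.1 ∧ j = t.1 then 1 else 0)) : ℤ)) : ℝ) *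
        (X i * X j : MvPolynomial (Fin 8) ℝ) =
        C (t.2.2 : ℝ) * ((∑ i, ∑ j, C (if i = t.1 ∧ j = t.2.1 then (1 : ℝ) else 0) * (X i * X j)) +
        (∑ i, ∑ j, C (if i = t.2.1 ∧ j = t.1 then (1 : ℝ) else 0) * (X i * X j))) := by
      rw [← Finset.sum_add_distrib, Finset.mul_sum]
      refine Finset.sum_congr rfl fun i _ => ?_
      rw [← Finset.sum_add_distrib, Finset.mul_sum]
      refine Finset.sum_congr rfl fun j _ => ?_
      push_cast
      rw [C_mul, C_add]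
      ring
    rw [h3, h1, h2]
    ring

/-- the polynomial of `V0.q a` is `2 * qp a`. -/
theorem qf_eq (a : Fin 19) :
    ∑ i, ∑ j, C (V0.q a i j) * (X i * X j : MvPolynomial (Fin 8) ℝ) = 2 * qp a := by
  rw [qp, ← sum_list]
  refine Finset.sum_congr rfl fun i _ => Finset.sum_congr rfl fun j _ => ?_
  rw [V0.q, Matrix.of_apply, qi_ql]

/-- FREE for `V0.q`: literally the hypothesis `hfree` of `Ext.flat_functional` for
`q a := ∑ i, ∑ j, C (V0.q a i j) * (X i * X j)`. -/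
theorem hfree (W : Matrix (Fin 19) (Fin 19) ℝ) (hW : W.IsSymm) :
    ∃ T : MvPolynomial (Fin 8) ℝ →ₗ[ℝ] ℝ, ∀ a b,
      T ((∑ i, ∑ j, C (V0.q a i j) * (X i * X j)) * (∑ i, ∑ j, C (V0.q b i j) * (X i * X j))) =
        W a b := by
  obtain ⟨T, hT⟩ := free W (fun a b => hW.apply b a)
  refine ⟨(1 / 4 : ℝ) • T, fun a b => ?_⟩
  rw [qf_eq, qf_eq]
  have h : (2 * qp a * (2 * qp b) : MvPolynomial (Fin 8) ℝ) = (4 : ℝ) • (qp a * qp b) := by
    rw [smul_eq_C_mul]
    have : (C (4 : ℝ) : MvPolynomial (Fin 8) ℝ) = 4 := map_ofNat C 4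
    rw [this]; ring
  rw [h, LinearMap.smul_apply, map_smul, hT]
  simp

end Crest.Agent.R237.Free
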