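import Crest.Agent.R237.H823PF

set_option autoImplicit false
set_option linter.unusedSectionVars false
set_option linter.unusedVariables false

namespace Crest.Agent.R237

open Polynomial

section core
variable {J : Type*} [Fintype J] [DecidableEq J]

/-- `Im (1/(z-l))`-type computation: a weighted sum of `1/(z-l_j)` with nonneg real weights. -/
theorem im_sum_div (lam w : J → ℝ) (z : ℂ) :
    (∑ j, (w j : ℂ) / (z - lam j)).im = - z.im * ∑ j, w j / Complex.normSq (z - lam j) := by
  rw [Complex.im_sum, Finset.mul_sum]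
  apply Finset.sum_congr rfl
  intro j _
  rw [Complex.div_im]
  simp
  ring

theorem im_zero_of_sum_eq_zero (lam w : J → ℝ) (hw : ∀ j, 0 ≤ w j) (hpos : ∃ j, 0 < w j) (z : ℂ)
    (hz : ∑ j, (w j : ℂ) / (z - lam j) = 0) : z.im = 0 := by
  by_contra him
  have h := im_sum_div lam w z
  rw [hz, Complex.zero_im] at h
  have hns : ∀ j, 0 < Complex.normSq (z - lam j) := by
    intro j
    rw [Complex.normSq_pos]
    intro h0
    have : (z - lam j).im = 0 := by rw [h0]; rfl
    simp at this
    exact him this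
  have hsum : 0 < ∑ j, w j / Complex.normSq (z - lam j) := by
    obtain ⟨j0, hj0⟩ := hpos
    apply Finset.sum_pos'
    · intro j _; exact div_nonneg (hw j) (hns j).le
    · exact ⟨j0, Finset.mem_univ _, div_pos hj0 (hns j0)⟩
  have h1 : - z.im * ∑ j, w j / Complex.normSq (z - lam j) ≠ 0 :=
    mul_ne_zero (neg_ne_zero.2 him) hsum.ne'
  exact h1 h.symm

variable (lam w : J → ℝ) (β : J → J → ℝ)

/-- The node polynomial. -/
noncomputable def Qp : ℂ[X] := ∏ j, (X - C (lam j : ℂ))
noncomputable def Qe (j : J) : ℂ[X] := ∏ i ∈ Finset.univ.erase j, (X - C (lam i : ℂ))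
noncomputable def N1 : ℂ[X] := ∑ j, C (w j : ℂ) * Qe lam j
noncomputable def Fp : ℂ[X] := ∑ j, ∑ k, C (β j k : ℂ) * (Qe lam j * Qe lam k)

theorem mul_Qe (j : J) : (X - C (lam j : ℂ)) * Qe lam j = Qp lam := by
  unfold Qe Qp
  exact Finset.mul_prod_erase Finset.univ (fun i => (X - C (lam i : ℂ))) (Finset.mem_univ j)

theorem eval_Qe_mul (j : J) (z : ℂ) : (z - lam j) * (Qe lam j).eval z = (Qp lam).eval z := by
  rw [← mul_Qe lam j]; simp

theorem eval_Qe (j : J) (z : ℂ) (hz : z ≠ lam j) :
    (Qe lam j).eval z = (Qp lam).eval z / (z - lam j) := by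
  have h : z - lam j ≠ 0 := sub_ne_zero.2 hz
  rw [← eval_Qe_mul lam j, mul_div_cancel_left₀ _ h]

theorem eval_Qp_ne (z : ℂ) (hz : ∀ j, z ≠ lam j) : (Qp lam).eval z ≠ 0 := by
  unfold Qp
  rw [eval_prod]
  apply Finset.prod_ne_zero_iff.2
  intro j _
  simpa using sub_ne_zero.2 (hz j)

theorem eval_Qp_node (j : J) : (Qp lam).eval (lam j : ℂ) = 0 := by
  rw [← eval_Qe_mul lam j]; simp

theorem eval_Qe_node_ne {j k : J} (hjk : j ≠ k) : (Qe lam j).eval (lam k : ℂ) = 0 := by
  unfold Qe
  rw [eval_prod]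
  apply Finset.prod_eq_zero (Finset.mem_erase.2 ⟨hjk.symm, Finset.mem_univ k⟩)
  simp

theorem eval_Qe_self_ne (hinj : Function.Injective lam) (j : J) :
    (Qe lam j).eval (lam j : ℂ) ≠ 0 := by
  unfold Qe
  rw [eval_prod]
  apply Finset.prod_ne_zero_iff.2
  intro i hi
  have hij : i ≠ j := (Finset.mem_erase.1 hi).1
  simp only [eval_sub, eval_X, eval_C]
  rw [sub_ne_zero]
  intro h
  exact hij (hinj (Complex.ofReal_injective h.symm))

theorem monic_Qe (j : J) : (Qe lam j).Monic := monic_prod_of_monic _ _ (fun i _ => monic_X_sub_C _)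
theorem monic_Qp : (Qp lam).Monic := monic_prod_of_monic _ _ (fun i _ => monic_X_sub_C _)

theorem natDegree_Qe (j : J) : (Qe lam j).natDegree = Fintype.card J - 1 := by
  unfold Qe
  rw [natDegree_prod_of_monic _ _ (fun i _ => monic_X_sub_C _)]
  simp

theorem natDegree_Qp : (Qp lam).natDegree = Fintype.card J := by
  unfold Qp
  rw [natDegree_prod_of_monic _ _ (fun i _ => monic_X_sub_C _)]
  simp

theorem eval_N1 (z : ℂ) (hz : ∀ j, z ≠ lam j) :
    (N1 lam w).eval z = (Qp lam).eval z * ∑ j, (w j : ℂ) / (z - lam j) := by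
  unfold N1
  rw [eval_finsetSum, Finset.mul_sum]
  apply Finset.sum_congr rfl
  intro j _
  rw [eval_mul, eval_C, eval_Qe lam j z (hz j)]
  ring

theorem eval_N1_node (j : J) :
    (N1 lam w).eval (lam j : ℂ) = w j * (Qe lam j).eval (lam j : ℂ) := by
  unfold N1
  rw [eval_finsetSum, Finset.sum_eq_single j]
  · simp
  · intro k _ hk
    rw [eval_mul, eval_Qe_node_ne lam hk, mul_zero]
  · simp

theorem eval_Fp (z : ℂ) (hz : ∀ j, z ≠ lam j) :
    (Fp lam β).eval z = (Qp lam).eval z ^ 2 *
      ∑ j, ∑ k, (β j k : ℂ) / ((z - lam j) * (z - lam k)) := by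
  unfold Fp
  rw [eval_finsetSum, Finset.mul_sum]
  apply Finset.sum_congr rfl
  intro j _
  rw [eval_finsetSum, Finset.mul_sum]
  apply Finset.sum_congr rfl
  intro k _
  rw [eval_mul, eval_mul, eval_C, eval_Qe lam j z (hz j), eval_Qe lam k z (hz k)]
  have h1 : z - lam j ≠ 0 := sub_ne_zero.2 (hz j)
  have h2 : z - lam k ≠ 0 := sub_ne_zero.2 (hz k)
  field_simp

theorem eval_Fp_node (j : J) :
    (Fp lam β).eval (lam j : ℂ) = β j j * ((Qe lam j).eval (lam j : ℂ)) ^ 2 := by
  unfold Fp
  rw [eval_finsetSum, Finset.sum_eq_single j]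
  · rw [eval_finsetSum, Finset.sum_eq_single j]
    · rw [eval_mul, eval_mul, eval_C]; ring
    · intro k _ hk
      rw [eval_mul, eval_mul, eval_Qe_node_ne lam hk]; ring
    · simp
  · intro k _ hk
    rw [eval_finsetSum]
    apply Finset.sum_eq_zero
    intro l _
    rw [eval_mul, eval_mul, eval_Qe_node_ne lam hk]; ring
  · simp

theorem derivative_Qp_node (j : J) :
    (derivative (Qp lam)).eval (lam j : ℂ) = (Qe lam j).eval (lam j : ℂ) := by
  rw [← mul_Qe lam j]
  simp

theorem derivative_N1_root (z : ℂ) (hz : ∀ j, z ≠ lam j)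
    (h0 : ∑ j, (w j : ℂ) / (z - lam j) = 0) :
    (derivative (N1 lam w)).eval z =
      - (Qp lam).eval z * ∑ j, (w j : ℂ) / (z - lam j) ^ 2 := by
  have hder : ∀ j, (derivative (Qe lam j)).eval z =
      ((derivative (Qp lam)).eval z - (Qp lam).eval z / (z - lam j)) / (z - lam j) := by
    intro j
    have h1 : z - lam j ≠ 0 := sub_ne_zero.2 (hz j)
    have h2 : (derivative (Qp lam)).eval z =
        (Qe lam j).eval z + (z - lam j) * (derivative (Qe lam j)).eval z := by
      conv_lhs => rw [← mul_Qe lam j]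
      simp
    rw [h2, eval_Qe lam j z (hz j)]
    field_simp
    ring
  unfold N1
  rw [derivative_sum, eval_finsetSum]
  have h3 : ∀ j, (derivative (C (w j : ℂ) * Qe lam j)).eval z =
      (derivative (Qp lam)).eval z * ((w j : ℂ) / (z - lam j)) -
        (Qp lam).eval z * ((w j : ℂ) / (z - lam j) ^ 2) := by
    intro j
    have h1 : z - lam j ≠ 0 := sub_ne_zero.2 (hz j)
    rw [derivative_C_mul, eval_C_mul, hder j]
    field_simp
  rw [Finset.sum_congr rfl (fun j _ => h3 j), Finset.sum_sub_distrib, ← Finset.mul_sum,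
    ← Finset.mul_sum, h0]
  ring

theorem core_partial [Nonempty J] (hinj : Function.Injective lam) (hw : ∀ j, 0 < w j)
    (hβ : ∀ t : ℝ, (∀ j, t ≠ lam j) → ∑ j, w j / (t - lam j) = 0 →
      0 ≤ ∑ j, ∑ k, β j k / ((t - lam j) * (t - lam k))) :
    ∃ (S : Finset ℝ) (cf : ℝ → ℝ), (∀ r ∈ S, cf r ≤ 0) ∧ (∀ r ∈ S, ∃ j, lam j ≤ r) ∧
      ∀ z : ℂ, (∀ j, z ≠ lam j) → ∑ j, (w j : ℂ) / (z - lam j) ≠ 0 →
        (∑ j, ∑ k, (β j k : ℂ) / ((z - lam j) * (z - lam k))) / (∑ j, (w j : ℂ) / (z - lam j))
          = ∑ j, ((β j j / w j : ℝ) : ℂ) / (z - lam j) + ∑ r ∈ S, (cf r : ℂ) / (z - r) := by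
  classical
  set P : ℂ[X] := Qp lam * N1 lam w with hPdef
  have hcardpos : 0 < Fintype.card J := Fintype.card_pos
  -- coefficient
  have hcoeff : (N1 lam w).coeff (Fintype.card J - 1) = ((∑ j, w j : ℝ) : ℂ) := by
    unfold N1
    rw [finsetSum_coeff, Complex.ofReal_sum]
    apply Finset.sum_congr rfl
    intro j _
    rw [coeff_C_mul, ← natDegree_Qe lam j, (monic_Qe lam j).coeff_natDegree, mul_one]
  have hsumw : (∑ j, w j) ≠ 0 := by
    apply ne_of_gt
    exact Finset.sum_pos (fun j _ => hw j) Finset.univ_nonempty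
  have hcne : (N1 lam w).coeff (Fintype.card J - 1) ≠ 0 := by
    rw [hcoeff]; exact_mod_cast hsumw
  have hN1ne : N1 lam w ≠ 0 := by
    intro h; rw [h] at hcne; simp at hcne
  have hQne : Qp lam ≠ 0 := (monic_Qp lam).ne_zero
  have hPne : P ≠ 0 := mul_ne_zero hQne hN1ne
  have hPdeg : 2 * Fintype.card J - 1 ≤ P.natDegree := by
    rw [hPdef, natDegree_mul hQne hN1ne, natDegree_Qp]
    have := le_natDegree_of_ne_zero hcne
    omega
  have hFdeg : (Fp lam β).natDegree ≤ 2 * (Fintype.card J - 1) := by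
    unfold Fp
    apply natDegree_sum_le_of_forall_le
    intro j _
    apply natDegree_sum_le_of_forall_le
    intro k _
    refine (natDegree_C_mul_le _ _).trans ?_
    refine natDegree_mul_le.trans ?_
    rw [natDegree_Qe, natDegree_Qe]; omega
  have hdeg : (Fp lam β).degree < P.degree := by
    apply degree_lt_degree
    omega
  -- roots of N1
  have hroot : ∀ z : ℂ, (N1 lam w).eval z = 0 →
      (∀ j, z ≠ lam j) ∧ ∑ j, (w j : ℂ) / (z - lam j) = 0 := by
    intro z hz
    have h1 : ∀ j, z ≠ lam j := by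
      intro j h
      rw [h, eval_N1_node] at hz
      rcases mul_eq_zero.1 hz with h2 | h2
      · exact (hw j).ne' (by exact_mod_cast h2)
      · exact eval_Qe_self_ne lam hinj j h2
    refine ⟨h1, ?_⟩
    rw [eval_N1 lam w z h1] at hz
    rcases mul_eq_zero.1 hz with h2 | h2
    · exact absurd h2 (eval_Qp_ne lam z h1)
    · exact h2
  have hreal : ∀ z : ℂ, (N1 lam w).eval z = 0 → z.im = 0 := by
    intro z hz
    exact im_zero_of_sum_eq_zero lam w (fun j => (hw j).le)
      ⟨Classical.arbitrary J, hw _⟩ z (hroot z hz).2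
  have hpos2 : ∀ t : ℝ, (∀ j, t ≠ lam j) → 0 < ∑ j, w j / (t - lam j) ^ 2 := by
    intro t ht
    apply Finset.sum_pos _ Finset.univ_nonempty
    intro j _
    apply div_pos (hw j)
    have h9 := sub_ne_zero.2 (ht j)
    positivity
  have hderiv : ∀ r, P.eval r = 0 → P.derivative.eval r ≠ 0 := by
    intro r hr
    rw [hPdef, eval_mul] at hr
    rw [hPdef, derivative_mul, eval_add, eval_mul, eval_mul]
    by_cases hrn : (N1 lam w).eval r = 0
    · obtain ⟨h1, h2⟩ := hroot r hrn
      have h3 := hreal r hrn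
      have hre : r = (r.re : ℂ) := by
        apply Complex.ext <;> simp [h3]
      rw [hrn, mul_zero, zero_add, derivative_N1_root lam w r h1 h2]
      have hq := eval_Qp_ne lam r h1
      have hs : ∑ j, (w j : ℂ) / (r - lam j) ^ 2 ≠ 0 := by
        have h4 : ∀ j, r.re ≠ lam j := by
          intro j h5
          exact h1 j (by rw [hre, h5])
        have h6 := hpos2 r.re h4
        intro h7
        apply h6.ne'
        rw [hre] at h7
        exact_mod_cast h7
      exact mul_ne_zero hq (mul_ne_zero (neg_ne_zero.2 hq) hs)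
    · have hq : (Qp lam).eval r = 0 := by
        rcases mul_eq_zero.1 hr with h | h
        · exact h
        · exact absurd h hrn
      obtain ⟨j, hj⟩ : ∃ j, r = lam j := by
        by_contra hcon
        push Not at hcon
        exact eval_Qp_ne lam r hcon hq
      rw [hq, zero_mul, add_zero, hj, derivative_Qp_node, eval_N1_node]
      have := eval_Qe_self_ne lam hinj j
      refine mul_ne_zero this (mul_ne_zero ?_ this)
      exact_mod_cast (hw j).ne'
  -- roots of P
  set Sn : Finset ℂ := (N1 lam w).roots.toFinset with hSn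
  set Sl : Finset ℂ := Finset.univ.image (fun j => (lam j : ℂ)) with hSl
  have hmemSn : ∀ r, r ∈ Sn ↔ (N1 lam w).eval r = 0 := by
    intro r
    rw [hSn, Multiset.mem_toFinset, mem_roots hN1ne]; rfl
  have hrootsP : P.roots.toFinset = Sl ∪ Sn := by
    ext r
    rw [Multiset.mem_toFinset, mem_roots hPne, Finset.mem_union, hmemSn]
    show P.eval r = 0 ↔ _
    rw [hPdef, eval_mul, mul_eq_zero]
    constructor
    · rintro (h | h)
      · left
        by_contra hcon
        apply eval_Qp_ne lam r _ h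
        intro j hj
        apply hcon
        rw [hSl, Finset.mem_image]
        exact ⟨j, Finset.mem_univ _, hj.symm⟩
      · right; exact h
    · rintro (h | h)
      · left
        rw [hSl, Finset.mem_image] at h
        obtain ⟨j, _, hj⟩ := h
        rw [← hj, eval_Qp_node]
      · right; exact h
  have hdisj : Disjoint Sl Sn := by
    rw [Finset.disjoint_left]
    intro r hr hr2
    rw [hSl, Finset.mem_image] at hr
    obtain ⟨j, _, hj⟩ := hr
    rw [hmemSn] at hr2
    exact (hroot r hr2).1 j hj.symm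
  refine ⟨Sn.image Complex.re, fun r =>
    (∑ j, ∑ k, β j k / ((r - lam j) * (r - lam k))) / (- ∑ j, w j / (r - lam j) ^ 2), ?_, ?_, ?_⟩
  · intro r hr
    rw [Finset.mem_image] at hr
    obtain ⟨z, hz, rfl⟩ := hr
    rw [hmemSn] at hz
    obtain ⟨h1, h2⟩ := hroot z hz
    have h3 := hreal z hz
    have hre : z = (z.re : ℂ) := by apply Complex.ext <;> simp [h3]
    have h4 : ∀ j, z.re ≠ lam j := by
      intro j h5
      exact h1 j (by rw [hre, h5])
    have h6 : ∑ j, w j / (z.re - lam j) = 0 := by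
      rw [hre] at h2
      exact_mod_cast h2
    exact div_nonpos_of_nonneg_of_nonpos (hβ z.re h4 h6) (neg_nonpos.2 (hpos2 z.re h4).le)
  · intro r hr
    rw [Finset.mem_image] at hr
    obtain ⟨z, hz, rfl⟩ := hr
    rw [hmemSn] at hz
    obtain ⟨h1, h2⟩ := hroot z hz
    have h3 := hreal z hz
    have hre : z = (z.re : ℂ) := by apply Complex.ext <;> simp [h3]
    have h6 : ∑ j, w j / (z.re - lam j) = 0 := by
      rw [hre] at h2
      exact_mod_cast h2
    by_contra hcon
    push Not at hcon
    have : ∑ j, w j / (z.re - lam j) < 0 := by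
      apply Finset.sum_neg _ Finset.univ_nonempty
      intro j _
      exact div_neg_of_pos_of_neg (hw j) (sub_neg.2 (hcon j))
    rw [h6] at this
    exact lt_irrefl _ this
  · intro z hz hNz
    have hPz : P.eval z ≠ 0 := by
      rw [hPdef, eval_mul, eval_N1 lam w z hz]
      exact mul_ne_zero (eval_Qp_ne lam z hz) (mul_ne_zero (eval_Qp_ne lam z hz) hNz)
    have hpf := partial_fraction P (Fp lam β) hPne hderiv hdeg z hPz
    have hlhs : (Fp lam β).eval z / P.eval z =
        (∑ j, ∑ k, (β j k : ℂ) / ((z - lam j) * (z - lam k))) /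
          (∑ j, (w j : ℂ) / (z - lam j)) := by
      rw [hPdef, eval_mul, eval_N1 lam w z hz, eval_Fp lam β z hz]
      have := eval_Qp_ne lam z hz
      field_simp
    rw [← hlhs, hpf, hrootsP, Finset.sum_union hdisj]
    congr 1
    · rw [hSl, Finset.sum_image]
      · apply Finset.sum_congr rfl
        intro j _
        congr 1
        rw [eval_Fp_node, hPdef, derivative_mul, eval_add, eval_mul, eval_mul, eval_Qp_node,
          zero_mul, add_zero, derivative_Qp_node, eval_N1_node]
        have h1 := eval_Qe_self_ne lam hinj j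
        have h2 : (w j : ℂ) ≠ 0 := by exact_mod_cast (hw j).ne'
        rw [Complex.ofReal_div]
        field_simp
      · intro a _ b _ hab
        exact hinj (Complex.ofReal_injective hab)
    · rw [Finset.sum_image]
      · apply Finset.sum_congr rfl
        intro r hr
        rw [hmemSn] at hr
        obtain ⟨h1, h2⟩ := hroot r hr
        have h3 := hreal r hr
        have hre : r = (r.re : ℂ) := by apply Complex.ext <;> simp [h3]
        have hq := eval_Qp_ne lam r h1
        rw [← hre]
        congr 1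
        rw [eval_Fp lam β r h1, hPdef, derivative_mul, eval_add, eval_mul, eval_mul, hr, mul_zero,
          zero_add, derivative_N1_root lam w r h1 h2]
        push_cast
        rw [← hre]
        rw [show (Qp lam).eval r * (-(Qp lam).eval r * ∑ j, (w j : ℂ) / (r - lam j) ^ 2) =
          (Qp lam).eval r ^ 2 * (- ∑ j, (w j : ℂ) / (r - lam j) ^ 2) by ring]
        rw [mul_div_mul_left _ _ (pow_ne_zero 2 hq)]
      · intro a ha b hb hab
        have h3 := hreal a ((hmemSn a).1 ha)
        have h4 := hreal b ((hmemSn b).1 hb)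
        exact Complex.ext hab (by rw [h3, h4])

end core

end Crest.Agent.R237
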