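import Crest.Agent.R237.H823Core

set_option autoImplicit false
set_option linter.unusedSectionVars false
set_option linter.unusedVariables false

namespace Crest.Agent.R237

section group
variable {K : Type*} [Fintype K]

open Classical in
theorem core_grouped {E : Type} [AddCommGroup E] [Module ℝ E]
    (Ξ : E →ₗ[ℝ] E →ₗ[ℝ] ℝ) (lam w φ : K → ℝ) (X : K → E)
    (hw : ∀ k, 0 ≤ w k) (hpos : ∃ k, 0 < w k) (hφ : ∀ k, 0 ≤ φ k)
    (hX0 : ∀ k, w k = 0 → X k = 0)
    (hΞ : ∀ s : Finset K, Ξ (∑ k ∈ s, X k) (∑ k ∈ s, X k) ≤ (∑ k ∈ s, w k) * (∑ k ∈ s, φ k))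
    (hβ : ∀ t : ℝ, (∀ k, t = lam k → w k = 0) → ∑ k, w k * (t - lam k)⁻¹ = 0 →
      0 ≤ Ξ (∑ k, (t - lam k)⁻¹ • X k) (∑ k, (t - lam k)⁻¹ • X k)) :
    ∃ (S : Finset ℝ) (cf : ℝ → ℝ), (∀ r ∈ S, cf r ≤ 0) ∧ (∀ r ∈ S, ∃ k, lam k ≤ r) ∧
      ∀ z : ℂ, (∀ k, z ≠ lam k) → ∑ k, (w k : ℂ) / (z - lam k) ≠ 0 →
        (∑ k, ∑ l, (Ξ (X k) (X l) : ℂ) / ((z - lam k) * (z - lam l)))
            / (∑ k, (w k : ℂ) / (z - lam k))
          - ∑ k, (φ k : ℂ) / (z - lam k) = ∑ r ∈ S, (cf r : ℂ) / (z - r) := by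
  set W : ℝ → ℝ := fun v => ∑ k with lam k = v, w k with hW
  set XX : ℝ → E := fun v => ∑ k with lam k = v, X k with hXX
  set Ph : ℝ → ℝ := fun v => ∑ k with lam k = v, φ k with hPh
  set SJ : Finset ℝ := (Finset.univ.image lam).filter (fun v => 0 < W v) with hSJ
  have hWnn : ∀ v, 0 ≤ W v := fun v => Finset.sum_nonneg (fun k _ => hw k)
  have hW0 : ∀ k, lam k ∉ SJ → w k = 0 := by
    intro k hk
    have h1 : ¬ 0 < W (lam k) := by
      intro h
      apply hk
      rw [hSJ, Finset.mem_filter]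
      exact ⟨Finset.mem_image_of_mem _ (Finset.mem_univ _), h⟩
    have h2 : W (lam k) = 0 := le_antisymm (not_lt.1 h1) (hWnn _)
    have h3 := (Finset.sum_eq_zero_iff_of_nonneg (fun i _ => hw i)).1 h2 k (by simp)
    exact h3
  have hgroup : ∀ {M : Type} [AddCommMonoid M] (g : K → M), (∀ k, w k = 0 → g k = 0) →
      ∑ k, g k = ∑ v : SJ, ∑ k with lam k = (v : ℝ), g k := by
    intro M _ g hg
    have h1 : ∑ v ∈ Finset.univ.image lam, ∑ k with lam k = v, g k = ∑ k, g k :=
      Finset.sum_fiberwise_of_maps_to (fun k _ => Finset.mem_image_of_mem _ (Finset.mem_univ _)) g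
    rw [← h1]
    have h2 : ∑ v ∈ SJ, ∑ k with lam k = v, g k
        = ∑ v ∈ Finset.univ.image lam, ∑ k with lam k = v, g k := by
      rw [hSJ]
      apply Finset.sum_filter_of_ne
      intro v hv hne
      by_contra hcon
      apply hne
      apply Finset.sum_eq_zero
      intro k hk
      rw [Finset.mem_filter] at hk
      apply hg
      apply hW0
      rw [hSJ, Finset.mem_filter, hk.2]
      exact fun h => hcon h.2
    rw [← h2]
    exact (Finset.sum_coe_sort SJ (fun v => ∑ k with lam k = v, g k)).symm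
  have hne : Nonempty SJ := by
    obtain ⟨k, hk⟩ := hpos
    refine ⟨⟨lam k, ?_⟩⟩
    by_contra hcon
    exact hk.ne' (hW0 k hcon)
  -- reindexing of the double sums, generic field version
  have hXsum : ∀ t : ℝ, ∑ k, (t - lam k)⁻¹ • X k = ∑ v : SJ, (t - (v : ℝ))⁻¹ • XX v := by
    intro t
    rw [hgroup (fun k => (t - lam k)⁻¹ • X k) (fun k hk => by rw [hX0 k hk, smul_zero])]
    apply Finset.sum_congr rfl
    intro v _
    rw [hXX, Finset.smul_sum]
    apply Finset.sum_congr rfl
    intro k hk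
    rw [(Finset.mem_filter.1 hk).2]
  have hcore := core_partial (J := SJ) (fun v => (v : ℝ)) (fun v => W v)
    (fun v v' => Ξ (XX v) (XX v')) Subtype.val_injective
    (fun v => (Finset.mem_filter.1 v.2).2) (by
      intro t ht hsum
      have h1 : ∀ k, t = lam k → w k = 0 := by
        intro k hk
        apply hW0
        intro hmem
        exact ht ⟨lam k, hmem⟩ hk
      have h2 : ∑ k, w k * (t - lam k)⁻¹ = 0 := by
        rw [hgroup (fun k => w k * (t - lam k)⁻¹) (fun k hk => by rw [hk, zero_mul]), ← hsum]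
        apply Finset.sum_congr rfl
        intro v _
        rw [hW, div_eq_mul_inv, Finset.sum_mul]
        apply Finset.sum_congr rfl
        intro k hk
        rw [(Finset.mem_filter.1 hk).2]
      have h3 := hβ t h1 h2
      rw [hXsum t] at h3
      refine h3.trans_eq ?_
      rw [LinearMap.map_sum₂]
      apply Finset.sum_congr rfl
      intro v _
      rw [map_sum]
      apply Finset.sum_congr rfl
      intro v' _
      rw [map_smul, map_smul, LinearMap.smul_apply, smul_eq_mul, smul_eq_mul]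
      rw [div_eq_mul_inv, mul_inv]
      ring)
  obtain ⟨S1, cf1, hcf1, hS1, hform⟩ := hcore
  refine ⟨S1 ∪ Finset.univ.image lam, fun r => (if r ∈ S1 then cf1 r else 0) +
    (if r ∈ SJ then Ξ (XX r) (XX r) / W r else 0) - Ph r, ?_, ?_, ?_⟩
  · intro r hr
    have hPhnn : 0 ≤ Ph r := Finset.sum_nonneg (fun k _ => hφ k)
    have h1 : (if r ∈ S1 then cf1 r else 0) ≤ 0 := by
      split_ifs with h
      · exact hcf1 r h
      · exact le_refl _
    have h2 : (if r ∈ SJ then Ξ (XX r) (XX r) / W r else 0) ≤ Ph r := by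
      split_ifs with h
      · have h3 : 0 < W r := (Finset.mem_filter.1 h).2
        rw [div_le_iff₀ h3, mul_comm]
        exact hΞ _
      · exact hPhnn
    simp only
    linarith
  · intro r hr
    rw [Finset.mem_union] at hr
    rcases hr with h | h
    · obtain ⟨v, hv⟩ := hS1 r h
      have h2 := (Finset.mem_filter.1 v.2).1
      rw [Finset.mem_image] at h2
      obtain ⟨k, _, hk⟩ := h2
      exact ⟨k, by rw [hk]; exact hv⟩
    · rw [Finset.mem_image] at h
      obtain ⟨k, _, hk⟩ := h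
      exact ⟨k, hk.le⟩
  · intro z hz hN
    have hzJ : ∀ v : SJ, z ≠ ((v : ℝ) : ℂ) := by
      intro v
      have h2 := (Finset.mem_filter.1 v.2).1
      rw [Finset.mem_image] at h2
      obtain ⟨k, _, hk⟩ := h2
      rw [← hk]
      exact hz k
    have hNJ : ∑ k, (w k : ℂ) / (z - lam k) = ∑ v : SJ, (W v : ℂ) / (z - (v : ℝ)) := by
      rw [hgroup (fun k => (w k : ℂ) / (z - lam k)) (fun k hk => by simp [hk])]
      apply Finset.sum_congr rfl
      intro v _
      rw [hW, Complex.ofReal_sum, Finset.sum_div]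
      apply Finset.sum_congr rfl
      intro k hk
      rw [(Finset.mem_filter.1 hk).2]
    have hnum : ∑ k, ∑ l, (Ξ (X k) (X l) : ℂ) / ((z - lam k) * (z - lam l)) =
        ∑ v : SJ, ∑ v' : SJ, (Ξ (XX v) (XX v') : ℂ) / ((z - (v : ℝ)) * (z - (v' : ℝ))) := by
      rw [hgroup (fun k => ∑ l, (Ξ (X k) (X l) : ℂ) / ((z - lam k) * (z - lam l)))
        (fun k hk => by simp [hX0 k hk])]
      apply Finset.sum_congr rfl
      intro v _
      have h1 : ∀ k ∈ Finset.univ.filter (fun k => lam k = (v : ℝ)),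
          ∑ l, (Ξ (X k) (X l) : ℂ) / ((z - lam k) * (z - lam l)) =
          ∑ v' : SJ, (Ξ (X k) (XX v') : ℂ) / ((z - (v : ℝ)) * (z - (v' : ℝ))) := by
        intro k hk
        rw [hgroup (fun l => (Ξ (X k) (X l) : ℂ) / ((z - lam k) * (z - lam l)))
          (fun l hl => by simp [hX0 l hl])]
        apply Finset.sum_congr rfl
        intro v' _
        rw [hXX, map_sum, Complex.ofReal_sum, Finset.sum_div]
        apply Finset.sum_congr rfl
        intro l hl
        rw [(Finset.mem_filter.1 hl).2, (Finset.mem_filter.1 hk).2]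
      rw [Finset.sum_congr rfl h1, Finset.sum_comm]
      apply Finset.sum_congr rfl
      intro v' _
      rw [← Finset.sum_div]
      congr 1
      rw [← Complex.ofReal_sum]
      congr 1
      exact (LinearMap.map_sum₂ Ξ _ _ _).symm
    have hform2 := hform z hzJ (by rw [← hNJ]; exact hN)
    rw [hnum, hNJ, hform2]
    -- the three sums
    have hs1 : ∑ r ∈ S1 ∪ Finset.univ.image lam, ((if r ∈ S1 then cf1 r else 0 : ℝ) : ℂ) / (z - r)
        = ∑ r ∈ S1, (cf1 r : ℂ) / (z - r) := by
      rw [← Finset.sum_subset (Finset.subset_union_left (s₁ := S1) (s₂ := Finset.univ.image lam))]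
      · apply Finset.sum_congr rfl
        intro r hr
        rw [if_pos hr]
      · intro r _ hr
        rw [if_neg hr]; simp
    have hs2 : ∑ r ∈ S1 ∪ Finset.univ.image lam,
        ((if r ∈ SJ then Ξ (XX r) (XX r) / W r else 0 : ℝ) : ℂ) / (z - r)
        = ∑ v : SJ, ((Ξ (XX v) (XX v) / W v : ℝ) : ℂ) / (z - (v : ℝ)) := by
      rw [Finset.sum_coe_sort SJ (fun v => ((Ξ (XX v) (XX v) / W v : ℝ) : ℂ) / (z - (v : ℝ)))]
      rw [← Finset.sum_subset (s₁ := SJ)]
      · apply Finset.sum_congr rfl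
        intro r hr
        rw [if_pos hr]
      · intro r hr
        exact Finset.mem_union_right _ (Finset.mem_filter.1 hr).1
      · intro r _ hr
        rw [if_neg hr]; simp
    have hs3 : ∑ r ∈ S1 ∪ Finset.univ.image lam, (Ph r : ℂ) / (z - r)
        = ∑ k, (φ k : ℂ) / (z - lam k) := by
      rw [← Finset.sum_fiberwise_of_maps_to (s := Finset.univ) (t := S1 ∪ Finset.univ.image lam)
        (g := lam) (fun k _ => Finset.mem_union_right _
          (Finset.mem_image_of_mem _ (Finset.mem_univ k)))]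
      apply Finset.sum_congr rfl
      intro r _
      rw [hPh, Complex.ofReal_sum, Finset.sum_div]
      apply Finset.sum_congr rfl
      intro k hk
      rw [(Finset.mem_filter.1 hk).2]
    rw [← hs1, ← hs2, ← hs3, ← Finset.sum_add_distrib, ← Finset.sum_sub_distrib]
    apply Finset.sum_congr rfl
    intro r _
    push_cast
    ring

end group

end Crest.Agent.R237
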