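import Crest.Agent.R237.HPoly

/-!
Row 237 (S0367): Theorem H for `HData` from the two key facts K1, K2 of helper823 (helper663).
-/

set_option autoImplicit false
set_option linter.unusedSectionVars false
set_option linter.unusedVariables false

namespace Crest.Agent.R237

open Matrix Crest.GeometryTopology

namespace HData

variable {m n d : ℕ} (D : HData m n d)

/-- K1: no zeros off the real axis -/
def K1 : Prop := ∀ (x : Fin m → ℝ) (z : ℂ), z.im ≠ 0 →
  D.pA (fun i => z * (D.e i : ℂ) - (x i : ℂ)) ≠ 0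

/-- K2: partial fractions of `F` along `e` -/
def K2 : Prop := ∀ x : Fin m → ℝ, ∃ (S : Finset ℝ) (cf : ℝ → ℝ) (b : ℝ), (∀ r ∈ S, cf r ≤ 0) ∧
  ∀ s : ℝ, (D.M x + s • (1 : Matrix (Fin (n + 1)) (Fin (n + 1)) ℝ)).PosDef →
    (∀ r ∈ S, 0 < s + r) ∧ D.F (x + s • D.e) = D.aa * s - b + ∑ r ∈ S, cf r / (s + r)

variable {D}

theorem isHyperbolic_of (h1 : D.K1) : Hyperbolic.IsHyperbolic D.p D.e := by
  refine ⟨⟨_, D.p_homog⟩, D.eval_e_pos, ?_⟩
  intro x z hz
  by_contra him
  rw [Hyperbolic.lineEvalC, aeval_p] at hz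
  exact h1 x z him hz

theorem M_add_smul (x : Fin m → ℝ) (s : ℝ) :
    D.M (x + s • D.e) = D.M x + s • (1 : Matrix (Fin (n + 1)) (Fin (n + 1)) ℝ) := by
  rw [map_add, map_smul, D.M_e]

theorem F_mono (h2 : D.K2) {x : Fin m → ℝ} {s t : ℝ} (hst : s ≤ t)
    (hs : (D.M (x + s • D.e)).PosDef) :
    D.F (x + s • D.e) + D.aa * (t - s) ≤ D.F (x + t • D.e) := by
  obtain ⟨S, cf, b, hcf, hF⟩ := h2 x
  have ht : (D.M (x + t • D.e)).PosDef := by
    rcases eq_or_lt_of_le hst with h | h
    · rwa [← h]
    · have : x + t • D.e = (x + s • D.e) + (t - s) • D.e := by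
        rw [add_assoc, ← add_smul]; congr 2; ring
      rw [this, M_add_smul]
      exact hs.add (Matrix.PosDef.one.smul (by linarith))
  obtain ⟨hs1, hs2⟩ := hF s (by rw [← M_add_smul]; exact hs)
  obtain ⟨ht1, ht2⟩ := hF t (by rw [← M_add_smul]; exact ht)
  rw [hs2, ht2]
  have : ∑ r ∈ S, cf r / (s + r) ≤ ∑ r ∈ S, cf r / (t + r) := by
    refine Finset.sum_le_sum fun r hr => ?_
    rw [div_le_div_iff₀ (hs1 r hr) (ht1 r hr)]
    nlinarith [hcf r hr, mul_nonneg_of_nonpos_of_nonpos (hcf r hr)
      (show s - t ≤ 0 by linarith)]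
  linarith

theorem F_bdd (h2 : D.K2) (x : Fin m → ℝ) : ∃ b : ℝ, ∀ s : ℝ,
    (D.M (x + s • D.e)).PosDef → D.F (x + s • D.e) ≤ D.aa * s - b := by
  obtain ⟨S, cf, b, hcf, hF⟩ := h2 x
  refine ⟨b, fun s hs => ?_⟩
  obtain ⟨hs1, hs2⟩ := hF s (by rw [← M_add_smul]; exact hs)
  rw [hs2]
  have : ∑ r ∈ S, cf r / (s + r) ≤ 0 :=
    Finset.sum_nonpos fun r hr => div_nonpos_of_nonpos_of_nonneg (hcf r hr) (hs1 r hr).le
  linarith

theorem K0_add (h2 : D.K2) {x : Fin m → ℝ} (hx : x ∈ D.K0) {s : ℝ} (hs : 0 ≤ s) :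
    x + s • D.e ∈ D.K0 := by
  have h0 : (D.M (x + (0 : ℝ) • D.e)).PosDef := by simpa using hx.1
  have hF := F_mono h2 hs h0
  rw [zero_smul, add_zero] at hF
  refine ⟨?_, ?_⟩
  · rcases eq_or_lt_of_le hs with h | h
    · rw [← h]; exact h0
    · rw [M_add_smul]; exact hx.1.add (Matrix.PosDef.one.smul h)
  · have h3 := hx.2
    have h4 := D.aa_pos
    have : 0 ≤ D.aa * (s - 0) := mul_nonneg h4.le (by linarith)
    linarith

theorem posSemidef_of_mem_closure {x : Fin m → ℝ} (hx : x ∈ closure D.K0) :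
    (D.M x).PosSemidef := by
  refine Matrix.PosSemidef.of_dotProduct_mulVec_nonneg ?_ ?_
  · rw [Matrix.IsHermitian, conjTranspose_eq_transpose_of_trivial, (D.M_symm x).eq]
  · intro v
    have hc : Continuous fun y : Fin m → ℝ => star v ⬝ᵥ (D.M y *ᵥ v) :=
      continuous_const.dotProduct (D.continuous_M.matrix_mulVec continuous_const)
    have hcl : IsClosed {y : Fin m → ℝ | 0 ≤ star v ⬝ᵥ (D.M y *ᵥ v)} :=
      isClosed_le continuous_const hc
    exact closure_minimal (fun y hy => hy.1.posSemidef.dotProduct_mulVec_nonneg v) hcl hx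

theorem mem_K0_of_closure (h2 : D.K2) {x : Fin m → ℝ} (hx : x ∈ closure D.K0) {s : ℝ}
    (hs : 0 < s) : x + s • D.e ∈ D.K0 := by
  have hpd : (D.M (x + s • D.e)).PosDef := by
    rw [M_add_smul]
    exact Matrix.PosDef.posSemidef_add (posSemidef_of_mem_closure hx)
      (Matrix.PosDef.one.smul hs)
  refine ⟨hpd, ?_⟩
  have hc : ContinuousAt (fun y : Fin m → ℝ => D.F (y + s • D.e)) x :=
    ContinuousAt.comp (g := D.F) (f := fun y : Fin m → ℝ => y + s • D.e)
      (D.continuousAt_F hpd) (by fun_prop)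
  by_contra hcon
  push Not at hcon
  have hpos : 0 < D.aa * s := mul_pos D.aa_pos hs
  have hev : ∀ᶠ y in nhds x, D.F (y + s • D.e) < D.aa * s :=
    hc.eventually (gt_mem_nhds (lt_of_le_of_lt hcon hpos))
  obtain ⟨y, hy1, hy2⟩ := (mem_closure_iff_nhds.mp hx) _ hev
  have h0 : (D.M (y + (0 : ℝ) • D.e)).PosDef := by simpa using hy2.1
  have hF := F_mono h2 hs.le h0
  rw [zero_smul, add_zero, sub_zero] at hF
  have := hy2.2
  have hy1' : D.F (y + s • D.e) < D.aa * s := hy1
  linarith

theorem closure_subset (h2 : D.K2) : closure D.K0 ⊆ Hyperbolic.closedCone D.p D.e := by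
  intro x hx t ht
  by_contra hneg
  push Not at hneg
  have h1 := mem_K0_of_closure h2 hx (s := -t) (by linarith)
  have e1 : (fun i => t * D.e i - x i) = -(x + (-t) • D.e) := by
    funext i; simp; ring
  rw [e1, eval_neg, pA_eq_of_posDef _ _ h1.1] at ht
  have h3 := h1.1.det_pos
  have h4 := lowTr_inv_pos D.n_pos h1.1
  have h5 := h1.2
  have : 0 < (D.M (x + -t • D.e)).det ^ 2 * lowTr (D.M (x + -t • D.e))⁻¹ *
      D.F (x + -t • D.e) := by positivity
  linarith

theorem of_mem_closedCone (h2 : D.K2) {x : Fin m → ℝ}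
    (hx : x ∈ Hyperbolic.closedCone D.p D.e) {s : ℝ} (hs : 0 < s) : x + s • D.e ∈ D.K0 := by
  obtain ⟨G, μ, g1, g2⟩ := Hyp.sim_diag (A := (1 : Matrix (Fin (n + 1)) (Fin (n + 1)) ℝ))
    Matrix.PosDef.one (D.M_symm x)
  have hdiag : ∀ s : ℝ, Gᵀ * D.M (x + s • D.e) * G = diagonal (fun j => s + μ j) := by
    intro s
    rw [M_add_smul, Matrix.mul_add, Matrix.add_mul, Matrix.mul_smul, Matrix.smul_mul, g1, g2]
    ext i j
    by_cases h : i = j
    · subst h; simp [add_comm]
    · simp [h]
  have hG := Hyp.Dat.det_G_ne g1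
  have hA : ∀ s : ℝ, (D.M (x + s • D.e)).PosDef ↔ ∀ j, 0 < s + μ j := by
    intro s
    rw [← Hyp.posDef_congr_iff (G := G) hG, hdiag, Hyp.posDef_diag_iff]
  have hp : ∀ s : ℝ, 0 < s → MvPolynomial.eval (x + s • D.e) D.p ≠ 0 := by
    intro s hs h0
    have e1 : (fun i => (-s) * D.e i - x i) = -(x + s • D.e) := by
      funext i; simp; ring
    have := hx (-s) (by rw [e1, eval_neg, h0])
    linarith
  have hTpos : ∀ s0 : ℝ, 0 ≤ s0 → (∀ s, s0 < s → (D.M (x + s • D.e)).PosDef) →
      ∀ s, s0 < s → 0 < D.F (x + s • D.e) := by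
    intro s0 hs0 hpd s hs
    by_contra hcon
    push Not at hcon
    set R := s + 1 + |D.F (x + s • D.e)| / D.aa with hR
    have haa := D.aa_pos
    have hq : 0 ≤ |D.F (x + s • D.e)| / D.aa := by positivity
    have hRs : s < R := by linarith
    have hTR : 0 < D.F (x + R • D.e) := by
      have := F_mono h2 hRs.le (hpd s hs)
      have h4 : D.aa * (R - s) = D.aa + |D.F (x + s • D.e)| := by
        rw [hR]; field_simp; ring
      rw [h4] at this
      have := neg_abs_le (D.F (x + s • D.e))
      linarith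
    have hc : ContinuousOn (fun r : ℝ => D.F (x + r • D.e)) (Set.Icc s R) := by
      intro r hr
      have h3 : (D.M (x + r • D.e)).PosDef := hpd r (by linarith [hr.1])
      have h4 : ContinuousAt (fun r : ℝ => D.F (x + r • D.e)) r :=
        ContinuousAt.comp (g := D.F) (f := fun r : ℝ => x + r • D.e)
          (D.continuousAt_F h3) (by fun_prop)
      exact h4.continuousWithinAt
    obtain ⟨r, hr, hr0⟩ := intermediate_value_Icc hRs.le hc
      (show (0:ℝ) ∈ Set.Icc (D.F (x + s • D.e)) (D.F (x + R • D.e)) from ⟨hcon, hTR.le⟩)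
    have hpr : (D.M (x + r • D.e)).PosDef := hpd r (by linarith [hr.1])
    apply hp r (by linarith [hr.1])
    have hr0' : D.F (x + r • D.e) = 0 := hr0
    rw [pA_eq_of_posDef _ _ hpr, hr0', mul_zero]
  have hμ : ∀ j, 0 ≤ μ j := by
    by_contra hcon
    push Not at hcon
    obtain ⟨j1, hj1⟩ := hcon
    obtain ⟨j0, -, hj0⟩ := Finset.exists_min_image Finset.univ μ ⟨j1, Finset.mem_univ _⟩
    have hneg : μ j0 < 0 := lt_of_le_of_lt (hj0 j1 (Finset.mem_univ _)) hj1
    set s0 := - μ j0 with hs0
    have hs0pos : 0 < s0 := by linarith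
    have hpd : ∀ s, s0 < s → (D.M (x + s • D.e)).PosDef := fun s hs =>
      (hA s).mpr fun j => by have := hj0 j (Finset.mem_univ _); linarith
    have hT := hTpos s0 hs0pos.le hpd
    obtain ⟨b, hb⟩ := F_bdd h2 x
    have hdet0 : (D.M (x + s0 • D.e)).det = 0 := by
      have h5 := congrArg Matrix.det (hdiag s0)
      rw [det_mul, det_mul, det_transpose, det_diagonal,
        Finset.prod_eq_zero (Finset.mem_univ j0) (by rw [hs0]; ring)] at h5
      rcases mul_eq_zero.mp h5 with h6 | h6
      · rcases mul_eq_zero.mp h6 with h7 | h7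
        · exact absurd h7 hG
        · exact h7
      · exact absurd h6 hG
    have hline : Continuous fun s : ℝ => x + s • D.e := by fun_prop
    have hpcont : Continuous fun s : ℝ => MvPolynomial.eval (x + s • D.e) D.p :=
      (MvPolynomial.continuous_eval _).comp hline
    have hp0 : MvPolynomial.eval (x + s0 • D.e) D.p = 0 := by
      have htend : Filter.Tendsto (fun s : ℝ => MvPolynomial.eval (x + s • D.e) D.p)
          (nhdsWithin s0 (Set.Ioi s0)) (nhds (MvPolynomial.eval (x + s0 • D.e) D.p)) :=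
        (hpcont.tendsto s0).mono_left nhdsWithin_le_nhds
      have htend2 : Filter.Tendsto (fun s : ℝ => MvPolynomial.eval (x + s • D.e) D.p)
          (nhdsWithin s0 (Set.Ioi s0)) (nhds 0) := by
        have hup : Filter.Tendsto (fun s : ℝ => (D.M (x + s • D.e)).det *
            lowTr (D.M (x + s • D.e)).adjugate * (D.aa * s - b))
            (nhdsWithin s0 (Set.Ioi s0)) (nhds 0) := by
          have hMc : Continuous fun s : ℝ => D.M (x + s • D.e) := D.continuous_M.comp hline
          have hc : Continuous fun s : ℝ => (D.M (x + s • D.e)).det *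
            lowTr (D.M (x + s • D.e)).adjugate * (D.aa * s - b) := by
            have h1 : Continuous fun s : ℝ => (D.M (x + s • D.e)).det := hMc.matrix_det
            have h2 : Continuous fun s : ℝ => lowTr (D.M (x + s • D.e)).adjugate := by
              unfold lowTr
              exact continuous_finsetSum _ fun i _ => (hMc.matrix_adjugate).matrix_elem _ _
            fun_prop
          have := (hc.tendsto s0).mono_left (nhdsWithin_le_nhds (s := Set.Ioi s0))
          rwa [hdet0, zero_mul, zero_mul] at this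
        refine tendsto_of_tendsto_of_tendsto_of_le_of_le' tendsto_const_nhds hup ?_ ?_
        · filter_upwards [self_mem_nhdsWithin] with s hs
          have hpds := hpd s hs
          rw [pA_eq_of_posDef _ _ hpds]
          have h3 := hpds.det_pos
          have h4 := lowTr_inv_pos D.n_pos hpds
          have h5 := hT s hs
          positivity
        · filter_upwards [self_mem_nhdsWithin] with s hs
          have hpds := hpd s hs
          rw [pA_eq_of_posDef _ _ hpds, adj_eq hpds.det_pos.ne', lowTr_smul]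
          have h3 := hpds.det_pos
          have h4 := lowTr_inv_pos D.n_pos hpds
          have h5 := hb s hpds
          calc (D.M (x + s • D.e)).det ^ 2 * lowTr (D.M (x + s • D.e))⁻¹ * D.F (x + s • D.e)
              ≤ (D.M (x + s • D.e)).det ^ 2 * lowTr (D.M (x + s • D.e))⁻¹ * (D.aa * s - b) :=
                mul_le_mul_of_nonneg_left h5 (by positivity)
            _ = _ := by ring
      exact tendsto_nhds_unique htend htend2
    exact hp s0 hs0pos hp0
  have hpd : ∀ s : ℝ, 0 < s → (D.M (x + s • D.e)).PosDef := fun s hs =>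
    (hA s).mpr fun j => by have := hμ j; linarith
  exact ⟨hpd s hs, hTpos 0 le_rfl hpd s hs⟩

theorem closedCone_eq_of (h2 : D.K2) : Hyperbolic.closedCone D.p D.e = closure D.K0 := by
  apply Set.Subset.antisymm
  · intro x hx
    have hc : Filter.Tendsto (fun s : ℝ => x + s • D.e) (nhdsWithin 0 (Set.Ioi 0)) (nhds x) := by
      have : Continuous fun s : ℝ => x + s • D.e := by fun_prop
      have := (this.tendsto 0).mono_left (nhdsWithin_le_nhds (s := Set.Ioi 0))
      simpa using this
    refine mem_closure_of_tendsto hc ?_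
    filter_upwards [self_mem_nhdsWithin] with s hs
    exact of_mem_closedCone h2 hx hs
  · exact closure_subset h2

/-- **Theorem H** from K1, K2 -/
theorem theoremH (h1 : D.K1) (h2 : D.K2) :
    Hyperbolic.IsHyperbolic D.p D.e ∧ Hyperbolic.closedCone D.p D.e = closure D.K0 :=
  ⟨isHyperbolic_of h1, closedCone_eq_of h2⟩

end HData

end Crest.Agent.R237
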