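import Crest.Agent.R237.H823Spec
import Crest.Agent.R237.HCone

set_option autoImplicit false
set_option linter.unusedSectionVars false
set_option linter.unusedVariables false

namespace Crest.Agent.R237

open Matrix

namespace HData

variable {m n d : ℕ} (D : HData m n d)

section field
variable {K : Type*} [Field K] [Algebra ℝ K]
variable (x : Fin m → ℝ) (V : Matrix (Fin (n + 1)) (Fin (n + 1)) ℝ) (lam : Fin (n + 1) → ℝ)

local notation "ι" => algebraMap ℝ K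

/-- the resolvent. -/
def Rz (K : Type*) [Field K] [Algebra ℝ K] (V : Matrix (Fin (n + 1)) (Fin (n + 1)) ℝ)
    (lam : Fin (n + 1) → ℝ) (z : K) : Matrix (Fin (n + 1)) (Fin (n + 1)) K :=
  V.map (algebraMap ℝ K) * diagonal (fun k => (z - algebraMap ℝ K (lam k))⁻¹) *
    (V.map (algebraMap ℝ K))ᵀ

/-- `τ = A T_e - T_x`. -/
def tau : Matrix (Fin (n + 1)) (Fin d) ℝ := D.M x * D.T D.e - D.T x

def Zk : Matrix (Fin (n + 1)) (Fin d) ℝ := Vᵀ * D.tau x

def Xk (k : Fin (n + 1)) : Matrix (Fin n) (Fin d) ℝ := fun i a => V i.succ k * D.Zk x V k a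

def wk (V : Matrix (Fin (n + 1)) (Fin (n + 1)) ℝ) (k : Fin (n + 1)) : ℝ :=
  ∑ i : Fin n, (V i.succ k) ^ 2

def phk (k : Fin (n + 1)) : ℝ := D.phi * ∑ a, (D.Zk x V k a) ^ 2

theorem map_mul_V (hV1 : Vᵀ * V = 1) :
    (V.map (algebraMap ℝ K))ᵀ * V.map (algebraMap ℝ K) = 1 := by
  rw [← Matrix.transpose_map, ← Matrix.map_mul, hV1]
  ext i j
  rw [Matrix.map_apply, Matrix.one_apply, Matrix.one_apply]
  split_ifs <;> simp

theorem map_mul_V' (hV2 : V * Vᵀ = 1) :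
    V.map (algebraMap ℝ K) * (V.map (algebraMap ℝ K))ᵀ = 1 := by
  rw [← Matrix.transpose_map, ← Matrix.map_mul, hV2]
  ext i j
  rw [Matrix.map_apply, Matrix.one_apply, Matrix.one_apply]
  split_ifs <;> simp

theorem MA_diag (hV2 : V * Vᵀ = 1) (hA : D.M x = V * diagonal lam * Vᵀ) (z : K) :
    D.MA (D.pt z x) = V.map (algebraMap ℝ K) *
      diagonal (fun k => z - algebraMap ℝ K (lam k)) * (V.map (algebraMap ℝ K))ᵀ := by
  rw [MA_pt, hA, Matrix.map_mul, Matrix.map_mul, Matrix.transpose_map]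
  have h1 : (diagonal lam).map (algebraMap ℝ K) = diagonal (fun k => algebraMap ℝ K (lam k)) := by
    rw [Matrix.diagonal_map (map_zero _)]
  have h2 : diagonal (fun k => z - algebraMap ℝ K (lam k)) =
      z • (1 : Matrix (Fin (n + 1)) (Fin (n + 1)) K) - diagonal (fun k => algebraMap ℝ K (lam k)) := by
    rw [← Matrix.diagonal_one, ← Matrix.diagonal_smul, Matrix.diagonal_sub]
    congr 1
    ext k
    simp
  rw [h1, h2, Matrix.mul_sub, Matrix.sub_mul, Matrix.mul_smul, Matrix.mul_one, Matrix.smul_mul,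
    map_mul_V' V hV2]

theorem MA_mul_Rz (hV1 : Vᵀ * V = 1) (hV2 : V * Vᵀ = 1) (hA : D.M x = V * diagonal lam * Vᵀ)
    (z : K) (hz : ∀ k, z ≠ algebraMap ℝ K (lam k)) :
    D.MA (D.pt z x) * Rz K V lam z = 1 := by
  rw [MA_diag D x V lam hV2 hA]
  unfold Rz
  have h1 : diagonal (fun k => z - algebraMap ℝ K (lam k)) *
      diagonal (fun k => (z - algebraMap ℝ K (lam k))⁻¹) = 1 := by
    rw [Matrix.diagonal_mul_diagonal, ← Matrix.diagonal_one]
    congr 1
    ext k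
    exact mul_inv_cancel₀ (sub_ne_zero.2 (hz k))
  calc _ = V.map (algebraMap ℝ K) * (diagonal (fun k => z - algebraMap ℝ K (lam k)) *
        (((V.map (algebraMap ℝ K))ᵀ * V.map (algebraMap ℝ K)) *
          diagonal (fun k => (z - algebraMap ℝ K (lam k))⁻¹))) * (V.map (algebraMap ℝ K))ᵀ := by
        simp only [Matrix.mul_assoc]
    _ = 1 := by
        rw [map_mul_V V hV1, Matrix.one_mul, h1, Matrix.mul_one, map_mul_V' V hV2]

theorem inv_MA (hV1 : Vᵀ * V = 1) (hV2 : V * Vᵀ = 1) (hA : D.M x = V * diagonal lam * Vᵀ)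
    (z : K) (hz : ∀ k, z ≠ algebraMap ℝ K (lam k)) :
    (D.MA (D.pt z x))⁻¹ = Rz K V lam z :=
  Matrix.inv_eq_right_inv (MA_mul_Rz D x V lam hV1 hV2 hA z hz)

theorem det_MA_ne (hV1 : Vᵀ * V = 1) (hV2 : V * Vᵀ = 1) (hA : D.M x = V * diagonal lam * Vᵀ)
    (z : K) (hz : ∀ k, z ≠ algebraMap ℝ K (lam k)) : (D.MA (D.pt z x)).det ≠ 0 := by
  have h := MA_mul_Rz D x V lam hV1 hV2 hA z hz
  intro h0
  have h1 := congrArg Matrix.det h
  rw [Matrix.det_mul, h0, zero_mul, Matrix.det_one] at h1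
  exact zero_ne_one h1

theorem Rz_transpose (z : K) : (Rz K V lam z)ᵀ = Rz K V lam z := by
  unfold Rz
  rw [Matrix.transpose_mul, Matrix.transpose_mul, Matrix.transpose_transpose,
    Matrix.diagonal_transpose, Matrix.mul_assoc]

theorem lowTr_Rz (z : K) :
    lowTr (Rz K V lam z) = ∑ k, algebraMap ℝ K (wk V k) / (z - algebraMap ℝ K (lam k)) := by
  unfold lowTr Rz wk
  have h : ∀ i : Fin (n + 1), (V.map (algebraMap ℝ K) *
      diagonal (fun k => (z - algebraMap ℝ K (lam k))⁻¹) * (V.map (algebraMap ℝ K))ᵀ) i i =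
      ∑ k, algebraMap ℝ K (V i k) * (z - algebraMap ℝ K (lam k))⁻¹ * algebraMap ℝ K (V i k) := by
    intro i
    rw [Matrix.mul_apply]
    simp only [Matrix.mul_diagonal, Matrix.map_apply, Matrix.transpose_apply]
  simp only [h]
  rw [Finset.sum_comm]
  refine Finset.sum_congr rfl fun k _ => ?_
  rw [map_sum, Finset.sum_div]
  refine Finset.sum_congr rfl fun i _ => ?_
  rw [map_pow, div_eq_mul_inv]
  ring

theorem TA_split (z : K) :
    D.TA (D.pt z x) = D.MA (D.pt z x) * (D.T D.e).map (algebraMap ℝ K)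
      + (D.tau x).map (algebraMap ℝ K) := by
  rw [TA_pt, MA_pt, Matrix.sub_mul, Matrix.smul_mul, Matrix.one_mul]
  unfold tau
  rw [← Matrix.map_mul, Matrix.map_sub _ (fun a b => map_sub _ a b)]
  abel

theorem Rz_TA (hV1 : Vᵀ * V = 1) (hV2 : V * Vᵀ = 1) (hA : D.M x = V * diagonal lam * Vᵀ)
    (z : K) (hz : ∀ k, z ≠ algebraMap ℝ K (lam k)) :
    Rz K V lam z * D.TA (D.pt z x) = (D.T D.e).map (algebraMap ℝ K)
      + Rz K V lam z * (D.tau x).map (algebraMap ℝ K) := by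
  have h := MA_mul_Rz D x V lam hV1 hV2 hA z hz
  have h' : Rz K V lam z * D.MA (D.pt z x) = 1 := mul_eq_one_comm.1 h
  rw [TA_split, Matrix.mul_add, ← Matrix.mul_assoc, h', Matrix.one_mul]

theorem Rz_tau (z : K) :
    Rz K V lam z * (D.tau x).map (algebraMap ℝ K) = V.map (algebraMap ℝ K) *
      (diagonal (fun k => (z - algebraMap ℝ K (lam k))⁻¹) *
        (D.Zk x V).map (algebraMap ℝ K)) := by
  unfold Rz Zk
  rw [Matrix.map_mul, Matrix.transpose_map]
  simp only [Matrix.mul_assoc]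

theorem low_Rz_tau (z : K) :
    (Rz K V lam z * (D.tau x).map (algebraMap ℝ K)).submatrix Fin.succ id =
      ∑ k, (z - algebraMap ℝ K (lam k))⁻¹ • (D.Xk x V k).map (algebraMap ℝ K) := by
  rw [Rz_tau]
  ext i a
  rw [Matrix.submatrix_apply, Matrix.sum_apply, Matrix.mul_apply]
  refine Finset.sum_congr rfl fun k _ => ?_
  rw [Matrix.diagonal_mul, Matrix.smul_apply, Matrix.map_apply, Matrix.map_apply,
    Matrix.map_apply, Xk, map_mul, smul_eq_mul]
  simp only [id]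
  ring

theorem tr_tau (z : K) :
    (((D.tau x).map (algebraMap ℝ K))ᵀ * (Rz K V lam z * (D.tau x).map (algebraMap ℝ K))).trace =
      ∑ k, algebraMap ℝ K (∑ a, (D.Zk x V k a) ^ 2) / (z - algebraMap ℝ K (lam k)) := by
  have h1 : ((D.tau x).map (algebraMap ℝ K))ᵀ * (Rz K V lam z * (D.tau x).map (algebraMap ℝ K)) =
      ((D.Zk x V).map (algebraMap ℝ K))ᵀ * (diagonal (fun k => (z - algebraMap ℝ K (lam k))⁻¹) *
        (D.Zk x V).map (algebraMap ℝ K)) := by
    rw [Rz_tau, ← Matrix.mul_assoc]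
    congr 1
    unfold Zk
    rw [Matrix.map_mul, Matrix.transpose_mul, Matrix.transpose_map, Matrix.transpose_transpose]
  rw [h1, Matrix.trace]
  simp only [Matrix.diag_apply, Matrix.mul_apply (M := ((D.Zk x V).map (algebraMap ℝ K))ᵀ),
    Matrix.diagonal_mul, Matrix.transpose_apply, Matrix.map_apply]
  rw [Finset.sum_comm]
  refine Finset.sum_congr rfl fun k _ => ?_
  rw [map_sum, Finset.sum_div]
  refine Finset.sum_congr rfl fun a _ => ?_
  rw [map_pow, div_eq_mul_inv]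
  ring

/-- the real constant `b`. -/
def bb : ℝ := D.phi * (- D.w x + ((D.T x)ᵀ * D.T D.e).trace - ((D.T D.e)ᵀ * D.tau x).trace)

theorem tr_Te : ((D.T D.e)ᵀ * D.T D.e).trace = ∑ a, (D.T D.e 0 a) ^ 2 := by
  simp only [Matrix.trace, Matrix.diag, Matrix.mul_apply, transpose_apply]
  refine Finset.sum_congr rfl fun a _ => ?_
  rw [Fin.sum_univ_succ]
  simp [D.T_e, sq]

theorem tr_map {P Q : ℕ} (B C : Matrix (Fin P) (Fin Q) ℝ) :
    ((B.map (algebraMap ℝ K))ᵀ * C.map (algebraMap ℝ K)).trace =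
      algebraMap ℝ K ((Bᵀ * C).trace) := by
  rw [← Matrix.transpose_map, ← Matrix.map_mul, Matrix.trace, Matrix.trace, map_sum]
  rfl

theorem tr_TA (hV1 : Vᵀ * V = 1) (hV2 : V * Vᵀ = 1) (hA : D.M x = V * diagonal lam * Vᵀ)
    (z : K) (hz : ∀ k, z ≠ algebraMap ℝ K (lam k)) :
    ((D.TA (D.pt z x))ᵀ * Rz K V lam z * D.TA (D.pt z x)).trace =
      z * algebraMap ℝ K (∑ a, (D.T D.e 0 a) ^ 2) - algebraMap ℝ K (((D.T x)ᵀ * D.T D.e).trace)
      + algebraMap ℝ K (((D.T D.e)ᵀ * D.tau x).trace)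
      + ∑ k, algebraMap ℝ K (∑ a, (D.Zk x V k a) ^ 2) / (z - algebraMap ℝ K (lam k)) := by
  have h1 : ((D.TA (D.pt z x))ᵀ * Rz K V lam z * D.TA (D.pt z x)) =
      (D.TA (D.pt z x))ᵀ * (D.T D.e).map (algebraMap ℝ K) +
      (Rz K V lam z * D.TA (D.pt z x))ᵀ * (D.tau x).map (algebraMap ℝ K) := by
    rw [Matrix.mul_assoc, Rz_TA D x V lam hV1 hV2 hA z hz, Matrix.mul_add]
    congr 1
    rw [← Rz_TA D x V lam hV1 hV2 hA z hz, Matrix.transpose_mul, Rz_transpose, Matrix.mul_assoc]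
  rw [h1, Rz_TA D x V lam hV1 hV2 hA z hz, Matrix.transpose_add, Matrix.add_mul, Matrix.trace_add,
    Matrix.trace_add, tr_map, TA_pt, Matrix.transpose_sub, Matrix.transpose_smul, Matrix.sub_mul,
    Matrix.smul_mul, Matrix.trace_sub, Matrix.trace_smul, tr_map, tr_map, tr_Te]
  have h2 : ((Rz K V lam z * (D.tau x).map (algebraMap ℝ K))ᵀ *
      (D.tau x).map (algebraMap ℝ K)).trace = 
      ∑ k, algebraMap ℝ K (∑ a, (D.Zk x V k a) ^ 2) / (z - algebraMap ℝ K (lam k)) := by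
    rw [← tr_tau, ← Matrix.trace_transpose, Matrix.transpose_mul, Matrix.transpose_transpose]
  rw [h2, smul_eq_mul]
  ring

theorem low_Rz_TA (hV1 : Vᵀ * V = 1) (hV2 : V * Vᵀ = 1) (hA : D.M x = V * diagonal lam * Vᵀ)
    (z : K) (hz : ∀ k, z ≠ algebraMap ℝ K (lam k)) :
    (Rz K V lam z * D.TA (D.pt z x)).submatrix Fin.succ id =
      ∑ k, (z - algebraMap ℝ K (lam k))⁻¹ • (D.Xk x V k).map (algebraMap ℝ K) := by
  rw [Rz_TA D x V lam hV1 hV2 hA z hz, ← low_Rz_tau]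
  ext i a
  simp [D.T_e]

/-- the rational function at `z e - x` -/
theorem FA_eq (hV1 : Vᵀ * V = 1) (hV2 : V * Vᵀ = 1) (hA : D.M x = V * diagonal lam * Vᵀ)
    (z : K) (hz : ∀ k, z ≠ algebraMap ℝ K (lam k)) :
    algebraMap ℝ K D.phi * (D.wA (D.pt z x) -
        ((D.TA (D.pt z x))ᵀ * (D.MA (D.pt z x))⁻¹ * D.TA (D.pt z x)).trace) +
      D.XiA (((D.MA (D.pt z x))⁻¹ * D.TA (D.pt z x)).submatrix Fin.succ id) /
        lowTr (D.MA (D.pt z x))⁻¹ =
    algebraMap ℝ K D.aa * z + algebraMap ℝ K (D.bb x) +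
      ((∑ k, ∑ l, algebraMap ℝ K (D.Xi (D.Xk x V k) (D.Xk x V l)) /
          ((z - algebraMap ℝ K (lam k)) * (z - algebraMap ℝ K (lam l)))) /
        (∑ k, algebraMap ℝ K (wk V k) / (z - algebraMap ℝ K (lam k)))
      - ∑ k, algebraMap ℝ K (D.phk x V k) / (z - algebraMap ℝ K (lam k))) := by
  rw [inv_MA D x V lam hV1 hV2 hA z hz, lowTr_Rz, tr_TA D x V lam hV1 hV2 hA z hz, wA_pt,
    low_Rz_TA D x V lam hV1 hV2 hA z hz, XiA_comb]
  have h1 : ∀ k l, (z - algebraMap ℝ K (lam k))⁻¹ * (z - algebraMap ℝ K (lam l))⁻¹ *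
      algebraMap ℝ K (D.Xi (D.Xk x V k) (D.Xk x V l)) =
      algebraMap ℝ K (D.Xi (D.Xk x V k) (D.Xk x V l)) /
          ((z - algebraMap ℝ K (lam k)) * (z - algebraMap ℝ K (lam l))) := by
    intro k l
    rw [div_eq_mul_inv, mul_inv]; ring
  simp only [h1]
  have h2 : ∑ k, algebraMap ℝ K (D.phk x V k) / (z - algebraMap ℝ K (lam k)) =
      algebraMap ℝ K D.phi *
        ∑ k, algebraMap ℝ K (∑ a, (D.Zk x V k a) ^ 2) / (z - algebraMap ℝ K (lam k)) := by
    rw [Finset.mul_sum]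
    refine Finset.sum_congr rfl fun k _ => ?_
    rw [phk, map_mul]; ring
  rw [h2]
  unfold aa bb
  simp only [map_mul, map_sub, map_add, map_neg]
  ring

end field

end HData

end Crest.Agent.R237
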