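import Mathlib

set_option autoImplicit false

namespace Crest.Agent.R237

open Polynomial

/-- Partial fractions over `ℂ` for a denominator with simple roots. -/
theorem partial_fraction (P f : ℂ[X]) (hP : P ≠ 0)
    (hs : ∀ r, P.eval r = 0 → P.derivative.eval r ≠ 0) (hdeg : f.degree < P.degree)
    (z : ℂ) (hz : P.eval z ≠ 0) :
    f.eval z / P.eval z =
      ∑ r ∈ P.roots.toFinset, (f.eval r / P.derivative.eval r) / (z - r) := by
  classical
  have hnodup : P.roots.Nodup := by
    rw [Multiset.nodup_iff_count_le_one]
    intro r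
    rw [Polynomial.count_roots]
    by_contra h
    push Not at h
    have h2 := (Polynomial.one_lt_rootMultiplicity_iff_isRoot hP).1 h
    exact hs r h2.1 h2.2
  have hsplit : P.Splits := IsAlgClosed.splits P
  have hprod : P = C P.leadingCoeff * Lagrange.nodal P.roots.toFinset id := by
    conv_lhs => rw [hsplit.eq_prod_roots]
    congr 1
    rw [Lagrange.nodal_eq]
    rw [Finset.prod_multiset_map_count] 
    apply Finset.prod_congr rfl
    intro r hr
    rw [Multiset.count_eq_one_of_mem hnodup (Multiset.mem_toFinset.1 hr)]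
    simp
  have hlc : P.leadingCoeff ≠ 0 := leadingCoeff_ne_zero.2 hP
  set s := P.roots.toFinset with hsdef
  have hcard : (s.card : WithBot ℕ) = P.degree := by
    rw [Polynomial.degree_eq_natDegree hP, ← hsplit.natDegree_eq_card_roots.symm, hsdef,
      Multiset.toFinset_card_of_nodup hnodup]
  have hf : f = Lagrange.interpolate s id (fun i => f.eval (id i)) := by
    apply Lagrange.eq_interpolate (Set.injOn_id _)
    rw [hcard]; exact hdeg
  have hzs : ∀ i ∈ s, z ≠ id i := by
    intro i hi h
    apply hz
    rw [h]
    have := Multiset.mem_toFinset.1 hi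
    exact (Polynomial.mem_roots hP).1 this
  have h1 : f.eval z = (Lagrange.nodal s id).eval z *
      ∑ i ∈ s, Lagrange.nodalWeight s id i * (z - id i)⁻¹ * f.eval (id i) := by
    conv_lhs => rw [hf]
    exact Lagrange.eval_interpolate_not_at_node _ hzs
  have hPz : P.eval z = P.leadingCoeff * (Lagrange.nodal s id).eval z := by
    conv_lhs => rw [hprod]
    rw [eval_mul, eval_C]
  have hnz : (Lagrange.nodal s id).eval z ≠ 0 := by
    intro h
    rw [hPz, h, mul_zero] at hz
    exact hz rfl
  have hder : ∀ r ∈ s, P.derivative.eval r =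
      P.leadingCoeff * (Lagrange.nodalWeight s id r)⁻¹ := by
    intro r hr
    rw [Lagrange.nodalWeight_eq_eval_derivative_nodal hr, inv_inv]
    conv_lhs => rw [hprod]
    simp
  rw [h1, hPz, mul_comm P.leadingCoeff, mul_div_mul_left _ _ hnz, Finset.sum_div]
  apply Finset.sum_congr rfl
  intro r hr
  rw [hder r hr]
  have hw : Lagrange.nodalWeight s id r ≠ 0 := Lagrange.nodalWeight_ne_zero (Set.injOn_id _) hr
  have hzr : z - r ≠ 0 := sub_ne_zero.2 (hzs r hr)
  simp only [id]
  field_simp

end Crest.Agent.R237
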