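import Crest.Agent.R237.HData
import Crest.Agent.R237.H823Group

set_option autoImplicit false
set_option linter.unusedSectionVars false
set_option linter.unusedVariables false

namespace Crest.Agent.R237

open Matrix

/-- Orthogonal diagonalisation of a real symmetric matrix. -/
theorem exists_diag {N : ℕ} (A : Matrix (Fin N) (Fin N) ℝ) (hA : A.IsSymm) :
    ∃ (V : Matrix (Fin N) (Fin N) ℝ) (lam : Fin N → ℝ), Vᵀ * V = 1 ∧ V * Vᵀ = 1 ∧
      A = V * diagonal lam * Vᵀ := by
  have hH : A.IsHermitian := by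
    rw [IsHermitian, conjTranspose_eq_transpose_of_trivial]; exact hA
  refine ⟨hH.eigenvectorUnitary, hH.eigenvalues, ?_, ?_, ?_⟩
  · have := Unitary.coe_star_mul_self hH.eigenvectorUnitary
    rw [← conjTranspose_eq_transpose_of_trivial]
    exact this
  · have := Unitary.coe_mul_star_self hH.eigenvectorUnitary
    rw [← conjTranspose_eq_transpose_of_trivial]
    exact this
  · have := hH.spectral_theorem
    rw [Unitary.conjStarAlgAut_apply] at this
    rw [← conjTranspose_eq_transpose_of_trivial]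
    exact this

namespace HData

variable {m n d : ℕ} (D : HData m n d)

theorem single_eq (i : Fin m) : (fun j => if i = j then (1 : ℝ) else 0) = Pi.single i 1 := by
  ext j
  simp [Pi.single_apply, eq_comm]

theorem map_expand {P Q : ℕ} (L : (Fin m → ℝ) →ₗ[ℝ] Matrix (Fin P) (Fin Q) ℝ) (x : Fin m → ℝ)
    (r : Fin P) (s : Fin Q) : L x r s = ∑ i, x i * L (Pi.single i 1) r s := by
  conv_lhs => rw [LinearMap.pi_apply_eq_sum_univ L x]
  rw [Matrix.sum_apply]
  apply Finset.sum_congr rfl
  intro i _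
  rw [Matrix.smul_apply, smul_eq_mul, single_eq]

section field
variable {K : Type*} [Field K] [Algebra ℝ K]

/-- the point `z e - x`. -/
def pt (z : K) (x : Fin m → ℝ) : Fin m → K :=
  fun i => z * algebraMap ℝ K (D.e i) - algebraMap ℝ K (x i)

theorem MA_pt (z : K) (x : Fin m → ℝ) :
    D.MA (D.pt z x) = z • (1 : Matrix (Fin (n + 1)) (Fin (n + 1)) K)
      - (D.M x).map (algebraMap ℝ K) := by
  ext r s
  unfold MA pt
  rw [Matrix.sub_apply, Matrix.smul_apply, Matrix.map_apply, map_expand D.M x r s, map_sum]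
  have h1 : ((1 : Matrix (Fin (n + 1)) (Fin (n + 1)) K) r s) =
      algebraMap ℝ K (D.M D.e r s) := by
    rw [D.M_e, Matrix.one_apply, Matrix.one_apply]
    split_ifs <;> simp
  rw [h1, map_expand D.M D.e r s, map_sum, Finset.smul_sum, ← Finset.sum_sub_distrib]
  apply Finset.sum_congr rfl
  intro i _
  rw [map_mul, map_mul, smul_eq_mul]
  ring

theorem TA_pt (z : K) (x : Fin m → ℝ) :
    D.TA (D.pt z x) = z • (D.T D.e).map (algebraMap ℝ K) - (D.T x).map (algebraMap ℝ K) := by
  ext r s
  unfold TA pt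
  rw [Matrix.sub_apply, Matrix.smul_apply, Matrix.map_apply, Matrix.map_apply,
    map_expand D.T x r s, map_expand D.T D.e r s, map_sum, map_sum, Finset.smul_sum,
    ← Finset.sum_sub_distrib]
  apply Finset.sum_congr rfl
  intro i _
  rw [map_mul, map_mul, smul_eq_mul]
  ring

theorem w_expand (x : Fin m → ℝ) : D.w x = ∑ i, x i * D.w (Pi.single i 1) := by
  conv_lhs => rw [LinearMap.pi_apply_eq_sum_univ D.w x]
  apply Finset.sum_congr rfl
  intro i _
  rw [smul_eq_mul, single_eq]

theorem wA_pt (z : K) (x : Fin m → ℝ) :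
    D.wA (D.pt z x) = z * algebraMap ℝ K (D.w D.e) - algebraMap ℝ K (D.w x) := by
  unfold wA pt
  rw [D.w_expand x, D.w_expand D.e, map_sum, map_sum, Finset.mul_sum,
    ← Finset.sum_sub_distrib]
  apply Finset.sum_congr rfl
  intro i _
  rw [map_mul, map_mul]
  ring

theorem Xi_expand (X Y : Matrix (Fin n) (Fin d) ℝ) :
    D.Xi X Y = ∑ i, ∑ a, ∑ j, ∑ b, D.Xi (Matrix.single i a 1) (Matrix.single j b 1)
      * (X i a * Y j b) := by
  conv_lhs => rw [Matrix.matrix_eq_sum_single X, Matrix.matrix_eq_sum_single Y]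
  rw [LinearMap.map_sum₂]
  refine Finset.sum_congr rfl fun i _ => ?_
  rw [LinearMap.map_sum₂]
  refine Finset.sum_congr rfl fun a _ => ?_
  rw [map_sum]
  refine Finset.sum_congr rfl fun j _ => ?_
  rw [map_sum]
  refine Finset.sum_congr rfl fun b _ => ?_
  have h1 : Matrix.single i a (X i a) = (X i a) • Matrix.single i a (1 : ℝ) := by
    rw [Matrix.smul_single, smul_eq_mul, mul_one]
  have h2 : Matrix.single j b (Y j b) = (Y j b) • Matrix.single j b (1 : ℝ) := by
    rw [Matrix.smul_single, smul_eq_mul, mul_one]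
  rw [h1, h2, map_smul, map_smul, LinearMap.smul_apply, smul_eq_mul, smul_eq_mul]
  ring

/-- `XiA` polarised, as a bilinear map. -/
noncomputable def XiB (K : Type*) [Field K] [Algebra ℝ K] :
    Matrix (Fin n) (Fin d) K →ₗ[K] Matrix (Fin n) (Fin d) K →ₗ[K] K :=
  LinearMap.mk₂ K (fun Y Z => ∑ i, ∑ a, ∑ j, ∑ b,
      algebraMap ℝ K (D.Xi (Matrix.single i a 1) (Matrix.single j b 1)) * (Y i a * Z j b))
    (by intro Y Y' Z
        simp only [Matrix.add_apply, add_mul, mul_add, Finset.sum_add_distrib])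
    (by intro c Y Z
        simp only [Matrix.smul_apply, smul_eq_mul, Finset.mul_sum]
        refine Finset.sum_congr rfl fun i _ => Finset.sum_congr rfl fun a _ =>
          Finset.sum_congr rfl fun j _ => Finset.sum_congr rfl fun b _ => ?_
        ring)
    (by intro Y Z Z'
        simp only [Matrix.add_apply, mul_add, Finset.sum_add_distrib])
    (by intro c Y Z
        simp only [Matrix.smul_apply, smul_eq_mul, Finset.mul_sum]
        refine Finset.sum_congr rfl fun i _ => Finset.sum_congr rfl fun a _ =>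
          Finset.sum_congr rfl fun j _ => Finset.sum_congr rfl fun b _ => ?_
        ring)

theorem XiA_eq_XiB (Y : Matrix (Fin n) (Fin d) K) : D.XiA Y = D.XiB K Y Y := rfl

theorem XiB_map (X Y : Matrix (Fin n) (Fin d) ℝ) :
    D.XiB K (X.map (algebraMap ℝ K)) (Y.map (algebraMap ℝ K)) = algebraMap ℝ K (D.Xi X Y) := by
  rw [D.Xi_expand]
  simp only [map_sum, map_mul]
  rfl

/-- `XiA` of a linear combination of real matrices. -/
theorem XiA_comb {I : Type*} [Fintype I] (c : I → K) (X : I → Matrix (Fin n) (Fin d) ℝ) :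
    D.XiA (∑ k, c k • (X k).map (algebraMap ℝ K)) =
      ∑ k, ∑ l, c k * c l * algebraMap ℝ K (D.Xi (X k) (X l)) := by
  rw [XiA_eq_XiB, LinearMap.map_sum₂]
  refine Finset.sum_congr rfl fun k _ => ?_
  rw [map_sum]
  refine Finset.sum_congr rfl fun l _ => ?_
  rw [map_smul, map_smul, LinearMap.smul_apply, XiB_map, smul_eq_mul, smul_eq_mul]
  ring

end field

end HData

end Crest.Agent.R237
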