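import Crest.Agent.R237.Hyp4

/-!
Row 237 (S0367): abstract hyperbolicity of module cones, part 5: the description of the closed
cone.
-/

set_option autoImplicit false
set_option linter.unusedSectionVars false

namespace Crest.Agent.R237.Hyp

open Matrix Crest.GeometryTopology

theorem eval_smul_homog {σ : Type*} {F : MvPolynomial σ ℝ} {n : ℕ} (hF : F.IsHomogeneous n)
    (r : ℝ) (x : σ → ℝ) : MvPolynomial.eval (r • x) F = r ^ n * MvPolynomial.eval x F := by
  rw [MvPolynomial.eval_eq, MvPolynomial.eval_eq, Finset.mul_sum]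
  refine Finset.sum_congr rfl fun d hd => ?_
  have hd' : ∑ i ∈ d.support, d i = n := by
    have := hF (MvPolynomial.mem_support_iff.mp hd)
    rw [Finsupp.weight_apply] at this
    simpa [Finsupp.sum] using this
  have : ∏ i ∈ d.support, (r • x) i ^ d i = r ^ n * ∏ i ∈ d.support, x i ^ d i := by
    simp only [Pi.smul_apply, smul_eq_mul, mul_pow, Finset.prod_mul_distrib]
    congr 1
    rw [Finset.prod_pow_eq_pow_sum, ← hd']
  rw [this]; ring

namespace Dat

variable {M : ℕ} {ι κ : Type*} [Fintype ι] [DecidableEq ι] [Fintype κ] {D : Dat M ι κ}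

/-- the open cone -/
def Op (D : Dat M ι κ) : Set (Fin M → ℝ) := {x | (D.A x).PosDef ∧ 0 < D.T x}

theorem posDef_add {x y : Fin M → ℝ} (hx : (D.A x).PosDef) (hy : (D.A y).PosDef) :
    (D.A (x + y)).PosDef := by rw [map_add]; exact hx.add hy

theorem posDef_smul {x : Fin M → ℝ} (hx : (D.A x).PosDef) {r : ℝ} (hr : 0 < r) :
    (D.A (r • x)).PosDef := by rw [map_smul]; exact hx.smul hr

/-- superadditivity of `T` -/
theorem T_add (hR : D.RES) {x y : Fin M → ℝ} (hx : (D.A x).PosDef) (hy : (D.A y).PosDef) :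
    D.T x + D.T y ≤ D.T (x + y) := by
  have h := T_conc hR (L := (2:ℝ) • x) (X := (2:ℝ) • y - (2:ℝ) • x) (posDef_smul hx two_pos)
    (by rw [add_sub_cancel]; exact posDef_smul hy two_pos) (t := 1/2) (by norm_num) (by norm_num)
  rw [add_sub_cancel, T_smul hx 2 (by norm_num), T_smul hy 2 (by norm_num)] at h
  have e : (2:ℝ) • x + (1/2 : ℝ) • ((2:ℝ) • y - (2:ℝ) • x) = x + y := by
    rw [smul_sub, smul_smul, smul_smul]; norm_num
    rw [two_smul]; abel
  rw [e] at h
  linarith

theorem Op_add (hR : D.RES) {x y : Fin M → ℝ} (hx : x ∈ D.Op) (hy : y ∈ D.Op) :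
    x + y ∈ D.Op :=
  ⟨posDef_add hx.1 hy.1, by have := T_add hR hx.1 hy.1; linarith [hx.2, hy.2]⟩

theorem Op_smul {x : Fin M → ℝ} (hx : x ∈ D.Op) {r : ℝ} (hr : 0 < r) : r • x ∈ D.Op :=
  ⟨posDef_smul hx.1 hr, by rw [T_smul hx.1 r hr.ne']; exact mul_pos hr hx.2⟩

theorem isOpen_Op : IsOpen D.Op := by
  rw [isOpen_iff_mem_nhds]
  intro x hx
  have h1 : ∀ᶠ y in nhds x, (D.A y).PosDef := isOpen_posDef.mem_nhds hx.1
  have h2 : ∀ᶠ y in nhds x, 0 < D.T y :=
    (continuousAt_T hx.1.det_pos.ne').eventually (lt_mem_nhds hx.2)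
  exact h1.and h2

theorem mem_closedCone_of {e x : Fin M → ℝ}
    (h : ∀ s : ℝ, 0 < s → x + s • e ∈ D.Op) : x ∈ Hyperbolic.closedCone D.poly e := by
  intro t ht
  by_contra hneg
  push Not at hneg
  have h1 := h (-t) (by linarith)
  have e1 : (fun i => t * e i - x i) = (-1 : ℝ) • (x + (-t) • e) := by
    funext i; simp; ring
  rw [e1, eval_smul_homog D.poly_isHomogeneous, eval_poly_eq D h1.1.det_pos.ne'] at ht
  have h2 := mul_pos h1.1.det_pos h1.2
  rcases mul_eq_zero.mp ht with h3 | h3
  · exact absurd h3 (pow_ne_zero _ (by norm_num))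
  · linarith

theorem of_mem_closedCone (hR : D.RES) {e x : Fin M → ℝ} (he : e ∈ D.Op)
    (hx : x ∈ Hyperbolic.closedCone D.poly e) {s : ℝ} (hs : 0 < s) : x + s • e ∈ D.Op := by
  obtain ⟨G, μ, h1, h2⟩ := sim_diag he.1 (D.hA x)
  have hp : ∀ s : ℝ, 0 < s → MvPolynomial.eval (x + s • e) D.poly ≠ 0 := by
    intro s hs h0
    have e1 : (fun i => (-s) * e i - x i) = (-1 : ℝ) • (x + s • e) := by
      funext i; simp; ring
    have := hx (-s) (by rw [e1, eval_smul_homog D.poly_isHomogeneous, h0, mul_zero])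
    linarith
  have hA : ∀ s : ℝ, (D.A (x + s • e)).PosDef ↔ ∀ j, 0 < s + μ j := by
    intro s
    have := mu_pos_iff h1 h2 s 1
    rw [one_smul, add_comm] at this
    simpa using this
  -- positivity of `T` on a half line where `A > 0`
  have hTpos : ∀ s0 : ℝ, 0 ≤ s0 → (∀ s, s0 < s → (D.A (x + s • e)).PosDef) →
      ∀ s, s0 < s → 0 < D.T (x + s • e) := by
    intro s0 hs0 hpd s hs
    by_contra hcon
    push Not at hcon
    -- for large r, T > 0
    have hlim : Filter.Tendsto (fun r : ℝ => D.T (e + r • x)) (nhds 0) (nhds (D.T e)) := by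
      have c1 : ContinuousAt (fun r : ℝ => D.T (e + r • x)) 0 := by
        have : ContinuousAt D.T (e + (0:ℝ) • x) := by
          rw [zero_smul, add_zero]; exact continuousAt_T he.1.det_pos.ne'
        exact ContinuousAt.comp (g := D.T) this (by fun_prop)
      have := c1.tendsto
      simpa using this
    have hev : ∀ᶠ r : ℝ in nhds 0, 0 < D.T (e + r • x) := hlim.eventually (lt_mem_nhds he.2)
    obtain ⟨δ, hδ, hball⟩ := Metric.eventually_nhds_iff.mp hev
    set R := max (s + 1) (1 + 1 / δ) with hRdef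
    have hRs : s < R := by have := le_max_left (s+1) (1 + 1/δ); linarith
    have hRpos : 0 < R := by linarith
    have hRδ : 1 / δ < R := by have := le_max_right (s+1) (1 + 1/δ); linarith
    have hTR : 0 < D.T (x + R • e) := by
      have hb := hball (y := R⁻¹) (by
        rw [dist_zero_right, Real.norm_eq_abs, abs_of_pos (inv_pos.mpr hRpos)]
        rw [inv_lt_comm₀ hRpos hδ, ← one_div]; exact hRδ)
      have hpd' : (D.A (e + R⁻¹ • x)).PosDef := by
        have := posDef_smul (hpd R (by linarith)) (inv_pos.mpr hRpos)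
        have e3 : R⁻¹ • (x + R • e) = e + R⁻¹ • x := by
          rw [smul_add, smul_smul, inv_mul_cancel₀ hRpos.ne', one_smul, add_comm]
        rwa [e3] at this
      have e2 : x + R • e = R • (e + R⁻¹ • x) := by
        rw [smul_add, smul_smul, mul_inv_cancel₀ hRpos.ne', one_smul, add_comm]
      rw [e2, T_smul hpd' R hRpos.ne']
      exact mul_pos hRpos hb
    -- IVT
    have hc : ContinuousOn (fun r : ℝ => D.T (x + r • e)) (Set.Icc s R) := by
      intro r hr
      have h3 : (D.A (x + r • e)).PosDef := hpd r (by linarith [hr.1])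
      have h4 : ContinuousAt (fun r : ℝ => D.T (x + r • e)) r :=
        ContinuousAt.comp (g := D.T) (f := fun r : ℝ => x + r • e)
          (continuousAt_T h3.det_pos.ne') (by fun_prop)
      exact h4.continuousWithinAt
    obtain ⟨r, hr, hr0⟩ := intermediate_value_Icc hRs.le hc
      (show (0:ℝ) ∈ Set.Icc (D.T (x + s • e)) (D.T (x + R • e)) from ⟨hcon, hTR.le⟩)
    have hpr : (D.A (x + r • e)).PosDef := hpd r (by linarith [hr.1])
    apply hp r (by linarith [hr.1])
    have hr0' : D.T (x + r • e) = 0 := hr0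
    rw [eval_poly_eq D hpr.det_pos.ne', hr0', mul_zero]
  -- all `μ j ≥ 0`
  have hμ : ∀ j, 0 ≤ μ j := by
    by_contra hcon
    push Not at hcon
    obtain ⟨j1, hj1⟩ := hcon
    obtain ⟨j0, -, hj0⟩ := Finset.exists_min_image Finset.univ μ ⟨j1, Finset.mem_univ _⟩
    have hneg : μ j0 < 0 := lt_of_le_of_lt (hj0 j1 (Finset.mem_univ _)) hj1
    set s0 := - μ j0 with hs0
    have hs0pos : 0 < s0 := by linarith
    have hpd : ∀ s, s0 < s → (D.A (x + s • e)).PosDef := fun s hs =>
      (hA s).mpr fun j => by have := hj0 j (Finset.mem_univ _); linarith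
    have hT := hTpos s0 hs0pos.le hpd
    -- T is bounded above near s0
    have hbd : ∀ s, s0 < s → s ≤ s0 + 1 → D.T (x + s • e) ≤
        D.T (x + (s0 + 1) • e) := by
      intro s hs hs1
      have e2 : x + (s0 + 1) • e = (x + s • e) + (s0 + 1 - s) • e := by
        rw [add_assoc, ← add_smul]; congr 2; ring
      rcases eq_or_lt_of_le hs1 with h | h
      · rw [h]
      · have hpos : 0 < s0 + 1 - s := by linarith
        rw [e2]
        have := T_add hR (hpd s hs) (posDef_smul he.1 hpos)
        rw [T_smul he.1 _ hpos.ne'] at this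
        have h4 := mul_pos hpos he.2
        linarith
    -- p(x + s e) → 0
    have hdet : ∀ s : ℝ, (D.A (x + s • e)).det = (D.A e).det * ∏ j, (s + μ j) := by
      intro s
      have := det_AR (F := ℝ) h1 h2 s 1
      rw [pt_real, AR_real, one_smul, add_comm] at this
      simpa using this
    have hpcont : Continuous fun s : ℝ => MvPolynomial.eval (x + s • e) D.poly :=
      (MvPolynomial.continuous_eval _).comp (by fun_prop)
    have hp0 : MvPolynomial.eval (x + s0 • e) D.poly = 0 := by
      have htend : Filter.Tendsto (fun s : ℝ => MvPolynomial.eval (x + s • e) D.poly)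
          (nhdsWithin s0 (Set.Ioi s0)) (nhds (MvPolynomial.eval (x + s0 • e) D.poly)) :=
        (hpcont.tendsto s0).mono_left nhdsWithin_le_nhds
      have htend2 : Filter.Tendsto (fun s : ℝ => MvPolynomial.eval (x + s • e) D.poly)
          (nhdsWithin s0 (Set.Ioi s0)) (nhds 0) := by
        have hup : Filter.Tendsto (fun s : ℝ => ((D.A e).det * ∏ j, (s + μ j)) *
            D.T (x + (s0 + 1) • e)) (nhdsWithin s0 (Set.Ioi s0)) (nhds 0) := by
          have hc : Continuous fun s : ℝ => ((D.A e).det * ∏ j, (s + μ j)) *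
            D.T (x + (s0 + 1) • e) := by fun_prop
          have := (hc.tendsto s0).mono_left (nhdsWithin_le_nhds (s := Set.Ioi s0))
          have hz : ((D.A e).det * ∏ j, (s0 + μ j)) * D.T (x + (s0 + 1) • e) = 0 := by
            rw [Finset.prod_eq_zero (Finset.mem_univ j0) (by rw [hs0]; ring)]
            ring
          rwa [hz] at this
        refine tendsto_of_tendsto_of_tendsto_of_le_of_le' tendsto_const_nhds hup ?_ ?_
        · filter_upwards [self_mem_nhdsWithin] with s hs
          rw [eval_poly_eq D (hpd s hs).det_pos.ne']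
          exact (mul_pos (hpd s hs).det_pos (hT s hs)).le
        · have : Set.Ioc s0 (s0 + 1) ∈ nhdsWithin s0 (Set.Ioi s0) :=
            Ioc_mem_nhdsGT (by linarith)
          filter_upwards [this] with s hs
          rw [eval_poly_eq D (hpd s hs.1).det_pos.ne', ← hdet]
          exact mul_le_mul_of_nonneg_left (hbd s hs.1 hs.2) (hpd s hs.1).det_pos.le
      exact tendsto_nhds_unique htend htend2
    exact hp s0 hs0pos hp0
  have hpd : ∀ s : ℝ, 0 < s → (D.A (x + s • e)).PosDef := fun s hs =>
    (hA s).mpr fun j => by have := hμ j; linarith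
  exact ⟨hpd s hs, hTpos 0 le_rfl hpd s hs⟩

theorem mem_closedCone_iff (hR : D.RES) {e : Fin M → ℝ} (he : e ∈ D.Op) (x : Fin M → ℝ) :
    x ∈ Hyperbolic.closedCone D.poly e ↔ ∀ s : ℝ, 0 < s → x + s • e ∈ D.Op :=
  ⟨fun h _ hs => of_mem_closedCone hR he h hs, mem_closedCone_of⟩

theorem Op_subset_closedCone (hR : D.RES) {e : Fin M → ℝ} (he : e ∈ D.Op) :
    D.Op ⊆ Hyperbolic.closedCone D.poly e := fun _ hx =>
  mem_closedCone_of fun _ hs => Op_add hR hx (Op_smul he hs)

/-- the closed hyperbolicity cone is the closure of `{A > 0, T > 0}` -/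
theorem closedCone_eq (hR : D.RES) {e : Fin M → ℝ} (he : e ∈ D.Op) :
    Hyperbolic.closedCone D.poly e = closure D.Op := by
  apply Set.Subset.antisymm
  · intro x hx
    have hc : Filter.Tendsto (fun s : ℝ => x + s • e) (nhdsWithin 0 (Set.Ioi 0)) (nhds x) := by
      have : Continuous fun s : ℝ => x + s • e := by fun_prop
      have := (this.tendsto 0).mono_left (nhdsWithin_le_nhds (s := Set.Ioi 0))
      simpa using this
    refine mem_closure_of_tendsto hc ?_
    filter_upwards [self_mem_nhdsWithin] with s hs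
    exact of_mem_closedCone hR he hx hs
  · intro x hx
    refine mem_closedCone_of fun s hs => ?_
    -- `y ∈ Op` close to `x` with `x + s e - y ∈ Op`
    have h1 : s • e ∈ D.Op := Op_smul he hs
    have h2 : ∀ᶠ y in nhds x, (x + s • e) - y ∈ D.Op := by
      have hc : ContinuousAt (fun y : Fin M → ℝ => (x + s • e) - y) x := by fun_prop
      apply hc.eventually
      have h3 : x + s • e - x = s • e := by abel
      show D.Op ∈ nhds (x + s • e - x)
      rw [h3]
      exact isOpen_Op.mem_nhds h1
    obtain ⟨y, hy1, hy2⟩ := (mem_closure_iff_nhds.mp hx) _ h2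
    have := Op_add hR hy2 hy1
    rwa [add_sub_cancel] at this

theorem convex_Op (hR : D.RES) : Convex ℝ D.Op := by
  intro x hx y hy a b ha hb hab
  rcases eq_or_lt_of_le ha with h | h
  · subst h
    have : b = 1 := by linarith
    subst this; simpa using hy
  · rcases eq_or_lt_of_le hb with h' | h'
    · subst h'
      have : a = 1 := by linarith
      subst this; simpa using hx
    · exact Op_add hR (Op_smul hx h) (Op_smul hy h')

theorem convex_closedCone (hR : D.RES) {e : Fin M → ℝ} (he : e ∈ D.Op) :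
    Convex ℝ (Hyperbolic.closedCone D.poly e) := by
  rw [closedCone_eq hR he]; exact (convex_Op hR).closure

theorem isClosed_closedCone (hR : D.RES) {e : Fin M → ℝ} (he : e ∈ D.Op) :
    IsClosed (Hyperbolic.closedCone D.poly e) := by
  rw [closedCone_eq hR he]; exact isClosed_closure

/-- points with `A > 0`, `T < 0` are not in the cone -/
theorem notMem_closedCone (hR : D.RES) {e x : Fin M → ℝ} (he : e ∈ D.Op)
    (hx : (D.A x).PosDef) (hT : D.T x < 0) : x ∉ Hyperbolic.closedCone D.poly e := by
  intro h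
  have hc : Filter.Tendsto (fun s : ℝ => D.T (x + s • e)) (nhdsWithin 0 (Set.Ioi 0))
      (nhds (D.T x)) := by
    have c1 : ContinuousAt (fun s : ℝ => D.T (x + s • e)) 0 := by
      have : ContinuousAt D.T (x + (0:ℝ) • e) := by
        rw [zero_smul, add_zero]; exact continuousAt_T hx.det_pos.ne'
      exact ContinuousAt.comp (g := D.T) this (by fun_prop)
    have := c1.tendsto.mono_left (nhdsWithin_le_nhds (s := Set.Ioi 0))
    simpa using this
  have : 0 ≤ D.T x := by
    refine ge_of_tendsto hc ?_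
    filter_upwards [self_mem_nhdsWithin] with s hs
    exact (of_mem_closedCone hR he h hs).2.le
  linarith

/-- membership from the ray `e + s x` -/
theorem mem_closedCone_of_ray {e x : Fin M → ℝ}
    (h : ∀ s : ℝ, 0 < s → e + s • x ∈ D.Op) : x ∈ Hyperbolic.closedCone D.poly e := by
  refine mem_closedCone_of fun s hs => ?_
  have := Op_smul (h s⁻¹ (inv_pos.mpr hs)) hs
  have e1 : s • (e + s⁻¹ • x) = x + s • e := by
    rw [smul_add, smul_smul, mul_inv_cancel₀ hs.ne', one_smul, add_comm]
  rwa [e1] at this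

/-- the interior is nonempty -/
theorem interior_closedCone_nonempty (hR : D.RES) {e : Fin M → ℝ} (he : e ∈ D.Op) :
    e ∈ interior (Hyperbolic.closedCone D.poly e) :=
  interior_mono (Op_subset_closedCone hR he) (by rwa [isOpen_Op.interior_eq])

/-- the cone does not depend on `e ∈ Op` -/
theorem closedCone_eq' (hR : D.RES) {e e' : Fin M → ℝ} (he : e ∈ D.Op) (he' : e' ∈ D.Op) :
    Hyperbolic.closedCone D.poly e = Hyperbolic.closedCone D.poly e' := by
  rw [closedCone_eq hR he, closedCone_eq hR he']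

end Dat

end Crest.Agent.R237.Hyp
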