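import Crest.Agent.R237.HData
import Crest.Agent.R237.Hyp5

/-!
Row 237 (S0367): the polynomial part of Theorem H for `HData` (helper663).
-/

set_option autoImplicit false
set_option linter.unusedSectionVars false
set_option linter.unusedVariables false

namespace Crest.Agent.R237

open Matrix Crest.GeometryTopology

section lowTr
variable {n : ℕ} {R : Type*}

theorem lowTr_smul [CommRing R] (r : R) (A : Matrix (Fin (n + 1)) (Fin (n + 1)) R) :
    lowTr (r • A) = r * lowTr A := by
  simp [lowTr, Finset.mul_sum]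

theorem lowTr_map {S : Type*} [CommRing R] [CommRing S] (f : R →+* S)
    (A : Matrix (Fin (n + 1)) (Fin (n + 1)) R) : lowTr (A.map f) = f (lowTr A) := by
  simp [lowTr]

end lowTr

namespace HData

variable {m n d : ℕ} (D : HData m n d)

/-! ### P1 -/

section alg
variable {A B : Type*} [CommRing A] [Algebra ℝ A] [CommRing B] [Algebra ℝ B]

theorem map_MA (f : A →ₐ[ℝ] B) (z : Fin m → A) : (D.MA z).map f = D.MA (fun i => f (z i)) := by
  ext i j; simp [MA]

theorem map_TA (f : A →ₐ[ℝ] B) (z : Fin m → A) : (D.TA z).map f = D.TA (fun i => f (z i)) := by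
  ext i j; simp [TA]

theorem map_wA (f : A →ₐ[ℝ] B) (z : Fin m → A) : f (D.wA z) = D.wA (fun i => f (z i)) := by
  simp [wA]

theorem map_XiA (f : A →ₐ[ℝ] B) (Y : Matrix (Fin n) (Fin d) A) :
    f (D.XiA Y) = D.XiA (Y.map f) := by
  simp [XiA]

theorem map_adj (f : A →ₐ[ℝ] B) {k : ℕ} (Y : Matrix (Fin k) (Fin k) A) :
    Y.adjugate.map f = (Y.map f).adjugate := by
  have := RingHom.map_adjugate f.toRingHom Y
  simpa [RingHom.mapMatrix_apply] using this

theorem map_det' (f : A →ₐ[ℝ] B) {k : ℕ} (Y : Matrix (Fin k) (Fin k) A) :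
    f Y.det = (Y.map f).det := by
  have := RingHom.map_det f.toRingHom Y
  simpa [RingHom.mapMatrix_apply] using this

theorem map_tr (f : A →ₐ[ℝ] B) {k : ℕ} (Y : Matrix (Fin k) (Fin k) A) :
    f Y.trace = (Y.map f).trace := by
  simp [Matrix.trace, Matrix.diag]

theorem map_pA (f : A →ₐ[ℝ] B) (z : Fin m → A) : f (D.pA z) = D.pA (fun i => f (z i)) := by
  unfold pA
  have h1 : f (lowTr (D.MA z).adjugate) = lowTr (D.MA (fun i => f (z i))).adjugate := by
    rw [← map_MA, ← map_adj]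
    exact (lowTr_map f.toRingHom _).symm
  have h2 : f ((D.TA z)ᵀ * (D.MA z).adjugate * D.TA z).trace =
      ((D.TA (fun i => f (z i)))ᵀ * (D.MA (fun i => f (z i))).adjugate *
        D.TA (fun i => f (z i))).trace := by
    rw [← map_MA, ← map_TA, ← map_adj, ← transpose_map, ← Matrix.map_mul, ← Matrix.map_mul,
      map_tr]
  have h3 : f (D.XiA (((D.MA z).adjugate * D.TA z).submatrix Fin.succ id)) =
      D.XiA (((D.MA (fun i => f (z i))).adjugate * D.TA (fun i => f (z i))).submatrix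
        Fin.succ id) := by
    rw [map_XiA, ← map_MA, ← map_TA, ← map_adj, ← Matrix.map_mul]
    rfl
  rw [map_add, map_mul, map_mul, map_sub, map_mul, h1, h2, h3, map_wA, map_det', map_MA]
  simp

theorem aeval_p (z : Fin m → A) : MvPolynomial.aeval z D.p = D.pA z := by
  unfold p
  rw [map_pA]
  simp

end alg

theorem eval_p (x : Fin m → ℝ) : MvPolynomial.eval x D.p = D.pA x := by
  have := D.aeval_p x
  rwa [MvPolynomial.aeval_eq_eval] at this

/-! ### P2: homogeneity -/

theorem adj_isHomogeneous {σ : Type*} {k : ℕ}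
    (A : Matrix (Fin (k + 1)) (Fin (k + 1)) (MvPolynomial σ ℝ))
    (h : ∀ i j, (A i j).IsHomogeneous 1) (i j : Fin (k + 1)) :
    (A.adjugate i j).IsHomogeneous k := by
  have h0 : A.adjugate i j = (A.updateCol i (Pi.single j 1)).det := by
    rw [← Matrix.cramer_apply, Matrix.cramer_eq_adjugate_mulVec, Matrix.mulVec_single_one]
    rfl
  rw [h0]
  have h1 := Hyp.det_isHomogeneous (A.updateCol i (Pi.single j 1))
    (fun c => if c = i then 0 else 1) (by
      intro r c
      by_cases hc : c = i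
      · subst hc
        simp only [updateCol_self, if_true]
        by_cases hr : r = j
        · subst hr; simpa using MvPolynomial.isHomogeneous_one σ ℝ
        · rw [Pi.single_eq_of_ne hr]; exact MvPolynomial.isHomogeneous_zero σ ℝ 0
      · simp only [updateCol_ne hc, if_neg hc]
        exact h _ _)
  have h4 : (Finset.univ.filter (fun c : Fin (k + 1) => ¬ c = i)).card = k := by
    rw [Finset.filter_ne' Finset.univ i, Finset.card_erase_of_mem (Finset.mem_univ _),
      Finset.card_univ, Fintype.card_fin]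
    rfl
  have hs : ∑ c : Fin (k + 1), (if c = i then 0 else 1) = k := by
    rw [Finset.sum_ite]
    simp only [Finset.sum_const, smul_eq_mul, mul_one, mul_zero, h4, zero_add]
  rwa [hs] at h1

theorem p_homog : D.p.IsHomogeneous (2 * n + 2) := by
  unfold p pA
  set X : Fin m → MvPolynomial (Fin m) ℝ := fun i => MvPolynomial.X i with hX
  have hM : ∀ i j, (D.MA X i j).IsHomogeneous 1 := fun i j => Hyp.Dat.lin_isHomogeneous _
  have hT : ∀ i j, (D.TA X i j).IsHomogeneous 1 := fun i j => Hyp.Dat.lin_isHomogeneous _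
  have hw : (D.wA X).IsHomogeneous 1 := Hyp.Dat.lin_isHomogeneous _
  have hadj := adj_isHomogeneous (D.MA X) hM
  have hadjT : ∀ i j, (((D.MA X).adjugate * D.TA X) i j).IsHomogeneous (n + 1) := by
    intro i j
    rw [Matrix.mul_apply]
    exact MvPolynomial.IsHomogeneous.sum _ _ _ fun l _ => (hadj i l).mul (hT l j)
  have hlow : (lowTr (D.MA X).adjugate).IsHomogeneous n :=
    MvPolynomial.IsHomogeneous.sum _ _ _ fun i _ => hadj _ _
  have hdet : (D.MA X).det.IsHomogeneous (n + 1) := by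
    have h1 := Hyp.det_isHomogeneous (D.MA X) (fun _ => 1) hM
    simpa using h1
  have htr : ((D.TA X)ᵀ * (D.MA X).adjugate * D.TA X).trace.IsHomogeneous (n + 2) := by
    rw [Matrix.mul_assoc, Matrix.trace]
    refine MvPolynomial.IsHomogeneous.sum _ _ _ fun a _ => ?_
    rw [Matrix.diag_apply, Matrix.mul_apply]
    refine MvPolynomial.IsHomogeneous.sum _ _ _ fun l _ => ?_
    have := (hT l a).mul (hadjT l a)
    rw [show n + 2 = 1 + (n + 1) from by ring]
    exact this
  refine MvPolynomial.IsHomogeneous.add ?_ ?_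
  · have h1 : (algebraMap ℝ (MvPolynomial (Fin m) ℝ) D.phi * lowTr (D.MA X).adjugate).IsHomogeneous
        (0 + n) := (MvPolynomial.isHomogeneous_C (Fin m) D.phi).mul hlow
    have h2 : ((D.MA X).det * D.wA X - ((D.TA X)ᵀ * (D.MA X).adjugate * D.TA X).trace).IsHomogeneous
        (n + 2) := (hdet.mul hw).sub htr
    rw [show 2 * n + 2 = (0 + n) + (n + 2) from by ring]
    exact h1.mul h2
  · unfold XiA
    refine MvPolynomial.IsHomogeneous.sum _ _ _ fun i _ => ?_
    refine MvPolynomial.IsHomogeneous.sum _ _ _ fun a _ => ?_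
    refine MvPolynomial.IsHomogeneous.sum _ _ _ fun j _ => ?_
    refine MvPolynomial.IsHomogeneous.sum _ _ _ fun b _ => ?_
    have h1 := (MvPolynomial.isHomogeneous_C (Fin m)
      (D.Xi (Matrix.single i a 1) (Matrix.single j b 1))).mul
      ((hadjT i.succ a).mul (hadjT j.succ b))
    rw [show 2 * n + 2 = 0 + ((n + 1) + (n + 1)) from by ring]
    exact h1

/-! ### P3: real values -/

theorem MA_real (x : Fin m → ℝ) : D.MA x = D.M x := by
  ext i j
  rw [Hyp.Dat.lin_apply D.M x]
  simp [MA, Matrix.sum_apply]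

theorem TA_real (x : Fin m → ℝ) : D.TA x = D.T x := by
  ext i j
  rw [Hyp.Dat.lin_apply D.T x]
  simp [TA, Matrix.sum_apply]

theorem wA_real (x : Fin m → ℝ) : D.wA x = D.w x := by
  rw [Hyp.Dat.lin_apply D.w x]
  simp [wA]

theorem mat_sum (Y : Matrix (Fin n) (Fin d) ℝ) :
    Y = ∑ i, ∑ a, Y i a • Matrix.single i a (1 : ℝ) := by
  conv_lhs => rw [Matrix.matrix_eq_sum_single Y]
  refine Finset.sum_congr rfl fun i _ => Finset.sum_congr rfl fun a _ => ?_
  rw [Matrix.smul_single, smul_eq_mul, mul_one]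

theorem XiA_real (Y : Matrix (Fin n) (Fin d) ℝ) : D.XiA Y = D.Xi Y Y := by
  have h1 : ∀ Z : Matrix (Fin n) (Fin d) ℝ,
      D.Xi Y Z = ∑ i, ∑ a, Y i a * D.Xi (Matrix.single i a 1) Z := by
    intro Z
    conv_lhs => rw [mat_sum Y]
    simp only [map_sum, LinearMap.sum_apply, map_smul, LinearMap.smul_apply, smul_eq_mul]
  have h2 : ∀ Z : Matrix (Fin n) (Fin d) ℝ,
      D.Xi Z Y = ∑ j, ∑ b, Y j b * D.Xi Z (Matrix.single j b 1) := by
    intro Z
    conv_lhs => rw [mat_sum Y]
    simp only [map_sum, map_smul, smul_eq_mul]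
  rw [h1]
  simp only [XiA, Algebra.algebraMap_self, RingHom.id_apply]
  refine Finset.sum_congr rfl fun i _ => Finset.sum_congr rfl fun a _ => ?_
  rw [h2, Finset.mul_sum]
  refine Finset.sum_congr rfl fun j _ => ?_
  rw [Finset.mul_sum]
  refine Finset.sum_congr rfl fun b _ => by ring

theorem XiA_smul {A : Type*} [CommRing A] [Algebra ℝ A] (r : A) (Y : Matrix (Fin n) (Fin d) A) :
    D.XiA (r • Y) = r ^ 2 * D.XiA Y := by
  simp only [XiA, Finset.mul_sum, Matrix.smul_apply, smul_eq_mul]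
  refine Finset.sum_congr rfl fun i _ => Finset.sum_congr rfl fun a _ =>
    Finset.sum_congr rfl fun j _ => Finset.sum_congr rfl fun b _ => by ring

theorem adj_eq {K : Type*} [Field K] {k : ℕ} {A : Matrix (Fin k) (Fin k) K} (h : A.det ≠ 0) :
    A.adjugate = A.det • A⁻¹ := by
  rw [Matrix.inv_def, smul_smul, Ring.mul_inverse_cancel _ (isUnit_iff_ne_zero.mpr h), one_smul]

/-- the polynomial through the rational function, over any field. -/
theorem pA_eq_field {K : Type*} [Field K] [Algebra ℝ K] (z : Fin m → K)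
    (hdet : (D.MA z).det ≠ 0) (htr : lowTr (D.MA z)⁻¹ ≠ 0) :
    D.pA z = (D.MA z).det ^ 2 * lowTr (D.MA z)⁻¹ *
      (algebraMap ℝ K D.phi * (D.wA z - ((D.TA z)ᵀ * (D.MA z)⁻¹ * D.TA z).trace) +
        D.XiA (((D.MA z)⁻¹ * D.TA z).submatrix Fin.succ id) / lowTr (D.MA z)⁻¹) := by
  unfold pA
  rw [adj_eq hdet, lowTr_smul]
  have h1 : ((D.TA z)ᵀ * ((D.MA z).det • (D.MA z)⁻¹) * D.TA z).trace =
      (D.MA z).det * ((D.TA z)ᵀ * (D.MA z)⁻¹ * D.TA z).trace := by
    rw [Matrix.mul_smul, Matrix.smul_mul, trace_smul, smul_eq_mul]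
  have h2 : ((D.MA z).det • (D.MA z)⁻¹ * D.TA z).submatrix Fin.succ id =
      (D.MA z).det • ((D.MA z)⁻¹ * D.TA z).submatrix Fin.succ id := by
    rw [Matrix.smul_mul]; rfl
  rw [h1, h2, XiA_smul]
  field_simp

/-- without assuming the lower trace nonzero -/
theorem pA_eq_field' {K : Type*} [Field K] [Algebra ℝ K] (z : Fin m → K)
    (hdet : (D.MA z).det ≠ 0) :
    D.pA z = (D.MA z).det ^ 2 *
      (algebraMap ℝ K D.phi * lowTr (D.MA z)⁻¹ *
        (D.wA z - ((D.TA z)ᵀ * (D.MA z)⁻¹ * D.TA z).trace) +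
        D.XiA (((D.MA z)⁻¹ * D.TA z).submatrix Fin.succ id)) := by
  unfold pA
  rw [adj_eq hdet, lowTr_smul]
  have h1 : ((D.TA z)ᵀ * ((D.MA z).det • (D.MA z)⁻¹) * D.TA z).trace =
      (D.MA z).det * ((D.TA z)ᵀ * (D.MA z)⁻¹ * D.TA z).trace := by
    rw [Matrix.mul_smul, Matrix.smul_mul, trace_smul, smul_eq_mul]
  have h2 : ((D.MA z).det • (D.MA z)⁻¹ * D.TA z).submatrix Fin.succ id =
      (D.MA z).det • ((D.MA z)⁻¹ * D.TA z).submatrix Fin.succ id := by
    rw [Matrix.smul_mul]; rfl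
  rw [h1, h2, XiA_smul]
  ring

theorem pA_eq (x : Fin m → ℝ) (hdet : (D.M x).det ≠ 0) (htr : lowTr (D.M x)⁻¹ ≠ 0) :
    D.pA x = (D.M x).det ^ 2 * lowTr (D.M x)⁻¹ * D.F x := by
  have h := D.pA_eq_field x (by rwa [MA_real]) (by rwa [MA_real])
  rw [MA_real, TA_real, wA_real, XiA_real] at h
  rw [h, F, lin]
  simp

theorem lowTr_pos {A : Matrix (Fin (n + 1)) (Fin (n + 1)) ℝ} (hn : 0 < n) (h : A.PosDef) :
    0 < lowTr A := by
  unfold lowTr
  have : Nonempty (Fin n) := ⟨⟨0, hn⟩⟩
  exact Finset.sum_pos (fun i _ => h.diag_pos) Finset.univ_nonempty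

theorem lowTr_inv_pos {A : Matrix (Fin (n + 1)) (Fin (n + 1)) ℝ} (hn : 0 < n) (h : A.PosDef) :
    0 < lowTr A⁻¹ := lowTr_pos hn h.inv

theorem pA_eq_of_posDef (x : Fin m → ℝ) (h : (D.M x).PosDef) :
    MvPolynomial.eval x D.p = (D.M x).det ^ 2 * lowTr (D.M x)⁻¹ * D.F x := by
  rw [eval_p, pA_eq _ _ h.det_pos.ne' (lowTr_inv_pos D.n_pos h).ne']

/-! ### P4 -/

theorem F_e : D.F D.e = D.aa := by
  unfold F lin aa
  rw [D.M_e, inv_one, Matrix.mul_one, Matrix.one_mul]
  have h1 : (D.T D.e).submatrix Fin.succ id = (0 : Matrix (Fin n) (Fin d) ℝ) := by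
    ext i a; simpa using D.T_e i a
  have h2 : ((D.T D.e)ᵀ * D.T D.e).trace = ∑ a, (D.T D.e 0 a) ^ 2 := by
    simp only [Matrix.trace, Matrix.diag, Matrix.mul_apply, transpose_apply]
    refine Finset.sum_congr rfl fun a _ => ?_
    rw [Fin.sum_univ_succ]
    simp [D.T_e, sq]
  rw [h1, h2]
  simp

theorem posDef_e : (D.M D.e).PosDef := by rw [D.M_e]; exact Matrix.PosDef.one

theorem eval_e_pos : 0 < MvPolynomial.eval D.e D.p := by
  rw [pA_eq_of_posDef _ _ D.posDef_e, F_e]
  have h1 := D.posDef_e.det_pos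
  have h2 := lowTr_inv_pos D.n_pos D.posDef_e
  have h3 := D.aa_pos
  positivity

theorem eval_neg (x : Fin m → ℝ) : MvPolynomial.eval (-x) D.p = MvPolynomial.eval x D.p := by
  have h := Hyp.eval_smul_homog D.p_homog (-1) x
  rw [neg_one_smul] at h
  rw [h, show 2 * n + 2 = 2 * (n + 1) from by ring, pow_mul]
  simp

theorem isOpen_posDef : IsOpen {x : Fin m → ℝ | (D.M x).PosDef} := by
  let D' : Hyp.Dat m (Fin (n + 1)) (Fin (n + 1)) := ⟨D.M, D.M, D.w, 0, D.M_symm⟩
  exact Hyp.Dat.isOpen_posDef (D := D')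

theorem continuous_M : Continuous fun x => D.M x := LinearMap.continuous_of_finiteDimensional D.M

theorem continuousAt_F {x : Fin m → ℝ} (h : (D.M x).PosDef) : ContinuousAt D.F x := by
  have hp : Continuous fun x => MvPolynomial.eval x D.p := MvPolynomial.continuous_eval _
  have hdet : Continuous fun x => (D.M x).det := D.continuous_M.matrix_det
  have hadj : Continuous fun x => lowTr (D.M x).adjugate := by
    unfold lowTr
    exact continuous_finsetSum _ fun i _ => (D.continuous_M.matrix_adjugate).matrix_elem _ _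
  have hne : (D.M x).det * lowTr (D.M x).adjugate ≠ 0 := by
    rw [adj_eq h.det_pos.ne', lowTr_smul]
    have := h.det_pos; have := lowTr_inv_pos D.n_pos h
    positivity
  have h2 : ContinuousAt (fun x => MvPolynomial.eval x D.p /
      ((D.M x).det * lowTr (D.M x).adjugate)) x :=
    hp.continuousAt.div (hdet.mul hadj).continuousAt hne
  refine h2.congr ?_
  have hev : ∀ᶠ y in nhds x, (D.M y).PosDef := D.isOpen_posDef.mem_nhds h
  filter_upwards [hev] with y hy
  rw [pA_eq_of_posDef _ _ hy, adj_eq hy.det_pos.ne', lowTr_smul]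
  have h1 := hy.det_pos; have h2 := lowTr_inv_pos D.n_pos hy
  field_simp

theorem isOpen_K0 : IsOpen D.K0 := by
  rw [isOpen_iff_mem_nhds]
  intro x hx
  have h1 : ∀ᶠ y in nhds x, (D.M y).PosDef := D.isOpen_posDef.mem_nhds hx.1
  have h2 : ∀ᶠ y in nhds x, 0 < D.F y := (D.continuousAt_F hx.1).eventually (lt_mem_nhds hx.2)
  exact h1.and h2

end HData

end Crest.Agent.R237
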