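import Crest.Prelude.Def_Hyperbolic

/-!
Row 237 (S0367): abstract hyperbolicity of module cones, part 1: simultaneous diagonalisation,
the data `Dat`, the polynomial `poly`, the rational function `T`, and the partial fraction
formula.
-/

set_option autoImplicit false
set_option linter.unusedSectionVars false
set_option linter.unusedSimpArgs false

namespace Crest.Agent.R237.Hyp

open Matrix

theorem spec {n : Type*} [Fintype n] [DecidableEq n] {C : Matrix n n ℝ}
    (hC : C.IsSymm) :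
    ∃ (U : Matrix n n ℝ) (μ : n → ℝ), Uᵀ * U = 1 ∧ C = U * diagonal μ * Uᵀ ∧
      ∃ h : C.IsHermitian, μ = h.eigenvalues := by
  have hC'h : C.IsHermitian := by
    rw [Matrix.IsHermitian, conjTranspose_eq_transpose_of_trivial, hC.eq]
  have hsp := hC'h.spectral_theorem
  refine ⟨(hC'h.eigenvectorUnitary : Matrix n n ℝ), hC'h.eigenvalues, ?_, ?_, hC'h, rfl⟩
  · have := Unitary.coe_star_mul_self hC'h.eigenvectorUnitary
    rw [star_eq_conjTranspose, conjTranspose_eq_transpose_of_trivial] at this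
    exact this
  · rw [Unitary.conjStarAlgAut_apply, star_eq_conjTranspose,
      conjTranspose_eq_transpose_of_trivial] at hsp
    simpa [Function.comp_def] using hsp

theorem isSymm_of_posDef {n : Type*} [Fintype n] {A : Matrix n n ℝ} (hA : A.PosDef) :
    A.IsSymm := by
  have := hA.1
  rwa [Matrix.IsHermitian, conjTranspose_eq_transpose_of_trivial] at this

theorem sim_diag {n : Type*} [Fintype n] [DecidableEq n] {A C : Matrix n n ℝ}
    (hA : A.PosDef) (hC : C.IsSymm) :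
    ∃ (G : Matrix n n ℝ) (μ : n → ℝ), Gᵀ * A * G = 1 ∧ Gᵀ * C * G = diagonal μ := by
  classical
  have hAs : A.IsSymm := isSymm_of_posDef hA
  obtain ⟨U, d, hUU, hAU, hh, hd⟩ := spec hAs
  have hdpos : ∀ i, 0 < d i := by
    intro i; rw [hd]; exact Matrix.PosDef.eigenvalues_pos hA i
  set S : Matrix n n ℝ := diagonal (fun i => (Real.sqrt (d i))⁻¹) with hS
  have hSS : S * diagonal d * S = 1 := by
    rw [hS, diagonal_mul_diagonal, diagonal_mul_diagonal, ← diagonal_one]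
    congr 1; funext i
    have h1 : Real.sqrt (d i) ≠ 0 := (Real.sqrt_pos.mpr (hdpos i)).ne'
    have h2 : Real.sqrt (d i) * Real.sqrt (d i) = d i := Real.mul_self_sqrt (hdpos i).le
    field_simp
    nlinarith
  have hST : Sᵀ = S := by rw [hS, diagonal_transpose]
  set G1 : Matrix n n ℝ := U * S with hG1
  have hG1A : G1ᵀ * A * G1 = 1 := by
    rw [hG1, transpose_mul, hST]
    calc S * Uᵀ * A * (U * S) = S * Uᵀ * (U * diagonal d * Uᵀ) * (U * S) := by rw [← hAU]
      _ = S * (Uᵀ * U) * diagonal d * (Uᵀ * U) * S := by simp only [Matrix.mul_assoc]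
      _ = 1 := by rw [hUU, Matrix.mul_one, Matrix.mul_one, hSS]
  have hC1 : (G1ᵀ * C * G1).IsSymm := by
    rw [Matrix.IsSymm]
    simp only [transpose_mul, transpose_transpose, hC.eq, Matrix.mul_assoc]
  obtain ⟨V, μ, hVV, hCV, -⟩ := spec hC1
  refine ⟨G1 * V, μ, ?_, ?_⟩
  · rw [transpose_mul]
    calc Vᵀ * G1ᵀ * A * (G1 * V) = Vᵀ * (G1ᵀ * A * G1) * V := by simp only [Matrix.mul_assoc]
      _ = 1 := by rw [hG1A, Matrix.mul_one, hVV]
  · rw [transpose_mul]
    calc Vᵀ * G1ᵀ * C * (G1 * V) = Vᵀ * (G1ᵀ * C * G1) * V := by simp only [Matrix.mul_assoc]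
      _ = (Vᵀ * V) * diagonal μ * (Vᵀ * V) := by
          rw [hCV]; simp only [Matrix.mul_assoc]
      _ = diagonal μ := by rw [hVV, Matrix.one_mul, Matrix.mul_one]

/-- The linear data of a module cone on `Fin M → ℝ`. -/
structure Dat (M : ℕ) (ι κ : Type*) where
  A : (Fin M → ℝ) →ₗ[ℝ] Matrix ι ι ℝ
  B : (Fin M → ℝ) →ₗ[ℝ] Matrix ι κ ℝ
  w : (Fin M → ℝ) →ₗ[ℝ] ℝ
  Lam : Matrix κ κ ℝ
  hA : ∀ x, (A x).IsSymm

variable {M : ℕ} {ι κ : Type*} [Fintype ι] [DecidableEq ι] [Fintype κ]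

namespace Dat

variable (D : Dat M ι κ)

/-- `Θ(x) = B(x) Λ B(x)ᵀ`. -/
def Th (x : Fin M → ℝ) : Matrix ι ι ℝ := D.B x * D.Lam * (D.B x)ᵀ

/-- `T(x) = w(x) - tr (A(x)⁻¹ Θ(x))`. -/
noncomputable def T (x : Fin M → ℝ) : ℝ := D.w x - trace ((D.A x)⁻¹ * D.Th x)

section alg
variable {R : Type*} [CommRing R] [Algebra ℝ R]

/-- The matrix `A` at a point with coordinates in an `ℝ`-algebra. -/
noncomputable def AR (ξ : Fin M → R) : Matrix ι ι R :=
  Matrix.of fun i j => ∑ m, ξ m * algebraMap ℝ R (D.A (Pi.single m 1) i j)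

noncomputable def BR (ξ : Fin M → R) : Matrix ι κ R :=
  Matrix.of fun i j => ∑ m, ξ m * algebraMap ℝ R (D.B (Pi.single m 1) i j)

noncomputable def wR (ξ : Fin M → R) : R :=
  ∑ m, ξ m * algebraMap ℝ R (D.w (Pi.single m 1))

noncomputable def ThR (ξ : Fin M → R) : Matrix ι ι R :=
  D.BR ξ * D.Lam.map (algebraMap ℝ R) * (D.BR ξ)ᵀ

noncomputable def pR (ξ : Fin M → R) : R :=
  det (D.AR ξ) * D.wR ξ - trace (adjugate (D.AR ξ) * D.ThR ξ)

end alg

/-- The hyperbolic polynomial `det A(x) · w(x) - tr (adj A(x) · Θ(x))`. -/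
noncomputable def poly : MvPolynomial (Fin M) ℝ := D.pR (MvPolynomial.X : Fin M → MvPolynomial (Fin M) ℝ)

theorem aeval_poly {R : Type*} [CommRing R] [Algebra ℝ R] (ξ : Fin M → R) :
    MvPolynomial.aeval ξ D.poly = D.pR ξ := by
  have hA : (D.AR (MvPolynomial.X : Fin M → MvPolynomial (Fin M) ℝ)).map
      (MvPolynomial.aeval ξ) = D.AR ξ := by
    ext i j
    simp [AR, MvPolynomial.algebraMap_eq]
  have hB : (D.BR (MvPolynomial.X : Fin M → MvPolynomial (Fin M) ℝ)).map
      (MvPolynomial.aeval ξ) = D.BR ξ := by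
    ext i j
    simp [BR, MvPolynomial.algebraMap_eq]
  have hT : (D.ThR (MvPolynomial.X : Fin M → MvPolynomial (Fin M) ℝ)).map
      (MvPolynomial.aeval ξ) = D.ThR ξ := by
    unfold ThR
    rw [Matrix.map_mul, Matrix.map_mul, transpose_map, hB]
    congr 2
    ext i j
    simp [MvPolynomial.algebraMap_eq]
  unfold poly pR
  rw [map_sub, map_mul]
  congr 1
  · congr 1
    · have := RingHom.map_det (MvPolynomial.aeval ξ : MvPolynomial (Fin M) ℝ →ₐ[ℝ] R).toRingHom
        (D.AR (MvPolynomial.X : Fin M → MvPolynomial (Fin M) ℝ))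
      simp only [AlgHom.toRingHom_eq_coe, RingHom.coe_coe, RingHom.mapMatrix_apply] at this
      rw [this, hA]
    · simp [wR, MvPolynomial.algebraMap_eq]
  · have h1 := RingHom.map_adjugate (MvPolynomial.aeval ξ : MvPolynomial (Fin M) ℝ →ₐ[ℝ] R).toRingHom
        (D.AR (MvPolynomial.X : Fin M → MvPolynomial (Fin M) ℝ))
    simp only [AlgHom.toRingHom_eq_coe, RingHom.coe_coe, RingHom.mapMatrix_apply] at h1
    rw [hA] at h1
    rw [← h1, ← hT, ← Matrix.map_mul]
    simp [Matrix.trace, Matrix.diag]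

/-! ### Values on pencils -/

theorem lin_apply {N : Type*} [AddCommGroup N] [Module ℝ N] (f : (Fin M → ℝ) →ₗ[ℝ] N)
    (x : Fin M → ℝ) : f x = ∑ m, x m • f (Pi.single m 1) := by
  have hx : x = ∑ m, x m • (Pi.single m (1 : ℝ) : Fin M → ℝ) := by
    ext j
    simp [Finset.sum_apply, Pi.single_apply]
  conv_lhs => rw [hx]
  rw [map_sum]
  refine Finset.sum_congr rfl fun m _ => ?_
  rw [map_smul]

section field
variable {F : Type*} [Field F] [Algebra ℝ F]

/-- the point `α L + β X` with coordinates in `F` -/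
def pt (α β : F) (L X : Fin M → ℝ) : Fin M → F :=
  fun m => α * algebraMap ℝ F (L m) + β * algebraMap ℝ F (X m)

theorem AR_pt (α β : F) (L X : Fin M → ℝ) :
    D.AR (pt α β L X) = α • (D.A L).map (algebraMap ℝ F) + β • (D.A X).map (algebraMap ℝ F) := by
  ext i j
  rw [lin_apply D.A L, lin_apply D.A X]
  simp only [AR, pt, of_apply, Matrix.add_apply, Matrix.smul_apply, map_apply, smul_eq_mul,
    Matrix.sum_apply, map_sum, map_mul, Finset.mul_sum, ← Finset.sum_add_distrib]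
  refine Finset.sum_congr rfl fun m _ => by ring

theorem BR_pt (α β : F) (L X : Fin M → ℝ) :
    D.BR (pt α β L X) = α • (D.B L).map (algebraMap ℝ F) + β • (D.B X).map (algebraMap ℝ F) := by
  ext i j
  rw [lin_apply D.B L, lin_apply D.B X]
  simp only [BR, pt, of_apply, Matrix.add_apply, Matrix.smul_apply, map_apply, smul_eq_mul,
    Matrix.sum_apply, map_sum, map_mul, Finset.mul_sum, ← Finset.sum_add_distrib]
  refine Finset.sum_congr rfl fun m _ => by ring

theorem wR_pt (α β : F) (L X : Fin M → ℝ) :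
    D.wR (pt α β L X) = α * algebraMap ℝ F (D.w L) + β * algebraMap ℝ F (D.w X) := by
  simp only [wR, pt]
  rw [lin_apply D.w L, lin_apply D.w X]
  simp only [smul_eq_mul, map_sum, map_mul, Finset.mul_sum, ← Finset.sum_add_distrib]
  refine Finset.sum_congr rfl fun m _ => by ring

/-- the quadratic coefficients -/
def qa (G : Matrix ι ι ℝ) (L : Fin M → ℝ) (j : ι) : ℝ :=
  (Gᵀ * (D.B L * D.Lam * (D.B L)ᵀ) * G) j j

def qb (G : Matrix ι ι ℝ) (L X : Fin M → ℝ) (j : ι) : ℝ :=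
  (Gᵀ * (D.B L * D.Lam * (D.B X)ᵀ) * G) j j + (Gᵀ * (D.B X * D.Lam * (D.B L)ᵀ) * G) j j

theorem ThR_diag (G : Matrix ι ι ℝ) (α β : F) (L X : Fin M → ℝ) (j : ι) :
    ((G.map (algebraMap ℝ F))ᵀ * D.ThR (pt α β L X) * G.map (algebraMap ℝ F)) j j =
      α ^ 2 * algebraMap ℝ F (D.qa G L j) + α * β * algebraMap ℝ F (D.qb G L X j) +
        β ^ 2 * algebraMap ℝ F (D.qa G X j) := by
  have key : (G.map (algebraMap ℝ F))ᵀ * D.ThR (pt α β L X) * G.map (algebraMap ℝ F) =
      α ^ 2 • (Gᵀ * (D.B L * D.Lam * (D.B L)ᵀ) * G).map (algebraMap ℝ F) +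
      (α * β) • ((Gᵀ * (D.B L * D.Lam * (D.B X)ᵀ) * G).map (algebraMap ℝ F) +
        (Gᵀ * (D.B X * D.Lam * (D.B L)ᵀ) * G).map (algebraMap ℝ F)) +
      β ^ 2 • (Gᵀ * (D.B X * D.Lam * (D.B X)ᵀ) * G).map (algebraMap ℝ F) := by
    unfold ThR
    rw [BR_pt]
    simp only [Matrix.map_mul, transpose_map, transpose_add, transpose_smul, Matrix.mul_add,
      Matrix.add_mul, Matrix.smul_mul, Matrix.mul_smul, smul_add, smul_smul]
    have h1 : α ^ 2 = α * α := by ring
    have h2 : β ^ 2 = β * β := by ring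
    have h3 : β * α = α * β := by ring
    rw [h1, h2]
    simp only [h3]
    abel
  rw [key]
  simp only [qa, qb, Matrix.add_apply, Matrix.smul_apply, map_apply, smul_eq_mul, map_add]

/-- the residue numbers -/
def rho (G : Matrix ι ι ℝ) (μ : ι → ℝ) (L X : Fin M → ℝ) (j : ι) : ℝ :=
  D.qa G L j * μ j ^ 2 - D.qb G L X j * μ j + D.qa G X j

/-- the constant term -/
def cst (G : Matrix ι ι ℝ) (μ : ι → ℝ) (L X : Fin M → ℝ) : ℝ :=
  D.w X - ∑ j, (D.qb G L X j - D.qa G L j * μ j)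

variable {D} in
theorem AR_diag {G : Matrix ι ι ℝ} {μ : ι → ℝ} {L X : Fin M → ℝ}
    (h1 : Gᵀ * D.A L * G = 1) (h2 : Gᵀ * D.A X * G = diagonal μ) (α β : F) :
    (G.map (algebraMap ℝ F))ᵀ * D.AR (pt α β L X) * G.map (algebraMap ℝ F) =
      diagonal (fun j => α + β * algebraMap ℝ F (μ j)) := by
  rw [AR_pt]
  have e1 : (G.map (algebraMap ℝ F))ᵀ * (D.A L).map (algebraMap ℝ F) * G.map (algebraMap ℝ F) =
      1 := by
    rw [← transpose_map, ← Matrix.map_mul, ← Matrix.map_mul, h1]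
    simp
  have e2 : (G.map (algebraMap ℝ F))ᵀ * (D.A X).map (algebraMap ℝ F) * G.map (algebraMap ℝ F) =
      diagonal (fun j => algebraMap ℝ F (μ j)) := by
    rw [← transpose_map, ← Matrix.map_mul, ← Matrix.map_mul, h2]
    simp [Function.comp_def]
  rw [Matrix.mul_add, Matrix.add_mul, Matrix.mul_smul, Matrix.mul_smul, Matrix.smul_mul,
    Matrix.smul_mul, e1, e2]
  ext i j
  by_cases h : i = j
  · subst h; simp
  · simp [h]

theorem det_G_ne {G A : Matrix ι ι ℝ} (h1 : Gᵀ * A * G = 1) : G.det ≠ 0 := by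
  intro h
  have := congrArg Matrix.det h1
  rw [det_mul, det_mul, h, mul_zero, det_one] at this
  exact zero_ne_one this

variable {D} in
theorem det_AR {G : Matrix ι ι ℝ} {μ : ι → ℝ} {L X : Fin M → ℝ}
    (h1 : Gᵀ * D.A L * G = 1) (h2 : Gᵀ * D.A X * G = diagonal μ) (α β : F) :
    det (D.AR (pt α β L X)) = algebraMap ℝ F (det (D.A L)) *
      ∏ j, (α + β * algebraMap ℝ F (μ j)) := by
  have hd := congrArg Matrix.det (AR_diag (F := F) h1 h2 α β)
  rw [det_mul, det_mul, det_transpose, det_diagonal] at hd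
  have hG : (G.map (algebraMap ℝ F)).det = algebraMap ℝ F G.det := by
    rw [RingHom.map_det]; rfl
  have hg := congrArg Matrix.det h1
  rw [det_mul, det_mul, det_transpose, det_one] at hg
  have hg' : algebraMap ℝ F G.det * algebraMap ℝ F (D.A L).det * algebraMap ℝ F G.det = 1 := by
    rw [← map_mul, ← map_mul, hg, map_one]
  rw [hG] at hd
  rw [← hd]
  linear_combination (-(D.AR (pt α β L X)).det) * hg'

variable {D} in
theorem inv_AR {G : Matrix ι ι ℝ} {μ : ι → ℝ} {L X : Fin M → ℝ}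
    (h1 : Gᵀ * D.A L * G = 1) (h2 : Gᵀ * D.A X * G = diagonal μ) {α β : F}
    (hne : ∀ j, α + β * algebraMap ℝ F (μ j) ≠ 0) :
    (D.AR (pt α β L X))⁻¹ = G.map (algebraMap ℝ F) *
      diagonal (fun j => (α + β * algebraMap ℝ F (μ j))⁻¹) * (G.map (algebraMap ℝ F))ᵀ := by
  apply Matrix.inv_eq_right_inv
  have hG : IsUnit ((G.map (algebraMap ℝ F))ᵀ).det := by
    rw [det_transpose, ← RingHom.mapMatrix_apply, ← RingHom.map_det]
    exact (isUnit_iff_ne_zero.mpr (det_G_ne h1)).map _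
  have hd := AR_diag (F := F) h1 h2 α β
  have h3 : (G.map (algebraMap ℝ F))ᵀ * (D.AR (pt α β L X) * (G.map (algebraMap ℝ F) *
      diagonal (fun j => (α + β * algebraMap ℝ F (μ j))⁻¹) * (G.map (algebraMap ℝ F))ᵀ)) =
      (G.map (algebraMap ℝ F))ᵀ * 1 := by
    calc _ = ((G.map (algebraMap ℝ F))ᵀ * D.AR (pt α β L X) * G.map (algebraMap ℝ F)) *
      diagonal (fun j => (α + β * algebraMap ℝ F (μ j))⁻¹) * (G.map (algebraMap ℝ F))ᵀ := by
          simp only [Matrix.mul_assoc]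
      _ = (G.map (algebraMap ℝ F))ᵀ * 1 := by
          rw [hd, diagonal_mul_diagonal]
          have : (fun j => (α + β * algebraMap ℝ F (μ j)) * (α + β * algebraMap ℝ F (μ j))⁻¹) =
              fun _ : ι => (1 : F) := by
            funext j; exact mul_inv_cancel₀ (hne j)
          rw [this, diagonal_one, Matrix.one_mul, Matrix.mul_one]
  have h4 := congrArg (fun Z => ((G.map (algebraMap ℝ F))ᵀ)⁻¹ * Z) h3
  simp only [Matrix.nonsing_inv_mul_cancel_left _ _ hG] at h4
  exact h4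

variable {D} in
/-- **Partial fractions.** -/
theorem formula {G : Matrix ι ι ℝ} {μ : ι → ℝ} {L X : Fin M → ℝ}
    (h1 : Gᵀ * D.A L * G = 1) (h2 : Gᵀ * D.A X * G = diagonal μ) {α β : F}
    (hne : ∀ j, α + β * algebraMap ℝ F (μ j) ≠ 0) :
    D.wR (pt α β L X) - trace ((D.AR (pt α β L X))⁻¹ * D.ThR (pt α β L X)) =
      α * algebraMap ℝ F (D.w L - ∑ j, D.qa G L j) + β * algebraMap ℝ F (D.cst G μ L X) -
        ∑ j, β ^ 2 * algebraMap ℝ F (D.rho G μ L X j) / (α + β * algebraMap ℝ F (μ j)) := by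
  have htr : trace ((D.AR (pt α β L X))⁻¹ * D.ThR (pt α β L X)) =
      ∑ j, (α + β * algebraMap ℝ F (μ j))⁻¹ *
        (α ^ 2 * algebraMap ℝ F (D.qa G L j) + α * β * algebraMap ℝ F (D.qb G L X j) +
        β ^ 2 * algebraMap ℝ F (D.qa G X j)) := by
    rw [inv_AR h1 h2 hne, Matrix.mul_assoc, Matrix.mul_assoc, Matrix.trace_mul_comm,
      Matrix.mul_assoc]
    simp only [Matrix.trace, Matrix.diag, Matrix.diagonal_mul]
    refine Finset.sum_congr rfl fun j _ => ?_
    rw [ThR_diag]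
  rw [htr, wR_pt, cst]
  simp only [map_sub, map_sum, mul_sub, Finset.mul_sum]
  have hj : ∀ j, (α + β * algebraMap ℝ F (μ j))⁻¹ *
        (α ^ 2 * algebraMap ℝ F (D.qa G L j) + α * β * algebraMap ℝ F (D.qb G L X j) +
        β ^ 2 * algebraMap ℝ F (D.qa G X j)) =
      α * algebraMap ℝ F (D.qa G L j) + (β * algebraMap ℝ F (D.qb G L X j) -
        β * algebraMap ℝ F (D.qa G L j * μ j)) +
        β ^ 2 * algebraMap ℝ F (D.rho G μ L X j) / (α + β * algebraMap ℝ F (μ j)) := by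
    intro j
    have := hne j
    rw [rho]
    simp only [map_sub, map_add, map_mul, map_pow]
    field_simp
    ring
  rw [Finset.sum_congr rfl (fun j _ => hj j), Finset.sum_add_distrib, Finset.sum_add_distrib]
  ring

variable {D} in
theorem pR_eq {ξ : Fin M → F} (h : (D.AR ξ).det ≠ 0) :
    D.pR ξ = (D.AR ξ).det * (D.wR ξ - trace ((D.AR ξ)⁻¹ * D.ThR ξ)) := by
  have : adjugate (D.AR ξ) = (D.AR ξ).det • (D.AR ξ)⁻¹ := by
    rw [Matrix.inv_def, smul_smul, Ring.mul_inverse_cancel _ (isUnit_iff_ne_zero.mpr h), one_smul]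
  rw [pR, this, Matrix.smul_mul, trace_smul, smul_eq_mul]
  ring

end field

end Dat

end Crest.Agent.R237.Hyp
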