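import Crest.Agent.R237.Hyp1

/-!
Row 237 (S0367): abstract hyperbolicity of module cones, part 2: homogeneity, openness,
concavity of `T`.
-/

set_option autoImplicit false
set_option linter.unusedSectionVars false

namespace Crest.Agent.R237.Hyp

open Matrix

theorem posDef_of_near {n : Type*} [Fintype n] [DecidableEq n] {C : Matrix n n ℝ}
    (hC : C.IsSymm) (h : ∀ i j, |C i j - (1 : Matrix n n ℝ) i j| ≤ 1 / (2 * (Fintype.card n : ℝ) + 1)) :
    C.PosDef := by
  refine Matrix.PosDef.of_dotProduct_mulVec_pos ?_ ?_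
  · rw [Matrix.IsHermitian, conjTranspose_eq_transpose_of_trivial, hC.eq]
  · intro k hk
    rw [star_trivial]
    have hsq : 0 < ∑ i, k i ^ 2 := by
      obtain ⟨i, hi⟩ : ∃ i, k i ≠ 0 := by
        by_contra hcon
        push Not at hcon
        exact hk (funext hcon)
      exact Finset.sum_pos' (fun j _ => sq_nonneg _) ⟨i, Finset.mem_univ _, by positivity⟩
    have e1 : k ⬝ᵥ (C *ᵥ k) = ∑ i, k i ^ 2 +
        ∑ i, ∑ j, k i * (C i j - (1 : Matrix n n ℝ) i j) * k j := by
      have : ∀ i, ∑ j, k i * (C i j - (1 : Matrix n n ℝ) i j) * k j =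
          k i * (C *ᵥ k) i - k i ^ 2 := by
        intro i
        have h2 : ∑ j, k i * (1 : Matrix n n ℝ) i j * k j = k i ^ 2 := by
          simp [Matrix.one_apply]
          ring
        have h3 : k i * (C *ᵥ k) i = ∑ j, k i * C i j * k j := by
          simp only [mulVec, dotProduct, Finset.mul_sum]
          exact Finset.sum_congr rfl fun j _ => by ring
        rw [h3, ← h2, ← Finset.sum_sub_distrib]
        exact Finset.sum_congr rfl fun j _ => by ring
      simp only [this, dotProduct, Finset.sum_sub_distrib]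
      ring
    have hN : (0:ℝ) < 2 * (Fintype.card n : ℝ) + 1 := by positivity
    have e2 : |∑ i, ∑ j, k i * (C i j - (1 : Matrix n n ℝ) i j) * k j| ≤
        (Fintype.card n : ℝ) / (2 * (Fintype.card n : ℝ) + 1) * ∑ i, k i ^ 2 := by
      calc _ ≤ ∑ i, ∑ j, |k i * (C i j - (1 : Matrix n n ℝ) i j) * k j| := by
            refine (Finset.abs_sum_le_sum_abs _ _).trans ?_
            exact Finset.sum_le_sum fun i _ => Finset.abs_sum_le_sum_abs _ _
        _ ≤ ∑ i, ∑ j, (1 / (2 * (Fintype.card n : ℝ) + 1)) * ((k i ^ 2 + k j ^ 2) / 2) := by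
            refine Finset.sum_le_sum fun i _ => Finset.sum_le_sum fun j _ => ?_
            rw [abs_mul, abs_mul]
            have hh := h i j
            have h4 : |k i| * |k j| ≤ (k i ^ 2 + k j ^ 2) / 2 := by
              nlinarith [sq_nonneg (|k i| - |k j|), sq_abs (k i), sq_abs (k j)]
            calc |k i| * |C i j - (1 : Matrix n n ℝ) i j| * |k j|
                = |C i j - (1 : Matrix n n ℝ) i j| * (|k i| * |k j|) := by ring
              _ ≤ (1 / (2 * (Fintype.card n : ℝ) + 1)) * ((k i ^ 2 + k j ^ 2) / 2) :=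
                  mul_le_mul hh h4 (by positivity) (by positivity)
        _ = _ := by
            simp only [← Finset.mul_sum, ← Finset.sum_div, Finset.sum_add_distrib,
              Finset.sum_const, Finset.card_univ, nsmul_eq_mul]
            field_simp
            ring
    rw [e1]
    have e3 := (abs_le.mp e2).1
    have e4 : (Fintype.card n : ℝ) / (2 * (Fintype.card n : ℝ) + 1) < 1 := by
      rw [div_lt_one hN]; linarith [(Nat.cast_nonneg (Fintype.card n) : (0:ℝ) ≤ _)]
    nlinarith

/-- congruence by an invertible matrix preserves positive definiteness (iff form) -/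
theorem posDef_congr_iff {n : Type*} [Fintype n] [DecidableEq n] {G A : Matrix n n ℝ}
    (hG : G.det ≠ 0) : (Gᵀ * A * G).PosDef ↔ A.PosDef := by
  have hu : IsUnit G := (Matrix.isUnit_iff_isUnit_det G).mpr (isUnit_iff_ne_zero.mpr hG)
  have := Matrix.IsUnit.posDef_star_left_conjugate_iff (x := A) hu
  rw [star_eq_conjTranspose, conjTranspose_eq_transpose_of_trivial] at this
  exact this

theorem posDef_diag_iff {n : Type*} [Fintype n] [DecidableEq n] {d : n → ℝ} :
    (diagonal d).PosDef ↔ ∀ j, 0 < d j := Matrix.posDef_diagonal_iff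

/-! ### Homogeneity -/

theorem det_isHomogeneous {σ : Type*} {n : Type*} [Fintype n] [DecidableEq n]
    (A : Matrix n n (MvPolynomial σ ℝ)) (d : n → ℕ)
    (h : ∀ i j, (A i j).IsHomogeneous (d j)) :
    A.det.IsHomogeneous (∑ j, d j) := by
  rw [Matrix.det_apply]
  refine MvPolynomial.IsHomogeneous.sum _ _ _ fun τ _ => ?_
  have h1 : (∏ i, A (τ i) i).IsHomogeneous (∑ i, d i) :=
    MvPolynomial.IsHomogeneous.prod _ _ _ fun i _ => h _ _
  rcases Int.units_eq_one_or (Equiv.Perm.sign τ) with hs | hs
  · rw [hs]; simpa using h1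
  · rw [hs]; simpa using h1.neg

namespace Dat

variable {M : ℕ} {ι κ : Type*} [Fintype ι] [DecidableEq ι] [Fintype κ] (D : Dat M ι κ)

theorem lin_isHomogeneous (c : Fin M → ℝ) :
    (∑ m, (MvPolynomial.X m : MvPolynomial (Fin M) ℝ) *
      algebraMap ℝ (MvPolynomial (Fin M) ℝ) (c m)).IsHomogeneous 1 := by
  refine MvPolynomial.IsHomogeneous.sum _ _ _ fun m _ => ?_
  have := (MvPolynomial.isHomogeneous_X ℝ m).mul (MvPolynomial.isHomogeneous_C (Fin M) (c m))
  simpa [MvPolynomial.algebraMap_eq] using this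

theorem poly_isHomogeneous : D.poly.IsHomogeneous (Fintype.card ι + 1) := by
  unfold poly pR
  have hA : ∀ i j, (D.AR (MvPolynomial.X : Fin M → MvPolynomial (Fin M) ℝ) i j).IsHomogeneous 1 :=
    fun i j => lin_isHomogeneous _
  have hB : ∀ i j, (D.BR (MvPolynomial.X : Fin M → MvPolynomial (Fin M) ℝ) i j).IsHomogeneous 1 :=
    fun i j => lin_isHomogeneous _
  have hw : (D.wR (MvPolynomial.X : Fin M → MvPolynomial (Fin M) ℝ)).IsHomogeneous 1 :=
    lin_isHomogeneous _
  have hTh : ∀ i j, (D.ThR (MvPolynomial.X : Fin M → MvPolynomial (Fin M) ℝ) i j).IsHomogeneous 2 := by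
    intro i j
    unfold ThR
    rw [Matrix.mul_apply]
    refine MvPolynomial.IsHomogeneous.sum _ _ _ fun l _ => ?_
    rw [Matrix.mul_apply]
    have h1 : (∑ m, D.BR (MvPolynomial.X : Fin M → MvPolynomial (Fin M) ℝ) i m *
        (D.Lam.map (algebraMap ℝ (MvPolynomial (Fin M) ℝ))) m l).IsHomogeneous 1 := by
      refine MvPolynomial.IsHomogeneous.sum _ _ _ fun m _ => ?_
      have := (hB i m).mul (MvPolynomial.isHomogeneous_C (Fin M) (D.Lam m l))
      simpa [MvPolynomial.algebraMap_eq] using this
    exact h1.mul (hB j l)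
  refine MvPolynomial.IsHomogeneous.sub ?_ ?_
  · have h1 := det_isHomogeneous _ (fun _ : ι => 1) hA
    simp only [Finset.sum_const, Finset.card_univ, smul_eq_mul, mul_one] at h1
    exact h1.mul hw
  · have : trace (adjugate (D.AR (MvPolynomial.X : Fin M → MvPolynomial (Fin M) ℝ)) *
        D.ThR MvPolynomial.X) =
        ∑ i, ((D.AR (MvPolynomial.X : Fin M → MvPolynomial (Fin M) ℝ)).updateCol i
          (fun r => D.ThR (MvPolynomial.X : Fin M → MvPolynomial (Fin M) ℝ) r i)).det := by
      simp only [Matrix.trace, Matrix.diag]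
      refine Finset.sum_congr rfl fun i _ => ?_
      rw [← Matrix.cramer_apply, Matrix.cramer_eq_adjugate_mulVec]
      rfl
    rw [this]
    refine MvPolynomial.IsHomogeneous.sum _ _ _ fun i _ => ?_
    have h1 := det_isHomogeneous ((D.AR (MvPolynomial.X : Fin M → MvPolynomial (Fin M) ℝ)).updateCol i
          (fun r => D.ThR (MvPolynomial.X : Fin M → MvPolynomial (Fin M) ℝ) r i))
          (fun j => if j = i then 2 else 1) (by
        intro r j
        by_cases hj : j = i
        · subst hj
          simp only [updateCol_self, if_true]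
          exact hTh _ _
        · simp only [updateCol_ne hj, if_neg hj]
          exact hA _ _)
    have h2 : (Finset.univ.filter (fun j : ι => j = i)).card = 1 := by
      rw [Finset.filter_eq' Finset.univ i]; simp
    have h4 : (Finset.univ.filter (fun j : ι => ¬ j = i)).card = Fintype.card ι - 1 := by
      rw [Finset.filter_ne' Finset.univ i, Finset.card_erase_of_mem (Finset.mem_univ _),
        Finset.card_univ]
    have h3 : 0 < Fintype.card ι := Fintype.card_pos_iff.mpr ⟨i⟩
    have hs : ∑ j : ι, (if j = i then 2 else 1) = Fintype.card ι + 1 := by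
      rw [Finset.sum_ite]
      simp only [Finset.sum_const, smul_eq_mul, mul_one, h4, h2]
      omega
    rw [hs] at h1
    exact h1

/-! ### Real points -/

theorem AR_real (x : Fin M → ℝ) : D.AR x = D.A x := by
  ext i j
  rw [lin_apply D.A x]
  simp [AR, Matrix.sum_apply]

theorem BR_real (x : Fin M → ℝ) : D.BR x = D.B x := by
  ext i j
  rw [lin_apply D.B x]
  simp [BR, Matrix.sum_apply]

theorem wR_real (x : Fin M → ℝ) : D.wR x = D.w x := by
  rw [lin_apply D.w x]
  simp [wR]

theorem ThR_real (x : Fin M → ℝ) : D.ThR x = D.Th x := by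
  unfold ThR Th
  rw [BR_real]
  congr 2

theorem eval_poly (x : Fin M → ℝ) : MvPolynomial.eval x D.poly =
    det (D.A x) * D.w x - trace (adjugate (D.A x) * D.Th x) := by
  have := D.aeval_poly x
  rw [MvPolynomial.aeval_eq_eval] at this
  rw [← AR_real, ← ThR_real, ← wR_real]
  exact this

theorem eval_poly_eq {x : Fin M → ℝ} (h : (D.A x).det ≠ 0) :
    MvPolynomial.eval x D.poly = det (D.A x) * D.T x := by
  have := D.aeval_poly x
  rw [MvPolynomial.aeval_eq_eval] at this
  have h' := pR_eq (D := D) (ξ := x) (by rwa [AR_real])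
  rw [AR_real, ThR_real, wR_real] at h'
  rw [T, ← h', ← this]

theorem pt_real (α β : ℝ) (L X : Fin M → ℝ) : pt α β L X = α • L + β • X := by
  funext m; simp [pt]

theorem T_formula {G : Matrix ι ι ℝ} {μ : ι → ℝ} {L X : Fin M → ℝ}
    (h1 : Gᵀ * D.A L * G = 1) (h2 : Gᵀ * D.A X * G = diagonal μ) {α β : ℝ}
    (hne : ∀ j, α + β * μ j ≠ 0) :
    D.T (α • L + β • X) = α * D.T L + β * D.cst G μ L X -
        ∑ j, β ^ 2 * D.rho G μ L X j / (α + β * μ j) := by
  have e1 := formula (D := D) (F := ℝ) h1 h2 (α := 1) (β := 0) (by simp)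
  have e2 := formula (D := D) (F := ℝ) h1 h2 (α := α) (β := β) (by simpa using hne)
  simp only [pt_real, wR_real, AR_real, ThR_real] at e1 e2
  simp only [one_smul, zero_smul, add_zero, Algebra.algebraMap_self, RingHom.id_apply,
    one_mul, zero_mul, ne_eq, OfNat.ofNat_ne_zero, not_false_eq_true, zero_pow, zero_div,
    Finset.sum_const_zero, sub_zero] at e1 e2
  rw [← T] at e1 e2
  rw [e2, e1]

end Dat

end Crest.Agent.R237.Hyp
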