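import Crest.Agent.R237.Hyp2

/-!
Row 237 (S0367): abstract hyperbolicity of module cones, part 3: residues, concavity of `T`,
continuity.
-/

set_option autoImplicit false
set_option linter.unusedSectionVars false

namespace Crest.Agent.R237.Hyp

open Matrix

namespace Dat

variable {M : ℕ} {ι κ : Type*} [Fintype ι] [DecidableEq ι] [Fintype κ] (D : Dat M ι κ)

/-- all residues on the pencil `X + a L` are nonnegative. -/
def Good (L X : Fin M → ℝ) : Prop :=
  ∀ (a : ℝ) (k : ι → ℝ), D.A (X + a • L) *ᵥ k = 0 → 0 ≤ k ⬝ᵥ (D.Th (X + a • L) *ᵥ k)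

variable {D}

theorem mulVec_eq_zero_of {n : Type*} [Fintype n] [DecidableEq n] {G : Matrix n n ℝ}
    (hG : G.det ≠ 0) {v : n → ℝ} (h : Gᵀ *ᵥ v = 0) : v = 0 := by
  have hu : IsUnit (Gᵀ).det := by rw [det_transpose]; exact isUnit_iff_ne_zero.mpr hG
  have := congrArg (fun z => (Gᵀ)⁻¹ *ᵥ z) h
  simpa [mulVec_mulVec, Matrix.nonsing_inv_mul _ hu] using this

theorem rho_nonneg {G : Matrix ι ι ℝ} {μ : ι → ℝ} {L X : Fin M → ℝ}
    (h1 : Gᵀ * D.A L * G = 1) (h2 : Gᵀ * D.A X * G = diagonal μ) (hg : D.Good L X) (j : ι) :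
    0 ≤ D.rho G μ L X j := by
  have hd := AR_diag (F := ℝ) h1 h2 (-μ j) 1
  have ht := ThR_diag (F := ℝ) D G (-μ j) 1 L X j
  have hp : (-μ j) • L + (1:ℝ) • X = X + (-μ j) • L := by rw [one_smul, add_comm]
  rw [pt_real, AR_real, hp] at hd
  rw [pt_real, ThR_real, hp] at ht
  simp only [Algebra.algebraMap_self, RingHom.id_apply] at hd ht
  have hGid : G.map (RingHom.id ℝ) = G := by ext; simp
  rw [hGid] at hd ht
  have hk : D.A (X + (-μ j) • L) *ᵥ (G *ᵥ Pi.single j 1) = 0 := by
    apply mulVec_eq_zero_of (det_G_ne h1)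
    rw [mulVec_mulVec, mulVec_mulVec, hd]
    ext i
    by_cases hij : i = j
    · subst hij; simp [diagonal_apply]
    · simp [diagonal_apply, hij]
  have h3 := hg (-μ j) _ hk
  have h4 : (G *ᵥ Pi.single j 1) ⬝ᵥ (D.Th (X + (-μ j) • L) *ᵥ (G *ᵥ Pi.single j 1)) =
      (Gᵀ * D.Th (X + (-μ j) • L) * G) j j := by
    rw [mulVec_single_one]
    simp only [Matrix.mul_apply, dotProduct, mulVec, transpose_apply, Matrix.col_apply,
      Finset.sum_mul, Finset.mul_sum]
    rw [Finset.sum_comm]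
    refine Finset.sum_congr rfl fun a _ => Finset.sum_congr rfl fun b _ => by ring
  rw [h4, ht] at h3
  rw [rho]
  linarith

theorem mu_pos_iff {G : Matrix ι ι ℝ} {μ : ι → ℝ} {L X : Fin M → ℝ}
    (h1 : Gᵀ * D.A L * G = 1) (h2 : Gᵀ * D.A X * G = diagonal μ) (α β : ℝ) :
    (D.A (α • L + β • X)).PosDef ↔ ∀ j, 0 < α + β * μ j := by
  have hd := AR_diag (F := ℝ) h1 h2 α β
  rw [pt_real, AR_real] at hd
  simp only [Algebra.algebraMap_self, RingHom.id_apply] at hd
  have hGid : G.map (RingHom.id ℝ) = G := by ext; simp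
  rw [hGid] at hd
  rw [← posDef_congr_iff (G := G) (det_G_ne h1), hd, posDef_diag_iff]

theorem det_pos_of_posDef {x : Fin M → ℝ} (h : (D.A x).PosDef) : 0 < (D.A x).det := h.det_pos

/-- the set `{A > 0}` is open -/
theorem isOpen_posDef : IsOpen {x : Fin M → ℝ | (D.A x).PosDef} := by
  rw [isOpen_iff_mem_nhds]
  intro L hL
  obtain ⟨G, μ, h1, h2⟩ := sim_diag (C := D.A 0) hL (D.hA 0)
  have hcont : Continuous fun x => Gᵀ * D.A x * G := by
    have hA : Continuous fun x => D.A x := LinearMap.continuous_of_finiteDimensional D.A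
    exact (continuous_const.matrix_mul hA).matrix_mul continuous_const
  have hnear : ∀ᶠ x in nhds L, ∀ i j, |(Gᵀ * D.A x * G) i j - (1 : Matrix ι ι ℝ) i j| <
      1 / (2 * (Fintype.card ι : ℝ) + 1) := by
    rw [Filter.eventually_all]
    intro i
    rw [Filter.eventually_all]
    intro j
    have hc : Continuous fun x => |(Gᵀ * D.A x * G) i j - (1 : Matrix ι ι ℝ) i j| :=
      ((hcont.matrix_elem i j).sub continuous_const).abs
    have h0 : |(Gᵀ * D.A L * G) i j - (1 : Matrix ι ι ℝ) i j| <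
        1 / (2 * (Fintype.card ι : ℝ) + 1) := by
      rw [h1, sub_self, abs_zero]; positivity
    exact (hc.tendsto L).eventually (gt_mem_nhds h0)
  filter_upwards [hnear] with x hx
  rw [← posDef_congr_iff (G := G) (det_G_ne h1)]
  refine posDef_of_near ?_ fun i j => (hx i j).le
  rw [Matrix.IsSymm]
  simp only [transpose_mul, transpose_transpose, (D.hA x).eq, Matrix.mul_assoc]

theorem continuousAt_T {x : Fin M → ℝ} (h : (D.A x).det ≠ 0) : ContinuousAt D.T x := by
  have hA : Continuous fun x => (D.A x).det :=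
    (LinearMap.continuous_of_finiteDimensional D.A).matrix_det
  have hp : Continuous fun x => MvPolynomial.eval x D.poly := MvPolynomial.continuous_eval _
  have h2 : ContinuousAt (fun x => MvPolynomial.eval x D.poly / (D.A x).det) x :=
    hp.continuousAt.div hA.continuousAt h
  refine h2.congr ?_
  have hne : ∀ᶠ y in nhds x, (D.A y).det ≠ 0 := hA.continuousAt.eventually_ne h
  filter_upwards [hne] with y hy
  rw [eval_poly_eq D hy]
  field_simp

theorem T_smul {x : Fin M → ℝ} (h : (D.A x).PosDef) (r : ℝ) (hr : r ≠ 0) :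
    D.T (r • x) = r * D.T x := by
  obtain ⟨G, μ, h1, h2⟩ := sim_diag (C := D.A 0) h (D.hA 0)
  have := T_formula D h1 h2 (α := r) (β := 0) (by intro j; simpa using hr)
  simpa using this

/-- one-dimensional concavity on good pencils -/
theorem T_conc_good {L X : Fin M → ℝ} (hL : (D.A L).PosDef) (hX : (D.A (L + X)).PosDef)
    (hg : D.Good L X) {t : ℝ} (ht0 : 0 ≤ t) (ht1 : t ≤ 1) :
    (1 - t) * D.T L + t * D.T (L + X) ≤ D.T (L + t • X) := by
  obtain ⟨G, μ, h1, h2⟩ := sim_diag hL (D.hA X)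
  have hμ : ∀ j, 0 < 1 + μ j := by
    have := (mu_pos_iff h1 h2 1 1).mp (by simpa using hX)
    simpa using this
  have hμt : ∀ j, 0 < 1 + t * μ j := by
    intro j
    have := hμ j
    nlinarith [mul_nonneg ht0 this.le]
  have e1 := T_formula D h1 h2 (α := 1) (β := 1) (by intro j; simpa using (hμ j).ne')
  have e2 := T_formula D h1 h2 (α := 1) (β := t) (by intro j; exact (hμt j).ne')
  simp only [one_smul, one_mul, one_pow] at e1 e2
  rw [e1, e2]
  have key : ∑ j, t ^ 2 * D.rho G μ L X j / (1 + t * μ j) ≤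
      t * ∑ j, D.rho G μ L X j / (1 + μ j) := by
    rw [Finset.mul_sum]
    refine Finset.sum_le_sum fun j _ => ?_
    have hr := rho_nonneg h1 h2 hg j
    rw [mul_div_assoc, ← mul_div_assoc, div_le_iff₀ (hμt j)]
    have h3 : t * (D.rho G μ L X j / (1 + μ j)) * (1 + t * μ j) =
        D.rho G μ L X j * (t * (1 + t * μ j) / (1 + μ j)) := by ring
    rw [h3, mul_comm]
    refine mul_le_mul_of_nonneg_left ?_ hr
    rw [le_div_iff₀ (hμ j)]
    nlinarith [mul_nonneg ht0 (sub_nonneg.mpr ht1)]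
  linarith

/-- the residue hypothesis: through every point of `{A > 0}` good directions are dense -/
def RES (D : Dat M ι κ) : Prop := ∀ L, (D.A L).PosDef → Dense {X | D.Good L X}

theorem T_conc (hR : D.RES) {L X : Fin M → ℝ} (hL : (D.A L).PosDef)
    (hX : (D.A (L + X)).PosDef) {t : ℝ} (ht0 : 0 ≤ t) (ht1 : t ≤ 1) :
    (1 - t) * D.T L + t * D.T (L + X) ≤ D.T (L + t • X) := by
  by_contra hcon
  push Not at hcon
  have hLt : (D.A (L + t • X)).PosDef := by
    obtain ⟨G, μ, h1, h2⟩ := sim_diag hL (D.hA X)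
    have hμ : ∀ j, 0 < 1 + μ j := by
      have := (mu_pos_iff h1 h2 1 1).mp (by simpa using hX)
      simpa using this
    have := (mu_pos_iff h1 h2 1 t).mpr (fun j => by
      have := hμ j
      nlinarith [mul_nonneg ht0 this.le])
    simpa using this
  have hc : ContinuousAt (fun Y : Fin M → ℝ =>
      D.T (L + t • Y) - ((1 - t) * D.T L + t * D.T (L + Y))) X := by
    have c1 : ContinuousAt (fun Y : Fin M → ℝ => D.T (L + t • Y)) X :=
      ContinuousAt.comp (g := D.T) (continuousAt_T hLt.det_pos.ne')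
        (by fun_prop)
    have c2 : ContinuousAt (fun Y : Fin M → ℝ => D.T (L + Y)) X :=
      ContinuousAt.comp (g := D.T) (continuousAt_T hX.det_pos.ne') (by fun_prop)
    exact c1.sub (continuousAt_const.add (continuousAt_const.mul c2))
  have hneg : D.T (L + t • X) - ((1 - t) * D.T L + t * D.T (L + X)) < 0 := by linarith
  have hev : ∀ᶠ Y in nhds X, D.T (L + t • Y) - ((1 - t) * D.T L + t * D.T (L + Y)) < 0 :=
    hc.eventually (gt_mem_nhds hneg)
  have hev2 : ∀ᶠ Y in nhds X, (D.A (L + Y)).PosDef := by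
    have : ContinuousAt (fun Y : Fin M → ℝ => L + Y) X := by fun_prop
    exact this.eventually (isOpen_posDef.mem_nhds hX)
  obtain ⟨Y, hY1, hY2⟩ := (mem_closure_iff_nhds.mp ((hR L hL) X)) _ (hev.and hev2)
  have := T_conc_good hL hY1.2 hY2 ht0 ht1
  linarith [hY1.1]

end Dat

end Crest.Agent.R237.Hyp
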