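import Crest.Agent.R237.Hyp3

/-!
Row 237 (S0367): abstract hyperbolicity of module cones, part 4: the complex bound,
`IsHyperbolic`, and the description of the closed cone.
-/

set_option autoImplicit false
set_option linter.unusedSectionVars false

namespace Crest.Agent.R237.Hyp

open Matrix Crest.GeometryTopology

namespace Dat

variable {M : ℕ} {ι κ : Type*} [Fintype ι] [DecidableEq ι] [Fintype κ] {D : Dat M ι κ}

theorem abs_im_div (z : ℂ) (μ ρ : ℝ) (h : z + μ ≠ 0) :
    ((ρ : ℂ) / (z + μ)).im = - z.im * (ρ / Complex.normSq (z + μ)) := by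
  rw [Complex.div_im]
  simp
  ring

/-- the complex lower bound on good pencils -/
theorem bound_good {L X : Fin M → ℝ} (hL : (D.A L).PosDef) (hT : 0 < D.T L)
    (hg : D.Good L X) {z : ℂ} (hz : z.im ≠ 0) :
    (D.A L).det * D.T L * |z.im| ^ (Fintype.card ι + 1) ≤
      ‖MvPolynomial.aeval (pt z 1 L X) D.poly‖ := by
  obtain ⟨G, μ, h1, h2⟩ := sim_diag hL (D.hA X)
  have hne : ∀ j, z + 1 * algebraMap ℝ ℂ (μ j) ≠ 0 := by
    intro j h
    apply hz
    have := congrArg Complex.im h
    simpa using this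
  have hdet := det_AR (F := ℂ) h1 h2 z 1
  have hdet0 : (D.AR (pt z 1 L X)).det ≠ 0 := by
    rw [hdet]
    refine mul_ne_zero ?_ (Finset.prod_ne_zero_iff.mpr fun j _ => hne j)
    simpa using hL.det_pos.ne'
  rw [D.aeval_poly, pR_eq hdet0, formula h1 h2 hne]
  have e1 := T_formula D h1 h2 (α := 1) (β := 0) (by simp)
  simp only [one_smul, zero_smul, add_zero, one_mul, zero_mul, ne_eq, OfNat.ofNat_ne_zero,
    not_false_eq_true, zero_pow, zero_div, Finset.sum_const_zero, sub_zero] at e1
  have e2 := formula (D := D) (F := ℝ) h1 h2 (α := 1) (β := 0) (by simp)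
  simp only [pt_real, wR_real, AR_real, ThR_real] at e2
  simp only [one_smul, zero_smul, add_zero, Algebra.algebraMap_self, RingHom.id_apply,
    one_mul, zero_mul, ne_eq, OfNat.ofNat_ne_zero, not_false_eq_true, zero_pow, zero_div,
    Finset.sum_const_zero, sub_zero] at e2
  rw [← T] at e2
  rw [← e2, norm_mul, hdet, norm_mul]
  have hb1 : |z.im| ^ (Fintype.card ι) ≤ ‖∏ j, (z + 1 * algebraMap ℝ ℂ (μ j))‖ := by
    rw [norm_prod]
    calc |z.im| ^ (Fintype.card ι) = ∏ _j : ι, |z.im| := by simp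
      _ ≤ ∏ j, ‖z + 1 * algebraMap ℝ ℂ (μ j)‖ := by
        refine Finset.prod_le_prod (fun _ _ => abs_nonneg _) fun j _ => ?_
        have := Complex.abs_im_le_norm (z + 1 * algebraMap ℝ ℂ (μ j))
        simpa using this
  have hb2 : D.T L * |z.im| ≤ ‖z * algebraMap ℝ ℂ (D.T L) + 1 * algebraMap ℝ ℂ (D.cst G μ L X) -
      ∑ j, 1 ^ 2 * algebraMap ℝ ℂ (D.rho G μ L X j) / (z + 1 * algebraMap ℝ ℂ (μ j))‖ := by
    refine le_trans ?_ (Complex.abs_im_le_norm _)
    have him : (z * algebraMap ℝ ℂ (D.T L) + 1 * algebraMap ℝ ℂ (D.cst G μ L X) -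
      ∑ j, 1 ^ 2 * algebraMap ℝ ℂ (D.rho G μ L X j) / (z + 1 * algebraMap ℝ ℂ (μ j))).im =
        z.im * (D.T L + ∑ j, D.rho G μ L X j / Complex.normSq (z + (μ j : ℂ))) := by
      simp only [one_pow, one_mul, Complex.sub_im, Complex.add_im, Complex.im_sum,
        Complex.coe_algebraMap]
      have : ∀ j ∈ Finset.univ, ((D.rho G μ L X j : ℂ) / (z + (μ j : ℂ))).im =
          - z.im * (D.rho G μ L X j / Complex.normSq (z + (μ j : ℂ))) :=
        fun j _ => abs_im_div _ _ _ (by simpa using hne j)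
      rw [Finset.sum_congr rfl this, ← Finset.mul_sum]
      simp
      ring
    rw [him, abs_mul, mul_comm]
    refine mul_le_mul_of_nonneg_left ?_ (abs_nonneg _)
    refine le_trans ?_ (le_abs_self _)
    have : 0 ≤ ∑ j, D.rho G μ L X j / Complex.normSq (z + (μ j : ℂ)) :=
      Finset.sum_nonneg fun j _ => div_nonneg (rho_nonneg h1 h2 hg j) (Complex.normSq_nonneg _)
    linarith
  have hd : ‖algebraMap ℝ ℂ (D.A L).det‖ = (D.A L).det := by
    simp [abs_of_pos hL.det_pos]
  rw [hd]
  calc (D.A L).det * D.T L * |z.im| ^ (Fintype.card ι + 1)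
      = ((D.A L).det * |z.im| ^ (Fintype.card ι)) * (D.T L * |z.im|) := by ring
    _ ≤ _ := mul_le_mul (mul_le_mul_of_nonneg_left hb1 hL.det_pos.le) hb2
        (by positivity) (by have := hL.det_pos; positivity)

theorem bound (hR : D.RES) {L : Fin M → ℝ} (hL : (D.A L).PosDef) (hT : 0 < D.T L)
    (X : Fin M → ℝ) {z : ℂ} (hz : z.im ≠ 0) :
    (D.A L).det * D.T L * |z.im| ^ (Fintype.card ι + 1) ≤
      ‖MvPolynomial.aeval (pt z 1 L X) D.poly‖ := by
  have hcont : Continuous fun X : Fin M → ℝ => ‖MvPolynomial.aeval (pt z 1 L X) D.poly‖ := by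
    have h1 : Continuous fun X : Fin M → ℝ => (pt z 1 L X : Fin M → ℂ) := by
      unfold pt
      refine continuous_pi fun m => ?_
      have : Continuous fun X : Fin M → ℝ => algebraMap ℝ ℂ (X m) :=
        Complex.continuous_ofReal.comp (continuous_apply m)
      exact continuous_const.add (continuous_const.mul this)
    have h2 : Continuous fun ξ : Fin M → ℂ => MvPolynomial.aeval ξ D.poly := by
      have : (fun ξ : Fin M → ℂ => MvPolynomial.aeval ξ D.poly) =
          fun ξ => MvPolynomial.eval ξ (MvPolynomial.map (algebraMap ℝ ℂ) D.poly) := by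
        funext ξ
        rw [MvPolynomial.eval_map, MvPolynomial.aeval_def]
      rw [this]
      exact MvPolynomial.continuous_eval _
    exact (h2.comp h1).norm
  have hcl : IsClosed {X : Fin M → ℝ | (D.A L).det * D.T L * |z.im| ^ (Fintype.card ι + 1) ≤
      ‖MvPolynomial.aeval (pt z 1 L X) D.poly‖} := isClosed_le continuous_const hcont
  have hsub : {X | D.Good L X} ⊆ {X : Fin M → ℝ |
      (D.A L).det * D.T L * |z.im| ^ (Fintype.card ι + 1) ≤
      ‖MvPolynomial.aeval (pt z 1 L X) D.poly‖} := fun X hX => bound_good hL hT hX hz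
  have := closure_minimal hsub hcl
  exact this ((hR L hL) X)

theorem isHyperbolic (hR : D.RES) {e : Fin M → ℝ} (he : (D.A e).PosDef) (hT : 0 < D.T e) :
    Hyperbolic.IsHyperbolic D.poly e := by
  refine ⟨⟨_, D.poly_isHomogeneous⟩, ?_, ?_⟩
  · rw [eval_poly_eq D he.det_pos.ne']
    exact mul_pos he.det_pos hT
  · intro x z hz
    by_contra him
    have hb := bound hR he hT (-x) (z := z) him
    have : MvPolynomial.aeval (pt z 1 e (-x)) D.poly = 0 := by
      rw [← hz, Hyperbolic.lineEvalC]
      congr 2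
      funext m
      simp [pt]
      ring
    rw [this, norm_zero] at hb
    have := he.det_pos
    have hpos : 0 < (D.A e).det * D.T e * |z.im| ^ (Fintype.card ι + 1) := by
      have : 0 < |z.im| := abs_pos.mpr him
      positivity
    linarith

end Dat

end Crest.Agent.R237.Hyp
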