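import Mathlib
import Crest.Agent.R237.Model3

/-!
Row 237 (S0367): the concrete model, part 4 (helper756): values of `M`, `T`, `w` at the point
`fun i => L (zP q i)` for a linear functional `L` on polynomials.
-/

set_option autoImplicit false

namespace Crest.Agent.R237.Model

open Matrix

variable {n d : ℕ} (q : Fin d → Matrix (Fin n) (Fin n) ℝ)

/-- the moment point of a functional -/
noncomputable def Lz (L : MvPolynomial (Fin n) ℝ →ₗ[ℝ] ℝ) : Fin (mm n) → ℝ :=
  fun i => L (zP q i)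

variable (L : MvPolynomial (Fin n) ℝ →ₗ[ℝ] ℝ)

theorem a0_Lz : a0 (Lz q L) = L 1 := by simp [Lz, a0, zP]
theorem a1_Lz (i : Fin n) : a1 i (Lz q L) = L (MvPolynomial.X i) := by simp [Lz, a1, zP]
theorem a2_Lz (i j : Fin n) : a2 i j (Lz q L) = L (MvPolynomial.X i * MvPolynomial.X j) := by
  simp [Lz, a2, zP]
theorem a3_Lz (i j k : Fin n) :
    a3 i j k (Lz q L) = L (MvPolynomial.X i * MvPolynomial.X j * MvPolynomial.X k) := by
  simp [Lz, a3, zP]
theorem aw_Lz : aw (Lz q L) = ∑ a, L (qP q a * qP q a) := by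
  have h : aw (Lz q L) = L (∑ a, qP q a ^ 2) := by simp [Lz, aw, zP]
  rw [h, map_sum]
  simp only [sq]

theorem s2_Lz (i j : Fin n) : s2 i j (Lz q L) = L (MvPolynomial.X i * MvPolynomial.X j) := by
  rw [s2_apply, a2_Lz, a2_Lz, mul_comm (MvPolynomial.X j)]
  ring

theorem s3_Lz (i j k : Fin n) : s3 i j k (Lz q L) =
    L (MvPolynomial.X i * MvPolynomial.X j * MvPolynomial.X k) := by
  have e1 : (MvPolynomial.X i * MvPolynomial.X k * MvPolynomial.X j : MvPolynomial (Fin n) ℝ) =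
    MvPolynomial.X i * MvPolynomial.X j * MvPolynomial.X k := by ring
  have e2 : (MvPolynomial.X j * MvPolynomial.X i * MvPolynomial.X k : MvPolynomial (Fin n) ℝ) =
    MvPolynomial.X i * MvPolynomial.X j * MvPolynomial.X k := by ring
  have e3 : (MvPolynomial.X j * MvPolynomial.X k * MvPolynomial.X i : MvPolynomial (Fin n) ℝ) =
    MvPolynomial.X i * MvPolynomial.X j * MvPolynomial.X k := by ring
  have e4 : (MvPolynomial.X k * MvPolynomial.X i * MvPolynomial.X j : MvPolynomial (Fin n) ℝ) =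
    MvPolynomial.X i * MvPolynomial.X j * MvPolynomial.X k := by ring
  have e5 : (MvPolynomial.X k * MvPolynomial.X j * MvPolynomial.X i : MvPolynomial (Fin n) ℝ) =
    MvPolynomial.X i * MvPolynomial.X j * MvPolynomial.X k := by ring
  rw [s3_apply, a3_Lz, a3_Lz, a3_Lz, a3_Lz, a3_Lz, a3_Lz, e1, e2, e3, e4, e5]
  ring

theorem M_Lz_00 : M (Lz q L) 0 0 = L 1 := by rw [M_00, a0_Lz]
theorem M_Lz_0s (j : Fin n) : M (Lz q L) 0 j.succ = L (MvPolynomial.X j) := by rw [M_0s, a1_Lz]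
theorem M_Lz_s0 (i : Fin n) : M (Lz q L) i.succ 0 = L (MvPolynomial.X i) := by rw [M_s0, a1_Lz]
theorem M_Lz_ss (i j : Fin n) : M (Lz q L) i.succ j.succ =
    L (MvPolynomial.X i * MvPolynomial.X j) := by rw [M_ss, s2_Lz]

theorem T_Lz_0 (a : Fin d) : T q (Lz q L) 0 a = L (qP q a) := by
  rw [T_0, T0_apply]
  unfold qP
  rw [map_sum]
  refine Finset.sum_congr rfl fun j _ => ?_
  rw [map_sum]
  refine Finset.sum_congr rfl fun k _ => ?_
  rw [s2_Lz, ← MvPolynomial.smul_eq_C_mul, map_smul, smul_eq_mul]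

theorem T_Lz_s (i : Fin n) (a : Fin d) :
    T q (Lz q L) i.succ a = L (MvPolynomial.X i * qP q a) := by
  rw [T_s, T1_apply]
  unfold qP
  rw [Finset.mul_sum, map_sum]
  refine Finset.sum_congr rfl fun j _ => ?_
  rw [Finset.mul_sum, map_sum]
  refine Finset.sum_congr rfl fun k _ => ?_
  rw [s3_Lz]
  have e : (MvPolynomial.X i * (MvPolynomial.C (q a j k) *
      (MvPolynomial.X j * MvPolynomial.X k)) : MvPolynomial (Fin n) ℝ) =
      q a j k • (MvPolynomial.X i * MvPolynomial.X j * MvPolynomial.X k) := by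
    rw [MvPolynomial.smul_eq_C_mul]; ring
  rw [e, map_smul, smul_eq_mul]

end Crest.Agent.R237.Model
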