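import Crest.Agent.R237.S2ConeB

/-!
Row 237, statement S0368, node B (N2): `K0 ⊆ KK`, `KK` is closed, and the closed hyperbolicity cone
of `poly k` is `KK`.
-/

set_option autoImplicit false

namespace Crest.Agent.R237.S2Cone

open Matrix Crest.Agent.R237.S2 Crest.GeometryTopology

/-- strict positivity of the form after a positive shift -/
theorem rq_shift_pos {z : Fin 23 → ℝ} (hz : z ∈ K0) {t : ℝ} (ht : 0 < t) :
    0 < (z + t • e23) 0 ∧ 0 < dl (z + t • e23) ∧
      ∀ y0 y1 y2, (y0 ≠ 0 ∨ y1 ≠ 0 ∨ y2 ≠ 0) → 0 < rq (z + t • e23) y0 y1 y2 := by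
  rw [mem_K0_iff] at hz
  obtain ⟨h0, h1, hq⟩ := hz
  have h2 : 0 < z 2 := by
    have : 0 < z 0 * z 2 := by unfold dl at h1; nlinarith [sq_nonneg (z 1)]
    exact (mul_pos_iff_of_pos_left h0).1 this
  have hd : 0 < dl (z + t • e23) := by
    rw [dl_shift]; positivity
  refine ⟨by rw [sh0]; linarith, hd, ?_⟩
  intro y0 y1 y2 hy
  have key := rq_shift z t y0 y1 y2
  have hg : 0 ≤ gf (z 3) (z 4) (z 5) (z 6) (t * (z 2 ^ 2 + z 1 ^ 2) + t ^ 2 * z 2)
          (-(t * z 1 * (z 0 + z 2)) - t ^ 2 * z 1) (t * (z 0 ^ 2 + z 1 ^ 2) + t ^ 2 * z 0)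
          y0 y1 y2 := by
    apply gf_nonneg
    · positivity
    · positivity
    · have e1 : (t * (z 2 ^ 2 + z 1 ^ 2) + t ^ 2 * z 2) * (t * (z 0 ^ 2 + z 1 ^ 2) + t ^ 2 * z 0)
          - (-(t * z 1 * (z 0 + z 2)) - t ^ 2 * z 1) ^ 2 =
          t ^ 2 * dl z * dl (z + t • e23) := by
        rw [dl_shift]; unfold dl; ring
      have : 0 ≤ t ^ 2 * dl z * dl (z + t • e23) := by positivity
      linarith
  have hs : 0 < y0 ^ 2 + y1 ^ 2 + y2 ^ 2 := by
    rcases hy with h | h | h <;> positivity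
  have h3 : 0 ≤ dl (z + t • e23) * rq z y0 y1 y2 := mul_nonneg hd.le (hq _ _ _)
  have h4 : 0 < t * dl z * dl (z + t • e23) * (y0 ^ 2 + y1 ^ 2 + y2 ^ 2) := by positivity
  have h5 : 0 < dl z * rq (z + t • e23) y0 y1 y2 := by rw [key]; linarith
  exact (mul_pos_iff_of_pos_left h1).1 h5

/-- a strictly positive form gives membership in `K0` -/
theorem K0_of_pos {z : Fin 23 → ℝ} (h0 : 0 < z 0) (h1 : 0 < dl z)
    (h : ∀ y0 y1 y2, (y0 ≠ 0 ∨ y1 ≠ 0 ∨ y2 ≠ 0) → 0 < rq z y0 y1 y2) : z ∈ K0 := by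
  rw [mem_K0_iff]
  refine ⟨h0, h1, fun y0 y1 y2 => ?_⟩
  by_cases hy : y0 ≠ 0 ∨ y1 ≠ 0 ∨ y2 ≠ 0
  · exact (h _ _ _ hy).le
  · push Not at hy
    obtain ⟨rfl, rfl, rfl⟩ := hy
    simp [rq, qf]

theorem K0_shift {z : Fin 23 → ℝ} (hz : z ∈ K0) {t : ℝ} (ht : 0 < t) : z + t • e23 ∈ K0 := by
  obtain ⟨a, b, c⟩ := rq_shift_pos hz ht
  exact K0_of_pos a b c

theorem shift_split (z : Fin 23 → ℝ) (t : ℝ) :
    z + t • e23 = (z + (t / 2) • e23) + (t / 2) • e23 := by
  rw [add_assoc, ← add_smul]; congr 2; ring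

end Crest.Agent.R237.S2Cone

namespace Crest.Agent.R237.S2

open Crest.Agent.R237.S2Cone

/-- **N2 (1).** -/
theorem K0_subset_KK : K0 ⊆ KK := fun _ hz _ ht => K0_shift hz ht

end Crest.Agent.R237.S2

namespace Crest.Agent.R237.S2Cone

open Matrix Crest.Agent.R237.S2 Crest.GeometryTopology

/-! ### closedness -/

theorem cont_e00 : Continuous e00 := by unfold e00 dl; fun_prop
theorem cont_e01 : Continuous e01 := by unfold e01 dl; fun_prop
theorem cont_e02 : Continuous e02 := by unfold e02 dl; fun_prop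
theorem cont_e11 : Continuous e11 := by unfold e11 dl; fun_prop
theorem cont_e12 : Continuous e12 := by unfold e12 dl; fun_prop
theorem cont_e22 : Continuous e22 := by unfold e22 dl; fun_prop
theorem cont_dl : Continuous (dl : (Fin 23 → ℝ) → ℝ) := by unfold dl; fun_prop

theorem cont_rq (y0 y1 y2 : ℝ) : Continuous fun z => rq z y0 y1 y2 := by
  have h0 := cont_e00
  have h1 := cont_e01
  have h2 := cont_e02
  have h3 := cont_e11
  have h4 := cont_e12
  have h5 := cont_e22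
  unfold rq qf
  fun_prop

theorem cont_rd : Continuous rd := by
  have h0 := cont_e00
  have h1 := cont_e01
  have h2 := cont_e02
  have h3 := cont_e11
  have h4 := cont_e12
  have h5 := cont_e22
  unfold rd dt
  fun_prop

theorem cont_m2 : Continuous fun z => e00 z * e11 z - e01 z ^ 2 := by
  have h0 := cont_e00
  have h1 := cont_e01
  have h3 := cont_e11
  fun_prop

theorem cont_shift (t : ℝ) : Continuous fun z : Fin 23 → ℝ => z + t • e23 := by fun_prop

end Crest.Agent.R237.S2Cone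

namespace Crest.Agent.R237.S2

open Crest.Agent.R237.S2Cone

/-- **N2 (2).** -/
theorem isClosed_KK : IsClosed KK := by
  have hKK : KK = ⋂ t : {t : ℝ // 0 < t}, {z | 0 ≤ (z + (t.1 / 2) • e23) 0 ∧
      0 ≤ (z + (t.1 / 2) • e23) 2 ∧ 0 ≤ dl (z + (t.1 / 2) • e23) ∧
      ∀ y0 y1 y2, 0 ≤ rq (z + t.1 • e23) y0 y1 y2} := by
    ext z
    simp only [Set.mem_iInter, Set.mem_ofPred_eq, KK]
    constructor
    · rintro h ⟨t, ht⟩
      have h1 := h (t / 2) (by linarith)
      have h2 := h t ht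
      rw [mem_K0_iff] at h1 h2
      refine ⟨h1.1.le, ?_, h1.2.1.le, h2.2.2⟩
      have h3 : 0 < (z + (t / 2) • e23) 0 * (z + (t / 2) • e23) 2 := by
        have := h1.2.1
        unfold dl at this
        nlinarith [sq_nonneg ((z + (t / 2) • e23) 1)]
      exact ((mul_pos_iff_of_pos_left h1.1).1 h3).le
    · intro h t ht
      obtain ⟨h0, h2, hd, hq⟩ := h ⟨t, ht⟩
      simp only at h0 h2 hd hq
      rw [mem_K0_iff]
      refine ⟨?_, ?_, hq⟩
      · rw [sh0] at h0 ⊢; linarith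
      · rw [shift_split, dl_shift]
        have : 0 < (t / 2) ^ 2 := by positivity
        have h5 : 0 ≤ (t / 2) * ((z + (t / 2) • e23) 0 + (z + (t / 2) • e23) 2) := by
          apply mul_nonneg <;> linarith
        linarith
  rw [hKK]
  refine isClosed_iInter fun t => ?_
  have c1 : IsClosed {z : Fin 23 → ℝ | 0 ≤ (z + (t.1 / 2) • e23) 0} :=
    isClosed_le continuous_const ((continuous_apply 0).comp (cont_shift _))
  have c2 : IsClosed {z : Fin 23 → ℝ | 0 ≤ (z + (t.1 / 2) • e23) 2} :=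
    isClosed_le continuous_const ((continuous_apply 2).comp (cont_shift _))
  have c3 : IsClosed {z : Fin 23 → ℝ | 0 ≤ dl (z + (t.1 / 2) • e23)} :=
    isClosed_le continuous_const (cont_dl.comp (cont_shift _))
  have c4 : IsClosed {z : Fin 23 → ℝ | ∀ y0 y1 y2, 0 ≤ rq (z + t.1 • e23) y0 y1 y2} := by
    simp only [Set.ofPred_forall]
    refine isClosed_iInter fun y0 => isClosed_iInter fun y1 => isClosed_iInter fun y2 => ?_
    exact isClosed_le continuous_const ((cont_rq y0 y1 y2).comp (cont_shift _))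
  exact c1.inter (c2.inter (c3.inter c4))

end Crest.Agent.R237.S2

namespace Crest.Agent.R237.S2Cone

open Matrix Crest.Agent.R237.S2 Crest.GeometryTopology

/-! ### evaluation and homogeneity -/

theorem eval_poly (k : ℕ) (y : Fin 23 → ℝ) :
    MvPolynomial.eval y (poly k) = dl y * rd y * y 0 ^ k := by
  rw [← D9_eq]
  unfold poly D9 dl Um Gam
  rw [Matrix.det_fin_three, Matrix.det_fin_three]
  simp

theorem dl_neg (y : Fin 23 → ℝ) : dl (-y) = dl y := by
  unfold dl; simp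

theorem rd_neg (y : Fin 23 → ℝ) : rd (-y) = - rd y := by
  unfold rd dt e00 e01 e02 e11 e12 e22 dl
  simp only [Pi.neg_apply]
  ring

theorem dl_smul (s : ℝ) (y : Fin 23 → ℝ) : dl (s • y) = s ^ 2 * dl y := by
  unfold dl; simp only [Pi.smul_apply, smul_eq_mul]; ring
theorem e00_smul (s : ℝ) (y : Fin 23 → ℝ) : e00 (s • y) = s ^ 3 * e00 y := by
  unfold e00; rw [dl_smul]; simp only [Pi.smul_apply, smul_eq_mul]; ring
theorem e01_smul (s : ℝ) (y : Fin 23 → ℝ) : e01 (s • y) = s ^ 3 * e01 y := by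
  unfold e01; rw [dl_smul]; simp only [Pi.smul_apply, smul_eq_mul]; ring
theorem e02_smul (s : ℝ) (y : Fin 23 → ℝ) : e02 (s • y) = s ^ 3 * e02 y := by
  unfold e02; rw [dl_smul]; simp only [Pi.smul_apply, smul_eq_mul]; ring
theorem e11_smul (s : ℝ) (y : Fin 23 → ℝ) : e11 (s • y) = s ^ 3 * e11 y := by
  unfold e11; rw [dl_smul]; simp only [Pi.smul_apply, smul_eq_mul]; ring
theorem e12_smul (s : ℝ) (y : Fin 23 → ℝ) : e12 (s • y) = s ^ 3 * e12 y := by
  unfold e12; rw [dl_smul]; simp only [Pi.smul_apply, smul_eq_mul]; ring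
theorem e22_smul (s : ℝ) (y : Fin 23 → ℝ) : e22 (s • y) = s ^ 3 * e22 y := by
  unfold e22; rw [dl_smul]; simp only [Pi.smul_apply, smul_eq_mul]; ring
theorem rd_smul (s : ℝ) (y : Fin 23 → ℝ) : rd (s • y) = s ^ 9 * rd y := by
  unfold rd
  rw [e00_smul, e01_smul, e02_smul, e11_smul, e12_smul, e22_smul]
  unfold dt; ring

/-- for large `s`, the point `x + s e` is in the interior -/
theorem large (x : Fin 23 → ℝ) : ∃ s : ℝ, 0 < s ∧ 0 < (x + s • e23) 0 ∧ 0 < dl (x + s • e23) ∧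
    0 < e00 (x + s • e23) ∧
    0 < e00 (x + s • e23) * e11 (x + s • e23) - e01 (x + s • e23) ^ 2 ∧
    0 < rd (x + s • e23) := by
  set φ : ℝ → (Fin 23 → ℝ) := fun τ => e23 + τ • x with hφ
  have cφ : Continuous φ := by rw [hφ]; fun_prop
  have h0 : φ 0 = e23 := by rw [hφ]; simp
  have v0 : (φ 0) 0 = 1 := by rw [h0]; simp [e23]
  have v1 : dl (φ 0) = 1 := by rw [h0]; simp [e23, dl]
  have v2 : e00 (φ 0) = 1 := by rw [h0]; simp [e00, e23, dl]
  have v3 : e00 (φ 0) * e11 (φ 0) - e01 (φ 0) ^ 2 = 1 := by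
    rw [h0]; simp [e00, e11, e01, e23, dl]
  have v4 : rd (φ 0) = 1 := by
    rw [h0]; simp [rd, dt, e00, e11, e01, e02, e12, e22, e23, dl]
  have o0 : ∀ᶠ τ in nhds (0 : ℝ), 0 < (φ τ) 0 :=
    ((continuous_apply 0).comp cφ).continuousAt.eventually_const_lt (by
      show 0 < (φ 0) 0; rw [v0]; exact one_pos)
  have o1 : ∀ᶠ τ in nhds (0 : ℝ), 0 < dl (φ τ) :=
    (cont_dl.comp cφ).continuousAt.eventually_const_lt (by
      show 0 < dl (φ 0); rw [v1]; exact one_pos)
  have o2 : ∀ᶠ τ in nhds (0 : ℝ), 0 < e00 (φ τ) :=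
    (cont_e00.comp cφ).continuousAt.eventually_const_lt (by
      show 0 < e00 (φ 0); rw [v2]; exact one_pos)
  have o3 : ∀ᶠ τ in nhds (0 : ℝ), 0 < e00 (φ τ) * e11 (φ τ) - e01 (φ τ) ^ 2 :=
    (cont_m2.comp cφ).continuousAt.eventually_const_lt (by
      show 0 < e00 (φ 0) * e11 (φ 0) - e01 (φ 0) ^ 2; rw [v3]; exact one_pos)
  have o4 : ∀ᶠ τ in nhds (0 : ℝ), 0 < rd (φ τ) :=
    (cont_rd.comp cφ).continuousAt.eventually_const_lt (by
      show 0 < rd (φ 0); rw [v4]; exact one_pos)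
  have hall := o0.and (o1.and (o2.and (o3.and o4)))
  have hpos : ∃ τ : ℝ, 0 < τ ∧ (0 < (φ τ) 0 ∧ 0 < dl (φ τ) ∧ 0 < e00 (φ τ) ∧
      0 < e00 (φ τ) * e11 (φ τ) - e01 (φ τ) ^ 2 ∧ 0 < rd (φ τ)) := by
    obtain ⟨ε, hε, hb⟩ := Metric.eventually_nhds_iff.1 hall
    refine ⟨ε / 2, by linarith, hb ?_⟩
    rw [Real.dist_eq, sub_zero, abs_of_pos (by linarith)]
    linarith
  obtain ⟨τ, hτ, g0, g1, g2, g3, g4⟩ := hpos
  have hs : 0 < τ⁻¹ := inv_pos.2 hτ
  have hx : x + τ⁻¹ • e23 = τ⁻¹ • φ τ := by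
    rw [hφ]; simp only [smul_add, smul_smul, inv_mul_cancel₀ hτ.ne', one_smul]
    exact add_comm _ _
  refine ⟨τ⁻¹, hs, ?_, ?_, ?_, ?_, ?_⟩
  · rw [hx]; exact mul_pos hs g0
  · rw [hx, dl_smul]; positivity
  · rw [hx, e00_smul]; positivity
  · rw [hx, e00_smul, e11_smul, e01_smul]
    have : (τ⁻¹ ^ 3 * e00 (φ τ)) * (τ⁻¹ ^ 3 * e11 (φ τ)) - (τ⁻¹ ^ 3 * e01 (φ τ)) ^ 2 =
        τ⁻¹ ^ 6 * (e00 (φ τ) * e11 (φ τ) - e01 (φ τ) ^ 2) := by ring
    rw [this]; positivity
  · rw [hx, rd_smul]; positivity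

end Crest.Agent.R237.S2Cone

namespace Crest.Agent.R237.S2

open Crest.Agent.R237.S2Cone Crest.GeometryTopology

theorem rd_pos_of_K0_shift {z : Fin 23 → ℝ} (hz : z ∈ K0) {t : ℝ} (ht : 0 < t) :
    0 < (z + t • e23) 0 ∧ 0 < dl (z + t • e23) ∧ 0 < rd (z + t • e23) := by
  obtain ⟨a, b, c⟩ := rq_shift_pos hz ht
  exact ⟨a, b, (dt_pos c).2.2⟩

/-- **N2 (3).** The closed hyperbolicity cone of `poly k` is `KK`. -/
theorem closedCone_poly (k : ℕ) : Hyperbolic.closedCone (poly k) e23 = KK := by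
  ext x
  constructor
  · intro hx
    have hx' : ∀ t : ℝ, MvPolynomial.eval (fun i => t * e23 i - x i) (poly k) = 0 → 0 ≤ t := hx
    have hne : ∀ s : ℝ, 0 < s → dl (x + s • e23) ≠ 0 ∧ rd (x + s • e23) ≠ 0 := by
      intro s hs
      have hev : MvPolynomial.eval (fun i => (-s) * e23 i - x i) (poly k) ≠ 0 := by
        intro h0
        have := hx' (-s) h0
        linarith
      have hfun : (fun i => (-s) * e23 i - x i) = -(x + s • e23) := by
        funext i; simp [Pi.add_apply, Pi.smul_apply]; ring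
      rw [hfun, S2Cone.eval_poly, dl_neg, rd_neg] at hev
      constructor
      · intro h; apply hev; rw [h]; ring
      · intro h; apply hev; rw [h]; ring
    have cs : Continuous fun s : ℝ => x + s • e23 := by fun_prop
    have hmain := clopen (A := fun s => (x + s • e23) 0) (D := fun s => dl (x + s • e23))
      (r00 := fun s => e00 (x + s • e23)) (r01 := fun s => e01 (x + s • e23))
      (r02 := fun s => e02 (x + s • e23)) (r11 := fun s => e11 (x + s • e23))
      (r12 := fun s => e12 (x + s • e23)) (r22 := fun s => e22 (x + s • e23))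
      ((continuous_apply 0).comp cs) (cont_dl.comp cs) (cont_e00.comp cs) (cont_e01.comp cs)
      (cont_e02.comp cs) (cont_e11.comp cs) (cont_e12.comp cs) (cont_e22.comp cs)
      (fun s hs => (hne s hs).2)
      (fun s hs hd h0 => by
        have h0' : (x + s • e23) 0 = 0 := h0
        have hd' : 0 < dl (x + s • e23) := hd
        unfold dl at hd'
        rw [h0'] at hd'
        nlinarith [sq_nonneg ((x + s • e23) 1)])
      (fun s hs => (hne s hs).1) (large x)
    intro t ht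
    obtain ⟨h0, h1, h2, h3, h4⟩ := hmain t ht
    exact K0_of_pos h0 h1 (fun y0 y1 y2 hy => qf_pos h2 h3 h4 hy)
  · intro hx
    show ∀ t : ℝ, MvPolynomial.eval (fun i => t * e23 i - x i) (poly k) = 0 → 0 ≤ t
    intro t h0
    by_contra hneg
    push Not at hneg
    have hs : 0 < (-t) / 2 := by linarith
    have hK := hx ((-t) / 2) hs
    obtain ⟨g0, g1, g2⟩ := rd_pos_of_K0_shift hK hs
    rw [← shift_split] at g0 g1 g2
    have hfun : (fun i => t * e23 i - x i) = -(x + (-t) • e23) := by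
      funext i; simp [Pi.add_apply, Pi.smul_apply]; ring
    rw [hfun, S2Cone.eval_poly, dl_neg, rd_neg] at h0
    have h5 : (-(x + (-t) • e23)) 0 = -((x + (-t) • e23) 0) := rfl
    rw [h5] at h0
    have h6 : dl (x + (-t) • e23) * -rd (x + (-t) • e23) * (-(x + (-t) • e23) 0) ^ k ≠ 0 := by
      apply mul_ne_zero
      · exact mul_ne_zero g1.ne' (neg_ne_zero.2 g2.ne')
      · exact pow_ne_zero _ (neg_ne_zero.2 g0.ne')
    exact h6 h0

end Crest.Agent.R237.S2
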