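import Mathlib
import Crest.Prelude.Def_Hyperbolic

/-!
Row 237, statement S0368: definitions.  Coordinates of `z : Fin 23 → R`:
`X = [[z 0, z 1],[z 1, z 2]]`, `V1 = (z 3, z 4) = (p,q)`, `V2 = (z 5, z 6) = (r,s)`,
`U = [[z 7, z 8, z 9],[z 8, z 10, z 11],[z 9, z 11, z 12]]`, dummies `z 13 .. z 22`.
-/

set_option autoImplicit false

namespace Crest.Agent.R237.S2

open Matrix

variable {R : Type*} [CommRing R]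

/-- `Γ(v)(P)`: `yᵀ Γ y = Q(V1 ⊗ (x0 y1, x1 y0), V2 ⊗ (x0 y2, x1 y1))`, `P = x xᵀ`,
`Q(a..h) = a²+…+h² - 2(ae+ah+de-dh)`. -/
def Gam (p q r s P00 P01 P11 : R) : Matrix (Fin 3) (Fin 3) R :=
  !![(p^2+q^2)*P11, q*s*P11, -(q*r*P01);
     q*s*P11, (p^2+q^2)*P00 + (r^2+s^2)*P11 - 2*(p*s*P01), -(p*r*P00);
     -(q*r*P01), -(p*r*P00), (r^2+s^2)*P00]

/-- the block `U` -/
def Um (z : Fin 23 → R) : Matrix (Fin 3) (Fin 3) R :=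
  !![z 7, z 8, z 9; z 8, z 10, z 11; z 9, z 11, z 12]

/-- the block `X` -/
def Xm (z : Fin 23 → R) : Matrix (Fin 2) (Fin 2) R := !![z 0, z 1; z 1, z 2]

/-- `δ = det X` -/
def dl (z : Fin 23 → R) : R := z 0 * z 2 - z 1 ^ 2

/-- `det (δ U - Γ(v)(adj X))` -/
def D9 (z : Fin 23 → R) : R :=
  (dl z • Um z - Gam (z 3) (z 4) (z 5) (z 6) (z 2) (-(z 1)) (z 0)).det

/-- `e = (I, 0, I)` -/
def e23 : Fin 23 → ℝ :=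
  ![1,0,1, 0,0,0,0, 1,0,0,1,0,1, 0,0,0,0,0,0,0,0,0,0]

/-- the polynomial `δ · det(δ U - Γ(v)(adj X)) · X₀₀ ^ k`, of degree `11 + k` -/
noncomputable def poly (k : ℕ) : MvPolynomial (Fin 23) ℝ :=
  dl (fun i => MvPolynomial.X i) * D9 (fun i => MvPolynomial.X i) * MvPolynomial.X 0 ^ k

/-- `Γ(v)(X⁻¹)` for a real point `z` with `δ ≠ 0` -/
noncomputable def Gz (z : Fin 23 → ℝ) : Matrix (Fin 3) (Fin 3) ℝ :=
  Gam (z 3) (z 4) (z 5) (z 6) (z 2 / dl z) (-(z 1) / dl z) (z 0 / dl z)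

/-- the open-in-`X` part of the cone: `X ≻ 0`, `U ⪰ Γ(v)(X⁻¹)` -/
def K0 : Set (Fin 23 → ℝ) :=
  {z | 0 < z 0 ∧ 0 < dl z ∧ (Um z - Gz z).PosSemidef}

/-- the closed cone: all translates `z + t e`, `t > 0`, lie in `K0` -/
def KK : Set (Fin 23 → ℝ) := {z | ∀ t : ℝ, 0 < t → z + t • e23 ∈ K0}

/-- `F(v;x;y)` -/
def FF (p q r s x0 x1 y0 y1 y2 : ℝ) : ℝ :=
  (p^2+q^2)*(x0^2*y1^2 + x1^2*y0^2) + (r^2+s^2)*(x0^2*y2^2 + x1^2*y1^2)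
    - 2*((p*x0*y1)*(r*x0*y2) + (p*x0*y1)*(s*x1*y1) + (q*x1*y0)*(r*x0*y2) - (q*x1*y0)*(s*x1*y1))

end Crest.Agent.R237.S2
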