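import Mathlib
import Crest.Agent.R237.S2NS
import Crest.Agent.R237.S2Cone

/-!
Row 237, statement S0368: the dummy coordinates of a normalised pencil vanish.
-/

set_option autoImplicit false

namespace Crest.Agent.R237.S2

open Matrix

theorem mem_K0_congr {z z' : Fin 23 → ℝ} (h : ∀ k : Fin 23, (k : ℕ) < 13 → z k = z' k)
    (hz : z ∈ K0) : z' ∈ K0 := by
  obtain ⟨h0, h1, h2⟩ := hz
  have e0 := h 0 (by decide)
  have e1 := h 1 (by decide)
  have e2 := h 2 (by decide)
  have e3 := h 3 (by decide)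
  have e4 := h 4 (by decide)
  have e5 := h 5 (by decide)
  have e6 := h 6 (by decide)
  have e7 := h 7 (by decide)
  have e8 := h 8 (by decide)
  have e9 := h 9 (by decide)
  have e10 := h 10 (by decide)
  have e11 := h 11 (by decide)
  have e12 := h 12 (by decide)
  have hd : dl z' = dl z := by unfold dl; rw [e0, e1, e2]
  have hU : Um z' = Um z := by unfold Um; rw [e7, e8, e9, e10, e11, e12]
  have hG : Gz z' = Gz z := by unfold Gz; rw [hd, e0, e1, e2, e3, e4, e5, e6]
  exact ⟨by rw [← e0]; exact h0, by rw [hd]; exact h1, by rw [hU, hG]; exact h2⟩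

theorem mem_KK_congr {z z' : Fin 23 → ℝ} (h : ∀ k : Fin 23, (k : ℕ) < 13 → z k = z' k)
    (hz : z ∈ KK) : z' ∈ KK := by
  intro t ht
  refine mem_K0_congr (fun k hk => ?_) (hz t ht)
  simp only [Pi.add_apply, h k hk]

theorem zero_mem_KK : (0 : Fin 23 → ℝ) ∈ KK := by
  intro t ht
  have hd : dl ((0 : Fin 23 → ℝ) + t • e23) = t ^ 2 := by
    simp [dl, e23]; ring
  refine ⟨by simp [e23, ht], by rw [hd]; positivity, ?_⟩
  have hG : Gz ((0 : Fin 23 → ℝ) + t • e23) = 0 := by
    unfold Gz Gam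
    ext i j
    fin_cases i <;> fin_cases j <;> simp [e23]
  have hU : Um ((0 : Fin 23 → ℝ) + t • e23) = t • (1 : Matrix (Fin 3) (Fin 3) ℝ) := by
    unfold Um
    ext i j
    fin_cases i <;> fin_cases j <;> simp [e23]
  rw [hG, hU, sub_zero]
  exact PosSemidef.one.smul ht.le

theorem dummy_mem (k : Fin 23) (hk : 13 ≤ (k : ℕ)) (s : ℝ) :
    (s • Pi.single k 1 : Fin 23 → ℝ) ∈ KK := by
  refine mem_KK_congr (z := 0) (fun j hj => ?_) zero_mem_KK
  have : j ≠ k := fun h => by rw [h] at hj; omega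
  simp [this]

theorem dummy_zero {N : ℕ} {L : Pencil N} (hL : Graded L) (k : Fin 23) (hk : 13 ≤ (k : ℕ)) :
    L k = 0 := by
  have h1 := hL.psd _ (dummy_mem k hk 1)
  have h2 := hL.psd _ (dummy_mem k hk (-1))
  rw [Lx_smul, Lx_single, one_smul, one_smul] at h1
  rw [Lx_smul, Lx_single, one_smul, neg_one_smul] at h2
  open scoped MatrixOrder in
  refine le_antisymm ?_ ?_
  · rw [Matrix.le_iff]; simpa using h2
  · rw [Matrix.le_iff]; simpa using h1

/-- all vanishing conditions, in terms of any weights with the same coincidences -/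
theorem grade' {N : ℕ} {L : Pencil N} (hL : Graded L) (kw : Fin 5 → ℕ) (wt' : Fin 23 → ℕ)
    (h : ∀ (k : Fin 23) (i j : Fin 5), (k : ℕ) < 13 → kw i + kw j ≠ wt' k → om i + om j ≠ wt k)
    (k : Fin 23) (i j : Fin 5) (hk : kw i + kw j ≠ wt' k) : L (dg i) * L k * L (dg j) = 0 := by
  by_cases h13 : (k : ℕ) < 13
  · exact hL.grade k i j (h k i j h13 hk)
  · rw [dummy_zero hL k (by omega), mul_zero, zero_mul]

theorem grade237 {N : ℕ} {L : Pencil N} (hL : Graded L) (k : Fin 23) (i j : Fin 5)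
    (hk : (![0,1,4,5,6] : Fin 5 → ℕ) i + (![0,1,4,5,6] : Fin 5 → ℕ) j ≠
      (![0,1,2,5,5,6,6,8,9,10,10,11,12, 0,0,0,0,0,0,0,0,0,0] : Fin 23 → ℕ) k) :
    L (dg i) * L k * L (dg j) = 0 :=
  grade' hL _ _ (by decide) k i j hk

end Crest.Agent.R237.S2
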