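import Mathlib

/-!
Row 237, statement S0368, node B, part A: symmetric `3 × 3` quadratic forms by leading minors and
the open-closed argument on the half line.
-/

set_option autoImplicit false

namespace Crest.Agent.R237.S2Cone

/-- the quadratic form of a symmetric `3 × 3` matrix -/
def qf (a b c d e f y0 y1 y2 : ℝ) : ℝ :=
  a * y0 ^ 2 + d * y1 ^ 2 + f * y2 ^ 2 + 2 * b * y0 * y1 + 2 * c * y0 * y2 + 2 * e * y1 * y2

/-- the determinant of `[[a,b,c],[b,d,e],[c,e,f]]` -/
def dt (a b c d e f : ℝ) : ℝ := a * (d * f - e ^ 2) - b * (b * f - c * e) + c * (b * e - c * d)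

theorem qf_pos {a b c d e f : ℝ} (h1 : 0 < a) (h2 : 0 < a * d - b ^ 2) (h3 : 0 < dt a b c d e f)
    {y0 y1 y2 : ℝ} (hy : y0 ≠ 0 ∨ y1 ≠ 0 ∨ y2 ≠ 0) : 0 < qf a b c d e f y0 y1 y2 := by
  have key : a * (a * d - b ^ 2) * qf a b c d e f y0 y1 y2 =
      (a * d - b ^ 2) * (a * y0 + b * y1 + c * y2) ^ 2
      + ((a * d - b ^ 2) * y1 + (a * e - b * c) * y2) ^ 2
      + a * dt a b c d e f * y2 ^ 2 := by
    unfold qf dt; ring
  have hpos : 0 < a * (a * d - b ^ 2) := mul_pos h1 h2
  by_contra hcon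
  push Not at hcon
  have hle : a * (a * d - b ^ 2) * qf a b c d e f y0 y1 y2 ≤ 0 :=
    mul_nonpos_of_nonneg_of_nonpos hpos.le hcon
  rw [key] at hle
  have t1 : 0 ≤ (a * d - b ^ 2) * (a * y0 + b * y1 + c * y2) ^ 2 := by positivity
  have t2 : 0 ≤ ((a * d - b ^ 2) * y1 + (a * e - b * c) * y2) ^ 2 := by positivity
  have hadt : 0 < a * dt a b c d e f := mul_pos h1 h3
  have t3 : 0 ≤ a * dt a b c d e f * y2 ^ 2 := by positivity
  have e3 : y2 = 0 := by
    have : a * dt a b c d e f * y2 ^ 2 = 0 := by linarith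
    rcases mul_eq_zero.1 this with h | h
    · exact absurd h hadt.ne'
    · exact pow_eq_zero_iff (two_ne_zero) |>.1 h
  subst e3
  have e2 : y1 = 0 := by
    have : ((a * d - b ^ 2) * y1 + (a * e - b * c) * 0) ^ 2 = 0 := by linarith
    have := pow_eq_zero_iff (two_ne_zero) |>.1 this
    have h' : (a * d - b ^ 2) * y1 = 0 := by linarith
    rcases mul_eq_zero.1 h' with h | h
    · exact absurd h h2.ne'
    · exact h
  subst e2
  have e1 : y0 = 0 := by
    have : (a * d - b ^ 2) * (a * y0 + b * 0 + c * 0) ^ 2 = 0 := by linarith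
    rcases mul_eq_zero.1 this with h | h
    · exact absurd h h2.ne'
    · have := pow_eq_zero_iff (two_ne_zero) |>.1 h
      have h' : a * y0 = 0 := by linarith
      rcases mul_eq_zero.1 h' with h | h
      · exact absurd h h1.ne'
      · exact h
  subst e1
  simp at hy

/-- principal minors from a nonnegative form -/
theorem minors_nonneg {a b c d e f : ℝ} (h : ∀ y0 y1 y2, 0 ≤ qf a b c d e f y0 y1 y2) :
    0 ≤ a ∧ 0 ≤ d ∧ 0 ≤ f ∧ 0 ≤ a * d - b ^ 2 ∧ 0 ≤ a * f - c ^ 2 := by
  have ha : 0 ≤ a := by have := h 1 0 0; simpa [qf] using this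
  have hd : 0 ≤ d := by have := h 0 1 0; simpa [qf] using this
  have hf : 0 ≤ f := by have := h 0 0 1; simpa [qf] using this
  refine ⟨ha, hd, hf, ?_, ?_⟩
  · rcases eq_or_lt_of_le ha with h0 | h0
    · -- a = 0: test with (t,1,0)
      rcases eq_or_ne b 0 with hb | hb
      · rw [hb, ← h0]; simp
      · exfalso
        have := h (-(d + 1) / (2 * b)) 1 0
        have e1 : qf a b c d e f (-(d + 1) / (2 * b)) 1 0 = -1 := by
          unfold qf; rw [← h0]; field_simp; ring
        linarith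
    · have := h (-b) a 0
      have e1 : qf a b c d e f (-b) a 0 = a * (a * d - b ^ 2) := by unfold qf; ring
      rw [e1] at this
      exact nonneg_of_mul_nonneg_right this h0
  · rcases eq_or_lt_of_le ha with h0 | h0
    · rcases eq_or_ne c 0 with hb | hb
      · rw [hb, ← h0]; simp
      · exfalso
        have := h (-(f + 1) / (2 * c)) 0 1
        have e1 : qf a b c d e f (-(f + 1) / (2 * c)) 0 1 = -1 := by
          unfold qf; rw [← h0]; field_simp; ring
        linarith
    · have := h (-c) 0 a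
      have e1 : qf a b c d e f (-c) 0 a = a * (a * f - c ^ 2) := by unfold qf; ring
      rw [e1] at this
      exact nonneg_of_mul_nonneg_right this h0

theorem dt_mul (a b c d e f : ℝ) :
    a * dt a b c d e f = (a * d - b ^ 2) * (a * f - c ^ 2) - (a * e - b * c) ^ 2 := by
  unfold dt; ring

/-- a nonnegative form with nonzero determinant has positive leading minors -/
theorem minors_pos {a b c d e f : ℝ} (h : ∀ y0 y1 y2, 0 ≤ qf a b c d e f y0 y1 y2)
    (hne : dt a b c d e f ≠ 0) :
    0 < a ∧ 0 < a * d - b ^ 2 ∧ 0 < dt a b c d e f := by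
  obtain ⟨ha, hd, hf, h2, h3⟩ := minors_nonneg h
  have ha' : 0 < a := by
    rcases eq_or_lt_of_le ha with h0 | h0
    · exfalso
      have hb : b = 0 := by
        rw [← h0] at h2
        have : b ^ 2 ≤ 0 := by linarith
        exact pow_eq_zero_iff (two_ne_zero) |>.1 (le_antisymm this (sq_nonneg b))
      have hc : c = 0 := by
        rw [← h0] at h3
        have : c ^ 2 ≤ 0 := by linarith
        exact pow_eq_zero_iff (two_ne_zero) |>.1 (le_antisymm this (sq_nonneg c))
      apply hne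
      unfold dt; rw [← h0, hb, hc]; ring
    · exact h0
  -- the determinant is nonnegative
  have hm := dt_mul a b c d e f
  have hd2 : 0 < a * d - b ^ 2 := by
    rcases eq_or_lt_of_le h2 with h0 | h0
    · exfalso
      -- a * dt = - (..)^2, and test vector
      have hz : a * e - b * c = 0 := by
        by_contra hz
        have key : ∀ t : ℝ, qf a b c d e f (-(b * t + c)) (a * t) a =
            a * ((a * d - b ^ 2) * t ^ 2 + 2 * (a * e - b * c) * t + (a * f - c ^ 2)) := by
          intro t; unfold qf; ring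
        have h4 := h (-(b * (-((a * f - c ^ 2) + 1) / (2 * (a * e - b * c))) + c))
          (a * (-((a * f - c ^ 2) + 1) / (2 * (a * e - b * c)))) a
        rw [key, ← h0] at h4
        have h6 : 2 * (a * e - b * c) * (-((a * f - c ^ 2) + 1) / (2 * (a * e - b * c)))
            = -((a * f - c ^ 2) + 1) := by
          field_simp
        rw [h6] at h4
        have h7 : a * (0 * (-((a * f - c ^ 2) + 1) / (2 * (a * e - b * c))) ^ 2 +
            -((a * f - c ^ 2) + 1) + (a * f - c ^ 2)) = - a := by ring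
        rw [h7] at h4
        linarith
      apply hne
      have : a * dt a b c d e f = 0 := by rw [hm, ← h0, hz]; ring
      rcases mul_eq_zero.1 this with h | h
      · exact absurd h ha'.ne'
      · exact h
    · exact h0
  refine ⟨ha', hd2, ?_⟩
  -- dt ≥ 0 by the test vector
  have h4 := h (b * e - c * d) (b * c - a * e) (a * d - b ^ 2)
  have h5 : qf a b c d e f (b * e - c * d) (b * c - a * e) (a * d - b ^ 2) =
      (a * d - b ^ 2) * dt a b c d e f := by
    unfold qf dt; ring
  rw [h5] at h4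
  have h6 := nonneg_of_mul_nonneg_right h4 hd2
  exact lt_of_le_of_ne h6 (Ne.symm hne)

/-- a positive definite form has positive determinant -/
theorem dt_pos {a b c d e f : ℝ}
    (h : ∀ y0 y1 y2, (y0 ≠ 0 ∨ y1 ≠ 0 ∨ y2 ≠ 0) → 0 < qf a b c d e f y0 y1 y2) :
    0 < a ∧ 0 < a * d - b ^ 2 ∧ 0 < dt a b c d e f := by
  have ha : 0 < a := by have := h 1 0 0 (by simp); simpa [qf] using this
  have h2 : 0 < a * d - b ^ 2 := by
    have := h (-b) a 0 (Or.inr (Or.inl ha.ne'))
    have e1 : qf a b c d e f (-b) a 0 = a * (a * d - b ^ 2) := by unfold qf; ring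
    rw [e1] at this
    exact (mul_pos_iff_of_pos_left ha).1 this
  refine ⟨ha, h2, ?_⟩
  have h4 := h (b * e - c * d) (b * c - a * e) (a * d - b ^ 2) (Or.inr (Or.inr h2.ne'))
  have h5 : qf a b c d e f (b * e - c * d) (b * c - a * e) (a * d - b ^ 2) =
      (a * d - b ^ 2) * dt a b c d e f := by
    unfold qf dt; ring
  rw [h5] at h4
  exact (mul_pos_iff_of_pos_left h2).1 h4

/-- **open-closed argument.** -/
theorem clopen {A D r00 r01 r02 r11 r12 r22 : ℝ → ℝ}
    (cA : Continuous A) (cD : Continuous D) (c00 : Continuous r00) (c01 : Continuous r01)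
    (c02 : Continuous r02) (c11 : Continuous r11) (c12 : Continuous r12) (c22 : Continuous r22)
    (hdet : ∀ s, 0 < s → dt (r00 s) (r01 s) (r02 s) (r11 s) (r12 s) (r22 s) ≠ 0)
    (hA : ∀ s, 0 < s → 0 < D s → A s ≠ 0)
    (hD : ∀ s, 0 < s → D s ≠ 0)
    (hex : ∃ s, 0 < s ∧ 0 < A s ∧ 0 < D s ∧ 0 < r00 s ∧ 0 < r00 s * r11 s - r01 s ^ 2 ∧
      0 < dt (r00 s) (r01 s) (r02 s) (r11 s) (r12 s) (r22 s)) :
    ∀ s, 0 < s → 0 < A s ∧ 0 < D s ∧ 0 < r00 s ∧ 0 < r00 s * r11 s - r01 s ^ 2 ∧
      0 < dt (r00 s) (r01 s) (r02 s) (r11 s) (r12 s) (r22 s) := by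
  set u : Set ℝ := {s | 0 < A s ∧ 0 < D s ∧ 0 < r00 s ∧ 0 < r00 s * r11 s - r01 s ^ 2 ∧
      0 < dt (r00 s) (r01 s) (r02 s) (r11 s) (r12 s) (r22 s)} with hu
  have cdt : Continuous fun s => dt (r00 s) (r01 s) (r02 s) (r11 s) (r12 s) (r22 s) := by
    unfold dt; fun_prop
  have cm2 : Continuous fun s => r00 s * r11 s - r01 s ^ 2 := by fun_prop
  have uo : IsOpen u := by
    have h1 : IsOpen {s | 0 < A s} := isOpen_lt continuous_const cA
    have h2 : IsOpen {s | 0 < D s} := isOpen_lt continuous_const cD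
    have h3 : IsOpen {s | 0 < r00 s} := isOpen_lt continuous_const c00
    have h4 : IsOpen {s | 0 < r00 s * r11 s - r01 s ^ 2} := isOpen_lt continuous_const cm2
    have h5 : IsOpen {s | 0 < dt (r00 s) (r01 s) (r02 s) (r11 s) (r12 s) (r22 s)} :=
      isOpen_lt continuous_const cdt
    exact h1.inter (h2.inter (h3.inter (h4.inter h5)))
  have hsub : Set.Ioi (0 : ℝ) ⊆ u := by
    refine isPreconnected_Ioi.subset_of_closure_inter_subset uo ?_ ?_
    · obtain ⟨s, hs, h⟩ := hex
      exact ⟨s, hs, h⟩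
    · rintro s ⟨hcl, hs⟩
      have hs : 0 < s := hs
      have gA : 0 ≤ A s := by
        have hc : IsClosed {s | 0 ≤ A s} := isClosed_le continuous_const cA
        exact closure_minimal (fun t ht => ht.1.le) hc hcl
      have gD : 0 ≤ D s := by
        have hc : IsClosed {s | 0 ≤ D s} := isClosed_le continuous_const cD
        exact closure_minimal (fun t ht => ht.2.1.le) hc hcl
      have gq : ∀ y0 y1 y2, 0 ≤ qf (r00 s) (r01 s) (r02 s) (r11 s) (r12 s) (r22 s) y0 y1 y2 := by
        intro y0 y1 y2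
        have cq : Continuous fun s =>
            qf (r00 s) (r01 s) (r02 s) (r11 s) (r12 s) (r22 s) y0 y1 y2 := by
          unfold qf; fun_prop
        have hc : IsClosed {s | 0 ≤ qf (r00 s) (r01 s) (r02 s) (r11 s) (r12 s) (r22 s) y0 y1 y2} :=
          isClosed_le continuous_const cq
        refine closure_minimal (fun t ht => ?_) hc hcl
        by_cases hy : y0 ≠ 0 ∨ y1 ≠ 0 ∨ y2 ≠ 0
        · exact (qf_pos ht.2.2.1 ht.2.2.2.1 ht.2.2.2.2 hy).le
        · push Not at hy
          obtain ⟨rfl, rfl, rfl⟩ := hy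
          simp [qf]
      obtain ⟨p1, p2, p3⟩ := minors_pos gq (hdet s hs)
      have pD : 0 < D s := lt_of_le_of_ne gD (Ne.symm (hD s hs))
      exact ⟨lt_of_le_of_ne gA (Ne.symm (hA s hs pD)), pD, p1, p2, p3⟩
  intro s hs
  exact hsub hs

end Crest.Agent.R237.S2Cone
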