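import Crest.Agent.R237.S2Defs
import Crest.Agent.R237.S2ConeA

/-!
Row 237, statement S0368, node B, part B: the entries of `δ U - Γ(v)(adj X)`, positivity of `Γ`,
the shift identity along `e`.
-/

set_option autoImplicit false

namespace Crest.Agent.R237.S2Cone

open Matrix Crest.Agent.R237.S2

/-! ### explicit entries -/

def e00 (z : Fin 23 → ℝ) : ℝ := dl z * z 7 - (z 3 ^ 2 + z 4 ^ 2) * z 0
def e01 (z : Fin 23 → ℝ) : ℝ := dl z * z 8 - z 4 * z 6 * z 0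
def e02 (z : Fin 23 → ℝ) : ℝ := dl z * z 9 - z 4 * z 5 * z 1
def e11 (z : Fin 23 → ℝ) : ℝ :=
  dl z * z 10 - ((z 3 ^ 2 + z 4 ^ 2) * z 2 + (z 5 ^ 2 + z 6 ^ 2) * z 0 + 2 * (z 3 * z 6 * z 1))
def e12 (z : Fin 23 → ℝ) : ℝ := dl z * z 11 + z 3 * z 5 * z 2
def e22 (z : Fin 23 → ℝ) : ℝ := dl z * z 12 - (z 5 ^ 2 + z 6 ^ 2) * z 2

/-- the quadratic form of `δ U - Γ(v)(adj X)` -/
def rq (z : Fin 23 → ℝ) (y0 y1 y2 : ℝ) : ℝ :=
  qf (e00 z) (e01 z) (e02 z) (e11 z) (e12 z) (e22 z) y0 y1 y2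

/-- the determinant of `δ U - Γ(v)(adj X)` -/
def rd (z : Fin 23 → ℝ) : ℝ := dt (e00 z) (e01 z) (e02 z) (e11 z) (e12 z) (e22 z)

theorem D9_eq (z : Fin 23 → ℝ) : D9 z = rd z := by
  unfold D9 rd dt e00 e01 e02 e11 e12 e22 Um Gam
  rw [Matrix.det_fin_three]
  simp
  ring

theorem rmat_eq (z : Fin 23 → ℝ) :
    dl z • Um z - Gam (z 3) (z 4) (z 5) (z 6) (z 2) (-(z 1)) (z 0) =
      !![e00 z, e01 z, e02 z; e01 z, e11 z, e12 z; e02 z, e12 z, e22 z] := by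
  unfold e00 e01 e02 e11 e12 e22 Um Gam
  ext i j
  fin_cases i <;> fin_cases j <;> simp

/-- PSD test for a symmetric `3 × 3` matrix -/
theorem psd3_iff (a b c d e f : ℝ) :
    (!![a, b, c; b, d, e; c, e, f] : Matrix (Fin 3) (Fin 3) ℝ).PosSemidef ↔
      ∀ y0 y1 y2, 0 ≤ qf a b c d e f y0 y1 y2 := by
  have key : ∀ y : Fin 3 → ℝ,
      star y ⬝ᵥ ((!![a, b, c; b, d, e; c, e, f] : Matrix (Fin 3) (Fin 3) ℝ) *ᵥ y) =
        qf a b c d e f (y 0) (y 1) (y 2) := by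
    intro y
    simp [dotProduct, Matrix.mulVec, Fin.sum_univ_three, qf]
    ring
  constructor
  · intro h y0 y1 y2
    have := h.dotProduct_mulVec_nonneg ![y0, y1, y2]
    rw [key] at this
    simpa using this
  · intro h
    refine PosSemidef.of_dotProduct_mulVec_nonneg ?_ ?_
    · ext i j
      fin_cases i <;> fin_cases j <;> rfl
    · intro y
      rw [key]
      exact h _ _ _

theorem smul_psd_iff {M : Matrix (Fin 3) (Fin 3) ℝ} {c : ℝ} (hc : 0 < c) :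
    (c • M).PosSemidef ↔ M.PosSemidef := by
  constructor
  · intro h
    have := h.smul (inv_pos.2 hc).le
    rwa [smul_smul, inv_mul_cancel₀ hc.ne', one_smul] at this
  · intro h
    exact h.smul hc.le

theorem Gz_smul (z : Fin 23 → ℝ) (h : dl z ≠ 0) :
    dl z • Gz z = Gam (z 3) (z 4) (z 5) (z 6) (z 2) (-(z 1)) (z 0) := by
  unfold Gz Gam
  ext i j
  fin_cases i <;> fin_cases j <;> simp <;> field_simp <;> ring

/-- membership in `K0` by the polynomial form -/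
theorem mem_K0_iff (z : Fin 23 → ℝ) :
    z ∈ K0 ↔ 0 < z 0 ∧ 0 < dl z ∧ ∀ y0 y1 y2, 0 ≤ rq z y0 y1 y2 := by
  unfold K0 rq
  simp only [Set.mem_ofPred_eq]
  constructor
  · rintro ⟨h0, h1, h2⟩
    refine ⟨h0, h1, ?_⟩
    rw [← psd3_iff, ← rmat_eq, ← Gz_smul z h1.ne', ← smul_sub, smul_psd_iff h1]
    exact h2
  · rintro ⟨h0, h1, h2⟩
    refine ⟨h0, h1, ?_⟩
    rw [← psd3_iff, ← rmat_eq, ← Gz_smul z h1.ne', ← smul_sub, smul_psd_iff h1] at h2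
    exact h2

/-! ### positivity of `Γ` -/

/-- quadratic form of `Γ(p,q,r,s)(P)` at `y` -/
def gf (p q r s P00 P01 P11 y0 y1 y2 : ℝ) : ℝ :=
  P00 * ((p ^ 2 + q ^ 2) * y1 ^ 2 + (r ^ 2 + s ^ 2) * y2 ^ 2 - 2 * p * r * y1 * y2)
    + 2 * P01 * (-(q * r * y0 * y2) - p * s * y1 ^ 2)
    + P11 * ((p ^ 2 + q ^ 2) * y0 ^ 2 + (r ^ 2 + s ^ 2) * y1 ^ 2 + 2 * q * s * y0 * y1)

theorem gf_rank_one (p q r s x0 x1 y0 y1 y2 : ℝ) :
    0 ≤ gf p q r s (x0 ^ 2) (x0 * x1) (x1 ^ 2) y0 y1 y2 := by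
  set al := p * x0 * y1 with hal
  set be := q * x1 * y0 with hbe
  set ga := r * x0 * y2 with hga
  set de := s * x1 * y1 with hde
  have e1 : gf p q r s (x0 ^ 2) (x0 * x1) (x1 ^ 2) y0 y1 y2 =
      al ^ 2 + be ^ 2 + (p * x1 * y0) ^ 2 + (q * x0 * y1) ^ 2
        + ga ^ 2 + de ^ 2 + (r * x1 * y1) ^ 2 + (s * x0 * y2) ^ 2
        - 2 * al * ga - 2 * be * ga - 2 * al * de + 2 * be * de := by
    rw [hal, hbe, hga, hde]; unfold gf; ring
  have h1 : 2 * |al * be| ≤ (p * x1 * y0) ^ 2 + (q * x0 * y1) ^ 2 := by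
    have e2 : al * be = (p * x1 * y0) * (q * x0 * y1) := by rw [hal, hbe]; ring
    rw [e2]
    have := two_mul_le_add_sq (|p * x1 * y0|) (|q * x0 * y1|)
    rw [sq_abs, sq_abs] at this
    rw [abs_mul]
    linarith
  have h2 : 2 * |ga * de| ≤ (r * x1 * y1) ^ 2 + (s * x0 * y2) ^ 2 := by
    have e2 : ga * de = (r * x1 * y1) * (s * x0 * y2) := by rw [hga, hde]; ring
    rw [e2]
    have := two_mul_le_add_sq (|r * x1 * y1|) (|s * x0 * y2|)
    rw [sq_abs, sq_abs] at this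
    rw [abs_mul]
    linarith
  have h3 : al * ga + be * ga + al * de - be * de ≤ (|al| + |be|) * (|ga| + |de|) := by
    have a1 : al * ga ≤ |al| * |ga| := by rw [← abs_mul]; exact le_abs_self _
    have a2 : be * ga ≤ |be| * |ga| := by rw [← abs_mul]; exact le_abs_self _
    have a3 : al * de ≤ |al| * |de| := by rw [← abs_mul]; exact le_abs_self _
    have a4 : -(be * de) ≤ |be| * |de| := by rw [← abs_mul]; exact neg_le_abs _
    nlinarith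
  rw [e1]
  have h4 : |al * be| = |al| * |be| := abs_mul _ _
  have h5 : |ga * de| = |ga| * |de| := abs_mul _ _
  rw [h4] at h1
  rw [h5] at h2
  have s1 := sq_abs al
  have s2 := sq_abs be
  have s3 := sq_abs ga
  have s4 := sq_abs de
  nlinarith [sq_nonneg (|al| + |be| - (|ga| + |de|))]

theorem gf_nonneg {p q r s P00 P01 P11 : ℝ} (h0 : 0 ≤ P00) (h1 : 0 ≤ P11)
    (h2 : P01 ^ 2 ≤ P00 * P11) (y0 y1 y2 : ℝ) : 0 ≤ gf p q r s P00 P01 P11 y0 y1 y2 := by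
  rcases eq_or_lt_of_le h0 with h | h
  · have hz : P01 = 0 := by
      rw [← h] at h2
      have : P01 ^ 2 ≤ 0 := by linarith
      exact pow_eq_zero_iff (two_ne_zero) |>.1 (le_antisymm this (sq_nonneg _))
    have := gf_rank_one p q r s 0 1 y0 y1 y2
    have e1 : gf p q r s P00 P01 P11 y0 y1 y2 =
        P11 * gf p q r s (0 ^ 2) (0 * 1) (1 ^ 2) y0 y1 y2 := by
      rw [← h, hz]; unfold gf; ring
    rw [e1]
    exact mul_nonneg h1 this
  · have a1 := gf_rank_one p q r s P00 P01 y0 y1 y2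
    have a2 := gf_rank_one p q r s 0 1 y0 y1 y2
    have e1 : P00 * gf p q r s P00 P01 P11 y0 y1 y2 =
        gf p q r s (P00 ^ 2) (P00 * P01) (P01 ^ 2) y0 y1 y2
          + (P00 * P11 - P01 ^ 2) * gf p q r s (0 ^ 2) (0 * 1) (1 ^ 2) y0 y1 y2 := by
      unfold gf; ring
    have : 0 ≤ P00 * gf p q r s P00 P01 P11 y0 y1 y2 := by
      rw [e1]
      exact add_nonneg a1 (mul_nonneg (by linarith) a2)
    exact nonneg_of_mul_nonneg_right this h

/-! ### coordinates of `z + t e` -/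

theorem sh0 (z : Fin 23 → ℝ) (t : ℝ) : (z + t • e23) 0 = z 0 + t := by simp [e23]
theorem sh1 (z : Fin 23 → ℝ) (t : ℝ) : (z + t • e23) 1 = z 1 := by simp [e23]
theorem sh2 (z : Fin 23 → ℝ) (t : ℝ) : (z + t • e23) 2 = z 2 + t := by simp [e23]
theorem sh3 (z : Fin 23 → ℝ) (t : ℝ) : (z + t • e23) 3 = z 3 := by simp [e23]
theorem sh4 (z : Fin 23 → ℝ) (t : ℝ) : (z + t • e23) 4 = z 4 := by simp [e23]
theorem sh5 (z : Fin 23 → ℝ) (t : ℝ) : (z + t • e23) 5 = z 5 := by simp [e23]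
theorem sh6 (z : Fin 23 → ℝ) (t : ℝ) : (z + t • e23) 6 = z 6 := by simp [e23]
theorem sh7 (z : Fin 23 → ℝ) (t : ℝ) : (z + t • e23) 7 = z 7 + t := by simp [e23]
theorem sh8 (z : Fin 23 → ℝ) (t : ℝ) : (z + t • e23) 8 = z 8 := by simp [e23]
theorem sh9 (z : Fin 23 → ℝ) (t : ℝ) : (z + t • e23) 9 = z 9 := by simp [e23]
theorem sh10 (z : Fin 23 → ℝ) (t : ℝ) : (z + t • e23) 10 = z 10 + t := by simp [e23]
theorem sh11 (z : Fin 23 → ℝ) (t : ℝ) : (z + t • e23) 11 = z 11 := by simp [e23]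
theorem sh12 (z : Fin 23 → ℝ) (t : ℝ) : (z + t • e23) 12 = z 12 + t := by simp [e23]

theorem dl_shift (z : Fin 23 → ℝ) (t : ℝ) :
    dl (z + t • e23) = dl z + t * (z 0 + z 2) + t ^ 2 := by
  unfold dl
  rw [sh0, sh1, sh2]
  ring

/-- the shift identity -/
theorem rq_shift (z : Fin 23 → ℝ) (t y0 y1 y2 : ℝ) :
    dl z * rq (z + t • e23) y0 y1 y2 =
      dl (z + t • e23) * rq z y0 y1 y2
      + t * dl z * dl (z + t • e23) * (y0 ^ 2 + y1 ^ 2 + y2 ^ 2)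
      + gf (z 3) (z 4) (z 5) (z 6) (t * (z 2 ^ 2 + z 1 ^ 2) + t ^ 2 * z 2)
          (-(t * z 1 * (z 0 + z 2)) - t ^ 2 * z 1) (t * (z 0 ^ 2 + z 1 ^ 2) + t ^ 2 * z 0)
          y0 y1 y2 := by
  rw [rq, rq]
  unfold e00 e01 e02 e11 e12 e22
  rw [dl_shift, sh0, sh1, sh2, sh3, sh4, sh5, sh6, sh7, sh8, sh9, sh10, sh11, sh12]
  unfold qf gf dl
  ring

end Crest.Agent.R237.S2Cone
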