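import Mathlib
import Crest.Agent.R237.S2NS
import Crest.Agent.R237.Hyp1

/-!
Row 237, statement S0368, node D1: the set of normalised pencils is nonempty (helper447).
-/

set_option autoImplicit false

namespace Crest.Agent.R237.S2

open Matrix

theorem D1_psd_conj {n : Type*} [Fintype n] [DecidableEq n] {A : Matrix n n ℝ}
    (hA : A.PosSemidef) (C : Matrix n n ℝ) : (Cᵀ * A * C).PosSemidef := by
  have := hA.conjTranspose_mul_mul_same C
  rwa [conjTranspose_eq_transpose_of_trivial] at this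

theorem D1_symm_of_psd {n : Type*} [Fintype n] {A : Matrix n n ℝ}
    (hA : A.PosSemidef) : A.IsSymm := by
  have := hA.1
  rwa [Matrix.IsHermitian, conjTranspose_eq_transpose_of_trivial] at this

/-- the projection on the kernel and the normalisation -/
theorem D1_proj {n : Type*} [Fintype n] [DecidableEq n] {M : Matrix n n ℝ} (hM : M.PosSemidef) :
    ∃ Q C : Matrix n n ℝ, Q.IsSymm ∧ Q.PosSemidef ∧ Q * Q = Q ∧ M * Q = 0 ∧
      Cᵀ * (M + Q) * C = 1 := by
  obtain ⟨U, d, hUU, hMU, hh, hd⟩ := Hyp.spec (D1_symm_of_psd hM)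
  have hd0 : ∀ i, 0 ≤ d i := by
    intro i; rw [hd]; exact hM.eigenvalues_nonneg i
  set q : n → ℝ := fun i => if d i = 0 then 1 else 0 with hq
  have hq0 : ∀ i, 0 ≤ q i := by
    intro i; rw [hq]; dsimp only; split_ifs <;> norm_num
  have hqq : ∀ i, q i * q i = q i := by
    intro i; rw [hq]; dsimp only; split_ifs <;> norm_num
  have hdq : ∀ i, d i * q i = 0 := by
    intro i; rw [hq]; dsimp only; split_ifs with h
    · rw [h, zero_mul]
    · rw [mul_zero]
  have hpos : ∀ i, 0 < d i + q i := by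
    intro i
    by_cases h : d i = 0
    · have : q i = 1 := by rw [hq]; dsimp only; rw [if_pos h]
      rw [h, this]; norm_num
    · exact add_pos_of_pos_of_nonneg (lt_of_le_of_ne (hd0 i) (Ne.symm h)) (hq0 i)
  set S : Matrix n n ℝ := diagonal (fun i => (Real.sqrt (d i + q i))⁻¹) with hS
  have hST : Sᵀ = S := by rw [hS, diagonal_transpose]
  have hSS : S * diagonal (fun i => d i + q i) * S = 1 := by
    rw [hS, diagonal_mul_diagonal, diagonal_mul_diagonal, ← diagonal_one]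
    congr 1; funext i
    have h1 : Real.sqrt (d i + q i) ≠ 0 := (Real.sqrt_pos.mpr (hpos i)).ne'
    have h2 : Real.sqrt (d i + q i) * Real.sqrt (d i + q i) = d i + q i :=
      Real.mul_self_sqrt (hpos i).le
    field_simp
    nlinarith
  refine ⟨U * diagonal q * Uᵀ, U * S, ?_, ?_, ?_, ?_, ?_⟩
  · rw [Matrix.IsSymm]
    simp only [transpose_mul, transpose_transpose, diagonal_transpose, Matrix.mul_assoc]
  · have h := D1_psd_conj (Matrix.PosSemidef.diagonal (n := n) (d := q) (fun i => hq0 i)) Uᵀ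
    rwa [transpose_transpose] at h
  · calc U * diagonal q * Uᵀ * (U * diagonal q * Uᵀ)
        = U * diagonal q * (Uᵀ * U) * diagonal q * Uᵀ := by simp only [Matrix.mul_assoc]
      _ = U * (diagonal q * diagonal q) * Uᵀ := by
          rw [hUU, Matrix.mul_one]; simp only [Matrix.mul_assoc]
      _ = U * diagonal q * Uᵀ := by
          rw [diagonal_mul_diagonal]; simp only [hqq]
  · calc M * (U * diagonal q * Uᵀ)
        = U * diagonal d * (Uᵀ * U) * diagonal q * Uᵀ := by
          conv_lhs => rw [hMU]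
          simp only [Matrix.mul_assoc]
      _ = U * (diagonal d * diagonal q) * Uᵀ := by
          rw [hUU, Matrix.mul_one]; simp only [Matrix.mul_assoc]
      _ = 0 := by
          rw [diagonal_mul_diagonal]; simp only [hdq]
          rw [diagonal_zero, Matrix.mul_zero, Matrix.zero_mul]
  · have h1 : M + U * diagonal q * Uᵀ = U * diagonal (fun i => d i + q i) * Uᵀ := by
      have h2 : diagonal (fun i => d i + q i) = diagonal d + diagonal q := by
        rw [diagonal_add]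
      rw [h2, Matrix.mul_add, Matrix.add_mul, ← hMU]
    rw [h1, transpose_mul, hST]
    calc S * Uᵀ * (U * diagonal (fun i => d i + q i) * Uᵀ) * (U * S)
        = S * (Uᵀ * U) * diagonal (fun i => d i + q i) * (Uᵀ * U) * S := by
          simp only [Matrix.mul_assoc]
      _ = 1 := by rw [hUU, Matrix.mul_one, Matrix.mul_one, hSS]

/-- a nonsingular positive semidefinite matrix dominates a multiple of the identity -/
theorem D1_eps {n : Type*} [Fintype n] [DecidableEq n] {A : Matrix n n ℝ} (hA : A.PosSemidef)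
    (hdet : A.det ≠ 0) : ∃ ε : ℝ, 0 < ε ∧ (A - ε • (1 : Matrix n n ℝ)).PosSemidef := by
  obtain ⟨U, d, hUU, hAU, hh, hd⟩ := Hyp.spec (D1_symm_of_psd hA)
  have hd0 : ∀ i, 0 ≤ d i := by
    intro i; rw [hd]; exact hA.eigenvalues_nonneg i
  have hprod : A.det = ∏ i, d i := by
    have := hh.det_eq_prod_eigenvalues
    rw [hd]; simpa using this
  have hdpos : ∀ i, 0 < d i := by
    intro i
    refine lt_of_le_of_ne (hd0 i) ?_
    intro h
    exact hdet (by rw [hprod]; exact Finset.prod_eq_zero (Finset.mem_univ i) h.symm)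
  have hsum : 0 ≤ ∑ i, (d i)⁻¹ := Finset.sum_nonneg fun i _ => (inv_pos.2 (hdpos i)).le
  have hε : 0 < (∑ i, (d i)⁻¹ + 1)⁻¹ := inv_pos.2 (by linarith)
  refine ⟨(∑ i, (d i)⁻¹ + 1)⁻¹, hε, ?_⟩
  have hle : ∀ i, 0 ≤ d i - (∑ i, (d i)⁻¹ + 1)⁻¹ := by
    intro i
    have h1 : (d i)⁻¹ ≤ ∑ i, (d i)⁻¹ :=
      Finset.single_le_sum (f := fun i => (d i)⁻¹) (fun j _ => (inv_pos.2 (hdpos j)).le)
        (Finset.mem_univ i)
    have h2 : (∑ i, (d i)⁻¹ + 1)⁻¹ ≤ ((d i)⁻¹)⁻¹ :=
      inv_anti₀ (inv_pos.2 (hdpos i)) (by linarith)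
    rw [inv_inv] at h2
    linarith
  have hUU' : U * Uᵀ = 1 := mul_eq_one_comm.1 hUU
  have hkey : A - (∑ i, (d i)⁻¹ + 1)⁻¹ • (1 : Matrix n n ℝ)
      = U * diagonal (fun i => d i - (∑ i, (d i)⁻¹ + 1)⁻¹) * Uᵀ := by
    have h2 : diagonal (fun i => d i - (∑ i, (d i)⁻¹ + 1)⁻¹)
        = diagonal d - (∑ i, (d i)⁻¹ + 1)⁻¹ • (1 : Matrix n n ℝ) := by
      ext i j
      by_cases h : i = j
      · subst h; simp
      · simp [h]
    rw [h2, Matrix.mul_sub, Matrix.sub_mul, ← hAU, Matrix.mul_smul, Matrix.mul_one,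
      Matrix.smul_mul, hUU']
  rw [hkey]
  have h := D1_psd_conj (Matrix.PosSemidef.diagonal (n := n)
    (d := fun i => d i - (∑ i, (d i)⁻¹ + 1)⁻¹) (fun i => hle i)) Uᵀ
  rwa [transpose_transpose] at h

/-- kernel vectors of `L e` are killed by `L x` -/
theorem D1_ker {n : Type*} [Fintype n] [DecidableEq n] {M A : Matrix n n ℝ}
    (h1 : (M + (1 / 2 : ℝ) • A).PosSemidef) (h2 : (M + (-(1 / 2) : ℝ) • A).PosSemidef)
    {v : n → ℝ} (hv : M *ᵥ v = 0) : A *ᵥ v = 0 := by
  have e1 : (M + (1 / 2 : ℝ) • A) *ᵥ v = (1 / 2 : ℝ) • (A *ᵥ v) := by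
    rw [Matrix.add_mulVec, hv, zero_add, Matrix.smul_mulVec]
  have e2 : (M + (-(1 / 2) : ℝ) • A) *ᵥ v = (-(1 / 2) : ℝ) • (A *ᵥ v) := by
    rw [Matrix.add_mulVec, hv, zero_add, Matrix.smul_mulVec]
  have p1 := h1.dotProduct_mulVec_nonneg v
  have p2 := h2.dotProduct_mulVec_nonneg v
  rw [e1, dotProduct_smul, smul_eq_mul] at p1
  rw [e2, dotProduct_smul, smul_eq_mul] at p2
  have h0 : star v ⬝ᵥ A *ᵥ v = 0 := by linarith
  have h3 : star v ⬝ᵥ (M + (1 / 2 : ℝ) • A) *ᵥ v = 0 := by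
    rw [e1, dotProduct_smul, h0, smul_zero]
  have h4 := (h1.dotProduct_mulVec_zero_iff v).1 h3
  rw [e1] at h4
  have h5 : (2 : ℝ) • ((1 / 2 : ℝ) • (A *ᵥ v)) = 0 := by rw [h4, smul_zero]
  rwa [smul_smul, show (2 : ℝ) * (1 / 2) = 1 by norm_num, one_smul] at h5

theorem D1 (h1 : Stmt_e_pm) (h2 : Stmt_BK_sub) (h3 : Stmt_coord0) (h4 : Stmt_K0_sub_KK) :
    Stmt_D1 := by
  intro N _ L hsymm hKK
  have hmem : ∀ x, x ∈ KK ↔ (L x).PosSemidef := fun x => by rw [hKK]; rfl
  -- `L e` is psd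
  have hMpm : ∀ (k : Fin 23) (σ : ℝ), (σ = 1 / 2 ∨ σ = -(1 / 2)) →
      (L e23 + σ • L (Pi.single k 1)).PosSemidef := by
    intro k σ hσ
    have := (hmem _).1 (h1 k σ hσ)
    rwa [map_add, map_smul] at this
  have hM : (L e23).PosSemidef := by
    have a := hMpm 0 (1 / 2) (Or.inl rfl)
    have b := hMpm 0 (-(1 / 2)) (Or.inr rfl)
    have c := (a.add b).smul (show (0 : ℝ) ≤ 1 / 2 by norm_num)
    have e : (1 / 2 : ℝ) • (L e23 + (1 / 2 : ℝ) • L (Pi.single 0 1)
        + (L e23 + (-(1 / 2) : ℝ) • L (Pi.single 0 1))) = L e23 := by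
      ext i j
      simp only [Matrix.smul_apply, Matrix.add_apply, smul_eq_mul]
      ring
    rwa [e] at c
  obtain ⟨Q, C, hQs, hQp, hQQ, hMQ, hC⟩ := D1_proj hM
  -- `L x` kills the image of `Q`
  have hLkQ : ∀ k, L (Pi.single k 1) * Q = 0 := by
    intro k
    ext i j
    have hv : L e23 *ᵥ (fun i => Q i j) = 0 := by
      funext i
      have := congrFun (congrFun hMQ i) j
      simpa [Matrix.mul_apply, Matrix.mulVec, dotProduct] using this
    have := congrFun (D1_ker (hMpm k _ (Or.inl rfl)) (hMpm k _ (Or.inr rfl)) hv) i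
    simpa [Matrix.mul_apply, Matrix.mulVec, dotProduct] using this
  have hLsum : ∀ x, L x = ∑ k, x k • L (Pi.single k 1) := by
    intro x
    conv_lhs => rw [pi_eq_sum_univ' x]
    rw [map_sum]
    refine Finset.sum_congr rfl fun k _ => ?_
    rw [map_smul]
  have hLQ : ∀ x, L x * Q = 0 := by
    intro x
    rw [hLsum, Finset.sum_mul]
    refine Finset.sum_eq_zero fun k _ => ?_
    rw [Matrix.smul_mul, hLkQ, smul_zero]
  have hQL : ∀ x, Q * L x = 0 := by
    intro x
    have := congrArg Matrix.transpose (hLQ x)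
    rwa [transpose_mul, hQs.eq, (hsymm x).eq, transpose_zero] at this
  -- the new pencil
  set L' : Pencil N := fun k =>
    Cᵀ * (L (Pi.single k 1) + (Pi.single k (1 : ℝ) : Fin 23 → ℝ) 0 • Q) * C with hL'
  have hLx : ∀ x, Lx L' x = Cᵀ * (L x + x 0 • Q) * C := by
    intro x
    have e1 : L x + x 0 • Q
        = ∑ k, x k • (L (Pi.single k 1) + (Pi.single k (1 : ℝ) : Fin 23 → ℝ) 0 • Q) := by
      simp only [smul_add, Finset.sum_add_distrib]
      rw [← hLsum]
      congr 1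
      rw [Finset.sum_eq_single (0 : Fin 23)]
      · simp
      · intro k _ hk
        simp [Ne.symm hk]
      · simp
    rw [e1, Finset.mul_sum, Finset.sum_mul]
    unfold Lx
    refine Finset.sum_congr rfl fun k _ => ?_
    rw [hL', Matrix.mul_smul, Matrix.smul_mul]
  have hQx : ∀ x, (L x + x 0 • Q).IsSymm := by
    intro x
    exact (hsymm x).add (hQs.smul _)
  have hCdet : IsUnit C.det := by
    have h5 : (Cᵀ * (L e23 + Q)) * C = 1 := hC
    have h6 := congrArg Matrix.det h5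
    rw [det_mul, det_one] at h6
    exact IsUnit.of_mul_eq_one_right _ h6
  refine ⟨L', ?_, ?_, ?_, ?_⟩
  · intro k
    have h5 : Lx L' (Pi.single k 1) = L' k := by rw [Lx_single, one_smul]
    rw [← h5, hLx, Matrix.IsSymm]
    simp only [transpose_mul, transpose_transpose, (hQx _).eq, Matrix.mul_assoc]
  · rw [hLx, show e23 0 = (1 : ℝ) from rfl, one_smul]
    exact hC
  · intro x hx
    rw [hLx]
    exact D1_psd_conj (((hmem x).1 hx).add (hQp.smul (h3 x hx))) C
  · intro x hx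
    by_contra hne
    have hxK0 : x ∈ K0 := ⟨hx.1, hx.2.1, hx.2.2.1⟩
    have hxKK : x ∈ KK := h4 hxK0
    have hpsd : (Lx L' x).PosSemidef := by
      rw [hLx]
      exact D1_psd_conj (((hmem x).1 hxKK).add (hQp.smul (h3 x hxKK))) C
    obtain ⟨ε, hε, hε2⟩ := D1_eps hpsd hne
    -- `L (x - ε e)` is psd
    have e1 : Lx L' x - ε • (1 : Matrix (Fin N) (Fin N) ℝ)
        = Cᵀ * (L (x - ε • e23) + (x - ε • e23) 0 • Q) * C := by
      have e2 : Lx L' (x - ε • e23) = Lx L' x - ε • (1 : Matrix (Fin N) (Fin N) ℝ) := by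
        rw [Lx_sub, Lx_smul]
        congr 2
        rw [hLx, show e23 0 = (1 : ℝ) from rfl, one_smul]
        exact hC
      rw [← e2, hLx]
    rw [e1] at hε2
    have e3 := D1_psd_conj hε2 (C⁻¹ * (1 - Q))
    have e4 : (C⁻¹ * (1 - Q))ᵀ * (Cᵀ * (L (x - ε • e23) + (x - ε • e23) 0 • Q) * C)
        * (C⁻¹ * (1 - Q)) = L (x - ε • e23) := by
      have hCC : C * C⁻¹ = 1 := Matrix.mul_nonsing_inv C hCdet
      have hCC' : (C⁻¹)ᵀ * Cᵀ = 1 := by rw [← transpose_mul, hCC, transpose_one]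
      have h1Q : (1 - Q)ᵀ = 1 - Q := by rw [transpose_sub, transpose_one, hQs.eq]
      calc (C⁻¹ * (1 - Q))ᵀ * (Cᵀ * (L (x - ε • e23) + (x - ε • e23) 0 • Q) * C)
        * (C⁻¹ * (1 - Q))
          = (1 - Q) * ((C⁻¹)ᵀ * Cᵀ) * (L (x - ε • e23) + (x - ε • e23) 0 • Q)
            * (C * C⁻¹) * (1 - Q) := by
            rw [transpose_mul, h1Q]; simp only [Matrix.mul_assoc]
        _ = (1 - Q) * (L (x - ε • e23) + (x - ε • e23) 0 • Q) * (1 - Q) := by
            rw [hCC, hCC', Matrix.mul_one, Matrix.mul_one]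
        _ = L (x - ε • e23) := by
            have e5 : (1 - Q) * L (x - ε • e23) = L (x - ε • e23) := by
              rw [Matrix.sub_mul, hQL, Matrix.one_mul, sub_zero]
            have e6 : (1 - Q) * Q = 0 := by
              rw [Matrix.sub_mul, hQQ, Matrix.one_mul, sub_self]
            have e7 : L (x - ε • e23) * (1 - Q) = L (x - ε • e23) := by
              rw [Matrix.mul_sub, hLQ, Matrix.mul_one, sub_zero]
            rw [Matrix.mul_add, e5, Matrix.mul_smul, e6, smul_zero, add_zero, e7]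
    rw [e4] at e3
    exact h2 x hx ε hε ((hmem _).2 e3)

end Crest.Agent.R237.S2
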