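import Mathlib
import Crest.Agent.R237.S2NS

/-!
Row 237, statement S0368, node D2a: the set of normalised pencils is compact.
-/

set_option autoImplicit false

namespace Crest.Agent.R237.S2

open Matrix

theorem cont_Lx {N : ℕ} (x : Fin 23 → ℝ) : Continuous fun L : Pencil N => Lx L x := by
  unfold Lx
  exact continuous_finsetSum _ fun k _ => (continuous_apply k).const_smul (x k)

theorem closed_psd {N : ℕ} : IsClosed {M : Matrix (Fin N) (Fin N) ℝ | M.PosSemidef} := by
  have h : {M : Matrix (Fin N) (Fin N) ℝ | M.PosSemidef} =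
      {M | Mᵀ = M} ∩ ⋂ v : Fin N → ℝ, {M | 0 ≤ v ⬝ᵥ M *ᵥ v} := by
    ext M
    simp only [Set.mem_ofPred_eq, Set.mem_inter_iff, Set.mem_iInter]
    constructor
    · intro hM
      refine ⟨?_, fun v => ?_⟩
      · have := hM.isHermitian
        rwa [Matrix.IsHermitian, Matrix.conjTranspose_eq_transpose_of_trivial] at this
      · have := hM.dotProduct_mulVec_nonneg v
        simpa using this
    · rintro ⟨h1, h2⟩
      refine Matrix.PosSemidef.of_dotProduct_mulVec_nonneg ?_ fun v => ?_
      · rw [Matrix.IsHermitian, Matrix.conjTranspose_eq_transpose_of_trivial]; exact h1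
      · simpa using h2 v
  rw [h]
  refine IsClosed.inter (isClosed_eq (by fun_prop) continuous_id) (isClosed_iInter fun v => ?_)
  refine isClosed_le continuous_const ?_
  exact continuous_const.dotProduct (Continuous.matrix_mulVec continuous_id continuous_const)

theorem PP_closed (N : ℕ) : IsClosed (PP N) := by
  have h : PP N = {L | ∀ k, (L k)ᵀ = L k} ∩ {L | Lx L e23 = 1} ∩
      (⋂ x ∈ KK, {L : Pencil N | (Lx L x).PosSemidef}) ∩
      (⋂ x ∈ BK, {L : Pencil N | (Lx L x).det = 0}) := by
    ext L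
    simp only [PP, Set.mem_ofPred_eq, Set.mem_inter_iff, Set.mem_iInter, Matrix.IsSymm]
    tauto
  rw [h]
  refine IsClosed.inter (IsClosed.inter (IsClosed.inter ?_ ?_) ?_) ?_
  · have : {L : Pencil N | ∀ k, (L k)ᵀ = L k} = ⋂ k, {L : Pencil N | (L k)ᵀ = L k} := by
      ext L; simp
    rw [this]
    refine isClosed_iInter fun k => isClosed_eq ?_ (continuous_apply k)
    exact (continuous_apply k).matrix_transpose
  · exact isClosed_eq (cont_Lx _) continuous_const
  · exact isClosed_biInter fun x _ => closed_psd.preimage (cont_Lx x)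
  · exact isClosed_biInter fun x _ => isClosed_eq (cont_Lx x).matrix_det continuous_const

/-- entries of a symmetric matrix with `-2 ≤ A ≤ 2` -/
theorem entry_bound {N : ℕ} {A : Matrix (Fin N) (Fin N) ℝ} (hA : A.IsSymm)
    (h1 : ∀ v : Fin N → ℝ, 0 ≤ v ⬝ᵥ v + 1 / 2 * (v ⬝ᵥ A *ᵥ v))
    (h2 : ∀ v : Fin N → ℝ, 0 ≤ v ⬝ᵥ v - 1 / 2 * (v ⬝ᵥ A *ᵥ v)) (i j : Fin N) :
    |A i j| ≤ 4 := by
  have hd : ∀ a b : Fin N, (Pi.single a (1:ℝ) : Fin N → ℝ) ⬝ᵥ A *ᵥ Pi.single b 1 = A a b := by
    intro a b
    simp [Matrix.col_apply]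
  have hs : A j i = A i j := by
    have := congrFun (congrFun hA i) j
    simpa using this
  have hn : ∀ a b : Fin N, (Pi.single a (1:ℝ) : Fin N → ℝ) ⬝ᵥ Pi.single b 1 =
      if a = b then 1 else 0 := by
    intro a b
    by_cases h : a = b
    · subst h; simp
    · simp [h]
  have e := fun s : ℝ => h1 (Pi.single i 1 + s • Pi.single j 1)
  have e' := fun s : ℝ => h2 (Pi.single i 1 + s • Pi.single j 1)
  simp only [mulVec_add, mulVec_smul, add_dotProduct, dotProduct_add, smul_dotProduct,
    dotProduct_smul, hd, hn, smul_eq_mul, hs, if_true, eq_comm (a := j) (b := i)] at e e'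
  have ei := h1 (Pi.single i 1)
  have ei' := h2 (Pi.single i 1)
  have ej := h1 (Pi.single j 1)
  have ej' := h2 (Pi.single j 1)
  simp only [hd, hn, if_true] at ei ei' ej ej'
  have a1 := e 1
  have a2 := e (-1)
  have b1 := e' 1
  have b2 := e' (-1)
  rw [abs_le]
  by_cases h : i = j
  · subst h
    constructor <;> linarith
  · simp only [if_neg h] at a1 a2 b1 b2
    constructor <;> linarith

theorem D2a (hpm : Stmt_e_pm) : Stmt_D2a := by
  intro N
  refine (isCompact_univ_pi (X := fun _ : Fin 23 => Matrix (Fin N) (Fin N) ℝ)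
    (s := fun _ => Set.pi Set.univ fun _ : Fin N => Set.pi Set.univ fun _ : Fin N =>
      Set.Icc (-4 : ℝ) 4)
    (fun _ => isCompact_univ_pi fun _ => isCompact_univ_pi fun _ => isCompact_Icc)).of_isClosed_subset
    (PP_closed N) ?_
  intro L hL k _ i _ j _
  obtain ⟨hsymm, he, hpsd, -⟩ := hL
  have key := entry_bound (hsymm k) ?_ ?_ i j
  · exact abs_le.1 key
  · intro v
    have h := hpsd _ (hpm k (1/2) (Or.inl rfl))
    rw [Lx_add, Lx_smul, Lx_single, he, one_smul] at h
    have h2 := h.dotProduct_mulVec_nonneg v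
    simpa [add_mulVec, smul_mulVec, dotProduct_add, dotProduct_smul] using h2
  · intro v
    have h := hpsd _ (hpm k (-(1/2)) (Or.inr rfl))
    rw [Lx_add, Lx_smul, Lx_single, he, one_smul] at h
    have h2 := h.dotProduct_mulVec_nonneg v
    simp only [star_trivial, add_mulVec, one_mulVec, smul_mulVec, dotProduct_add,
      dotProduct_smul, smul_eq_mul] at h2
    linarith

end Crest.Agent.R237.S2
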