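import Mathlib
import Crest.Agent.R237.S2NS

/-!
Row 237, S0368, node D3: grading of a normalised pencil by the torus weights.
-/

set_option autoImplicit false

namespace Crest.Agent.R237.S2

open Matrix

/-- elementary: a number bounded by `C / t` for all `t ≥ 1` vanishes. -/
theorem eq_zero_of_bdd {c C : ℝ} (h : ∀ t : ℝ, 1 ≤ t → |t * c| ≤ C) : c = 0 := by
  by_contra hc
  have hc' : 0 < |c| := abs_pos.mpr hc
  have h1 := h (max 1 ((C + 1) / |c|)) (le_max_left _ _)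
  rw [abs_mul, abs_of_nonneg (le_trans zero_le_one (le_max_left _ _))] at h1
  have h2 : (C + 1) / |c| * |c| ≤ max 1 ((C + 1) / |c|) * |c| :=
    mul_le_mul_of_nonneg_right (le_max_right _ _) hc'.le
  rw [div_mul_cancel₀ _ hc'.ne'] at h2
  linarith

variable {ι n : Type*} [Fintype ι] [DecidableEq ι] [Fintype n] [DecidableEq n]

/-- quadratic form bound, one value of the torus parameter -/
theorem grading_one (om : ι → ℕ) (P : ι → Matrix n n ℝ) (A : Matrix n n ℝ) (w : ℕ)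
    (hPP : ∀ i j, i ≠ j → P i * P j = 0) (hP2 : ∀ i, P i * P i = P i)
    (hPs : ∀ i, (P i)ᵀ = P i) (hA : Aᵀ = A) (l : ℝ) (hl : 0 < l)
    (hp : (∑ i, l ^ (2 * om i) • P i + l ^ w • A).PosSemidef)
    (hm : (∑ i, l ^ (2 * om i) • P i - l ^ w • A).PosSemidef)
    (i j : ι) (f g : n → ℝ) (hf : P i *ᵥ f = f) (hg : P j *ᵥ g = g) :
    |(l ^ w / l ^ (om i + om j)) * (f ⬝ᵥ (A *ᵥ g))| ≤ (f ⬝ᵥ f + g ⬝ᵥ g) / 2 := by
  set M : Matrix n n ℝ := ∑ i, l ^ (2 * om i) • P i with hM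
  have hMf : ∀ (k : ι) (h : n → ℝ), P k *ᵥ h = h → M *ᵥ h = l ^ (2 * om k) • h := by
    intro k h hh
    rw [hM, Matrix.sum_mulVec, Finset.sum_eq_single k]
    · rw [Matrix.smul_mulVec, hh]
    · intro b _ hb
      rw [Matrix.smul_mulVec, ← hh, Matrix.mulVec_mulVec, hPP b k hb, Matrix.zero_mulVec, smul_zero]
    · intro h'; exact absurd (Finset.mem_univ _) h'
  have hMs : Mᵀ = M := by
    rw [hM, Matrix.transpose_sum]
    exact Finset.sum_congr rfl fun k _ => by rw [Matrix.transpose_smul, hPs]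
  -- positivity in elementary form
  have pos1 : ∀ h : n → ℝ, 0 ≤ h ⬝ᵥ (M *ᵥ h) + l ^ w * (h ⬝ᵥ (A *ᵥ h)) := by
    intro h
    have := hp.dotProduct_mulVec_nonneg h
    simpa [Matrix.add_mulVec, Matrix.smul_mulVec, dotProduct_add, dotProduct_smul] using this
  have pos2 : ∀ h : n → ℝ, 0 ≤ h ⬝ᵥ (M *ᵥ h) - l ^ w * (h ⬝ᵥ (A *ᵥ h)) := by
    intro h
    have := hm.dotProduct_mulVec_nonneg h
    simpa [Matrix.sub_mulVec, Matrix.smul_mulVec, dotProduct_sub, dotProduct_smul] using this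
  set a : ℝ := (l ^ om i)⁻¹ with ha
  set b : ℝ := (l ^ om j)⁻¹ with hb
  have hsymA : g ⬝ᵥ (A *ᵥ f) = f ⬝ᵥ (A *ᵥ g) := by
    rw [dotProduct_mulVec, ← mulVec_transpose, hA, dotProduct_comm]
  have hsymM : g ⬝ᵥ (M *ᵥ f) = f ⬝ᵥ (M *ᵥ g) := by
    rw [dotProduct_mulVec, ← mulVec_transpose, hMs, dotProduct_comm]
  have hff : f ⬝ᵥ (M *ᵥ f) = l ^ (2 * om i) * (f ⬝ᵥ f) := by
    rw [hMf i f hf, dotProduct_smul, smul_eq_mul]
  have hgg : g ⬝ᵥ (M *ᵥ g) = l ^ (2 * om j) * (g ⬝ᵥ g) := by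
    rw [hMf j g hg, dotProduct_smul, smul_eq_mul]
  have e1 : ∀ s : ℝ, ∀ T : Matrix n n ℝ, (a • f + s • b • g) ⬝ᵥ (T *ᵥ (a • f + s • b • g))
      = a ^ 2 * (f ⬝ᵥ (T *ᵥ f)) + s * a * b * (f ⬝ᵥ (T *ᵥ g)) + s * a * b * (g ⬝ᵥ (T *ᵥ f))
        + s ^ 2 * b ^ 2 * (g ⬝ᵥ (T *ᵥ g)) := by
    intro s T
    simp only [Matrix.mulVec_add, Matrix.mulVec_smul, dotProduct_add, add_dotProduct,
      dotProduct_smul, smul_dotProduct, smul_eq_mul]
    ring
  have ha2 : a ^ 2 * l ^ (2 * om i) = 1 := by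
    rw [ha, mul_comm 2, pow_mul, ← mul_pow, inv_mul_cancel₀ (pow_pos hl _).ne', one_pow]
  have hb2 : b ^ 2 * l ^ (2 * om j) = 1 := by
    rw [hb, mul_comm 2, pow_mul, ← mul_pow, inv_mul_cancel₀ (pow_pos hl _).ne', one_pow]
  have key : l ^ w / l ^ (om i + om j) = l ^ w * a * b := by
    rw [pow_add, ha, hb]; field_simp
  rw [key]
  have q1 := pos1 (a • f + (1:ℝ) • b • g)
  have q2 := pos2 (a • f + (-1:ℝ) • b • g)
  have q3 := pos2 (a • f + (1:ℝ) • b • g)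
  have q4 := pos1 (a • f + (-1:ℝ) • b • g)
  rw [e1, e1, hff, hgg, hsymA, hsymM] at q1 q2 q3 q4
  set X := f ⬝ᵥ (A *ᵥ g)
  set Y := f ⬝ᵥ (M *ᵥ g)
  set F := f ⬝ᵥ f
  set G := g ⬝ᵥ g
  set FA := f ⬝ᵥ (A *ᵥ f)
  set GA := g ⬝ᵥ (A *ᵥ g)
  have hF : a ^ 2 * (l ^ (2 * om i) * F) = F := by rw [← mul_assoc, ha2, one_mul]
  have hG : b ^ 2 * (l ^ (2 * om j) * G) = G := by rw [← mul_assoc, hb2, one_mul]
  rw [abs_le]
  constructor
  · nlinarith [q1, q2, hF, hG]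
  · nlinarith [q3, q4, hF, hG]

/-- **Grading.** -/
theorem grading_vec (om : ι → ℕ) (P : ι → Matrix n n ℝ) (A : Matrix n n ℝ) (w : ℕ)
    (hPP : ∀ i j, i ≠ j → P i * P j = 0) (hP2 : ∀ i, P i * P i = P i)
    (hPs : ∀ i, (P i)ᵀ = P i) (hA : Aᵀ = A)
    (hp : ∀ l : ℝ, 0 < l → (∑ i, l ^ (2 * om i) • P i + l ^ w • A).PosSemidef)
    (hm : ∀ l : ℝ, 0 < l → (∑ i, l ^ (2 * om i) • P i - l ^ w • A).PosSemidef)
    {i j : ι} (hij : w ≠ om i + om j) {f g : n → ℝ} (hf : P i *ᵥ f = f) (hg : P j *ᵥ g = g) :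
    f ⬝ᵥ (A *ᵥ g) = 0 := by
  have base := fun l hl => grading_one om P A w hPP hP2 hPs hA l hl (hp l hl) (hm l hl) i j f g hf hg
  refine eq_zero_of_bdd (C := (f ⬝ᵥ f + g ⬝ᵥ g) / 2) fun t ht => ?_
  have ht0 : 0 < t := lt_of_lt_of_le one_pos ht
  rcases lt_or_gt_of_ne hij with h | h
  · have h1 := base t⁻¹ (inv_pos.mpr ht0)
    obtain ⟨d, hd⟩ := Nat.exists_eq_add_of_lt h
    have h2 : (t⁻¹) ^ w / (t⁻¹) ^ (om i + om j) = t * t ^ d := by
      rw [hd, pow_add, pow_add, pow_one, inv_pow, inv_pow]; field_simp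
    rw [h2] at h1
    refine le_trans ?_ h1
    rw [abs_mul, abs_mul]
    refine mul_le_mul_of_nonneg_right ?_ (abs_nonneg _)
    rw [abs_of_pos ht0, abs_of_pos (by positivity)]
    exact le_mul_of_one_le_right ht0.le (one_le_pow₀ ht)
  · have h1 := base t ht0
    obtain ⟨d, hd⟩ := Nat.exists_eq_add_of_lt h
    have h2 : t ^ w / t ^ (om i + om j) = t * t ^ d := by
      rw [hd]; field_simp; ring
    rw [h2] at h1
    refine le_trans ?_ h1
    rw [abs_mul, abs_mul]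
    refine mul_le_mul_of_nonneg_right ?_ (abs_nonneg _)
    rw [abs_of_pos ht0, abs_of_pos (by positivity)]
    exact le_mul_of_one_le_right ht0.le (one_le_pow₀ ht)

theorem grading_mat (om : ι → ℕ) (P : ι → Matrix n n ℝ) (A : Matrix n n ℝ) (w : ℕ)
    (hPP : ∀ i j, i ≠ j → P i * P j = 0) (hP2 : ∀ i, P i * P i = P i)
    (hPs : ∀ i, (P i)ᵀ = P i) (hA : Aᵀ = A)
    (hp : ∀ l : ℝ, 0 < l → (∑ i, l ^ (2 * om i) • P i + l ^ w • A).PosSemidef)
    (hm : ∀ l : ℝ, 0 < l → (∑ i, l ^ (2 * om i) • P i - l ^ w • A).PosSemidef)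
    {i j : ι} (hij : w ≠ om i + om j) :
    P i * A * P j = 0 := by
  ext a b
  have h := grading_vec om P A w hPP hP2 hPs hA hp hm hij
    (f := P i *ᵥ Pi.single a 1) (g := P j *ᵥ Pi.single b 1)
    (by rw [Matrix.mulVec_mulVec, hP2]) (by rw [Matrix.mulVec_mulVec, hP2])
  have e : (P i *ᵥ Pi.single a (1:ℝ)) ⬝ᵥ (A *ᵥ (P j *ᵥ Pi.single b 1)) = (P i * A * P j) a b := by
    rw [← hPs i, Matrix.mulVec_transpose, ← dotProduct_mulVec, Matrix.mulVec_mulVec,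
      Matrix.mulVec_mulVec, hPs i, single_one_dotProduct, Matrix.mulVec_single_one, ]
    simp [Matrix.col, Matrix.mul_assoc]
  rw [← e, h]; rfl


/-! ### the concrete statement -/

theorem tor_add (l : ℝ) (x y : Fin 23 → ℝ) : tor l (x + y) = tor l x + tor l y := by
  ext k; simp [tor, mul_add]

theorem tor_smul (l c : ℝ) (x : Fin 23 → ℝ) : tor l (c • x) = c • tor l x := by
  ext k; simp only [tor, Pi.smul_apply, smul_eq_mul]; ring

theorem tor_single (l : ℝ) (k : Fin 23) (c : ℝ) :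
    tor l (Pi.single k c) = Pi.single k (l ^ wt k * c) := by
  ext j
  by_cases h : j = k
  · subst h; simp [tor]
  · simp [tor, h]

theorem wt_dg (i : Fin 5) : wt (dg i) = 2 * om i := by
  revert i; decide

theorem tor_e23 (l : ℝ) : tor l e23 = ∑ i, Pi.single (dg i) (l ^ (2 * om i)) := by
  rw [e23_eq]
  have : ∀ s : Finset (Fin 5), tor l (∑ i ∈ s, Pi.single (dg i) (1:ℝ)) =
      ∑ i ∈ s, Pi.single (dg i) (l ^ (2 * om i)) := by
    intro s
    induction s using Finset.induction_on with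
    | empty => ext k; simp [tor]
    | insert a s ha ih =>
      rw [Finset.sum_insert ha, Finset.sum_insert ha, tor_add, ih, tor_single, mul_one, wt_dg]
  exact this _

theorem Lx_tor_pm {N : ℕ} (L : Pencil N) (l σ : ℝ) (k : Fin 23) :
    Lx L (tor l (e23 + σ • Pi.single k 1)) =
      ∑ i, l ^ (2 * om i) • L (dg i) + l ^ wt k • (σ • L k) := by
  rw [tor_add, tor_smul, tor_single, tor_e23, Lx_add, Lx_smul, Lx_sum, Lx_single, mul_one]
  congr 1
  · exact Finset.sum_congr rfl fun i _ => Lx_single _ _ _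
  · rw [smul_comm]

/-- **Node D3.** -/
theorem D3 (h1 : Stmt_tor_KK) (h2 : Stmt_e_pm) : Stmt_D3 := by
  intro N L hL horth k i j hij
  obtain ⟨hsymm, -, hpsd, -⟩ := hL
  have hA : ((1/2 : ℝ) • L k)ᵀ = (1/2 : ℝ) • L k := by
    rw [Matrix.transpose_smul, (hsymm k).eq]
  have h := grading_mat om (fun i => L (dg i)) ((1/2 : ℝ) • L k) (wt k)
    (fun i j hne => by rw [horth i j, if_neg hne]) (fun i => by rw [horth i i, if_pos rfl])
    (fun i => (hsymm _).eq) hA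
    (fun l hl => by
      have := hpsd _ (h1 l hl _ (h2 k (1/2) (Or.inl rfl)))
      rwa [Lx_tor_pm] at this)
    (fun l hl => by
      have := hpsd _ (h1 l hl _ (h2 k (-(1/2)) (Or.inr rfl)))
      rw [Lx_tor_pm] at this
      rwa [neg_smul, smul_neg, ← sub_eq_add_neg] at this)
    (i := i) (j := j) (fun h => hij h.symm)
  have h3 : (1/2 : ℝ) • (L (dg i) * L k * L (dg j)) = 0 := by
    rw [← h, Matrix.mul_smul, Matrix.smul_mul]
  have h4 : (1/2 : ℝ) ≠ 0 := by norm_num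
  exact (smul_eq_zero.mp h3).resolve_left h4

end Crest.Agent.R237.S2
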