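import Crest.Agent.R237.S2Defs

/-! Points of the cone `KK` used in the non-spectrahedrality proof (S0368). -/

set_option autoImplicit false

namespace Crest.Agent.R237.S2

open Matrix

/-- explicit point -/
def mk (a b c p q r s u0 u1 u2 u3 u4 u5 : ℝ) : Fin 23 → ℝ :=
  ![a,b,c, p,q,r,s, u0,u1,u2,u3,u4,u5, 0,0,0,0,0,0,0,0,0,0]

section
variable (a b c p q r s u0 u1 u2 u3 u4 u5 : ℝ)
@[simp] lemma mk_0 : mk a b c p q r s u0 u1 u2 u3 u4 u5 0 = a := rfl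
@[simp] lemma mk_1 : mk a b c p q r s u0 u1 u2 u3 u4 u5 1 = b := rfl
@[simp] lemma mk_2 : mk a b c p q r s u0 u1 u2 u3 u4 u5 2 = c := rfl
@[simp] lemma mk_3 : mk a b c p q r s u0 u1 u2 u3 u4 u5 3 = p := rfl
@[simp] lemma mk_4 : mk a b c p q r s u0 u1 u2 u3 u4 u5 4 = q := rfl
@[simp] lemma mk_5 : mk a b c p q r s u0 u1 u2 u3 u4 u5 5 = r := rfl
@[simp] lemma mk_6 : mk a b c p q r s u0 u1 u2 u3 u4 u5 6 = s := rfl
@[simp] lemma mk_7 : mk a b c p q r s u0 u1 u2 u3 u4 u5 7 = u0 := rfl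
@[simp] lemma mk_8 : mk a b c p q r s u0 u1 u2 u3 u4 u5 8 = u1 := rfl
@[simp] lemma mk_9 : mk a b c p q r s u0 u1 u2 u3 u4 u5 9 = u2 := rfl
@[simp] lemma mk_10 : mk a b c p q r s u0 u1 u2 u3 u4 u5 10 = u3 := rfl
@[simp] lemma mk_11 : mk a b c p q r s u0 u1 u2 u3 u4 u5 11 = u4 := rfl
@[simp] lemma mk_12 : mk a b c p q r s u0 u1 u2 u3 u4 u5 12 = u5 := rfl
end

lemma sum_mk {M : Type*} [AddCommGroup M] [Module ℝ M] (A : Fin 23 → M)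
    (a b c p q r s u0 u1 u2 u3 u4 u5 : ℝ) :
    ∑ ν, mk a b c p q r s u0 u1 u2 u3 u4 u5 ν • A ν =
      a • A 0 + b • A 1 + c • A 2 + p • A 3 + q • A 4 + r • A 5 + s • A 6
      + u0 • A 7 + u1 • A 8 + u2 • A 9 + u3 • A 10 + u4 • A 11 + u5 • A 12 := by
  have h : (∑ ν : Fin 23, mk a b c p q r s u0 u1 u2 u3 u4 u5 ν • A ν) =
      ∑ ν : Fin 13, mk a b c p q r s u0 u1 u2 u3 u4 u5 (Fin.castAdd 10 ν) • A (Fin.castAdd 10 ν)
      + ∑ ν : Fin 10, mk a b c p q r s u0 u1 u2 u3 u4 u5 (Fin.natAdd 13 ν) • A (Fin.natAdd 13 ν) :=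
    Fin.sum_univ_add (a := 13) (b := 10)
      (fun ν => mk a b c p q r s u0 u1 u2 u3 u4 u5 ν • A ν)
  rw [h]
  have h2 : ∑ ν : Fin 10, mk a b c p q r s u0 u1 u2 u3 u4 u5 (Fin.natAdd 13 ν)
      • A (Fin.natAdd 13 ν) = 0 := by
    apply Finset.sum_eq_zero
    intro ν _
    have : mk a b c p q r s u0 u1 u2 u3 u4 u5 (Fin.natAdd 13 ν) = 0 := by
      fin_cases ν <;> rfl
    rw [this, zero_smul]
  rw [h2, add_zero]
  simp only [Fin.sum_univ_succ, Fin.sum_univ_zero]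
  simp only [add_zero]
  simp only [← add_assoc]
  rfl

lemma mk_add (a b c p q r s u0 u1 u2 u3 u4 u5 : ℝ) (t : ℝ) :
    mk a b c p q r s u0 u1 u2 u3 u4 u5 + t • e23 =
      mk (a+t) b (c+t) p q r s (u0+t) u1 u2 (u3+t) u4 (u5+t) := by
  funext i
  fin_cases i <;> simp [mk, e23]

/-- points of `K0` given by `P = X⁻¹` and `U = Γ(v)(P) + Θ` -/
lemma mk_mem_K0 (p q r s P0 P1 P2 : ℝ) (h2 : 0 < P2) (hd : 0 < P0 * P2 - P1 ^ 2)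
    (u0 u1 u2 u3 u4 u5 : ℝ)
    (hU : (!![u0, u1, u2; u1, u3, u4; u2, u4, u5] - Gam p q r s P0 P1 P2).PosSemidef) :
    mk (P2 / (P0*P2-P1^2)) (-P1 / (P0*P2-P1^2)) (P0 / (P0*P2-P1^2)) p q r s
      u0 u1 u2 u3 u4 u5 ∈ K0 := by
  set d := P0*P2-P1^2 with hdd
  have hdl : dl (mk (P2 / d) (-P1 / d) (P0 / d) p q r s u0 u1 u2 u3 u4 u5) = 1 / d := by
    simp only [dl, mk_0, mk_1, mk_2]
    field_simp
    rw [hdd]; ring
  refine ⟨?_, ?_, ?_⟩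
  · simp only [mk_0]; positivity
  · rw [hdl]; positivity
  · have : Um (mk (P2 / d) (-P1 / d) (P0 / d) p q r s u0 u1 u2 u3 u4 u5)
        - Gz (mk (P2 / d) (-P1 / d) (P0 / d) p q r s u0 u1 u2 u3 u4 u5)
        = (!![u0, u1, u2; u1, u3, u4; u2, u4, u5] - Gam p q r s P0 P1 P2) := by
      unfold Gz
      rw [hdl]
      simp only [mk_0, mk_1, mk_2, mk_3, mk_4, mk_5, mk_6, Um, mk_7, mk_8, mk_9, mk_10, mk_11,
        mk_12]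
      congr 2 <;> field_simp
    rw [this]; exact hU

lemma mk_det (p q r s P0 P1 P2 : ℝ) (h2 : 0 < P2) (hd : 0 < P0 * P2 - P1 ^ 2)
    (u0 u1 u2 u3 u4 u5 : ℝ) :
    (Um (mk (P2 / (P0*P2-P1^2)) (-P1 / (P0*P2-P1^2)) (P0 / (P0*P2-P1^2)) p q r s
      u0 u1 u2 u3 u4 u5) - Gz (mk (P2 / (P0*P2-P1^2)) (-P1 / (P0*P2-P1^2)) (P0 / (P0*P2-P1^2))
        p q r s u0 u1 u2 u3 u4 u5)) =
      (!![u0, u1, u2; u1, u3, u4; u2, u4, u5] - Gam p q r s P0 P1 P2) := by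
  set d := P0*P2-P1^2 with hdd
  have hdl : dl (mk (P2 / d) (-P1 / d) (P0 / d) p q r s u0 u1 u2 u3 u4 u5) = 1 / d := by
    simp only [dl, mk_0, mk_1, mk_2]
    field_simp
    rw [hdd]; ring
  unfold Gz
  rw [hdl]
  simp only [mk_0, mk_1, mk_2, mk_3, mk_4, mk_5, mk_6, Um, mk_7, mk_8, mk_9, mk_10, mk_11,
    mk_12]
  congr 2 <;> field_simp

lemma Gam_zero (P0 P1 P2 : ℝ) : Gam 0 0 0 0 P0 P1 P2 = 0 := by
  ext i j; fin_cases i <;> fin_cases j <;> simp [Gam]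

/-- points `(X, 0, U)` with `X, U ⪰ 0` -/
lemma mk_mem_KK (a b c u0 u1 u2 u3 u4 u5 : ℝ) (ha : 0 ≤ a) (hc : 0 ≤ c) (hd : b^2 ≤ a * c)
    (hU : (!![u0, u1, u2; u1, u3, u4; u2, u4, u5] : Matrix (Fin 3) (Fin 3) ℝ).PosSemidef) :
    mk a b c 0 0 0 0 u0 u1 u2 u3 u4 u5 ∈ KK := by
  intro t ht
  rw [mk_add]
  refine ⟨?_, ?_, ?_⟩
  · simp only [mk_0]; positivity
  · simp only [dl, mk_0, mk_1, mk_2]; nlinarith
  · have h1 : Gz (mk (a+t) b (c+t) 0 0 0 0 (u0+t) u1 u2 (u3+t) u4 (u5+t)) = 0 := by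
      simp only [Gz, mk_0, mk_1, mk_2, mk_3, mk_4, mk_5, mk_6, Gam_zero]
    have h2 : Um (mk (a+t) b (c+t) 0 0 0 0 (u0+t) u1 u2 (u3+t) u4 (u5+t)) =
        !![u0, u1, u2; u1, u3, u4; u2, u4, u5] + t • (1 : Matrix (Fin 3) (Fin 3) ℝ) := by
      ext i j; fin_cases i <;> fin_cases j <;> simp [Um]
    rw [h1, h2, sub_zero]
    exact hU.add (Matrix.PosSemidef.one.smul ht.le)

end Crest.Agent.R237.S2
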