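import Mathlib
import Crest.Agent.R237.S2NS

/-!
Row 237, statement S0368: expansion of the quadratic form of a graded pencil.
-/

set_option autoImplicit false

namespace Crest.Agent.R237.S2

open Matrix

/-- the bilinear entries -/
def Bf {N : ℕ} (L : Pencil N) (f : Fin 5 → Fin N → ℝ) (k : Fin 23) (i j : Fin 5) : ℝ :=
  f i ⬝ᵥ L k *ᵥ f j

theorem dot_symm {N : ℕ} {M : Matrix (Fin N) (Fin N) ℝ} (hM : M.IsSymm) (f g : Fin N → ℝ) :
    f ⬝ᵥ M *ᵥ g = g ⬝ᵥ M *ᵥ f := by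
  rw [dotProduct_mulVec, ← mulVec_transpose, hM.eq, dotProduct_comm]

theorem Bf_symm {N : ℕ} {L : Pencil N} (hL : ∀ k, (L k).IsSymm) (f : Fin 5 → Fin N → ℝ)
    (k : Fin 23) (i j : Fin 5) : Bf L f k i j = Bf L f k j i :=
  dot_symm (hL k) _ _

/-- insertion of the projections -/
theorem dot_proj {N : ℕ} {L : Pencil N} (hL : Graded L) {f g : Fin N → ℝ} {i j : Fin 5}
    (hf : L (dg i) *ᵥ f = f) (hg : L (dg j) *ᵥ g = g) (M : Matrix (Fin N) (Fin N) ℝ) :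
    f ⬝ᵥ M *ᵥ g = f ⬝ᵥ (L (dg i) * M * L (dg j)) *ᵥ g := by
  rw [← mulVec_mulVec, hg, ← mulVec_mulVec, dot_symm' (hL.symm (dg i)) f, hf]
where
  dot_symm' {N : ℕ} {M : Matrix (Fin N) (Fin N) ℝ} (hM : M.IsSymm) (f g : Fin N → ℝ) :
    f ⬝ᵥ M *ᵥ g = (M *ᵥ f) ⬝ᵥ g := by
    rw [dotProduct_mulVec, ← mulVec_transpose, hM.eq]

theorem Bf_zero {N : ℕ} {L : Pencil N} (hL : Graded L) {f : Fin 5 → Fin N → ℝ}
    (hf : ∀ i, L (dg i) *ᵥ f i = f i) (k : Fin 23) (i j : Fin 5) (h : om i + om j ≠ wt k) :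
    Bf L f k i j = 0 := by
  unfold Bf
  rw [dot_proj hL (hf i) (hf j), hL.grade k i j h, zero_mulVec, dotProduct_zero]

theorem Bf_diag {N : ℕ} {L : Pencil N} (hL : Graded L) {f : Fin 5 → Fin N → ℝ}
    (hf : ∀ i, L (dg i) *ᵥ f i = f i) (l i j : Fin 5) :
    Bf L f (dg l) i j = if i = l ∧ j = l then f l ⬝ᵥ f l else 0 := by
  unfold Bf
  have h1 : ∀ j, L (dg l) *ᵥ f j = if l = j then f j else 0 := by
    intro j
    rw [← hf j, mulVec_mulVec, hL.orth, hf j]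
    split_ifs with h
    · rw [h, hf j]
    · simp
  rw [h1 j]
  by_cases hj : l = j
  · subst hj
    by_cases hi : i = l
    · subst hi; simp
    · rw [if_pos rfl, if_neg (by tauto), ← hf i, ← hf l, dotProduct_mulVec, ← mulVec_transpose,
        (hL.symm _).eq, mulVec_mulVec, hL.orth, if_neg (fun h => hi h.symm)]
      simp
  · rw [if_neg hj, if_neg (fun h => hj h.2.symm), dotProduct_zero]

theorem quad_sum {N : ℕ} (L : Pencil N) (x : Fin 23 → ℝ) (f : Fin 5 → Fin N → ℝ)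
    (c : Fin 5 → ℝ) :
    (∑ i, c i • f i) ⬝ᵥ Lx L x *ᵥ (∑ i, c i • f i) =
      ∑ k, x k * ∑ i, ∑ j, c i * c j * Bf L f k i j := by
  unfold Lx Bf
  rw [sum_mulVec, dotProduct_sum]
  refine Finset.sum_congr rfl fun k _ => ?_
  rw [smul_mulVec, dotProduct_smul, smul_eq_mul, mulVec_sum, sum_dotProduct]
  congr 1
  refine Finset.sum_congr rfl fun i _ => ?_
  rw [dotProduct_sum]
  refine Finset.sum_congr rfl fun j _ => ?_
  rw [mulVec_smul, smul_dotProduct, dotProduct_smul, smul_eq_mul, smul_eq_mul]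
  ring

theorem sum_diag (c : Fin 5 → ℝ) (l : Fin 5) (a : ℝ) :
    (∑ i, ∑ j, c i * c j * (if i = l ∧ j = l then a else 0)) = c l ^ 2 * a := by
  rw [Finset.sum_eq_single l]
  · rw [Finset.sum_eq_single l]
    · rw [if_pos ⟨rfl, rfl⟩]; ring
    · intro j _ hj
      rw [if_neg (fun h => hj h.2), mul_zero]
    · simp
  · intro i _ hi
    exact Finset.sum_eq_zero fun j _ => by rw [if_neg (fun h => hi h.1), mul_zero]
  · simp

theorem sum23 (g : Fin 23 → ℝ) (hg : ∀ k : Fin 23, 13 ≤ (k : ℕ) → g k = 0) :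
    ∑ k, g k = g 0 + g 1 + g 2 + g 3 + g 4 + g 5 + g 6 + g 7 + g 8 + g 9 + g 10 + g 11 + g 12 := by
  have huniv : (Finset.univ : Finset (Fin 23)) =
      {0,1,2,3,4,5,6,7,8,9,10,11,12,13,14,15,16,17,18,19,20,21,22} := by decide
  rw [huniv]
  iterate 22 rw [Finset.sum_insert (by decide)]
  rw [Finset.sum_singleton, hg 13 (by decide), hg 14 (by decide), hg 15 (by decide),
    hg 16 (by decide), hg 17 (by decide), hg 18 (by decide), hg 19 (by decide), hg 20 (by decide),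
    hg 21 (by decide), hg 22 (by decide)]
  ring

theorem quad_graded {N : ℕ} {L : Pencil N} (hL : Graded L) (x : Fin 23 → ℝ)
    (hx : ∀ k : Fin 23, 13 ≤ (k : ℕ) → x k = 0) (f : Fin 5 → Fin N → ℝ)
    (hf : ∀ i, L (dg i) *ᵥ f i = f i) (c : Fin 5 → ℝ) :
    (∑ i, c i • f i) ⬝ᵥ Lx L x *ᵥ (∑ i, c i • f i) =
      x 0 * c 0 ^ 2 * (f 0 ⬝ᵥ f 0) + x 2 * c 1 ^ 2 * (f 1 ⬝ᵥ f 1)
      + x 7 * c 2 ^ 2 * (f 2 ⬝ᵥ f 2) + x 10 * c 3 ^ 2 * (f 3 ⬝ᵥ f 3)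
      + x 12 * c 4 ^ 2 * (f 4 ⬝ᵥ f 4)
      + 2 * x 1 * (c 0 * c 1) * (f 0 ⬝ᵥ L 1 *ᵥ f 1)
      + 2 * x 8 * (c 2 * c 3) * (f 2 ⬝ᵥ L 8 *ᵥ f 3)
      + 2 * x 9 * (c 2 * c 4) * (f 2 ⬝ᵥ L 9 *ᵥ f 4)
      + x 9 * c 3 ^ 2 * (f 3 ⬝ᵥ L 9 *ᵥ f 3)
      + 2 * x 11 * (c 3 * c 4) * (f 3 ⬝ᵥ L 11 *ᵥ f 4)
      + 2 * x 3 * (c 0 * c 3 * (f 0 ⬝ᵥ L 3 *ᵥ f 3) + c 1 * c 2 * (f 1 ⬝ᵥ L 3 *ᵥ f 2))
      + 2 * x 4 * (c 0 * c 3 * (f 0 ⬝ᵥ L 4 *ᵥ f 3) + c 1 * c 2 * (f 1 ⬝ᵥ L 4 *ᵥ f 2))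
      + 2 * x 5 * (c 0 * c 4 * (f 0 ⬝ᵥ L 5 *ᵥ f 4) + c 1 * c 3 * (f 1 ⬝ᵥ L 5 *ᵥ f 3))
      + 2 * x 6 * (c 0 * c 4 * (f 0 ⬝ᵥ L 6 *ᵥ f 4) + c 1 * c 3 * (f 1 ⬝ᵥ L 6 *ᵥ f 3)) := by
  have hz := Bf_zero hL hf
  have hd := Bf_diag hL hf
  have hs := Bf_symm hL.symm f
  rw [quad_sum]
  have kd : ∀ l : Fin 5, (∑ i, ∑ j, c i * c j * Bf L f (dg l) i j) = c l ^ 2 * (f l ⬝ᵥ f l) := by
    intro l
    rw [← sum_diag]
    exact Finset.sum_congr rfl fun i _ => Finset.sum_congr rfl fun j _ => by rw [hd]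
  have k0 : (∑ i, ∑ j, c i * c j * Bf L f 0 i j) = c 0 ^ 2 * (f 0 ⬝ᵥ f 0) := kd 0
  have k2 : (∑ i, ∑ j, c i * c j * Bf L f 2 i j) = c 1 ^ 2 * (f 1 ⬝ᵥ f 1) := kd 1
  have k7 : (∑ i, ∑ j, c i * c j * Bf L f 7 i j) = c 2 ^ 2 * (f 2 ⬝ᵥ f 2) := kd 2
  have k10 : (∑ i, ∑ j, c i * c j * Bf L f 10 i j) = c 3 ^ 2 * (f 3 ⬝ᵥ f 3) := kd 3
  have k12 : (∑ i, ∑ j, c i * c j * Bf L f 12 i j) = c 4 ^ 2 * (f 4 ⬝ᵥ f 4) := kd 4
  have k1 : (∑ i, ∑ j, c i * c j * Bf L f 1 i j) = 2 * (c 0 * c 1) * (f 0 ⬝ᵥ L 1 *ᵥ f 1) := by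
    simp only [Fin.sum_univ_five]
    rw [hz 1 0 0 (by decide), hz 1 0 2 (by decide), hz 1 0 3 (by decide), hz 1 0 4 (by decide),
      hz 1 1 1 (by decide), hz 1 1 2 (by decide), hz 1 1 3 (by decide), hz 1 1 4 (by decide),
      hz 1 2 0 (by decide), hz 1 2 1 (by decide), hz 1 2 2 (by decide), hz 1 2 3 (by decide),
      hz 1 2 4 (by decide), hz 1 3 0 (by decide), hz 1 3 1 (by decide), hz 1 3 2 (by decide),
      hz 1 3 3 (by decide), hz 1 3 4 (by decide), hz 1 4 0 (by decide), hz 1 4 1 (by decide),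
      hz 1 4 2 (by decide), hz 1 4 3 (by decide), hz 1 4 4 (by decide), hs 1 1 0]
    simp only [Bf]
    ring
  have k8 : (∑ i, ∑ j, c i * c j * Bf L f 8 i j) = 2 * (c 2 * c 3) * (f 2 ⬝ᵥ L 8 *ᵥ f 3) := by
    simp only [Fin.sum_univ_five]
    rw [hz 8 0 0 (by decide), hz 8 0 1 (by decide), hz 8 0 2 (by decide), hz 8 0 3 (by decide),
      hz 8 0 4 (by decide), hz 8 1 0 (by decide),
      hz 8 1 1 (by decide), hz 8 1 2 (by decide), hz 8 1 3 (by decide), hz 8 1 4 (by decide),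
      hz 8 2 0 (by decide), hz 8 2 1 (by decide), hz 8 2 2 (by decide),
      hz 8 2 4 (by decide), hz 8 3 0 (by decide), hz 8 3 1 (by decide),
      hz 8 3 3 (by decide), hz 8 3 4 (by decide), hz 8 4 0 (by decide), hz 8 4 1 (by decide),
      hz 8 4 2 (by decide), hz 8 4 3 (by decide), hz 8 4 4 (by decide), hs 8 3 2]
    simp only [Bf]
    ring
  have k9 : (∑ i, ∑ j, c i * c j * Bf L f 9 i j) =
      2 * (c 2 * c 4) * (f 2 ⬝ᵥ L 9 *ᵥ f 4) + c 3 ^ 2 * (f 3 ⬝ᵥ L 9 *ᵥ f 3) := by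
    simp only [Fin.sum_univ_five]
    rw [hz 9 0 0 (by decide), hz 9 0 1 (by decide), hz 9 0 2 (by decide), hz 9 0 3 (by decide),
      hz 9 0 4 (by decide), hz 9 1 0 (by decide),
      hz 9 1 1 (by decide), hz 9 1 2 (by decide), hz 9 1 3 (by decide), hz 9 1 4 (by decide),
      hz 9 2 0 (by decide), hz 9 2 1 (by decide), hz 9 2 2 (by decide), hz 9 2 3 (by decide),
      hz 9 3 0 (by decide), hz 9 3 1 (by decide), hz 9 3 2 (by decide),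
      hz 9 3 4 (by decide), hz 9 4 0 (by decide), hz 9 4 1 (by decide),
      hz 9 4 3 (by decide), hz 9 4 4 (by decide), hs 9 4 2]
    simp only [Bf]
    ring
  have k11 : (∑ i, ∑ j, c i * c j * Bf L f 11 i j) =
      2 * (c 3 * c 4) * (f 3 ⬝ᵥ L 11 *ᵥ f 4) := by
    simp only [Fin.sum_univ_five]
    rw [hz 11 0 0 (by decide), hz 11 0 1 (by decide), hz 11 0 2 (by decide),
      hz 11 0 3 (by decide), hz 11 0 4 (by decide), hz 11 1 0 (by decide),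
      hz 11 1 1 (by decide), hz 11 1 2 (by decide), hz 11 1 3 (by decide), hz 11 1 4 (by decide),
      hz 11 2 0 (by decide), hz 11 2 1 (by decide), hz 11 2 2 (by decide), hz 11 2 3 (by decide),
      hz 11 2 4 (by decide), hz 11 3 0 (by decide), hz 11 3 1 (by decide), hz 11 3 2 (by decide),
      hz 11 3 3 (by decide), hz 11 4 0 (by decide), hz 11 4 1 (by decide),
      hz 11 4 2 (by decide), hz 11 4 4 (by decide), hs 11 4 3]
    simp only [Bf]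
    ring
  have k3 : ∀ k : Fin 23, wt k = 12 → (∑ i, ∑ j, c i * c j * Bf L f k i j) =
      2 * (c 0 * c 3 * (f 0 ⬝ᵥ L k *ᵥ f 3) + c 1 * c 2 * (f 1 ⬝ᵥ L k *ᵥ f 2)) := by
    intro k hk
    have hz' : ∀ i j, om i + om j ≠ 12 → Bf L f k i j = 0 := fun i j h => hz k i j (by rw [hk]; exact h)
    simp only [Fin.sum_univ_five]
    rw [hz' 0 0 (by decide), hz' 0 1 (by decide), hz' 0 2 (by decide),
      hz' 0 4 (by decide), hz' 1 0 (by decide),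
      hz' 1 1 (by decide), hz' 1 3 (by decide), hz' 1 4 (by decide),
      hz' 2 0 (by decide), hz' 2 2 (by decide), hz' 2 3 (by decide),
      hz' 2 4 (by decide), hz' 3 1 (by decide), hz' 3 2 (by decide),
      hz' 3 3 (by decide), hz' 3 4 (by decide), hz' 4 0 (by decide), hz' 4 1 (by decide),
      hz' 4 2 (by decide), hz' 4 3 (by decide), hz' 4 4 (by decide), hs k 3 0, hs k 2 1]
    simp only [Bf]
    ring
  have k5 : ∀ k : Fin 23, wt k = 11 → (∑ i, ∑ j, c i * c j * Bf L f k i j) =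
      2 * (c 0 * c 4 * (f 0 ⬝ᵥ L k *ᵥ f 4) + c 1 * c 3 * (f 1 ⬝ᵥ L k *ᵥ f 3)) := by
    intro k hk
    have hz' : ∀ i j, om i + om j ≠ 11 → Bf L f k i j = 0 := fun i j h => hz k i j (by rw [hk]; exact h)
    simp only [Fin.sum_univ_five]
    rw [hz' 0 0 (by decide), hz' 0 1 (by decide), hz' 0 2 (by decide),
      hz' 0 3 (by decide), hz' 1 0 (by decide),
      hz' 1 1 (by decide), hz' 1 2 (by decide), hz' 1 4 (by decide),
      hz' 2 0 (by decide), hz' 2 1 (by decide), hz' 2 2 (by decide), hz' 2 3 (by decide),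
      hz' 2 4 (by decide), hz' 3 0 (by decide), hz' 3 2 (by decide),
      hz' 3 3 (by decide), hz' 3 4 (by decide), hz' 4 1 (by decide),
      hz' 4 2 (by decide), hz' 4 3 (by decide), hz' 4 4 (by decide), hs k 4 0, hs k 3 1]
    simp only [Bf]
    ring
  rw [sum23 _ (fun k hk => by rw [hx k hk, zero_mul]), k0, k1, k2, k3 3 rfl, k3 4 rfl, k5 5 rfl,
    k5 6 rfl, k7, k8, k9, k10, k11, k12]
  ring

end Crest.Agent.R237.S2
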