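import Mathlib
import Crest.Agent.R237.S2Quad
import Crest.Agent.R237.S2Pts

/-!
Row 237, statement S0368, node D4: limit of the kernel vectors.
-/

set_option autoImplicit false

namespace Crest.Agent.R237.S2

open Matrix

variable {N : ℕ} {L : Pencil N}

/-- the component of `f` -/
def cp (L : Pencil N) (f : Fin N → ℝ) (i : Fin 5) : Fin N → ℝ := L (dg i) *ᵥ f

theorem cp_im (hL : Graded L) (f : Fin N → ℝ) (i : Fin 5) : L (dg i) *ᵥ cp L f i = cp L f i := by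
  unfold cp
  rw [mulVec_mulVec, hL.orth, if_pos rfl]

theorem sum_cp (hL : Graded L) (f : Fin N → ℝ) : ∑ i, cp L f i = f := by
  unfold cp
  rw [← sum_mulVec, hL.sum_one, one_mulVec]

theorem cp_smul (f : Fin N → ℝ) (s : ℝ) (i : Fin 5) : cp L (s • f) i = s • cp L f i := by
  unfold cp
  rw [mulVec_smul]

theorem cp_cont (i : Fin 5) : Continuous fun f : Fin N → ℝ => cp L f i := by
  unfold cp
  exact Continuous.matrix_mulVec continuous_const continuous_id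

theorem dot_cont {g h : (Fin N → ℝ) → (Fin N → ℝ)} (hg : Continuous g) (hh : Continuous h) :
    Continuous fun f => g f ⬝ᵥ h f := hg.dotProduct hh

theorem dot_nonneg (f : Fin N → ℝ) : 0 ≤ f ⬝ᵥ f :=
  Finset.sum_nonneg fun _ _ => mul_self_nonneg _

theorem cp_orth (hL : Graded L) (f g : Fin N → ℝ) {i j : Fin 5} (h : i ≠ j) :
    cp L f i ⬝ᵥ cp L g j = 0 := by
  unfold cp
  rw [dotProduct_mulVec, ← mulVec_transpose, (hL.symm _).eq, mulVec_mulVec, hL.orth,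
    if_neg (fun e => h e.symm), zero_mulVec, zero_dotProduct]

theorem dot_self_sum (hL : Graded L) (f : Fin N → ℝ) :
    f ⬝ᵥ f = ∑ i, cp L f i ⬝ᵥ cp L f i := by
  conv_lhs => rw [← sum_cp hL f]
  rw [sum_dotProduct]
  refine Finset.sum_congr rfl fun i _ => ?_
  rw [dotProduct_sum, Finset.sum_eq_single i]
  · intro j _ hj
    exact cp_orth hL f f (fun h => hj h.symm)
  · simp

/-- off the partner block nothing is seen -/
theorem cp_L (hL : Graded L) (f : Fin N → ℝ) (k : Fin 23) (i j : Fin 5)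
    (h : om i + om j = wt k) : cp L f i ⬝ᵥ L k *ᵥ f = cp L f i ⬝ᵥ L k *ᵥ cp L f j := by
  conv_lhs => rw [← sum_cp hL f, mulVec_sum, dotProduct_sum]
  rw [Finset.sum_eq_single j]
  · rw [sum_cp hL f]
  · intro j' _ hj'
    rw [sum_cp hL f, dot_proj hL (cp_im hL f i) (cp_im hL f j'), hL.grade k i j' ?_, zero_mulVec,
      dotProduct_zero]
    intro h2
    have h3 : om j' = om j := by omega
    have hinj : ∀ a b : Fin 5, om a = om b → a = b := by decide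
    exact hj' (hinj _ _ h3)
  · simp

/-- kernel vectors of `P_i + P_j ∓ L_k` -/
theorem ker_pair (hL : Graded L) (f : Fin N → ℝ) (k : Fin 23) (i j : Fin 5) (hij : i ≠ j)
    (h : om i + om j = wt k) (s : ℝ) (hf : L k *ᵥ f = s • (cp L f i + cp L f j)) :
    cp L f i ⬝ᵥ L k *ᵥ cp L f j = s * (cp L f i ⬝ᵥ cp L f i) ∧
    cp L f j ⬝ᵥ cp L f j * s = s * (cp L f i ⬝ᵥ cp L f i) := by
  have h1 : cp L f i ⬝ᵥ L k *ᵥ cp L f j = s * (cp L f i ⬝ᵥ cp L f i) := by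
    rw [← cp_L hL f k i j h, hf, dotProduct_smul, dotProduct_add, cp_orth hL f f hij, add_zero,
      smul_eq_mul]
  have h2 : cp L f j ⬝ᵥ L k *ᵥ cp L f i = s * (cp L f j ⬝ᵥ cp L f j) := by
    rw [← cp_L hL f k j i (by rw [add_comm]; exact h), hf, dotProduct_smul, dotProduct_add,
      cp_orth hL f f hij.symm, zero_add, smul_eq_mul]
  refine ⟨h1, ?_⟩
  rw [mul_comm, ← h2, ← h1]
  exact dot_symm (hL.symm k) _ _

/-- the quadratic form of the pencil at `f` -/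
theorem quad_cp (hL : Graded L) (x : Fin 23 → ℝ) (hx : ∀ k : Fin 23, 13 ≤ (k : ℕ) → x k = 0)
    (f : Fin N → ℝ) (c : Fin 5 → ℝ) (hpsd : x ∈ KK) :
    0 ≤ x 0 * c 0 ^ 2 * (cp L f 0 ⬝ᵥ cp L f 0) + x 2 * c 1 ^ 2 * (cp L f 1 ⬝ᵥ cp L f 1)
      + x 7 * c 2 ^ 2 * (cp L f 2 ⬝ᵥ cp L f 2) + x 10 * c 3 ^ 2 * (cp L f 3 ⬝ᵥ cp L f 3)
      + x 12 * c 4 ^ 2 * (cp L f 4 ⬝ᵥ cp L f 4)
      + 2 * x 1 * (c 0 * c 1) * (cp L f 0 ⬝ᵥ L 1 *ᵥ cp L f 1)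
      + 2 * x 8 * (c 2 * c 3) * (cp L f 2 ⬝ᵥ L 8 *ᵥ cp L f 3)
      + 2 * x 9 * (c 2 * c 4) * (cp L f 2 ⬝ᵥ L 9 *ᵥ cp L f 4)
      + x 9 * c 3 ^ 2 * (cp L f 3 ⬝ᵥ L 9 *ᵥ cp L f 3)
      + 2 * x 11 * (c 3 * c 4) * (cp L f 3 ⬝ᵥ L 11 *ᵥ cp L f 4)
      + 2 * x 3 * (c 0 * c 3 * (cp L f 0 ⬝ᵥ L 3 *ᵥ cp L f 3) +
          c 1 * c 2 * (cp L f 1 ⬝ᵥ L 3 *ᵥ cp L f 2))
      + 2 * x 4 * (c 0 * c 3 * (cp L f 0 ⬝ᵥ L 4 *ᵥ cp L f 3) +
          c 1 * c 2 * (cp L f 1 ⬝ᵥ L 4 *ᵥ cp L f 2))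
      + 2 * x 5 * (c 0 * c 4 * (cp L f 0 ⬝ᵥ L 5 *ᵥ cp L f 4) +
          c 1 * c 3 * (cp L f 1 ⬝ᵥ L 5 *ᵥ cp L f 3))
      + 2 * x 6 * (c 0 * c 4 * (cp L f 0 ⬝ᵥ L 6 *ᵥ cp L f 4) +
          c 1 * c 3 * (cp L f 1 ⬝ᵥ L 6 *ᵥ cp L f 3)) := by
  rw [← quad_graded hL x hx (fun i => cp L f i) (cp_im hL f) c]
  have := (hL.psd x hpsd).dotProduct_mulVec_nonneg (∑ i, c i • cp L f i)
  simpa using this

theorem pt_zero (a b c p q r s u0 u1 u2 u3 u4 u5 : ℝ) (k : Fin 23) (hk : 13 ≤ (k : ℕ)) :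
    pt a b c p q r s u0 u1 u2 u3 u4 u5 k = 0 := by
  revert hk
  fin_cases k <;> simp [pt]

/-- scalar data of a kernel vector -/
structure Kd (L : Pencil N) (d : ℝ) (f : Fin N → ℝ) : Prop where
  n23 : cp L f 3 ⬝ᵥ cp L f 3 = cp L f 2 ⬝ᵥ cp L f 2
  n24 : cp L f 4 ⬝ᵥ cp L f 4 = cp L f 2 ⬝ᵥ cp L f 2
  u01 : cp L f 2 ⬝ᵥ L 8 *ᵥ cp L f 3 = cp L f 2 ⬝ᵥ cp L f 2
  u02 : cp L f 2 ⬝ᵥ L 9 *ᵥ cp L f 4 = cp L f 2 ⬝ᵥ cp L f 2
  u12 : cp L f 3 ⬝ᵥ L 11 *ᵥ cp L f 4 = cp L f 2 ⬝ᵥ cp L f 2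
  eq : (1 + d) / (4 * d) * (cp L f 0 ⬝ᵥ cp L f 0 + cp L f 1 ⬝ᵥ cp L f 1)
      + 2 * ((1 - d) / (4 * d)) * (cp L f 0 ⬝ᵥ L 1 *ᵥ cp L f 1)
      + (1 + d) * (cp L f 2 ⬝ᵥ cp L f 2 + cp L f 3 ⬝ᵥ cp L f 3)
      + 2 * (cp L f 0 ⬝ᵥ L 3 *ᵥ cp L f 3 + cp L f 1 ⬝ᵥ L 3 *ᵥ cp L f 2) = 0

theorem psd_ker {M : Matrix (Fin N) (Fin N) ℝ} (hM : M.PosSemidef) {f : Fin N → ℝ}
    (h : f ⬝ᵥ M *ᵥ f = 0) : M *ᵥ f = 0 := by
  have := (hM.dotProduct_mulVec_zero_iff f).1 (by simpa using h)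
  exact this

theorem psd_quad {M : Matrix (Fin N) (Fin N) ℝ} (hM : M.PosSemidef) (f : Fin N → ℝ) :
    0 ≤ f ⬝ᵥ M *ᵥ f := by
  have := hM.dotProduct_mulVec_nonneg f
  simpa using this

theorem Lx_pt (L : Pencil N) (a b c p q r s u0 u1 u2 u3 u4 u5 : ℝ) :
    Lx L (pt a b c p q r s u0 u1 u2 u3 u4 u5) =
      a • L 0 + b • L 1 + c • L 2 + p • L 3 + q • L 4 + r • L 5 + s • L 6
      + u0 • L 7 + u1 • L 8 + u2 • L 9 + u3 • L 10 + u4 • L 11 + u5 • L 12 :=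
  sum_mk L a b c p q r s u0 u1 u2 u3 u4 u5

theorem psd3 {a b c d e f : ℝ}
    (h : ∀ x y z : ℝ, 0 ≤ a * x ^ 2 + d * y ^ 2 + f * z ^ 2 + 2 * b * x * y + 2 * c * x * z
      + 2 * e * y * z) :
    (!![a, b, c; b, d, e; c, e, f] : Matrix (Fin 3) (Fin 3) ℝ).PosSemidef := by
  refine Matrix.PosSemidef.of_dotProduct_mulVec_nonneg ?_ fun y => ?_
  · rw [Matrix.IsHermitian, Matrix.conjTranspose_eq_transpose_of_trivial]
    ext i j; fin_cases i <;> fin_cases j <;> rfl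
  · have := h (y 0) (y 1) (y 2)
    simp only [star_trivial, dotProduct, mulVec, Fin.sum_univ_three, Matrix.of_apply,
      Matrix.cons_val', Matrix.cons_val_zero, Matrix.cons_val_one, Matrix.cons_val,
      Matrix.cons_val_fin_one]
    nlinarith [this]

theorem y_mem (hG : Stmt_G_mem) {d : ℝ} (hd : 0 < d) (hd1 : d < 1) :
    pt ((1+d)/(4*d)) ((1-d)/(4*d)) ((1+d)/(4*d)) 1 0 0 0 (1+d) 0 0 (1+d) 0 0 ∈ KK := by
  have h := hG (1+d) (-(1-d)) (1+d) 1 0 0 0 (by linarith) (by nlinarith)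
  have e : (1+d) * (1+d) - (-(1-d))^2 = 4 * d := by ring
  rw [e] at h
  have e2 : pt ((1+d)/(4*d)) (-(-(1-d))/(4*d)) ((1+d)/(4*d)) 1 0 0 0 ((1^2+0^2)*(1+d)) (0*0*(1+d))
    (-(0*0*(-(1-d)))) ((1^2+0^2)*(1+d) + (0^2+0^2)*(1+d) - 2*(1*0*(-(1-d)))) (-(1*0*(1+d)))
    ((0^2+0^2)*(1+d)) =
    pt ((1+d)/(4*d)) ((1-d)/(4*d)) ((1+d)/(4*d)) 1 0 0 0 (1+d) 0 0 (1+d) 0 0 := by
    congr 1 <;> ring
  rwa [e2] at h

theorem exists_kernel (hblock : Stmt_block_mem) (hG : Stmt_G_mem) (hxd : Stmt_xd_mem)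
    (hL : Graded L) {d : ℝ} (hd : 0 < d) (hd1 : d < 1) : ∃ f : Fin N → ℝ, f ≠ 0 ∧ Kd L d f := by
  have hdet := hL.bd _ (hxd d hd hd1)
  obtain ⟨f, hf0, hf⟩ := Matrix.exists_mulVec_eq_zero_iff.2 hdet
  refine ⟨f, hf0, ?_⟩
  have hy := hL.psd _ (y_mem hG hd hd1)
  have h01 := hL.psd _ (hblock 0 0 0 1 (-1) 0 1 0 0 le_rfl le_rfl (by norm_num)
    (psd3 fun x y z => by nlinarith [sq_nonneg (x - y)]))
  have h02 := hL.psd _ (hblock 0 0 0 1 0 (-1) 0 0 1 le_rfl le_rfl (by norm_num)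
    (psd3 fun x y z => by nlinarith [sq_nonneg (x - z)]))
  have h12 := hL.psd _ (hblock 0 0 0 0 0 0 1 (-1) 1 le_rfl le_rfl (by norm_num)
    (psd3 fun x y z => by nlinarith [sq_nonneg (y - z)]))
  have hsum : Lx L (pt ((1+d)/(4*d)) ((1-d)/(4*d)) ((1+d)/(4*d)) 1 0 0 0 (3+d) (-1) (-1) (3+d)
      (-1) 2) = Lx L (pt ((1+d)/(4*d)) ((1-d)/(4*d)) ((1+d)/(4*d)) 1 0 0 0 (1+d) 0 0 (1+d) 0 0)
      + Lx L (pt 0 0 0 0 0 0 0 1 (-1) 0 1 0 0) + Lx L (pt 0 0 0 0 0 0 0 1 0 (-1) 0 0 1)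
      + Lx L (pt 0 0 0 0 0 0 0 0 0 0 1 (-1) 1) := by
    simp only [Lx_pt]
    module
  have hq := congrArg (fun v => f ⬝ᵥ v) hf
  simp only [dotProduct_zero] at hq
  rw [hsum, add_mulVec, add_mulVec, add_mulVec, dotProduct_add, dotProduct_add,
    dotProduct_add] at hq
  have q0 := psd_quad hy f
  have q1 := psd_quad h01 f
  have q2 := psd_quad h02 f
  have q3 := psd_quad h12 f
  have k1 := psd_ker h01 (f := f) (by linarith)
  have k2 := psd_ker h02 (f := f) (by linarith)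
  have k3 := psd_ker h12 (f := f) (by linarith)
  have k0 : f ⬝ᵥ Lx L (pt ((1+d)/(4*d)) ((1-d)/(4*d)) ((1+d)/(4*d)) 1 0 0 0 (1+d) 0 0 (1+d) 0 0)
    *ᵥ f = 0 := by linarith
  have c2 : cp L f 2 = L 7 *ᵥ f := rfl
  have c3 : cp L f 3 = L 10 *ᵥ f := rfl
  have c4 : cp L f 4 = L 12 *ᵥ f := rfl
  have l8 : L 8 *ᵥ f = (1 : ℝ) • (cp L f 2 + cp L f 3) := by
    rw [Lx_pt] at k1
    simp only [zero_smul, zero_add, add_zero, one_smul, neg_smul, add_mulVec, neg_mulVec] at k1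
    rw [one_smul, c2, c3]
    rw [← sub_eq_zero, ← neg_eq_zero, ← k1]
    abel
  have l9 : L 9 *ᵥ f = (1 : ℝ) • (cp L f 2 + cp L f 4) := by
    rw [Lx_pt] at k2
    simp only [zero_smul, zero_add, add_zero, one_smul, neg_smul, add_mulVec, neg_mulVec] at k2
    rw [one_smul, c2, c4]
    rw [← sub_eq_zero, ← neg_eq_zero, ← k2]
    abel
  have l11 : L 11 *ᵥ f = (1 : ℝ) • (cp L f 3 + cp L f 4) := by
    rw [Lx_pt] at k3
    simp only [zero_smul, zero_add, add_zero, one_smul, neg_smul, add_mulVec, neg_mulVec] at k3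
    rw [one_smul, c3, c4]
    rw [← sub_eq_zero, ← neg_eq_zero, ← k3]
    abel
  obtain ⟨a1, a2⟩ := ker_pair hL f 8 2 3 (by decide) (by decide) 1 l8
  obtain ⟨b1, b2⟩ := ker_pair hL f 9 2 4 (by decide) (by decide) 1 l9
  obtain ⟨e1, e2⟩ := ker_pair hL f 11 3 4 (by decide) (by decide) 1 l11
  have hquad := quad_graded hL
    (pt ((1+d)/(4*d)) ((1-d)/(4*d)) ((1+d)/(4*d)) 1 0 0 0 (1+d) 0 0 (1+d) 0 0)
    (pt_zero _ _ _ _ _ _ _ _ _ _ _ _ _) (fun i => cp L f i) (cp_im hL f) (fun _ => 1)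
  simp only [one_smul, sum_cp hL f] at hquad
  rw [k0] at hquad
  refine ⟨by linarith, by linarith, by linarith, by linarith, by linarith, ?_⟩
  rw [hquad]
  simp only [pt]
  simp
  ring

theorem contN (L : Pencil N) (i : Fin 5) :
    Continuous fun f : Fin N → ℝ => cp L f i ⬝ᵥ cp L f i :=
  dot_cont (cp_cont i) (cp_cont i)

theorem contB (L : Pencil N) (k : Fin 23) (i j : Fin 5) :
    Continuous fun f : Fin N → ℝ => cp L f i ⬝ᵥ L k *ᵥ cp L f j :=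
  dot_cont (cp_cont i) (Continuous.matrix_mulVec continuous_const (cp_cont j))

/-- the `JJ` form -/
def qJ (L : Pencil N) (f : Fin N → ℝ) : ℝ :=
  cp L f 0 ⬝ᵥ cp L f 0 + cp L f 1 ⬝ᵥ cp L f 1 + 2 * (cp L f 0 ⬝ᵥ L 1 *ᵥ cp L f 1)

theorem contq (L : Pencil N) : Continuous fun f : Fin N → ℝ => qJ L f := by
  unfold qJ
  exact ((contN L 0).add (contN L 1)).add (continuous_const.mul (contB L 1 0 1))

/-- the closed sets of approximate limits -/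
def SS (L : Pencil N) (n : ℕ) : Set (Fin N → ℝ) :=
  {f | cp L f 2 ⬝ᵥ cp L f 2 = 1} ∩ {f | cp L f 3 ⬝ᵥ cp L f 3 = 1} ∩
  {f | cp L f 4 ⬝ᵥ cp L f 4 = 1} ∩ {f | cp L f 2 ⬝ᵥ L 8 *ᵥ cp L f 3 = 1} ∩
  {f | cp L f 2 ⬝ᵥ L 9 *ᵥ cp L f 4 = 1} ∩ {f | cp L f 3 ⬝ᵥ L 11 *ᵥ cp L f 4 = 1} ∩
  {f | ((n : ℝ) + 1) * qJ L f ≤ 24} ∩ {f | 0 ≤ qJ L f} ∩
  {f | cp L f 0 ⬝ᵥ cp L f 0 + cp L f 1 ⬝ᵥ cp L f 1 ≤ 24} ∩
  {f | 1 / 2 * (cp L f 0 ⬝ᵥ cp L f 0 + cp L f 1 ⬝ᵥ cp L f 1) +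
    2 * (cp L f 0 ⬝ᵥ L 3 *ᵥ cp L f 3 + cp L f 1 ⬝ᵥ L 3 *ᵥ cp L f 2) + 2 ≤ 0}

theorem SS_closed (L : Pencil N) (n : ℕ) : IsClosed (SS L n) := by
  have c := contN L
  have b := contB L
  have q := contq L
  unfold SS
  refine IsClosed.inter (IsClosed.inter (IsClosed.inter (IsClosed.inter (IsClosed.inter
    (IsClosed.inter (IsClosed.inter (IsClosed.inter (IsClosed.inter ?_ ?_) ?_) ?_) ?_) ?_) ?_)
      ?_) ?_) ?_
  · exact isClosed_eq (c 2) continuous_const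
  · exact isClosed_eq (c 3) continuous_const
  · exact isClosed_eq (c 4) continuous_const
  · exact isClosed_eq (b 8 2 3) continuous_const
  · exact isClosed_eq (b 9 2 4) continuous_const
  · exact isClosed_eq (b 11 3 4) continuous_const
  · exact isClosed_le (continuous_const.mul q) continuous_const
  · exact isClosed_le continuous_const q
  · exact isClosed_le ((c 0).add (c 1)) continuous_const
  · exact isClosed_le (((continuous_const.mul ((c 0).add (c 1))).add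
      (continuous_const.mul ((b 3 0 3).add (b 3 1 2)))).add continuous_const) continuous_const

theorem qJ_nonneg (hblock : Stmt_block_mem) (hL : Graded L) (f : Fin N → ℝ) : 0 ≤ qJ L f := by
  have h := quad_cp hL (pt 1 1 1 0 0 0 0 0 0 0 0 0 0) (pt_zero _ _ _ _ _ _ _ _ _ _ _ _ _) f
    (fun _ => 1) (hblock 1 1 1 0 0 0 0 0 0 zero_le_one zero_le_one (by norm_num)
      (psd3 fun x y z => by nlinarith))
  simp only [pt] at h
  simp at h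
  unfold qJ
  linarith

theorem cross (hG : Stmt_G_mem) (hL : Graded L) (f : Fin N → ℝ) :
    0 ≤ 1 / 4 * (cp L f 0 ⬝ᵥ cp L f 0) + 4 * (cp L f 3 ⬝ᵥ cp L f 3)
      + 2 * (cp L f 0 ⬝ᵥ L 3 *ᵥ cp L f 3) ∧
    0 ≤ 1 / 4 * (cp L f 1 ⬝ᵥ cp L f 1) + 4 * (cp L f 2 ⬝ᵥ cp L f 2)
      + 2 * (cp L f 1 ⬝ᵥ L 3 *ᵥ cp L f 2) := by
  have hm : pt 1 0 1 1 0 0 0 1 0 0 1 0 0 ∈ KK := by
    have h := hG 1 0 1 1 0 0 0 one_pos (by norm_num)
    have e2 : pt (1 / (1 * 1 - 0 ^ 2)) (-0 / (1 * 1 - 0 ^ 2)) (1 / (1 * 1 - 0 ^ 2)) 1 0 0 0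
      ((1^2+0^2)*1) (0*0*1) (-(0*0*0)) ((1^2+0^2)*1 + (0^2+0^2)*1 - 2*(1*0*0)) (-(1*0*1))
      ((0^2+0^2)*1) = pt 1 0 1 1 0 0 0 1 0 0 1 0 0 := by
      congr 1 <;> norm_num
    rwa [e2] at h
  constructor
  · have h := quad_cp hL _ (pt_zero _ _ _ _ _ _ _ _ _ _ _ _ _) f ![1/2, 0, 0, 2, 0] hm
    simp only [pt] at h
    simp at h
    linarith
  · have h := quad_cp hL _ (pt_zero _ _ _ _ _ _ _ _ _ _ _ _ _) f ![0, 1/2, 2, 0, 0] hm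
    simp only [pt] at h
    simp at h
    linarith

theorem SS_nonempty (hblock : Stmt_block_mem) (hG : Stmt_G_mem) (hxd : Stmt_xd_mem)
    (hL : Graded L) (n : ℕ) : (SS L n).Nonempty := by
  have hn : (0 : ℝ) < (n : ℝ) + 2 := by positivity
  have hd : (0 : ℝ) < 1 / ((n : ℝ) + 2) := by positivity
  have hd1 : 1 / ((n : ℝ) + 2) < 1 := by
    rw [div_lt_one hn]
    have : (0 : ℝ) ≤ n := Nat.cast_nonneg n
    linarith
  obtain ⟨f, hf0, hK⟩ := exists_kernel hblock hG hxd hL hd hd1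
  set d : ℝ := 1 / ((n : ℝ) + 2) with hdd
  obtain ⟨n3, n4, u01, u02, u12, heq⟩ := hK
  have hq := qJ_nonneg hblock hL f
  obtain ⟨x1, x2⟩ := cross hG hL f
  have hsplit : (1 + d) / (4 * d) * (cp L f 0 ⬝ᵥ cp L f 0 + cp L f 1 ⬝ᵥ cp L f 1)
      + 2 * ((1 - d) / (4 * d)) * (cp L f 0 ⬝ᵥ L 1 *ᵥ cp L f 1) =
      (1 - d) / (4 * d) * qJ L f
      + 1 / 2 * (cp L f 0 ⬝ᵥ cp L f 0 + cp L f 1 ⬝ᵥ cp L f 1) := by
    unfold qJ
    field_simp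
    ring
  have hdn : (1 - d) / (4 * d) = ((n : ℝ) + 1) / 4 := by
    rw [hdd]
    field_simp
    ring
  rw [hsplit, hdn] at heq
  have m0 := dot_nonneg (cp L f 0)
  have m1 := dot_nonneg (cp L f 1)
  have m2 := dot_nonneg (cp L f 2)
  have hnn : (0 : ℝ) ≤ n := Nat.cast_nonneg n
  -- normalisation
  have hpos : 0 < cp L f 2 ⬝ᵥ cp L f 2 := by
    rcases m2.eq_or_lt with h | h
    · exfalso
      have hff := dot_self_sum hL f
      rw [Fin.sum_univ_five] at hff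
      have hqn : 0 ≤ ((n : ℝ) + 1) / 4 * qJ L f := by positivity
      have h0 : cp L f 0 ⬝ᵥ cp L f 0 + cp L f 1 ⬝ᵥ cp L f 1 ≤ 0 := by
        rw [n3] at x1 heq
        rw [← h] at x1 x2 heq
        linarith
      have : f ⬝ᵥ f = 0 := by
        rw [hff, n3, n4, ← h]
        linarith
      exact hf0 (dotProduct_self_eq_zero.1 this)
    · exact h
  set w : ℝ := cp L f 2 ⬝ᵥ cp L f 2 with hw
  set s : ℝ := (Real.sqrt w)⁻¹ with hs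
  have hs2 : s ^ 2 * w = 1 := by
    rw [hs, inv_pow, Real.sq_sqrt hpos.le, inv_mul_cancel₀ hpos.ne']
  have hs0 : 0 ≤ s ^ 2 := sq_nonneg s
  have hN : ∀ i, cp L (s • f) i ⬝ᵥ cp L (s • f) i = s ^ 2 * (cp L f i ⬝ᵥ cp L f i) := by
    intro i
    rw [cp_smul, smul_dotProduct, dotProduct_smul, smul_eq_mul, smul_eq_mul]
    ring
  have hB : ∀ k i j, cp L (s • f) i ⬝ᵥ L k *ᵥ cp L (s • f) j =
      s ^ 2 * (cp L f i ⬝ᵥ L k *ᵥ cp L f j) := by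
    intro k i j
    rw [cp_smul, cp_smul, mulVec_smul, smul_dotProduct, dotProduct_smul, smul_eq_mul, smul_eq_mul]
    ring
  have hQ : qJ L (s • f) = s ^ 2 * qJ L f := by
    unfold qJ
    rw [hN, hN, hB]
    ring
  have hd0 : 0 ≤ d := hd.le
  refine ⟨s • f, ?_⟩
  simp only [SS, Set.mem_inter_iff, Set.mem_ofPred_eq, hN, hB, hQ]
  have hmain : s ^ 2 * (((n : ℝ) + 1) / 4 * qJ L f) + 1 / 4 * (s ^ 2 *
      (cp L f 0 ⬝ᵥ cp L f 0 + cp L f 1 ⬝ᵥ cp L f 1)) ≤ 6 := by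
    have h1 : ((n : ℝ) + 1) / 4 * qJ L f + 1 / 4 *
      (cp L f 0 ⬝ᵥ cp L f 0 + cp L f 1 ⬝ᵥ cp L f 1) ≤ 6 * w := by
      rw [n3] at x1 heq
      have : 0 ≤ d * w := mul_nonneg hd0 hpos.le
      linarith
    have h2 := mul_le_mul_of_nonneg_left h1 hs0
    have h3 : s ^ 2 * (6 * w) = 6 := by linarith
    linarith
  have p1 : 0 ≤ s ^ 2 * (((n : ℝ) + 1) / 4 * qJ L f) := by positivity
  have p2 : 0 ≤ s ^ 2 * (cp L f 0 ⬝ᵥ cp L f 0 + cp L f 1 ⬝ᵥ cp L f 1) := by positivity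
  have p3 : 0 ≤ s ^ 2 * qJ L f := by positivity
  refine ⟨⟨⟨⟨⟨⟨⟨⟨⟨?_, ?_⟩, ?_⟩, ?_⟩, ?_⟩, ?_⟩, ?_⟩, ?_⟩, ?_⟩, ?_⟩
  · exact hs2
  · rw [n3]; exact hs2
  · rw [n4]; exact hs2
  · rw [u01]; exact hs2
  · rw [u02]; exact hs2
  · rw [u12]; exact hs2
  · linarith
  · exact p3
  · linarith
  · have h5 := congrArg (fun z => s ^ 2 * z) heq
    simp only [mul_zero] at h5
    rw [n3] at h5
    have : 0 ≤ d * (s ^ 2 * w) := mul_nonneg hd0 (by rw [hs2]; exact zero_le_one)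
    nlinarith [h5, p1, this, hs2]

theorem SS_compact (hL : Graded L) (n : ℕ) : IsCompact (SS L n) := by
  refine Metric.isCompact_of_isClosed_isBounded (SS_closed L n) ?_
  refine (Metric.isBounded_closedBall (x := (0 : Fin N → ℝ)) (r := 6)).subset ?_
  intro f hf
  simp only [SS, Set.mem_inter_iff, Set.mem_ofPred_eq] at hf
  obtain ⟨⟨⟨⟨⟨⟨⟨⟨⟨h2, h3⟩, h4⟩, -⟩, -⟩, -⟩, -⟩, -⟩, h01⟩, -⟩ := hf
  have hff := dot_self_sum hL f
  rw [Fin.sum_univ_five, h2, h3, h4] at hff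
  have hle : f ⬝ᵥ f ≤ 27 := by linarith
  rw [mem_closedBall_zero_iff, pi_norm_le_iff_of_nonneg (by norm_num)]
  intro i
  rw [Real.norm_eq_abs]
  have hi : f i * f i ≤ f ⬝ᵥ f :=
    Finset.single_le_sum (f := fun i => f i * f i) (fun _ _ => mul_self_nonneg _)
      (Finset.mem_univ i)
  exact abs_le_of_sq_le_sq (by nlinarith) (by norm_num)

theorem D4 (hblock : Stmt_block_mem) (hG : Stmt_G_mem) (hxd : Stmt_xd_mem) : Stmt_D4 := by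
  intro N L hL
  have hne := IsCompact.nonempty_iInter_of_sequence_nonempty_isCompact_isClosed
    (fun n => SS L n) ?_ (fun n => SS_nonempty hblock hG hxd hL n) (SS_compact hL 0)
    (fun n => SS_closed L n)
  · obtain ⟨f, hf⟩ := hne
    rw [Set.mem_iInter] at hf
    have hf' := fun n => hf n
    simp only [SS, Set.mem_inter_iff, Set.mem_ofPred_eq] at hf'
    obtain ⟨⟨⟨⟨⟨⟨⟨⟨⟨h2, h3⟩, h4⟩, h01⟩, h02⟩, h12⟩, -⟩, hq0⟩, -⟩, hquad⟩ := hf' 0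
    have hqn := fun n => (hf' n).1.1.1.2
    have hqz : qJ L f = 0 := by
      rcases hq0.eq_or_lt with h | h
      · exact h.symm
      · exfalso
        obtain ⟨n, hn⟩ := exists_nat_gt (24 / qJ L f)
        have := hqn n
        rw [div_lt_iff₀ h] at hn
        nlinarith
    -- kernel of the JJ matrix
    have hJ := hL.psd _ (hblock 1 1 1 0 0 0 0 0 0 zero_le_one zero_le_one (by norm_num)
      (psd3 fun x y z => by nlinarith))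
    have hJq : f ⬝ᵥ Lx L (pt 1 1 1 0 0 0 0 0 0 0 0 0 0) *ᵥ f = 0 := by
      have h := quad_graded hL (pt 1 1 1 0 0 0 0 0 0 0 0 0 0)
        (pt_zero _ _ _ _ _ _ _ _ _ _ _ _ _) (fun i => cp L f i) (cp_im hL f) (fun _ => 1)
      simp only [one_smul, sum_cp hL f] at h
      have hqz' := hqz
      unfold qJ at hqz'
      rw [h]
      simp only [pt]
      simp
      linarith
    have hk := psd_ker hJ hJq
    have c0 : cp L f 0 = L 0 *ᵥ f := rfl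
    have c1 : cp L f 1 = L 2 *ᵥ f := rfl
    have l1 : L 1 *ᵥ f = (-1 : ℝ) • (cp L f 0 + cp L f 1) := by
      rw [Lx_pt] at hk
      simp only [zero_smul, add_zero, one_smul, add_mulVec] at hk
      rw [neg_one_smul, c0, c1, ← sub_eq_zero, ← hk]
      abel
    obtain ⟨a1, a2⟩ := ker_pair hL f 1 0 1 (by decide) (by decide) (-1) l1
    have m0 := dot_nonneg (cp L f 0)
    refine ⟨fun i => cp L f i, Real.sqrt (cp L f 0 ⬝ᵥ cp L f 0), ?_⟩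
    have ht2 : Real.sqrt (cp L f 0 ⬝ᵥ cp L f 0) ^ 2 = cp L f 0 ⬝ᵥ cp L f 0 := Real.sq_sqrt m0
    exact
      { t0 := Real.sqrt_nonneg _
        im := cp_im hL f
        n0 := ht2.symm
        n1 := by rw [ht2]; linarith
        n2 := h2
        n3 := h3
        n4 := h4
        b01 := by rw [ht2, a1]; ring
        u01 := h01
        u02 := h02
        u12 := h12
        quad := by rw [ht2]; linarith }
  · intro n f hf
    simp only [SS, Set.mem_inter_iff, Set.mem_ofPred_eq] at hf ⊢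
    obtain ⟨⟨⟨⟨a, b⟩, c⟩, d⟩, e⟩ := hf
    refine ⟨⟨⟨⟨a, ?_⟩, c⟩, d⟩, e⟩
    push_cast at b
    nlinarith

end Crest.Agent.R237.S2
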