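import Mathlib
import Crest.Agent.R237.S2D3
import Crest.Agent.R237.S2D4

/-!
Row 237, statement S0368, node D2b: the maximiser of `∑ ω_i tr P_i` has orthogonal idempotents.
-/

set_option autoImplicit false

namespace Crest.Agent.R237.S2

open Matrix

theorem psd_sandwich_zero {N : ℕ} {P C : Matrix (Fin N) (Fin N) ℝ} (hP : P.PosSemidef)
    (h : Cᵀ * P * C = 0) : P * C = 0 := by
  have hv : ∀ v : Fin N → ℝ, P *ᵥ (C *ᵥ v) = 0 := by
    intro v
    refine psd_ker hP ?_
    have h1 : (C *ᵥ v) ⬝ᵥ P *ᵥ (C *ᵥ v) = v ⬝ᵥ (Cᵀ * P * C) *ᵥ v := by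
      rw [← mulVec_mulVec, ← mulVec_mulVec, mulVec_transpose]
      rw [dotProduct_comm (C *ᵥ v), dotProduct_mulVec, dotProduct_comm]
    rw [h1, h, zero_mulVec, dotProduct_zero]
  ext i j
  have := congrFun (hv (Pi.single j 1)) i
  rw [mulVec_mulVec] at this
  simpa [Matrix.col_apply] using this

/-- **matrix lemma** -/
theorem proj_of_max {N : ℕ} (P : Fin 5 → Matrix (Fin N) (Fin N) ℝ)
    (hpsd : ∀ i, (P i).PosSemidef) (hsum : ∑ i, P i = 1) (w : Fin 5 → ℕ)
    (hinj : ∀ i j, w i = w j → i = j)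
    (hmax : ∀ l : ℝ, 0 < l → 2 * ∑ i, (w i : ℝ) * l ^ (2 * w i) * (P i).trace
      - ∑ i, ∑ j, (w j : ℝ) * l ^ (2 * w i + 2 * w j) * (P i * P j).trace ≤
        ∑ i, (w i : ℝ) * (P i).trace) :
    ∀ i j, P i * P j = if i = j then P i else 0 := by
  set f : ℝ → ℝ := fun l => 2 * ∑ i, (w i : ℝ) * l ^ (2 * w i) * (P i).trace
      - ∑ i, ∑ j, (w j : ℝ) * l ^ (2 * w i + 2 * w j) * (P i * P j).trace with hf
  have hsymm : ∀ i, (P i)ᵀ = P i := by
    intro i
    have := (hpsd i).isHermitian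
    rwa [Matrix.IsHermitian, Matrix.conjTranspose_eq_transpose_of_trivial] at this
  -- traces
  have tr1 : ∀ j, ∑ i, (P i * P j).trace = (P j).trace := by
    intro j
    rw [← Matrix.trace_sum, ← Finset.sum_mul, hsum, one_mul]
  have f1 : f 1 = ∑ i, (w i : ℝ) * (P i).trace := by
    simp only [hf, one_pow, mul_one]
    rw [Finset.sum_comm]
    have : ∀ j, ∑ i, (w j : ℝ) * (P i * P j).trace = (w j : ℝ) * (P j).trace := by
      intro j
      rw [← Finset.mul_sum, tr1]
    simp only [this]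
    ring
  have hloc : IsLocalMax f 1 := by
    filter_upwards [lt_mem_nhds (show (0 : ℝ) < 1 from one_pos)] with l hl
    rw [f1]
    exact hmax l hl
  have hder : HasDerivAt f (2 * ∑ i, (w i : ℝ) * ((2 * w i : ℕ) * (1:ℝ) ^ (2 * w i - 1)) *
      (P i).trace - ∑ i, ∑ j, (w j : ℝ) * ((2 * w i + 2 * w j : ℕ) *
        (1:ℝ) ^ (2 * w i + 2 * w j - 1)) * (P i * P j).trace) 1 := by
    refine HasDerivAt.sub (HasDerivAt.const_mul _ (HasDerivAt.fun_sum fun i _ => ?_))
      (HasDerivAt.fun_sum fun i _ => HasDerivAt.fun_sum fun j _ => ?_)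
    · exact ((hasDerivAt_pow (2 * w i) (1:ℝ)).const_mul (w i : ℝ)).mul_const _
    · exact ((hasDerivAt_pow (2 * w i + 2 * w j) (1:ℝ)).const_mul (w j : ℝ)).mul_const _
  have h0 := hloc.hasDerivAt_eq_zero hder
  simp only [one_pow, mul_one] at h0
  push_cast at h0
  -- the matrix W
  set W : Matrix (Fin N) (Fin N) ℝ := ∑ i, (w i : ℝ) • P i with hW
  have hWs : Wᵀ = W := by
    rw [hW, Matrix.transpose_sum]
    exact Finset.sum_congr rfl fun i _ => by rw [Matrix.transpose_smul, hsymm]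
  have trWP : ∀ j, (W * P j).trace = ∑ i, (w i : ℝ) * (P i * P j).trace := by
    intro j
    rw [hW, Finset.sum_mul, Matrix.trace_sum]
    exact Finset.sum_congr rfl fun i _ => by rw [Matrix.smul_mul, Matrix.trace_smul, smul_eq_mul]
  have trWW : (W * W).trace = ∑ i, ∑ j, (w i : ℝ) * (w j : ℝ) * (P i * P j).trace := by
    conv_lhs => rw [hW]
    rw [Finset.sum_mul, Matrix.trace_sum]
    refine Finset.sum_congr rfl fun i _ => ?_
    rw [Matrix.smul_mul, Matrix.trace_smul, Finset.mul_sum, Matrix.trace_sum, smul_eq_mul,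
      Finset.mul_sum]
    refine Finset.sum_congr rfl fun j _ => ?_
    rw [Matrix.mul_smul, Matrix.trace_smul, smul_eq_mul]
    ring
  have S2 : ∑ i, ∑ j, (w j : ℝ) * (w j : ℝ) * (P i * P j).trace =
      ∑ j, (w j : ℝ) * (w j : ℝ) * (P j).trace := by
    rw [Finset.sum_comm]
    exact Finset.sum_congr rfl fun j _ => by rw [← Finset.mul_sum, tr1]
  have key : ∑ i, (w i : ℝ) * (w i : ℝ) * (P i).trace = (W * W).trace := by
    have e1 : 2 * ∑ i, (w i : ℝ) * (2 * (w i : ℝ)) * (P i).trace =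
        4 * ∑ i, (w i : ℝ) * (w i : ℝ) * (P i).trace := by
      rw [Finset.mul_sum, Finset.mul_sum]
      exact Finset.sum_congr rfl fun i _ => by ring
    have e2 : ∑ i, ∑ j, (w j : ℝ) * (2 * (w i : ℝ) + 2 * (w j : ℝ)) * (P i * P j).trace =
        2 * (W * W).trace + 2 * ∑ j, (w j : ℝ) * (w j : ℝ) * (P j).trace := by
      rw [trWW, ← S2, Finset.mul_sum, Finset.mul_sum, ← Finset.sum_add_distrib]
      refine Finset.sum_congr rfl fun i _ => ?_
      rw [Finset.mul_sum, Finset.mul_sum, ← Finset.sum_add_distrib]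
      exact Finset.sum_congr rfl fun j _ => by ring
    rw [e1, e2] at h0
    linarith
  -- the sandwich matrices
  set C : Fin 5 → Matrix (Fin N) (Fin N) ℝ := fun i => (w i : ℝ) • 1 - W with hC
  have hCs : ∀ i, (C i)ᵀ = C i := by
    intro i
    simp only [hC, Matrix.transpose_sub, Matrix.transpose_smul, Matrix.transpose_one, hWs]
  have hSpsd : ∀ i, ((C i)ᵀ * P i * C i).PosSemidef := by
    intro i
    have := (hpsd i).conjTranspose_mul_mul_same (C i)
    rwa [Matrix.conjTranspose_eq_transpose_of_trivial] at this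
  have hStr : ∀ i, ((C i)ᵀ * P i * C i).trace =
      (w i : ℝ) * (w i : ℝ) * (P i).trace - 2 * ((w i : ℝ) * (W * P i).trace)
        + (W * W * P i).trace := by
    intro i
    rw [hCs]
    have e : C i * P i * C i = ((w i : ℝ) * (w i : ℝ)) • P i - (w i : ℝ) • (P i * W)
        - (w i : ℝ) • (W * P i) + W * P i * W := by
      simp only [hC, sub_mul, mul_sub, smul_mul_assoc, mul_smul_comm, one_mul, mul_one, smul_smul,
        smul_sub]
      abel
    rw [e, Matrix.trace_add, Matrix.trace_sub, Matrix.trace_sub, Matrix.trace_smul,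
      Matrix.trace_smul, Matrix.trace_smul, Matrix.trace_mul_comm (P i) W,
      Matrix.trace_mul_comm (W * P i) W, ← Matrix.mul_assoc]
    simp only [smul_eq_mul]
    ring
  have htot : ∑ i, ((C i)ᵀ * P i * C i).trace = 0 := by
    simp only [hStr]
    rw [Finset.sum_add_distrib, Finset.sum_sub_distrib, key, ← Finset.mul_sum]
    have e1 : ∑ i, (w i : ℝ) * (W * P i).trace = (W * W).trace := by
      conv_rhs => rw [hW]
      rw [← hW, Finset.mul_sum, Matrix.trace_sum]
      exact Finset.sum_congr rfl fun i _ => by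
        rw [Matrix.mul_smul, Matrix.trace_smul, smul_eq_mul]
    have e2 : ∑ i, (W * W * P i).trace = (W * W).trace := by
      rw [← Matrix.trace_sum, ← Finset.mul_sum, hsum, mul_one]
    rw [e1, e2]
    ring
  have hz : ∀ i, ((C i)ᵀ * P i * C i) = 0 := by
    intro i
    have h1 := (Finset.sum_eq_zero_iff_of_nonneg (fun i _ => (hSpsd i).trace_nonneg)).1 htot i
      (Finset.mem_univ i)
    exact (hSpsd i).trace_eq_zero_iff.1 h1
  have hPC : ∀ i, P i * C i = 0 := fun i => psd_sandwich_zero (hpsd i) (hz i)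
  have hPW : ∀ i, P i * W = (w i : ℝ) • P i := by
    intro i
    have := hPC i
    simp only [hC, mul_sub, mul_smul_comm, mul_one] at this
    exact (sub_eq_zero.1 this).symm
  have hWP : ∀ i, W * P i = (w i : ℝ) • P i := by
    intro i
    have := congrArg Matrix.transpose (hPW i)
    rwa [Matrix.transpose_mul, hWs, hsymm, Matrix.transpose_smul, hsymm] at this
  have hoff : ∀ i j, i ≠ j → P i * P j = 0 := by
    intro i j hij
    have h1 : P i * W * P j = (w i : ℝ) • (P i * P j) := by rw [hPW, smul_mul_assoc]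
    have h2 : P i * W * P j = (w j : ℝ) • (P i * P j) := by
      rw [Matrix.mul_assoc, hWP, mul_smul_comm]
    have h3 : ((w i : ℝ) - (w j : ℝ)) • (P i * P j) = 0 := by
      rw [sub_smul, ← h1, ← h2, sub_self]
    rcases smul_eq_zero.1 h3 with h | h
    · exfalso
      have : (w i : ℝ) = (w j : ℝ) := sub_eq_zero.1 h
      exact hij (hinj i j (by exact_mod_cast this))
    · exact h
  intro i j
  by_cases hij : i = j
  · subst hij
    rw [if_pos rfl]
    have : P i * ∑ j, P j = P i := by rw [hsum, mul_one]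
    rw [Finset.mul_sum, Finset.sum_eq_single i] at this
    · exact this
    · intro j _ hj
      exact hoff i j (fun h => hj h.symm)
    · simp
  · rw [if_neg hij]
    exact hoff i j hij

theorem om_inj : ∀ i j : Fin 5, om i = om j → i = j := by decide

theorem E_psd {N : ℕ} {L : Pencil N} (hL : L ∈ PP N) (hE : Stmt_E_mem) (i : Fin 5) :
    (L (dg i)).PosSemidef := by
  have := hL.2.2.1 _ (hE i)
  rwa [Lx_single, one_smul] at this

/-- the transported pencil -/
theorem transport {N : ℕ} {L : Pencil N} (hL : L ∈ PP N) (hKK : Stmt_tor_KK) (hBK : Stmt_tor_BK)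
    (l : ℝ) (hl : 0 < l) (B : Matrix (Fin N) (Fin N) ℝ) (hB : B.det ≠ 0)
    (hM : Lx L (tor l e23) = Bᵀ * B) :
    (fun k => (l ^ wt k) • ((B⁻¹)ᵀ * L k * B⁻¹)) ∈ PP N := by
  have hBu : IsUnit B.det := isUnit_iff_ne_zero.2 hB
  have hx : ∀ x, Lx (fun k => (l ^ wt k) • ((B⁻¹)ᵀ * L k * B⁻¹)) x =
      (B⁻¹)ᵀ * Lx L (tor l x) * B⁻¹ := by
    intro x
    unfold Lx tor
    rw [Finset.mul_sum, Finset.sum_mul]
    refine Finset.sum_congr rfl fun k _ => ?_
    rw [mul_smul_comm, smul_mul_assoc, smul_smul, mul_comm]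
  refine ⟨fun k => ?_, ?_, fun x hxK => ?_, fun x hxB => ?_⟩
  · show ((l ^ wt k) • ((B⁻¹)ᵀ * L k * B⁻¹))ᵀ = (l ^ wt k) • ((B⁻¹)ᵀ * L k * B⁻¹)
    rw [Matrix.transpose_smul, Matrix.transpose_mul, Matrix.transpose_mul,
      Matrix.transpose_transpose, (hL.1 k).eq, Matrix.mul_assoc]
  · rw [hx, hM]
    have : (B⁻¹)ᵀ * (Bᵀ * B) * B⁻¹ = ((B⁻¹)ᵀ * Bᵀ) * (B * B⁻¹) := by
      simp only [Matrix.mul_assoc]
    rw [this, ← Matrix.transpose_mul, Matrix.mul_nonsing_inv _ hBu, Matrix.transpose_one, one_mul]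
  · rw [hx]
    have := (hL.2.2.1 _ (hKK l hl x hxK)).conjTranspose_mul_mul_same B⁻¹
    rwa [Matrix.conjTranspose_eq_transpose_of_trivial] at this
  · rw [hx, Matrix.det_mul, Matrix.det_mul, hL.2.2.2 _ (hBK l hl x hxB), mul_zero, zero_mul]

theorem M_posDef {N : ℕ} {L : Pencil N} (hL : L ∈ PP N) (hE : Stmt_E_mem) (l : ℝ) (hl : 0 < l) :
    (∑ i, l ^ (2 * om i) • L (dg i)).PosDef := by
  -- `∑ l^{2ω_i} P_i ≥ m ∑ P_i`, `m = min`
  obtain ⟨m, hm, hmi⟩ : ∃ m : ℝ, 0 < m ∧ ∀ i : Fin 5, m ≤ l ^ (2 * om i) := by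
    refine ⟨Finset.univ.inf' Finset.univ_nonempty fun i : Fin 5 => l ^ (2 * om i), ?_, ?_⟩
    · rw [Finset.lt_inf'_iff]
      exact fun i _ => pow_pos hl _
    · intro i
      exact Finset.inf'_le _ (Finset.mem_univ i)
  have hsplit : ∑ i, l ^ (2 * om i) • L (dg i) =
      m • (1 : Matrix (Fin N) (Fin N) ℝ) + ∑ i, (l ^ (2 * om i) - m) • L (dg i) := by
    have h1 : (1 : Matrix (Fin N) (Fin N) ℝ) = ∑ i, L (dg i) := by
      rw [← Lx_e23]; exact hL.2.1.symm
    rw [h1, Finset.smul_sum, ← Finset.sum_add_distrib]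
    exact Finset.sum_congr rfl fun i _ => by rw [← add_smul]; congr 1; ring
  rw [hsplit]
  refine (PosDef.one.smul hm).add_posSemidef ?_
  exact Matrix.posSemidef_sum _ fun i _ => (E_psd hL hE i).smul (sub_nonneg.2 (hmi i))

theorem D2b (hKK : Stmt_tor_KK) (hBK : Stmt_tor_BK) (hE : Stmt_E_mem) : Stmt_D2b := by
  intro N L hL hmax
  refine proj_of_max (fun i => L (dg i)) (E_psd hL hE) (by rw [← Lx_e23]; exact hL.2.1) om
    om_inj fun l hl => ?_
  have hMeq : Lx L (tor l e23) = ∑ i, l ^ (2 * om i) • L (dg i) := by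
    rw [tor_e23, Lx_sum]
    exact Finset.sum_congr rfl fun i _ => Lx_single _ _ _
  have hPD := M_posDef hL hE l hl
  obtain ⟨B, hB⟩ : ∃ B : Matrix (Fin N) (Fin N) ℝ,
      ∑ i, l ^ (2 * om i) • L (dg i) = Bᵀ * B := by
    open scoped MatrixOrder in
    obtain ⟨B, hB⟩ := CStarAlgebra.nonneg_iff_eq_star_mul_self.mp hPD.posSemidef.nonneg
    refine ⟨B, ?_⟩
    rw [hB, Matrix.star_eq_conjTranspose, Matrix.conjTranspose_eq_transpose_of_trivial]
  have hdetM : (∑ i, l ^ (2 * om i) • L (dg i)).det ≠ 0 := hPD.det_pos.ne'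
  have hBdet : B.det ≠ 0 := by
    intro h
    rw [hB, Matrix.det_mul, h, mul_zero] at hdetM
    exact hdetM rfl
  have hBu : IsUnit B.det := isUnit_iff_ne_zero.2 hBdet
  have hPP := transport hL hKK hBK l hl B hBdet (by rw [hMeq, hB])
  have hle := hmax _ hPP
  set M : Matrix (Fin N) (Fin N) ℝ := ∑ i, l ^ (2 * om i) • L (dg i) with hMdef
  have hMs : Mᵀ = M := by rw [hB, Matrix.transpose_mul, Matrix.transpose_transpose]
  -- the comparison of traces
  have hcomp : ∀ i, 2 * (L (dg i)).trace - (M * L (dg i)).trace ≤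
      ((B⁻¹)ᵀ * L (dg i) * B⁻¹).trace := by
    intro i
    set P := L (dg i)
    have hps : (((B⁻¹)ᵀ * (1 - M)) * P * ((B⁻¹)ᵀ * (1 - M))ᵀ).PosSemidef := by
      have := (E_psd hL hE i).mul_mul_conjTranspose_same ((B⁻¹)ᵀ * (1 - M))
      rwa [Matrix.conjTranspose_eq_transpose_of_trivial] at this
    have htr := hps.trace_nonneg
    have hinv1 : (B⁻¹)ᵀ * Bᵀ = 1 := by
      rw [← Matrix.transpose_mul, Matrix.mul_nonsing_inv _ hBu, Matrix.transpose_one]
    have hinv2 : B⁻¹ * B = 1 := Matrix.nonsing_inv_mul _ hBu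
    have hinv3 : B * B⁻¹ = 1 := Matrix.mul_nonsing_inv _ hBu
    have hC : (B⁻¹)ᵀ * (1 - M) = (B⁻¹)ᵀ - B := by
      rw [mul_sub, mul_one, hB, ← Matrix.mul_assoc, hinv1, one_mul]
    rw [hC, Matrix.transpose_sub, Matrix.transpose_transpose] at htr
    have e : ((B⁻¹)ᵀ - B) * P * (B⁻¹ - Bᵀ) = (B⁻¹)ᵀ * P * B⁻¹ - (B⁻¹)ᵀ * P * Bᵀ
        - B * P * B⁻¹ + B * P * Bᵀ := by
      simp only [sub_mul, mul_sub]
      abel
    rw [e, Matrix.trace_add, Matrix.trace_sub, Matrix.trace_sub] at htr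
    have t1 : ((B⁻¹)ᵀ * P * Bᵀ).trace = P.trace := by
      rw [Matrix.trace_mul_comm, ← Matrix.mul_assoc, ← Matrix.transpose_mul, hinv2,
        Matrix.transpose_one, one_mul]
    have t2 : (B * P * B⁻¹).trace = P.trace := by
      rw [Matrix.trace_mul_comm, ← Matrix.mul_assoc, hinv2, one_mul]
    have t3 : (B * P * Bᵀ).trace = (M * P).trace := by
      rw [Matrix.trace_mul_comm, ← Matrix.mul_assoc, hB]
    rw [t1, t2, t3] at htr
    linarith
  have htrM : ∀ j, (M * L (dg j)).trace = ∑ i, l ^ (2 * om i) * (L (dg i) * L (dg j)).trace := by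
    intro j
    rw [hMdef, Finset.sum_mul, Matrix.trace_sum]
    exact Finset.sum_congr rfl fun i _ => by rw [smul_mul_assoc, Matrix.trace_smul, smul_eq_mul]
  refine le_trans ?_ hle
  have h1 : ∀ i, (om i : ℝ) * ((l ^ wt (dg i)) • ((B⁻¹)ᵀ * L (dg i) * B⁻¹)).trace =
      (om i : ℝ) * l ^ (2 * om i) * ((B⁻¹)ᵀ * L (dg i) * B⁻¹).trace := by
    intro i
    rw [Matrix.trace_smul, wt_dg, smul_eq_mul]
    ring
  simp only [h1]
  have h2 : 2 * ∑ i, (om i : ℝ) * l ^ (2 * om i) * (L (dg i)).trace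
      - ∑ i, ∑ j, (om j : ℝ) * l ^ (2 * om i + 2 * om j) * (L (dg i) * L (dg j)).trace =
      ∑ i, (om i : ℝ) * l ^ (2 * om i) * (2 * (L (dg i)).trace - (M * L (dg i)).trace) := by
    rw [Finset.sum_comm (s := (Finset.univ : Finset (Fin 5))), Finset.mul_sum,
      ← Finset.sum_sub_distrib]
    refine Finset.sum_congr rfl fun j _ => ?_
    rw [htrM, mul_sub, Finset.mul_sum]
    congr 1
    · ring
    · exact Finset.sum_congr rfl fun i _ => by rw [pow_add]; ring
  rw [h2]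
  refine Finset.sum_le_sum fun i _ => ?_
  exact mul_le_mul_of_nonneg_left (hcomp i) (by positivity)

end Crest.Agent.R237.S2
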