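import Crest.Agent.R237.S2NS

/-!
Row 237, statement S0368, node D2b: the matrix lemma (first order condition at `l = 1`).
-/

set_option autoImplicit false

namespace Crest.Agent.R237.S2

open Matrix

theorem D2bM_fac {n : Type*} [Fintype n] [DecidableEq n] {A : Matrix n n ℝ}
    (hA : A.PosSemidef) : ∃ X : Matrix n n ℝ, A = Xᴴ * X := by
  open scoped MatrixOrder in
  exact CStarAlgebra.nonneg_iff_eq_star_mul_self.mp hA.nonneg

theorem D2bM_trace {n : Type*} [Fintype n] [DecidableEq n] {A B : Matrix n n ℝ}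
    (hA : A.PosSemidef) (hB : B.PosSemidef) :
    0 ≤ (A * B).trace ∧ ((A * B).trace = 0 → A * B = 0) := by
  obtain ⟨X, rfl⟩ := D2bM_fac hA
  obtain ⟨Y, rfl⟩ := D2bM_fac hB
  have key : (Xᴴ * X * (Yᴴ * Y)).trace = ((Y * Xᴴ)ᴴ * (Y * Xᴴ)).trace := by
    rw [conjTranspose_mul, conjTranspose_conjTranspose]
    rw [show Xᴴ * X * (Yᴴ * Y) = Xᴴ * (X * Yᴴ * Y) by simp only [Matrix.mul_assoc]]
    rw [Matrix.trace_mul_comm]
    simp only [Matrix.mul_assoc]
  constructor
  · rw [key]; exact (posSemidef_conjTranspose_mul_self _).trace_nonneg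
  · intro h
    rw [key, trace_conjTranspose_mul_self_eq_zero_iff] at h
    have h2 : X * Yᴴ = 0 := by
      have := congrArg conjTranspose h
      rwa [conjTranspose_mul, conjTranspose_conjTranspose, conjTranspose_zero] at this
    rw [show Xᴴ * X * (Yᴴ * Y) = Xᴴ * (X * Yᴴ) * Y by simp only [Matrix.mul_assoc], h2]
    simp

theorem D2bM_deriv (n : ℕ) : HasDerivAt (fun l : ℝ => l ^ n) (n : ℝ) 1 := by
  have := hasDerivAt_pow n (1 : ℝ)
  simpa using this

/-- the matrix lemma of D2b -/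
theorem D2b_matrix {N : ℕ} (P : Fin 5 → Matrix (Fin N) (Fin N) ℝ) (hP : ∀ i, (P i).PosSemidef)
    (hsum : ∑ i, P i = 1)
    (hmax : ∀ l : ℝ, 0 < l →
      2 * ∑ i, (om i : ℝ) * l ^ (2 * om i) * (P i).trace
        - ∑ i, ∑ j, (om j : ℝ) * l ^ (2 * om i + 2 * om j) * (P i * P j).trace
        ≤ ∑ i, (om i : ℝ) * (P i).trace) :
    ∀ i j, P i * P j = if i = j then P i else 0 := by
  set F : ℝ → ℝ := fun l => 2 * ∑ i, (om i : ℝ) * l ^ (2 * om i) * (P i).trace
        - ∑ i, ∑ j, (om j : ℝ) * l ^ (2 * om i + 2 * om j) * (P i * P j).trace with hF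
  have hrow : ∀ j, ∑ i, (P i * P j).trace = (P j).trace := by
    intro j
    rw [← Matrix.trace_sum, ← Matrix.sum_mul, hsum, Matrix.one_mul]
  have hcol : ∀ i, ∑ j, (P i * P j).trace = (P i).trace := by
    intro i
    rw [← Matrix.trace_sum, ← Matrix.mul_sum, hsum, Matrix.mul_one]
  have hF1 : F 1 = ∑ i, (om i : ℝ) * (P i).trace := by
    simp only [hF, one_pow, mul_one]
    rw [Finset.sum_comm]
    have : ∀ j, ∑ i, (om j : ℝ) * (P i * P j).trace = (om j : ℝ) * (P j).trace := by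
      intro j; rw [← Finset.mul_sum, hrow]
    simp only [this]; ring
  have hloc : IsLocalMax F 1 := by
    filter_upwards [lt_mem_nhds (show (0 : ℝ) < 1 from one_pos)] with l hl
    rw [hF1]; exact hmax l hl
  have hder : HasDerivAt F (2 * ∑ i, (om i : ℝ) * ((2 * om i : ℕ) : ℝ) * (P i).trace
        - ∑ i, ∑ j, (om j : ℝ) * ((2 * om i + 2 * om j : ℕ) : ℝ) * (P i * P j).trace) 1 := by
    refine HasDerivAt.sub (HasDerivAt.const_mul 2 ?_) ?_
    · refine HasDerivAt.fun_sum fun i _ => ?_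
      exact ((D2bM_deriv (2 * om i)).const_mul _).mul_const _
    · refine HasDerivAt.fun_sum fun i _ => HasDerivAt.fun_sum fun j _ => ?_
      exact ((D2bM_deriv (2 * om i + 2 * om j)).const_mul _).mul_const _
  have h0 := hloc.hasDerivAt_eq_zero hder
  -- the derivative is `∑ (ω_i - ω_j)^2 tr (P_i P_j)`
  have hsq : ∑ i, ∑ j, ((om i : ℝ) - om j) ^ 2 * (P i * P j).trace = 0 := by
    rw [← h0]
    have e1 : ∑ i, ∑ j, ((om i : ℝ) - om j) ^ 2 * (P i * P j).trace =
        (∑ i, ∑ j, (om i : ℝ) ^ 2 * (P i * P j).trace)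
        + (∑ i, ∑ j, (om j : ℝ) ^ 2 * (P i * P j).trace)
        - 2 * ∑ i, ∑ j, (om i : ℝ) * om j * (P i * P j).trace := by
      rw [Finset.mul_sum, ← Finset.sum_add_distrib, ← Finset.sum_sub_distrib]
      refine Finset.sum_congr rfl fun i _ => ?_
      rw [Finset.mul_sum, ← Finset.sum_add_distrib, ← Finset.sum_sub_distrib]
      refine Finset.sum_congr rfl fun j _ => ?_
      ring
    have e2 : ∑ i, ∑ j, (om i : ℝ) ^ 2 * (P i * P j).trace = ∑ i, (om i : ℝ) ^ 2 * (P i).trace := by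
      refine Finset.sum_congr rfl fun i _ => ?_
      rw [← Finset.mul_sum, hcol]
    have e3 : ∑ i, ∑ j, (om j : ℝ) ^ 2 * (P i * P j).trace = ∑ i, (om i : ℝ) ^ 2 * (P i).trace := by
      rw [Finset.sum_comm]
      refine Finset.sum_congr rfl fun j _ => ?_
      rw [← Finset.mul_sum, hrow]
    have e4 : ∑ i, ∑ j, (om j : ℝ) * ((2 * om i + 2 * om j : ℕ) : ℝ) * (P i * P j).trace =
        2 * (∑ i, ∑ j, (om i : ℝ) * om j * (P i * P j).trace)
        + 2 * ∑ i, ∑ j, (om j : ℝ) ^ 2 * (P i * P j).trace := by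
      rw [Finset.mul_sum, Finset.mul_sum, ← Finset.sum_add_distrib]
      refine Finset.sum_congr rfl fun i _ => ?_
      rw [Finset.mul_sum, Finset.mul_sum, ← Finset.sum_add_distrib]
      refine Finset.sum_congr rfl fun j _ => ?_
      push_cast; ring
    have e5 : 2 * ∑ i, (om i : ℝ) * ((2 * om i : ℕ) : ℝ) * (P i).trace =
        4 * ∑ i, (om i : ℝ) ^ 2 * (P i).trace := by
      rw [Finset.mul_sum, Finset.mul_sum]
      refine Finset.sum_congr rfl fun i _ => ?_
      push_cast; ring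
    rw [e1, e4, e5, e2, e3]; ring
  have hterm : ∀ i j, ((om i : ℝ) - om j) ^ 2 * (P i * P j).trace = 0 := by
    intro i j
    have hnn : ∀ i j, 0 ≤ ((om i : ℝ) - om j) ^ 2 * (P i * P j).trace := fun i j =>
      mul_nonneg (sq_nonneg _) (D2bM_trace (hP i) (hP j)).1
    have h1 := (Finset.sum_eq_zero_iff_of_nonneg
      (fun i _ => Finset.sum_nonneg fun j _ => hnn i j)).1 hsq i (Finset.mem_univ _)
    exact (Finset.sum_eq_zero_iff_of_nonneg (fun j _ => hnn i j)).1 h1 j (Finset.mem_univ _)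
  have hne : ∀ i j, i ≠ j → P i * P j = 0 := by
    intro i j hij
    have hom : (om i : ℝ) - om j ≠ 0 := by
      fin_cases i <;> fin_cases j <;> simp [om] at hij ⊢ <;> norm_num
    have h1 : (P i * P j).trace = 0 := by
      rcases mul_eq_zero.1 (hterm i j) with h | h
      · exact absurd (pow_eq_zero_iff (two_ne_zero) |>.1 h) hom
      · exact h
    exact (D2bM_trace (hP i) (hP j)).2 h1
  intro i j
  split_ifs with hij
  · subst hij
    have h1 : P i * ∑ j, P j = P i := by rw [hsum, Matrix.mul_one]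
    rw [Finset.mul_sum, Finset.sum_eq_single i (fun j _ hj => hne i j (Ne.symm hj))
      (fun h => absurd (Finset.mem_univ _) h)] at h1
    exact h1
  · exact hne i j hij

end Crest.Agent.R237.S2
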