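import Crest.Agent.R237.S2D2bM
import Crest.Agent.R237.S2D3

/-!
Row 237, statement S0368, node D2b: transport by the torus and conclusion.
-/

set_option autoImplicit false

namespace Crest.Agent.R237.S2

open Matrix

/-- normalisation of a positive definite matrix -/
theorem D2bT_norm {N : ℕ} {M : Matrix (Fin N) (Fin N) ℝ} (hM : M.PosDef) :
    ∃ C : Matrix (Fin N) (Fin N) ℝ, Cᵀ * M * C = 1 ∧ C * Cᵀ * M = 1 := by
  obtain ⟨X, hX⟩ := D2bM_fac hM.posSemidef
  have hXT : M = Xᵀ * X := by rw [hX, conjTranspose_eq_transpose_of_trivial]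
  have hdet : IsUnit X.det := by
    have h1 : M.det ≠ 0 := hM.det_pos.ne'
    rw [hXT, det_mul, det_transpose] at h1
    exact isUnit_iff_ne_zero.2 (fun h => h1 (by rw [h]; ring))
  have hdetT : IsUnit (Xᵀ).det := by rwa [det_transpose]
  refine ⟨X⁻¹, ?_, ?_⟩
  · rw [hXT, Matrix.transpose_nonsing_inv]
    calc (Xᵀ)⁻¹ * (Xᵀ * X) * X⁻¹ = ((Xᵀ)⁻¹ * Xᵀ) * (X * X⁻¹) := by simp only [Matrix.mul_assoc]
      _ = 1 := by rw [Matrix.nonsing_inv_mul _ hdetT, Matrix.mul_nonsing_inv _ hdet, Matrix.mul_one]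
  · rw [hXT, Matrix.transpose_nonsing_inv]
    calc X⁻¹ * (Xᵀ)⁻¹ * (Xᵀ * X) = X⁻¹ * ((Xᵀ)⁻¹ * Xᵀ) * X := by simp only [Matrix.mul_assoc]
      _ = 1 := by rw [Matrix.nonsing_inv_mul _ hdetT, Matrix.mul_one, Matrix.nonsing_inv_mul _ hdet]

theorem Lx_transport {N : ℕ} (L : Pencil N) (C : Matrix (Fin N) (Fin N) ℝ) (l : ℝ)
    (x : Fin 23 → ℝ) :
    Lx (fun k => l ^ wt k • (Cᵀ * L k * C)) x = Cᵀ * Lx L (tor l x) * C := by
  unfold Lx tor
  rw [Matrix.mul_sum, Matrix.sum_mul]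
  refine Finset.sum_congr rfl fun k _ => ?_
  rw [Matrix.mul_smul, Matrix.smul_mul, smul_smul, mul_comm]

theorem D2b (h1 : Stmt_tor_KK) (h2 : Stmt_tor_BK) (h3 : Stmt_E_mem) : Stmt_D2b := by
  intro N L hL hmax
  obtain ⟨hsymm, hone, hpsd, hbd⟩ := hL
  have hP : ∀ i, (L (dg i)).PosSemidef := by
    intro i
    have := hpsd _ (h3 i)
    rwa [Lx_single, one_smul] at this
  have hsum : ∑ i, L (dg i) = 1 := by rw [← Lx_e23]; exact hone
  refine D2b_matrix (fun i => L (dg i)) hP hsum ?_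
  intro l hl
  -- the matrix `M`
  set M : Matrix (Fin N) (Fin N) ℝ := ∑ i, l ^ (2 * om i) • L (dg i) with hMdef
  have hMtor : Lx L (tor l e23) = M := by
    rw [tor_e23, Lx_sum]
    exact Finset.sum_congr rfl fun i _ => Lx_single _ _ _
  -- `M` is positive definite
  have hMpd : M.PosDef := by
    have hm : ∃ m : ℝ, 0 < m ∧ ∀ i, m ≤ l ^ (2 * om i) := by
      obtain ⟨i0, -, hi0⟩ := Finset.exists_min_image (Finset.univ : Finset (Fin 5))
        (fun i => l ^ (2 * om i)) Finset.univ_nonempty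
      exact ⟨l ^ (2 * om i0), by positivity, fun i => hi0 i (Finset.mem_univ _)⟩
    obtain ⟨m, hm0, hm⟩ := hm
    have e : M = m • (1 : Matrix (Fin N) (Fin N) ℝ) + ∑ i, (l ^ (2 * om i) - m) • L (dg i) := by
      rw [← hsum, Finset.smul_sum, ← Finset.sum_add_distrib]
      refine Finset.sum_congr rfl fun i _ => ?_
      rw [← add_smul]; congr 1; ring
    rw [e]
    refine Matrix.PosDef.add_posSemidef (Matrix.PosDef.one.smul hm0) ?_
    exact Matrix.posSemidef_sum _ fun i _ => (hP i).smul (sub_nonneg.2 (hm i))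
  obtain ⟨C, hC1, hC2⟩ := D2bT_norm hMpd
  set L' : Pencil N := fun k => l ^ wt k • (Cᵀ * L k * C) with hL'
  have hL'P : L' ∈ PP N := by
    refine ⟨?_, ?_, ?_, ?_⟩
    · intro k
      show (l ^ wt k • (Cᵀ * L k * C))ᵀ = l ^ wt k • (Cᵀ * L k * C)
      rw [Matrix.transpose_smul, Matrix.transpose_mul, Matrix.transpose_mul,
        Matrix.transpose_transpose, (hsymm k).eq, Matrix.mul_assoc]
    · rw [hL', Lx_transport, hMtor, hC1]
    · intro x hx
      rw [hL', Lx_transport]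
      have := (hpsd _ (h1 l hl x hx)).conjTranspose_mul_mul_same C
      rwa [conjTranspose_eq_transpose_of_trivial] at this
    · intro x hx
      rw [hL', Lx_transport, det_mul, det_mul, hbd _ (h2 l hl x hx)]
      ring
  have hineq := hmax L' hL'P
  -- evaluate
  set S : Matrix (Fin N) (Fin N) ℝ := C * Cᵀ with hS
  have htr : ∀ i, (L' (dg i)).trace = l ^ (2 * om i) * (S * L (dg i)).trace := by
    intro i
    show (l ^ wt (dg i) • (Cᵀ * L (dg i) * C)).trace = _
    rw [Matrix.trace_smul, smul_eq_mul, wt_dg, Matrix.trace_mul_comm, ← Matrix.mul_assoc]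
  -- `S + M - 2 ⪰ 0`
  have hMS : M * S = 1 := by
    exact mul_eq_one_comm.1 hC2
  have hMsymm : Mᵀ = M := by
    rw [hMdef, Matrix.transpose_sum]
    refine Finset.sum_congr rfl fun i _ => ?_
    rw [Matrix.transpose_smul, (hsymm _).eq]
  have hpos : (S + M - 2 • (1 : Matrix (Fin N) (Fin N) ℝ)).PosSemidef := by
    have e : S + M - 2 • (1 : Matrix (Fin N) (Fin N) ℝ) = (Cᵀ * (1 - M))ᴴ * (Cᵀ * (1 - M)) := by
      rw [conjTranspose_eq_transpose_of_trivial, Matrix.transpose_mul, Matrix.transpose_sub,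
        Matrix.transpose_one, Matrix.transpose_transpose, hMsymm]
      calc S + M - 2 • (1 : Matrix (Fin N) (Fin N) ℝ)
          = S - M * S - S * M + M * S * M := by
            rw [hMS, hC2, Matrix.one_mul, two_smul]; abel
        _ = (1 - M) * C * (Cᵀ * (1 - M)) := by
            rw [hS]; noncomm_ring
    rw [e]; exact posSemidef_conjTranspose_mul_self _
  have hVtr : ∀ i, 0 ≤ (S * L (dg i)).trace + (M * L (dg i)).trace - 2 * (L (dg i)).trace := by
    intro i
    have := (D2bM_trace hpos (hP i)).1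
    rwa [Matrix.sub_mul, Matrix.add_mul, Matrix.trace_sub, Matrix.trace_add, Matrix.smul_mul,
      Matrix.one_mul, Matrix.trace_smul, nsmul_eq_mul, Nat.cast_ofNat] at this
  have hMtr : ∀ j, (M * L (dg j)).trace = ∑ i, l ^ (2 * om i) * (L (dg i) * L (dg j)).trace := by
    intro j
    rw [hMdef, Matrix.sum_mul, Matrix.trace_sum]
    refine Finset.sum_congr rfl fun i _ => ?_
    rw [Matrix.smul_mul, Matrix.trace_smul, smul_eq_mul]
  refine le_trans ?_ hineq
  have e1 : ∑ i, ∑ j, (om j : ℝ) * l ^ (2 * om i + 2 * om j) * (L (dg i) * L (dg j)).trace =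
      ∑ j, (om j : ℝ) * l ^ (2 * om j) * (M * L (dg j)).trace := by
    rw [Finset.sum_comm]
    refine Finset.sum_congr rfl fun j _ => ?_
    rw [hMtr, Finset.mul_sum]
    refine Finset.sum_congr rfl fun i _ => ?_
    rw [pow_add]; ring
  rw [e1, Finset.mul_sum, ← Finset.sum_sub_distrib]
  refine Finset.sum_le_sum fun i _ => ?_
  rw [htr]
  have h5 : 0 ≤ (om i : ℝ) * l ^ (2 * om i) := by positivity
  have h6 := mul_nonneg h5 (hVtr i)
  nlinarith [h6]

end Crest.Agent.R237.S2
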