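import Crest.Agent.R237.S2Pts

/-! S0368, D4 + D5: a graded pencil representing `KK` does not exist. -/

set_option autoImplicit false

namespace Crest.Agent.R237.S2F

open Matrix Crest.Agent.R237.S2

/-- coordinates of the diagonal entries `X00, X11, U00, U11, U22` -/
def dg : Fin 5 → Fin 23 := ![0,2,7,10,12]
/-- weights of the five levels -/
def kw : Fin 5 → ℕ := ![0,1,4,5,6]
/-- weights of the coordinates -/
def wt : Fin 23 → ℕ := ![0,1,2,5,5,6,6,8,9,10,10,11,12, 0,0,0,0,0,0,0,0,0,0]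

/-- the data of a graded pencil -/
structure Graded (N : ℕ) (A : Fin 23 → Matrix (Fin N) (Fin N) ℝ) : Prop where
  symm : ∀ ν, (A ν).IsSymm
  sum1 : A 0 + A 2 + A 7 + A 10 + A 12 = 1
  orth : ∀ i j : Fin 5, i ≠ j → A (dg i) * A (dg j) = 0
  idem : ∀ i, A (dg i) * A (dg i) = A (dg i)
  grad : ∀ ν i j, kw i + kw j ≠ wt ν → A (dg i) * A ν * A (dg j) = 0
  pos : ∀ z ∈ KK, (∑ ν, z ν • A ν).PosSemidef
  sing : ∀ z ∈ K0, (Um z - Gz z).det = 0 → (∑ ν, z ν • A ν).det = 0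

variable {N : ℕ}

/-- the blocks of `A ν` at `f` -/
def Bk (A : Fin 23 → Matrix (Fin N) (Fin N) ℝ) (f : Fin N → ℝ) (ν : Fin 23) (i j : Fin 5) : ℝ :=
  (A (dg i) *ᵥ f) ⬝ᵥ (A ν *ᵥ (A (dg j) *ᵥ f))

variable {A : Fin 23 → Matrix (Fin N) (Fin N) ℝ}

lemma dot_mulVec_symm {M : Matrix (Fin N) (Fin N) ℝ} (hM : M.IsSymm) (u w : Fin N → ℝ) :
    u ⬝ᵥ (M *ᵥ w) = (M *ᵥ u) ⬝ᵥ w := by
  rw [Matrix.dotProduct_mulVec, ← Matrix.mulVec_transpose, hM.eq]

lemma Bk_symm (hA : Graded N A) (f : Fin N → ℝ) (ν : Fin 23) (i j : Fin 5) :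
    Bk A f ν i j = Bk A f ν j i := by
  unfold Bk
  rw [dot_mulVec_symm (hA.symm ν), dotProduct_comm]

lemma Bk_zero (hA : Graded N A) (f : Fin N → ℝ) (ν : Fin 23) (i j : Fin 5)
    (h : kw i + kw j ≠ wt ν) : Bk A f ν i j = 0 := by
  unfold Bk
  rw [← dot_mulVec_symm (hA.symm (dg i)), Matrix.mulVec_mulVec, Matrix.mulVec_mulVec,
    hA.grad ν i j h, Matrix.zero_mulVec, dotProduct_zero]

/-- `|P_i f|²` -/
def nn (A : Fin 23 → Matrix (Fin N) (Fin N) ℝ) (f : Fin N → ℝ) (i : Fin 5) : ℝ :=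
  (A (dg i) *ᵥ f) ⬝ᵥ (A (dg i) *ᵥ f)

lemma nn_nonneg (A : Fin 23 → Matrix (Fin N) (Fin N) ℝ) (f : Fin N → ℝ) (i : Fin 5) :
    0 ≤ nn A f i := by
  unfold nn
  have := dotProduct_self_star_nonneg (A (dg i) *ᵥ f)
  simpa using this

lemma Bk_diag (hA : Graded N A) (f : Fin N → ℝ) (i : Fin 5) :
    Bk A f (dg i) i i = nn A f i := by
  unfold Bk nn
  rw [Matrix.mulVec_mulVec, hA.idem]

lemma Bk_offdiag (hA : Graded N A) (f : Fin N → ℝ) (i j k : Fin 5) (h : i ≠ k) :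
    Bk A f (dg i) j k = 0 := by
  unfold Bk
  rw [Matrix.mulVec_mulVec, hA.orth i k h, Matrix.zero_mulVec, dotProduct_zero]

lemma sum_expand (A : Fin 23 → Matrix (Fin N) (Fin N) ℝ) (f : Fin N → ℝ) (c : Fin 5 → ℝ)
    (ν : Fin 23) :
    (∑ i, c i • (A (dg i) *ᵥ f)) ⬝ᵥ (A ν *ᵥ (∑ i, c i • (A (dg i) *ᵥ f))) =
      ∑ i, ∑ j, c i * c j * Bk A f ν i j := by
  unfold Bk
  rw [sum_dotProduct]
  refine Finset.sum_congr rfl fun i _ => ?_
  rw [smul_dotProduct, Matrix.mulVec_sum, dotProduct_sum, Finset.smul_sum]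
  refine Finset.sum_congr rfl fun j _ => ?_
  rw [Matrix.mulVec_smul, dotProduct_smul]
  simp only [smul_eq_mul]
  ring

/-- the full quadratic form of the pencil on graded vectors -/
theorem quad_expand (hA : Graded N A) (f : Fin N → ℝ) (c : Fin 5 → ℝ)
    (x0 x1 x2 p q r s u0 u1 u2 u3 u4 u5 : ℝ) :
    (∑ i, c i • (A (dg i) *ᵥ f)) ⬝ᵥ
      ((∑ ν, mk x0 x1 x2 p q r s u0 u1 u2 u3 u4 u5 ν • A ν) *ᵥ (∑ i, c i • (A (dg i) *ᵥ f))) =
    x0 * (c 0 ^ 2 * nn A f 0) + x1 * (2 * c 0 * c 1 * Bk A f 1 0 1)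
    + x2 * (c 1 ^ 2 * nn A f 1)
    + p * (2 * c 0 * c 3 * Bk A f 3 0 3 + 2 * c 1 * c 2 * Bk A f 3 1 2)
    + q * (2 * c 0 * c 3 * Bk A f 4 0 3 + 2 * c 1 * c 2 * Bk A f 4 1 2)
    + r * (2 * c 0 * c 4 * Bk A f 5 0 4 + 2 * c 1 * c 3 * Bk A f 5 1 3)
    + s * (2 * c 0 * c 4 * Bk A f 6 0 4 + 2 * c 1 * c 3 * Bk A f 6 1 3)
    + u0 * (c 2 ^ 2 * nn A f 2) + u1 * (2 * c 2 * c 3 * Bk A f 8 2 3)
    + u2 * (2 * c 2 * c 4 * Bk A f 9 2 4 + c 3 ^ 2 * Bk A f 9 3 3)
    + u3 * (c 3 ^ 2 * nn A f 3) + u4 * (2 * c 3 * c 4 * Bk A f 11 3 4)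
    + u5 * (c 4 ^ 2 * nn A f 4) := by
  set u := ∑ i, c i • (A (dg i) *ᵥ f) with hu
  have hE : ∀ ν, u ⬝ᵥ (A ν *ᵥ u) = ∑ i, ∑ j, c i * c j * Bk A f ν i j :=
    fun ν => sum_expand A f c ν
  have z : ∀ ν i j, kw i + kw j ≠ wt ν → Bk A f ν i j = 0 := fun ν i j h => Bk_zero hA f ν i j h
  have e0 : u ⬝ᵥ (A 0 *ᵥ u) = c 0 ^ 2 * nn A f 0 := by
    rw [hE, ← Bk_diag hA f 0]
    simp only [Fin.sum_univ_five]
    rw [z 0 0 1 (by decide), z 0 0 2 (by decide), z 0 0 3 (by decide), z 0 0 4 (by decide),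
      z 0 1 0 (by decide), z 0 1 1 (by decide), z 0 1 2 (by decide), z 0 1 3 (by decide),
      z 0 1 4 (by decide), z 0 2 0 (by decide), z 0 2 1 (by decide), z 0 2 2 (by decide),
      z 0 2 3 (by decide), z 0 2 4 (by decide), z 0 3 0 (by decide), z 0 3 1 (by decide),
      z 0 3 2 (by decide), z 0 3 3 (by decide), z 0 3 4 (by decide), z 0 4 0 (by decide),
      z 0 4 1 (by decide), z 0 4 2 (by decide), z 0 4 3 (by decide), z 0 4 4 (by decide)]
    have : dg 0 = 0 := rfl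
    rw [this]; ring
  have e1 : u ⬝ᵥ (A 1 *ᵥ u) = 2 * c 0 * c 1 * Bk A f 1 0 1 := by
    rw [hE]
    simp only [Fin.sum_univ_five]
    rw [z 1 0 0 (by decide), z 1 0 2 (by decide), z 1 0 3 (by decide), z 1 0 4 (by decide),
      z 1 1 1 (by decide), z 1 1 2 (by decide), z 1 1 3 (by decide),
      z 1 1 4 (by decide), z 1 2 0 (by decide), z 1 2 1 (by decide), z 1 2 2 (by decide),
      z 1 2 3 (by decide), z 1 2 4 (by decide), z 1 3 0 (by decide), z 1 3 1 (by decide),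
      z 1 3 2 (by decide), z 1 3 3 (by decide), z 1 3 4 (by decide), z 1 4 0 (by decide),
      z 1 4 1 (by decide), z 1 4 2 (by decide), z 1 4 3 (by decide), z 1 4 4 (by decide),
      Bk_symm hA f 1 1 0]
    ring
  have e2 : u ⬝ᵥ (A 2 *ᵥ u) = c 1 ^ 2 * nn A f 1 := by
    rw [hE, ← Bk_diag hA f 1]
    simp only [Fin.sum_univ_five]
    rw [z 2 0 0 (by decide), z 2 0 1 (by decide), z 2 0 2 (by decide), z 2 0 3 (by decide),
      z 2 0 4 (by decide),
      z 2 1 0 (by decide), z 2 1 2 (by decide), z 2 1 3 (by decide),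
      z 2 1 4 (by decide), z 2 2 0 (by decide), z 2 2 1 (by decide), z 2 2 2 (by decide),
      z 2 2 3 (by decide), z 2 2 4 (by decide), z 2 3 0 (by decide), z 2 3 1 (by decide),
      z 2 3 2 (by decide), z 2 3 3 (by decide), z 2 3 4 (by decide), z 2 4 0 (by decide),
      z 2 4 1 (by decide), z 2 4 2 (by decide), z 2 4 3 (by decide), z 2 4 4 (by decide)]
    have : dg 1 = 2 := rfl
    rw [this]; ring
  have e5 : ∀ ν, wt ν = 5 → u ⬝ᵥ (A ν *ᵥ u) =
      2 * c 0 * c 3 * Bk A f ν 0 3 + 2 * c 1 * c 2 * Bk A f ν 1 2 := by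
    intro ν hν
    have z' : ∀ i j, kw i + kw j ≠ 5 → Bk A f ν i j = 0 :=
      fun i j h => z ν i j (by rw [hν]; exact h)
    rw [hE]
    simp only [Fin.sum_univ_five]
    rw [z' 0 0 (by decide), z' 0 1 (by decide), z' 0 2 (by decide),
      z' 0 4 (by decide),
      z' 1 0 (by decide), z' 1 1 (by decide), z' 1 3 (by decide),
      z' 1 4 (by decide), z' 2 0 (by decide), z' 2 2 (by decide),
      z' 2 3 (by decide), z' 2 4 (by decide), z' 3 1 (by decide),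
      z' 3 2 (by decide), z' 3 3 (by decide), z' 3 4 (by decide), z' 4 0 (by decide),
      z' 4 1 (by decide), z' 4 2 (by decide), z' 4 3 (by decide), z' 4 4 (by decide),
      Bk_symm hA f ν 3 0, Bk_symm hA f ν 2 1]
    ring
  have e6 : ∀ ν, wt ν = 6 → u ⬝ᵥ (A ν *ᵥ u) =
      2 * c 0 * c 4 * Bk A f ν 0 4 + 2 * c 1 * c 3 * Bk A f ν 1 3 := by
    intro ν hν
    have z' : ∀ i j, kw i + kw j ≠ 6 → Bk A f ν i j = 0 :=
      fun i j h => z ν i j (by rw [hν]; exact h)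
    rw [hE]
    simp only [Fin.sum_univ_five]
    rw [z' 0 0 (by decide), z' 0 1 (by decide), z' 0 2 (by decide),
      z' 0 3 (by decide),
      z' 1 0 (by decide), z' 1 1 (by decide), z' 1 2 (by decide),
      z' 1 4 (by decide), z' 2 0 (by decide), z' 2 1 (by decide), z' 2 2 (by decide),
      z' 2 3 (by decide), z' 2 4 (by decide), z' 3 0 (by decide),
      z' 3 2 (by decide), z' 3 3 (by decide), z' 3 4 (by decide),
      z' 4 1 (by decide), z' 4 2 (by decide), z' 4 3 (by decide), z' 4 4 (by decide),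
      Bk_symm hA f ν 4 0, Bk_symm hA f ν 3 1]
    ring
  have e3 := e5 3 rfl
  have e4 := e5 4 rfl
  have e5' := e6 5 rfl
  have e6' := e6 6 rfl
  have e7 : u ⬝ᵥ (A 7 *ᵥ u) = c 2 ^ 2 * nn A f 2 := by
    rw [hE, ← Bk_diag hA f 2]
    simp only [Fin.sum_univ_five]
    rw [z 7 0 0 (by decide), z 7 0 1 (by decide), z 7 0 2 (by decide), z 7 0 3 (by decide),
      z 7 0 4 (by decide),
      z 7 1 0 (by decide), z 7 1 1 (by decide), z 7 1 2 (by decide), z 7 1 3 (by decide),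
      z 7 1 4 (by decide), z 7 2 0 (by decide), z 7 2 1 (by decide),
      z 7 2 3 (by decide), z 7 2 4 (by decide), z 7 3 0 (by decide), z 7 3 1 (by decide),
      z 7 3 2 (by decide), z 7 3 3 (by decide), z 7 3 4 (by decide), z 7 4 0 (by decide),
      z 7 4 1 (by decide), z 7 4 2 (by decide), z 7 4 3 (by decide), z 7 4 4 (by decide)]
    have : dg 2 = 7 := rfl
    rw [this]; ring
  have e8 : u ⬝ᵥ (A 8 *ᵥ u) = 2 * c 2 * c 3 * Bk A f 8 2 3 := by
    rw [hE]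
    simp only [Fin.sum_univ_five]
    rw [z 8 0 0 (by decide), z 8 0 1 (by decide), z 8 0 2 (by decide), z 8 0 3 (by decide),
      z 8 0 4 (by decide),
      z 8 1 0 (by decide), z 8 1 1 (by decide), z 8 1 2 (by decide), z 8 1 3 (by decide),
      z 8 1 4 (by decide), z 8 2 0 (by decide), z 8 2 1 (by decide), z 8 2 2 (by decide),
      z 8 2 4 (by decide), z 8 3 0 (by decide), z 8 3 1 (by decide),
      z 8 3 3 (by decide), z 8 3 4 (by decide), z 8 4 0 (by decide),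
      z 8 4 1 (by decide), z 8 4 2 (by decide), z 8 4 3 (by decide), z 8 4 4 (by decide),
      Bk_symm hA f 8 3 2]
    ring
  have e9 : u ⬝ᵥ (A 9 *ᵥ u) = 2 * c 2 * c 4 * Bk A f 9 2 4 + c 3 ^ 2 * Bk A f 9 3 3 := by
    rw [hE]
    simp only [Fin.sum_univ_five]
    rw [z 9 0 0 (by decide), z 9 0 1 (by decide), z 9 0 2 (by decide), z 9 0 3 (by decide),
      z 9 0 4 (by decide),
      z 9 1 0 (by decide), z 9 1 1 (by decide), z 9 1 2 (by decide), z 9 1 3 (by decide),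
      z 9 1 4 (by decide), z 9 2 0 (by decide), z 9 2 1 (by decide), z 9 2 2 (by decide),
      z 9 2 3 (by decide), z 9 3 0 (by decide), z 9 3 1 (by decide),
      z 9 3 2 (by decide), z 9 3 4 (by decide), z 9 4 0 (by decide),
      z 9 4 1 (by decide), z 9 4 3 (by decide), z 9 4 4 (by decide),
      Bk_symm hA f 9 4 2]
    ring
  have e10 : u ⬝ᵥ (A 10 *ᵥ u) = c 3 ^ 2 * nn A f 3 := by
    have hd : dg 3 = 10 := rfl
    have z2 : Bk A f 10 2 4 = 0 := by
      have := Bk_offdiag hA f 3 2 4 (by decide); rwa [hd] at this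
    have z3 : Bk A f 10 4 2 = 0 := by
      have := Bk_offdiag hA f 3 4 2 (by decide); rwa [hd] at this
    rw [hE, ← Bk_diag hA f 3]
    simp only [Fin.sum_univ_five]
    rw [z 10 0 0 (by decide), z 10 0 1 (by decide), z 10 0 2 (by decide), z 10 0 3 (by decide),
      z 10 0 4 (by decide),
      z 10 1 0 (by decide), z 10 1 1 (by decide), z 10 1 2 (by decide), z 10 1 3 (by decide),
      z 10 1 4 (by decide), z 10 2 0 (by decide), z 10 2 1 (by decide), z 10 2 2 (by decide),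
      z 10 2 3 (by decide), z2, z3, z 10 3 0 (by decide), z 10 3 1 (by decide),
      z 10 3 2 (by decide), z 10 3 4 (by decide), z 10 4 0 (by decide),
      z 10 4 1 (by decide), z 10 4 3 (by decide), z 10 4 4 (by decide), hd]
    ring
  have e11 : u ⬝ᵥ (A 11 *ᵥ u) = 2 * c 3 * c 4 * Bk A f 11 3 4 := by
    rw [hE]
    simp only [Fin.sum_univ_five]
    rw [z 11 0 0 (by decide), z 11 0 1 (by decide), z 11 0 2 (by decide), z 11 0 3 (by decide),
      z 11 0 4 (by decide),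
      z 11 1 0 (by decide), z 11 1 1 (by decide), z 11 1 2 (by decide), z 11 1 3 (by decide),
      z 11 1 4 (by decide), z 11 2 0 (by decide), z 11 2 1 (by decide), z 11 2 2 (by decide),
      z 11 2 3 (by decide), z 11 2 4 (by decide), z 11 3 0 (by decide), z 11 3 1 (by decide),
      z 11 3 2 (by decide), z 11 3 3 (by decide), z 11 4 0 (by decide),
      z 11 4 1 (by decide), z 11 4 2 (by decide), z 11 4 4 (by decide),
      Bk_symm hA f 11 4 3]
    ring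
  have e12 : u ⬝ᵥ (A 12 *ᵥ u) = c 4 ^ 2 * nn A f 4 := by
    rw [hE, ← Bk_diag hA f 4]
    simp only [Fin.sum_univ_five]
    rw [z 12 0 0 (by decide), z 12 0 1 (by decide), z 12 0 2 (by decide), z 12 0 3 (by decide),
      z 12 0 4 (by decide),
      z 12 1 0 (by decide), z 12 1 1 (by decide), z 12 1 2 (by decide), z 12 1 3 (by decide),
      z 12 1 4 (by decide), z 12 2 0 (by decide), z 12 2 1 (by decide), z 12 2 2 (by decide),
      z 12 2 3 (by decide), z 12 2 4 (by decide), z 12 3 0 (by decide), z 12 3 1 (by decide),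
      z 12 3 2 (by decide), z 12 3 3 (by decide), z 12 3 4 (by decide), z 12 4 0 (by decide),
      z 12 4 1 (by decide), z 12 4 2 (by decide), z 12 4 3 (by decide)]
    have : dg 4 = 12 := rfl
    rw [this]; ring
  rw [sum_mk]
  simp only [Matrix.add_mulVec, Matrix.smul_mulVec, dotProduct_add, dotProduct_smul, smul_eq_mul]
  rw [e0, e1, e2, e3, e4, e5', e6', e7, e8, e9, e10, e11, e12]

end Crest.Agent.R237.S2F
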