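import Crest.Agent.R237.S2Final2

/-! S0368, D4: the limit kernel vector; conclusion. -/

set_option autoImplicit false

namespace Crest.Agent.R237.S2F

open Matrix Crest.Agent.R237.S2

variable {N : ℕ} {A : Fin 23 → Matrix (Fin N) (Fin N) ℝ}

lemma psd_zero {M : Matrix (Fin N) (Fin N) ℝ} (hM : M.PosSemidef) {u : Fin N → ℝ}
    (h : u ⬝ᵥ (M *ᵥ u) = 0) : M *ᵥ u = 0 := by
  have := (hM.dotProduct_mulVec_zero_iff u).1
  apply this
  simpa using h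

lemma psd_nonneg {M : Matrix (Fin N) (Fin N) ℝ} (hM : M.PosSemidef) (u : Fin N → ℝ) :
    0 ≤ u ⬝ᵥ (M *ᵥ u) := by
  simpa using hM.dotProduct_mulVec_nonneg u

lemma dot_dg (hA : Graded N A) (f : Fin N → ℝ) (i : Fin 5) :
    f ⬝ᵥ (A (dg i) *ᵥ f) = nn A f i := by
  unfold nn
  rw [← dot_mulVec_symm (hA.symm (dg i)), Matrix.mulVec_mulVec, hA.idem]

lemma dot_self (hA : Graded N A) (f : Fin N → ℝ) :
    f ⬝ᵥ f = nn A f 0 + nn A f 1 + nn A f 2 + nn A f 3 + nn A f 4 := by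
  have h : f ⬝ᵥ f = f ⬝ᵥ ((A 0 + A 2 + A 7 + A 10 + A 12) *ᵥ f) := by
    rw [hA.sum1, Matrix.one_mulVec]
  rw [h]
  simp only [Matrix.add_mulVec, dotProduct_add]
  rw [← dot_dg hA f 0, ← dot_dg hA f 1, ← dot_dg hA f 2, ← dot_dg hA f 3, ← dot_dg hA f 4]
  rfl

lemma dot_A3 (hA : Graded N A) (f : Fin N → ℝ) :
    f ⬝ᵥ (A 3 *ᵥ f) = 2 * Bk A f 3 0 3 + 2 * Bk A f 3 1 2 := by
  have h := quad_expand hA f ![1,1,1,1,1] 0 0 0 1 0 0 0 0 0 0 0 0 0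
  have h1 : (∑ i, (![1,1,1,1,1] : Fin 5 → ℝ) i • (A (dg i) *ᵥ f)) = f := by
    conv_rhs => rw [hA.sum_proj f]
    refine Finset.sum_congr rfl fun i _ => ?_
    fin_cases i <;> simp
  rw [h1, sum_mk] at h
  simpa using h

lemma symm_A7 (hA : Graded N A) : (A 7 - A 8 + A 10).PosSemidef := by
  have := hA.pos _ (mk_mem_KK 0 0 0 1 (-1) 0 1 0 0 le_rfl le_rfl (by norm_num) (by
    rw [Matrix.posSemidef_iff_dotProduct_mulVec]
    refine ⟨?_, ?_⟩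
    · ext i j; fin_cases i <;> fin_cases j <;> simp
    · intro x
      simp [dotProduct, Matrix.mulVec, Fin.sum_univ_three]
      nlinarith [sq_nonneg (x 0 - x 1)]))
  rw [sum_mk] at this
  convert this using 1
  simp; abel

lemma symm_A10 (hA : Graded N A) : (A 10 - A 11 + A 12).PosSemidef := by
  have := hA.pos _ (mk_mem_KK 0 0 0 0 0 0 1 (-1) 1 le_rfl le_rfl (by norm_num) (by
    rw [Matrix.posSemidef_iff_dotProduct_mulVec]
    refine ⟨?_, ?_⟩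
    · ext i j; fin_cases i <;> fin_cases j <;> simp
    · intro x
      simp [dotProduct, Matrix.mulVec, Fin.sum_univ_three]
      nlinarith [sq_nonneg (x 1 - x 2)]))
  rw [sum_mk] at this
  convert this using 1
  simp; abel

lemma symm_A9 (hA : Graded N A) : (A 7 - A 9 + A 12).PosSemidef := by
  have := hA.pos _ (mk_mem_KK 0 0 0 1 0 (-1) 0 0 1 le_rfl le_rfl (by norm_num) (by
    rw [Matrix.posSemidef_iff_dotProduct_mulVec]
    refine ⟨?_, ?_⟩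
    · ext i j; fin_cases i <;> fin_cases j <;> simp
    · intro x
      simp [dotProduct, Matrix.mulVec, Fin.sum_univ_three]
      nlinarith [sq_nonneg (x 0 - x 2)]))
  rw [sum_mk] at this
  convert this using 1
  simp; abel

lemma symm_A1 (hA : Graded N A) : (A 0 - A 1 + A 2).PosSemidef := by
  have := hA.pos _ (mk_mem_KK 1 (-1) 1 0 0 0 0 0 0 (by norm_num) (by norm_num) (by norm_num) (by
    have : (!![0,0,0;0,0,0;0,0,0] : Matrix (Fin 3) (Fin 3) ℝ) = 0 := by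
      ext i j; fin_cases i <;> fin_cases j <;> simp
    rw [this]; exact Matrix.PosSemidef.zero))
  rw [sum_mk] at this
  convert this using 1
  simp; abel

lemma symm_A1' (hA : Graded N A) : (A 0 + A 1 + A 2).PosSemidef := by
  have := hA.pos _ (mk_mem_KK 1 1 1 0 0 0 0 0 0 (by norm_num) (by norm_num) (by norm_num) (by
    have : (!![0,0,0;0,0,0;0,0,0] : Matrix (Fin 3) (Fin 3) ℝ) = 0 := by
      ext i j; fin_cases i <;> fin_cases j <;> simp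
    rw [this]; exact Matrix.PosSemidef.zero))
  rw [sum_mk] at this
  convert this using 1
  simp

/-- homogeneous conditions on a kernel vector -/
structure Ker (A : Fin 23 → Matrix (Fin N) (Fin N) ℝ) (f : Fin N → ℝ) (δ : ℝ) : Prop where
  r1 : (A 7 - A 8 + A 10) *ᵥ f = 0
  r2 : (A 10 - A 11 + A 12) *ᵥ f = 0
  r3 : (A 7 - A 9 + A 12) *ᵥ f = 0
  h : f ⬝ᵥ ((A 0 - A 1 + A 2) *ᵥ f) ≤ 64 * δ * (f ⬝ᵥ (A 7 *ᵥ f))
  bd : f ⬝ᵥ f ≤ 36 * (f ⬝ᵥ (A 7 *ᵥ f))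
  le : (1/4) * (f ⬝ᵥ ((A 0 + A 1 + A 2) *ᵥ f)) + f ⬝ᵥ (A 3 *ᵥ f) + 2 * (f ⬝ᵥ (A 7 *ᵥ f)) ≤ 0

theorem exists_ker (hA : Graded N A) (hK : K0 ⊆ KK) {δ : ℝ} (hδ : 0 < δ) (hδ1 : δ ≤ 1) :
    ∃ f, Ker A f δ ∧ 0 < f ⬝ᵥ (A 7 *ᵥ f) := by
  have hd : 0 < (1+δ) * (1+δ) - (1-δ)^2 := by nlinarith
  have e : (1+δ) * (1+δ) - (1-δ)^2 = 4 * δ := by ring
  have hU : (!![(1+δ)+2, -1, -1; -1, (1+δ)+2, -1; -1, -1, 2] - Gam 1 0 0 0 (1+δ) (1-δ) (1+δ)
      : Matrix (Fin 3) (Fin 3) ℝ) = !![2, -1, -1; -1, 2, -1; -1, -1, 2] := by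
    ext i j; fin_cases i <;> fin_cases j <;> simp [Gam]
  have hUp : (!![2, -1, -1; -1, 2, -1; -1, -1, 2] : Matrix (Fin 3) (Fin 3) ℝ).PosSemidef := by
    rw [Matrix.posSemidef_iff_dotProduct_mulVec]
    refine ⟨?_, ?_⟩
    · ext i j; fin_cases i <;> fin_cases j <;> simp
    · intro x
      simp [dotProduct, Matrix.mulVec, Fin.sum_univ_three]
      nlinarith [sq_nonneg (x 0 - x 2), sq_nonneg (x 0 - x 1), sq_nonneg (x 1 - x 2)]
  have hz := mk_mem_K0 1 0 0 0 (1+δ) (1-δ) (1+δ) (by linarith) hd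
    ((1+δ)+2) (-1) (-1) ((1+δ)+2) (-1) 2 (by rw [hU]; exact hUp)
  have hdet := hA.sing _ hz (by
    rw [mk_det 1 0 0 0 (1+δ) (1-δ) (1+δ) (by linarith) hd, hU]
    rw [Matrix.det_fin_three]; simp; norm_num)
  obtain ⟨f, hf0, hf⟩ := Matrix.exists_mulVec_eq_zero_iff.2 hdet
  refine ⟨f, ?_⟩
  -- the four positive pieces
  have hz2 := mk_mem_K0 1 0 0 0 (1+δ) (1-δ) (1+δ) (by linarith) hd
    (1+δ) 0 0 (1+δ) 0 0 (by
      have : (!![(1+δ), 0, 0; 0, (1+δ), 0; 0, 0, 0] - Gam 1 0 0 0 (1+δ) (1-δ) (1+δ)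
        : Matrix (Fin 3) (Fin 3) ℝ) = 0 := by
        ext i j; fin_cases i <;> fin_cases j <;> simp [Gam]
      rw [this]; exact Matrix.PosSemidef.zero)
  have hE := quad_nonneg hA (hK hz2) f
  have hF : f ⬝ᵥ ((∑ ν, mk ((1+δ)/((1+δ) * (1+δ) - (1-δ)^2)) (-(1-δ)/((1+δ) * (1+δ) - (1-δ)^2))
    ((1+δ)/((1+δ) * (1+δ) - (1-δ)^2)) 1 0 0 0 ((1+δ)+2) (-1) (-1) ((1+δ)+2) (-1) 2 ν • A ν) *ᵥ f)
    = 0 := by rw [hf, dotProduct_zero]
  rw [e] at hE hF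
  have p1 := psd_nonneg (symm_A7 hA) f
  have p2 := psd_nonneg (symm_A10 hA) f
  have p3 := psd_nonneg (symm_A9 hA) f
  have p4 := psd_nonneg (symm_A1 hA) f
  have p5 := psd_nonneg (symm_A1' hA) f
  rw [sum_mk] at hE hF
  simp only [Matrix.add_mulVec, Matrix.sub_mulVec, Matrix.smul_mulVec, dotProduct_add,
    dotProduct_sub, dotProduct_smul, smul_eq_mul] at hE hF p1 p2 p3 p4 p5
  have q1' : f ⬝ᵥ (A 7 *ᵥ f) - f ⬝ᵥ (A 8 *ᵥ f) + f ⬝ᵥ (A 10 *ᵥ f) = 0 := by linarith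
  have q2' : f ⬝ᵥ (A 10 *ᵥ f) - f ⬝ᵥ (A 11 *ᵥ f) + f ⬝ᵥ (A 12 *ᵥ f) = 0 := by linarith
  have q3' : f ⬝ᵥ (A 7 *ᵥ f) - f ⬝ᵥ (A 9 *ᵥ f) + f ⬝ᵥ (A 12 *ᵥ f) = 0 := by linarith
  have q1 : f ⬝ᵥ ((A 7 - A 8 + A 10) *ᵥ f) = 0 := by
    simp only [Matrix.add_mulVec, Matrix.sub_mulVec, dotProduct_add, dotProduct_sub]
    exact q1'
  have q2 : f ⬝ᵥ ((A 10 - A 11 + A 12) *ᵥ f) = 0 := by
    simp only [Matrix.add_mulVec, Matrix.sub_mulVec, dotProduct_add, dotProduct_sub]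
    exact q2'
  have q3 : f ⬝ᵥ ((A 7 - A 9 + A 12) *ᵥ f) = 0 := by
    simp only [Matrix.add_mulVec, Matrix.sub_mulVec, dotProduct_add, dotProduct_sub]
    exact q3'
  have r1 := psd_zero (symm_A7 hA) q1
  have r2 := psd_zero (symm_A10 hA) q2
  have r3 := psd_zero (symm_A9 hA) q3
  obtain ⟨c3, c4, -, -, -, -⟩ := compat_y hA f r1 r2 r3
  have n0 : f ⬝ᵥ (A 0 *ᵥ f) = nn A f 0 := dot_dg hA f 0
  have n1 : f ⬝ᵥ (A 2 *ᵥ f) = nn A f 1 := dot_dg hA f 1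
  have n2 : f ⬝ᵥ (A 7 *ᵥ f) = nn A f 2 := dot_dg hA f 2
  have n3 : f ⬝ᵥ (A 10 *ᵥ f) = nn A f 2 := by rw [← c3]; exact dot_dg hA f 3
  have n4 : f ⬝ᵥ (A 12 *ᵥ f) = nn A f 2 := by rw [← c4]; exact dot_dg hA f 4
  have ha3 := dot_A3 hA f
  set n := nn A f 2 with hn
  set β := Bk A f 3 0 3 + Bk A f 3 1 2 with hβ
  set Nx := nn A f 0 + nn A f 1 with hNx
  have hn0 : 0 ≤ n := nn_nonneg A f 2
  have hNx0 : 0 ≤ Nx := add_nonneg (nn_nonneg A f 0) (nn_nonneg A f 1)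
  have hff := dot_self hA f
  rw [c3, c4] at hff
  -- Cauchy-Schwarz
  have key : ∀ s : ℝ, 0 ≤ Nx * (s * s) + (2 * β) * s + 2 * n := by
    intro s
    have := quad_at hA hK f ![s,s,1,1,0] 1 0 0 0 1 0 1 one_pos (by norm_num)
    rw [c3] at this
    simp at this
    rw [hNx, hβ]
    nlinarith
  have hcs := discrim_le_zero key
  unfold discrim at hcs
  have hcs' : β ^ 2 ≤ 2 * n * Nx := by nlinarith
  -- the main equation
  set h := f ⬝ᵥ (A 0 *ᵥ f) - f ⬝ᵥ (A 1 *ᵥ f) + f ⬝ᵥ (A 2 *ᵥ f) with hh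
  set k := f ⬝ᵥ (A 0 *ᵥ f) + f ⬝ᵥ (A 1 *ᵥ f) + f ⬝ᵥ (A 2 *ᵥ f) with hk
  have main : k / 4 + h / (4 * δ) + 2 * β + 2 * (1 + δ) * n = 0 := by
    have : (1 + δ) / (4 * δ) * (f ⬝ᵥ (A 0 *ᵥ f)) + -(1 - δ) / (4 * δ) * (f ⬝ᵥ (A 1 *ᵥ f))
      + (1 + δ) / (4 * δ) * (f ⬝ᵥ (A 2 *ᵥ f)) = k / 4 + h / (4 * δ) := by
      rw [hh, hk]; field_simp; ring
    rw [n2, n3] at q1'
    rw [n3, n4] at q2'
    rw [n2, n4] at q3'
    rw [this, n2, n3, n4, ha3] at hF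
    rw [hβ]
    linarith
  have hkh : k + h = 2 * Nx := by rw [hh, hk, hNx]; linarith
  have h4 : h / 4 ≤ h / (4 * δ) := by
    apply div_le_div_of_nonneg_left p4 (by positivity) (by linarith)
  have m1 : Nx / 2 + 2 * β + 2 * n ≤ 0 := by nlinarith [mul_nonneg hδ.le hn0]
  have hβ0 : β ≤ 0 := by nlinarith
  have m2 : Nx ≤ 24 * n := by
    by_contra hcon
    push Not at hcon
    have : (Nx / 2 + 2 * n) ^ 2 ≤ 4 * β ^ 2 := by nlinarith
    nlinarith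
  have hnpos : 0 < n := by
    rcases hn0.lt_or_eq with h | h
    · exact h
    · exfalso
      have : f ⬝ᵥ f = 0 := by rw [hff]; nlinarith
      exact hf0 (dotProduct_self_eq_zero.1 this)
  have hβ7 : -β ≤ 7 * n := by nlinarith
  refine ⟨⟨r1, r2, r3, ?_, ?_, ?_⟩, by rw [n2]; exact hnpos⟩
  · simp only [Matrix.add_mulVec, Matrix.sub_mulVec, dotProduct_add, dotProduct_sub]
    rw [n2, ← hh]
    have : h / (4 * δ) ≤ 14 * n := by nlinarith [mul_nonneg hδ.le hn0]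
    rw [div_le_iff₀ (by positivity)] at this
    nlinarith [mul_nonneg hδ.le hn0]
  · rw [n2, hff]; linarith
  · simp only [Matrix.add_mulVec, dotProduct_add]
    rw [n2, ← hk, ha3]
    have : 0 ≤ h / (4 * δ) := div_nonneg p4 (by positivity)
    nlinarith [mul_nonneg hδ.le hn0]

/-- normalised version -/
theorem exists_ker1 (hA : Graded N A) (hK : K0 ⊆ KK) {δ : ℝ} (hδ : 0 < δ) (hδ1 : δ ≤ 1) :
    ∃ f, Ker A f δ ∧ f ⬝ᵥ (A 7 *ᵥ f) = 1 := by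
  obtain ⟨f, hf, hp⟩ := exists_ker hA hK hδ hδ1
  set t := (Real.sqrt (f ⬝ᵥ (A 7 *ᵥ f)))⁻¹ with ht
  have ht2 : t * t * (f ⬝ᵥ (A 7 *ᵥ f)) = 1 := by
    rw [ht, ← mul_inv, Real.mul_self_sqrt hp.le, inv_mul_cancel₀ hp.ne']
  have ht0 : 0 < t * t := by
    rw [ht]; positivity
  have hq : ∀ M : Matrix (Fin N) (Fin N) ℝ, (t • f) ⬝ᵥ (M *ᵥ (t • f)) =
      t * t * (f ⬝ᵥ (M *ᵥ f)) := by
    intro M
    rw [Matrix.mulVec_smul, smul_dotProduct, dotProduct_smul]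
    simp only [smul_eq_mul]; ring
  refine ⟨t • f, ⟨?_, ?_, ?_, ?_, ?_, ?_⟩, ?_⟩
  · rw [Matrix.mulVec_smul, hf.r1, smul_zero]
  · rw [Matrix.mulVec_smul, hf.r2, smul_zero]
  · rw [Matrix.mulVec_smul, hf.r3, smul_zero]
  · rw [hq, hq]; nlinarith [hf.h]
  · have : (t • f) ⬝ᵥ (t • f) = t * t * (f ⬝ᵥ f) := by
      rw [smul_dotProduct, dotProduct_smul]; simp only [smul_eq_mul]; ring
    rw [this, hq]; nlinarith [hf.bd]
  · rw [hq, hq, hq]; nlinarith [hf.le]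
  · rw [hq, ht2]

/-- D4 + D5: there is no graded pencil. -/
theorem final (hA : Graded N A) (hK : K0 ⊆ KK) : False := by
  have hex : ∀ n : ℕ, ∃ f, Ker A f (1/((n:ℝ)+1)) ∧ f ⬝ᵥ (A 7 *ᵥ f) = 1 := fun n =>
    exists_ker1 hA hK (by positivity) (by
      rw [div_le_one (by positivity)]
      have : (0:ℝ) ≤ n := Nat.cast_nonneg n
      linarith)
  choose F hF hF1 using hex
  have hball : ∀ n, F n ∈ Metric.closedBall (0 : Fin N → ℝ) 6 := by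
    intro n
    rw [mem_closedBall_zero_iff, pi_norm_le_iff_of_nonneg (by norm_num)]
    intro i
    have h1 := (hF n).bd
    rw [hF1 n] at h1
    have h2 : F n i * F n i ≤ F n ⬝ᵥ F n := by
      unfold dotProduct
      exact Finset.single_le_sum (f := fun i => F n i * F n i)
        (fun j _ => mul_self_nonneg _) (Finset.mem_univ i)
    rw [Real.norm_eq_abs]
    apply abs_le_of_sq_le_sq _ (by norm_num)
    nlinarith
  obtain ⟨f, -, φ, hφ, hlim⟩ := (isCompact_closedBall (0 : Fin N → ℝ) 6).tendsto_subseq hball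
  have cont : ∀ M : Matrix (Fin N) (Fin N) ℝ, Continuous fun g : Fin N → ℝ => M *ᵥ g := by
    intro M
    exact Continuous.matrix_mulVec continuous_const continuous_id
  have contq : ∀ M : Matrix (Fin N) (Fin N) ℝ, Continuous fun g : Fin N → ℝ => g ⬝ᵥ (M *ᵥ g) := by
    intro M
    exact Continuous.dotProduct continuous_id (cont M)
  have lim0 : ∀ M : Matrix (Fin N) (Fin N) ℝ, (∀ n, M *ᵥ F n = 0) → M *ᵥ f = 0 := by
    intro M hM
    have h1 := ((cont M).tendsto f).comp hlim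
    have h2 : (fun g : Fin N → ℝ => M *ᵥ g) ∘ (F ∘ φ) = fun _ => 0 := by
      funext n; exact hM _
    rw [h2] at h1
    exact (tendsto_nhds_unique h1 tendsto_const_nhds)
  have r1 := lim0 _ fun n => (hF n).r1
  have r2 := lim0 _ fun n => (hF n).r2
  have r3 := lim0 _ fun n => (hF n).r3
  have h7 : f ⬝ᵥ (A 7 *ᵥ f) = 1 := by
    have h1 := ((contq (A 7)).tendsto f).comp hlim
    have h2 : (fun g : Fin N → ℝ => g ⬝ᵥ (A 7 *ᵥ g)) ∘ (F ∘ φ) = fun _ => 1 := by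
      funext n; exact hF1 _
    rw [h2] at h1
    exact (tendsto_nhds_unique h1 tendsto_const_nhds)
  have hle : (1/4) * (f ⬝ᵥ ((A 0 + A 1 + A 2) *ᵥ f)) + f ⬝ᵥ (A 3 *ᵥ f)
      + 2 * (f ⬝ᵥ (A 7 *ᵥ f)) ≤ 0 := by
    have hc : Continuous fun g : Fin N → ℝ => (1/4) * (g ⬝ᵥ ((A 0 + A 1 + A 2) *ᵥ g))
      + g ⬝ᵥ (A 3 *ᵥ g) + 2 * (g ⬝ᵥ (A 7 *ᵥ g)) :=
      ((continuous_const.mul (contq _)).add (contq _)).add (continuous_const.mul (contq _))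
    have h1 := (hc.tendsto f).comp hlim
    exact le_of_tendsto h1 (Filter.Eventually.of_forall fun n => (hF (φ n)).le)
  have hh : f ⬝ᵥ ((A 0 - A 1 + A 2) *ᵥ f) = 0 := by
    apply le_antisymm _ (psd_nonneg (symm_A1 hA) f)
    have h1 := ((contq (A 0 - A 1 + A 2)).tendsto f).comp hlim
    have h2 : Filter.Tendsto (fun n : ℕ => 64 * (1 / (((φ n : ℕ) : ℝ) + 1))) Filter.atTop
        (nhds (64 * 0)) := by
      apply Filter.Tendsto.const_mul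
      exact (tendsto_one_div_add_atTop_nhds_zero_nat (𝕜 := ℝ)).comp hφ.tendsto_atTop
    rw [mul_zero] at h2
    refine le_of_tendsto_of_tendsto h1 h2 (Filter.Eventually.of_forall fun n => ?_)
    have := (hF (φ n)).h
    rw [hF1, mul_one] at this
    exact this
  have r0 := psd_zero (symm_A1 hA) hh
  obtain ⟨c3, c4, b8, b9, b9', b11⟩ := compat_y hA f r1 r2 r3
  obtain ⟨x1, x2⟩ := compat_x hA f r0
  have n2 : nn A f 2 = 1 := by rw [← dot_dg hA f 2]; exact h7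
  have hcomp : Compat A f (nn A f 0) 1 := by
    rw [n2] at c3 c4 b8 b9 b11
    exact ⟨rfl, x1, x2, n2, c3, c4, b8, b9, b9', b11⟩
  refine no_compat hA hK hcomp ?_
  rw [h7, dot_A3 hA f] at hle
  have n0 : f ⬝ᵥ (A 0 *ᵥ f) = nn A f 0 := dot_dg hA f 0
  have n1 : f ⬝ᵥ (A 2 *ᵥ f) = nn A f 0 := by rw [← x1]; exact dot_dg hA f 1
  simp only [Matrix.add_mulVec, Matrix.sub_mulVec, dotProduct_add, dotProduct_sub] at hle hh
  linarith

end Crest.Agent.R237.S2F
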