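import Crest.Agent.R237.S2Defs

/-!
# R237, S0368, node A: the explicit polynomials are homogeneous and hyperbolic
-/

set_option autoImplicit false

noncomputable section

namespace Crest.Agent.R237.S2HypA

open Matrix Crest.Agent.R237.S2 Crest.GeometryTopology

lemma two_abs_le (a b : ℝ) : 2 * |a * b| ≤ a ^ 2 + b ^ 2 := by
  rw [abs_mul]
  nlinarith [sq_nonneg (|a| - |b|), sq_abs a, sq_abs b]

/-- the triquadratic form `FF` is nonnegative -/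
theorem FF_nonneg (p q r s x0 x1 y0 y1 y2 : ℝ) : 0 ≤ FF p q r s x0 x1 y0 y1 y2 := by
  obtain ⟨al, hal⟩ : ∃ al, al = p * x0 * y1 := ⟨_, rfl⟩
  obtain ⟨be, hbe⟩ : ∃ be, be = q * x1 * y0 := ⟨_, rfl⟩
  obtain ⟨ga, hga⟩ : ∃ ga, ga = r * x0 * y2 := ⟨_, rfl⟩
  obtain ⟨de, hde⟩ : ∃ de, de = s * x1 * y1 := ⟨_, rfl⟩
  have e : FF p q r s x0 x1 y0 y1 y2
      = al ^ 2 + be ^ 2 + ((p * x1 * y0) ^ 2 + (q * x0 * y1) ^ 2) + (ga ^ 2 + de ^ 2
        + ((r * x1 * y1) ^ 2 + (s * x0 * y2) ^ 2))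
        - 2 * (al * (ga + de) + be * (ga - de)) := by
    rw [hal, hbe, hga, hde, FF]; ring
  have h1 : 2 * |al * be| ≤ (p * x1 * y0) ^ 2 + (q * x0 * y1) ^ 2 := by
    have := two_abs_le (p * x1 * y0) (q * x0 * y1)
    have e1 : (p * x1 * y0) * (q * x0 * y1) = al * be := by rw [hal, hbe]; ring
    rwa [e1] at this
  have h2 : 2 * |ga * de| ≤ (r * x1 * y1) ^ 2 + (s * x0 * y2) ^ 2 := by
    have := two_abs_le (r * x1 * y1) (s * x0 * y2)
    have e1 : (r * x1 * y1) * (s * x0 * y2) = ga * de := by rw [hga, hde]; ring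
    rwa [e1] at this
  rw [e]
  clear e hal hbe hga hde
  have h3 : |al * (ga + de) + be * (ga - de)| ≤ (|al| + |be|) * (|ga| + |de|) := by
    have b1 : |al * (ga + de) + be * (ga - de)| ≤ |al * (ga + de)| + |be * (ga - de)| :=
      abs_add_le _ _
    rw [abs_mul al, abs_mul be] at b1
    have a1 : |ga - de| ≤ |ga| + |de| := abs_sub ga de
    have a2 : |ga + de| ≤ |ga| + |de| := abs_add_le _ _
    have a3 := mul_le_mul_of_nonneg_left a1 (abs_nonneg be)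
    have a4 := mul_le_mul_of_nonneg_left a2 (abs_nonneg al)
    linarith
  have h4 := le_abs_self (al * (ga + de) + be * (ga - de))
  have h5 : al ^ 2 + be ^ 2 + 2 * |al * be| = (|al| + |be|) ^ 2 := by
    rw [abs_mul, add_sq, sq_abs, sq_abs]; ring
  have h6 : ga ^ 2 + de ^ 2 + 2 * |ga * de| = (|ga| + |de|) ^ 2 := by
    rw [abs_mul, add_sq, sq_abs, sq_abs]; ring
  nlinarith [sq_nonneg ((|al| + |be|) - (|ga| + |de|))]

/-- coefficients of `FF` as a quadratic form in `(x0, x1)` -/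
def t00 (p q r s : ℝ) (y : Fin 3 → ℝ) : ℝ :=
  (p ^ 2 + q ^ 2) * y 1 ^ 2 + (r ^ 2 + s ^ 2) * y 2 ^ 2 - 2 * (p * r * y 1 * y 2)

def t11 (p q r s : ℝ) (y : Fin 3 → ℝ) : ℝ :=
  (p ^ 2 + q ^ 2) * y 0 ^ 2 + (r ^ 2 + s ^ 2) * y 1 ^ 2 + 2 * (q * s * y 0 * y 1)

def t01 (p q r s : ℝ) (y : Fin 3 → ℝ) : ℝ := -(q * r * y 0 * y 2 + p * s * y 1 ^ 2)

lemma t_nonneg (p q r s : ℝ) (y : Fin 3 → ℝ) (x0 x1 : ℝ) :
    0 ≤ t00 p q r s y * x0 ^ 2 + 2 * t01 p q r s y * (x0 * x1) + t11 p q r s y * x1 ^ 2 := by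
  have h := FF_nonneg p q r s x0 x1 (y 0) (y 1) (y 2)
  have e : FF p q r s x0 x1 (y 0) (y 1) (y 2)
      = t00 p q r s y * x0 ^ 2 + 2 * t01 p q r s y * (x0 * x1) + t11 p q r s y * x1 ^ 2 := by
    rw [FF, t00, t01, t11]; ring
  rwa [e] at h

lemma D_ne {α β b τ : ℝ} (hτ : τ ≠ 0) (h1 : α * β - τ ^ 2 - b ^ 2 = 0)
    (h2 : τ * (α + β) = 0) : False := by
  have a5 : α + β = 0 := (mul_eq_zero.1 h2).resolve_left hτ
  have a6 : β = -α := by linarith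
  rw [a6] at h1
  have hτ2 : 0 < τ ^ 2 := by positivity
  nlinarith [sq_nonneg α, sq_nonneg b]

/-- the key sign: real and imaginary parts -/
lemma key_sign {T00 T01 T11 : ℝ}
    (hQ : ∀ x0 x1 : ℝ, 0 ≤ T00 * x0 ^ 2 + 2 * T01 * (x0 * x1) + T11 * x1 ^ 2)
    {α β b τ κr κi n : ℝ} (hτ : τ ≠ 0) (hn : 0 < n) (hκ : κi = τ * n)
    (h1 : (α * β - τ ^ 2 - b ^ 2) * κr - τ * (α + β) * κi
      = T00 * β + 2 * T01 * b + T11 * α)
    (h2 : (α * β - τ ^ 2 - b ^ 2) * κi + τ * (α + β) * κr = τ * (T00 + T11)) : False := by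
  have q1 := hQ β b
  have q2 := hQ b α
  have hT00 : 0 ≤ T00 := by have := hQ 1 0; linarith
  have hT11 : 0 ≤ T11 := by have := hQ 0 1; linarith
  have e3 : τ * (((α * β - τ ^ 2 - b ^ 2) ^ 2 + (τ * (α + β)) ^ 2) * n
      + ((T00 * β ^ 2 + 2 * T01 * (β * b) + T11 * b ^ 2)
        + (T00 * b ^ 2 + 2 * T01 * (b * α) + T11 * α ^ 2) + τ ^ 2 * (T00 + T11))) = 0 := by
    rw [hκ] at h1 h2
    linear_combination (-(τ * (α + β))) * h1 + (α * β - τ ^ 2 - b ^ 2) * h2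
  have e4 := (mul_eq_zero.1 e3).resolve_left hτ
  have hD : 0 < (α * β - τ ^ 2 - b ^ 2) ^ 2 + (τ * (α + β)) ^ 2 := by
    rcases eq_or_ne (α * β - τ ^ 2 - b ^ 2) 0 with h | h
    · rcases eq_or_ne (τ * (α + β)) 0 with h' | h'
      · exact (D_ne hτ h h').elim
      · have := pow_pos (abs_pos.2 h') 2
        rw [sq_abs] at this
        have := sq_nonneg (α * β - τ ^ 2 - b ^ 2)
        linarith
    · have := pow_pos (abs_pos.2 h) 2
      rw [sq_abs] at this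
      have := sq_nonneg (τ * (α + β))
      linarith
  have h5 := mul_pos hD hn
  have h6 : 0 ≤ τ ^ 2 * (T00 + T11) := by positivity
  linarith

/-- the shifted point -/
def sh (x : Fin 23 → ℝ) (z : ℂ) (i : Fin 23) : ℂ := z * (e23 i : ℂ) - (x i : ℂ)

lemma dl_sh (x : Fin 23 → ℝ) (z : ℂ) (h : dl (sh x z) = 0) : z.im = 0 := by
  by_contra hτ
  have e : dl (sh x z) = (z - x 0) * (z - x 2) - (x 1 : ℂ) ^ 2 := by
    simp [dl, sh, e23]
  rw [e] at h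
  have h1 := congrArg Complex.re h
  have h2 := congrArg Complex.im h
  simp [pow_two] at h1 h2
  refine D_ne (α := z.re - x 0) (β := z.re - x 2) (b := x 1) hτ ?_ ?_
  · linarith
  · linarith

lemma herm (m00 m01 m02 m11 m12 m22 y0 y1 y2 z0 z1 z2 I : ℂ) (hI : I ^ 2 = -1)
    (k0 : m00 * (y0 + z0 * I) + m01 * (y1 + z1 * I) + m02 * (y2 + z2 * I) = 0)
    (k1 : m01 * (y0 + z0 * I) + m11 * (y1 + z1 * I) + m12 * (y2 + z2 * I) = 0)
    (k2 : m02 * (y0 + z0 * I) + m12 * (y1 + z1 * I) + m22 * (y2 + z2 * I) = 0) :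
    m00 * (y0 ^ 2 + z0 ^ 2) + m11 * (y1 ^ 2 + z1 ^ 2) + m22 * (y2 ^ 2 + z2 ^ 2)
      + 2 * m01 * (y0 * y1 + z0 * z1) + 2 * m02 * (y0 * y2 + z0 * z2)
      + 2 * m12 * (y1 * y2 + z1 * z2) = 0 := by
  linear_combination (y0 - z0 * I) * k0 + (y1 - z1 * I) * k1 + (y2 - z2 * I) * k2
    + (m00 * z0 ^ 2 + m11 * z1 ^ 2 + m22 * z2 ^ 2 + 2 * m01 * z0 * z1 + 2 * m02 * z0 * z2
      + 2 * m12 * z1 * z2) * hI

lemma D9_sh (x : Fin 23 → ℝ) (z : ℂ) (h : D9 (sh x z) = 0) : z.im = 0 := by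
  by_contra hτ
  rw [D9, ← Matrix.exists_mulVec_eq_zero_iff] at h
  obtain ⟨w, hw0, hw⟩ := h
  have k0 := congrFun hw 0
  have k1 := congrFun hw 1
  have k2 := congrFun hw 2
  simp only [Matrix.mulVec, dotProduct, Fin.sum_univ_three, Matrix.sub_apply, Matrix.smul_apply,
    Um, Gam, Pi.zero_apply, Matrix.of_apply, Matrix.cons_val', Matrix.cons_val_zero,
    Matrix.cons_val_one, Matrix.cons_val_two, Matrix.cons_val_fin_one,
    Matrix.tail_cons, smul_eq_mul, Matrix.vecHead] at k0 k1 k2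
  have hsh : ∀ i, sh x z i = z * (e23 i : ℂ) - (x i : ℂ) := fun i => rfl
  have s0 : sh x z 0 = z - x 0 := by simp [hsh, e23]
  have s1 : sh x z 1 = -(x 1 : ℂ) := by simp [hsh, e23]
  have s2 : sh x z 2 = z - x 2 := by simp [hsh, e23]
  have s3 : sh x z 3 = -(x 3 : ℂ) := by simp [hsh, e23]
  have s4 : sh x z 4 = -(x 4 : ℂ) := by simp [hsh, e23]
  have s5 : sh x z 5 = -(x 5 : ℂ) := by simp [hsh, e23]
  have s6 : sh x z 6 = -(x 6 : ℂ) := by simp [hsh, e23]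
  have s7 : sh x z 7 = z - x 7 := by simp [hsh, e23]
  have s8 : sh x z 8 = -(x 8 : ℂ) := by simp [hsh, e23]
  have s9 : sh x z 9 = -(x 9 : ℂ) := by simp [hsh, e23]
  have s10 : sh x z 10 = z - x 10 := by simp [hsh, e23]
  have s11 : sh x z 11 = -(x 11 : ℂ) := by simp [hsh, e23]
  have s12 : sh x z 12 = z - x 12 := by simp [hsh, e23]
  rw [dl] at k0 k1 k2
  rw [s0, s1, s2, s3, s4, s5, s6, s7, s8, s9] at k0
  rw [s0, s1, s2, s3, s4, s5, s6, s8, s10, s11] at k1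
  rw [s0, s1, s2, s3, s4, s5, s6, s9, s11, s12] at k2
  obtain ⟨y, hy⟩ : ∃ y : Fin 3 → ℝ, ∀ i, y i = (w i).re := ⟨fun i => (w i).re, fun _ => rfl⟩
  obtain ⟨y', hy'⟩ : ∃ y' : Fin 3 → ℝ, ∀ i, y' i = (w i).im := ⟨fun i => (w i).im, fun _ => rfl⟩
  have hwi : ∀ i, w i = (y i : ℂ) + (y' i : ℂ) * Complex.I := by
    intro i; rw [hy, hy']; exact (Complex.re_add_im _).symm
  rw [hwi 0, hwi 1, hwi 2] at k0 k1 k2
  have hn : 0 < (y 0 ^ 2 + y' 0 ^ 2) + (y 1 ^ 2 + y' 1 ^ 2) + (y 2 ^ 2 + y' 2 ^ 2) := by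
    by_contra hle
    push Not at hle
    apply hw0
    have e : ∀ i, y i = 0 ∧ y' i = 0 := by
      have a : ∀ i, 0 ≤ y i ^ 2 := fun i => sq_nonneg _
      have b : ∀ i, 0 ≤ y' i ^ 2 := fun i => sq_nonneg _
      have a0 := a 0; have a1 := a 1; have a2 := a 2
      have b0 := b 0; have b1 := b 1; have b2 := b 2
      intro i
      fin_cases i
      · exact ⟨by simpa using (le_antisymm (by linarith) a0 : y 0 ^ 2 = 0),
          by simpa using (le_antisymm (by linarith) b0 : y' 0 ^ 2 = 0)⟩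
      · exact ⟨by simpa using (le_antisymm (by linarith) a1 : y 1 ^ 2 = 0),
          by simpa using (le_antisymm (by linarith) b1 : y' 1 ^ 2 = 0)⟩
      · exact ⟨by simpa using (le_antisymm (by linarith) a2 : y 2 ^ 2 = 0),
          by simpa using (le_antisymm (by linarith) b2 : y' 2 ^ 2 = 0)⟩
    funext i
    rw [hwi, (e i).1, (e i).2]
    simp
  -- the combined complex identity
  have hI : Complex.I ^ 2 = -1 := Complex.I_sq
  obtain ⟨n, hndef⟩ : ∃ n : ℝ, n = (y 0 ^ 2 + y' 0 ^ 2) + (y 1 ^ 2 + y' 1 ^ 2)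
    + (y 2 ^ 2 + y' 2 ^ 2) := ⟨_, rfl⟩
  obtain ⟨u, hu⟩ : ∃ u : ℝ, u = x 7 * (y 0 ^ 2 + y' 0 ^ 2) + x 10 * (y 1 ^ 2 + y' 1 ^ 2)
      + x 12 * (y 2 ^ 2 + y' 2 ^ 2) + 2 * x 8 * (y 0 * y 1 + y' 0 * y' 1)
      + 2 * x 9 * (y 0 * y 2 + y' 0 * y' 2) + 2 * x 11 * (y 1 * y 2 + y' 1 * y' 2) := ⟨_, rfl⟩
  obtain ⟨T0, hT0⟩ : ∃ T : ℝ, T = t00 (x 3) (x 4) (x 5) (x 6) y + t00 (x 3) (x 4) (x 5) (x 6) y' :=
    ⟨_, rfl⟩
  obtain ⟨T1, hT1⟩ : ∃ T : ℝ, T = t01 (x 3) (x 4) (x 5) (x 6) y + t01 (x 3) (x 4) (x 5) (x 6) y' :=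
    ⟨_, rfl⟩
  obtain ⟨T2, hT2⟩ : ∃ T : ℝ, T = t11 (x 3) (x 4) (x 5) (x 6) y + t11 (x 3) (x 4) (x 5) (x 6) y' :=
    ⟨_, rfl⟩
  have key : ((z - x 0) * (z - x 2) - (x 1 : ℂ) ^ 2) * (z * n - u)
      = T0 * (z - x 2) + 2 * T1 * (x 1) + T2 * (z - x 0) := by
    have hh := herm _ _ _ _ _ _ (y 0) (y 1) (y 2) (y' 0) (y' 1) (y' 2) Complex.I hI k0 k1 k2
    rw [hT0, hT1, hT2, hndef, hu]
    simp only [t00, t01, t11]
    push_cast
    linear_combination hh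
  have e1 := congrArg Complex.re key
  have e2 := congrArg Complex.im key
  simp [pow_two] at e1 e2
  have hnpos : 0 < n := by rw [hndef]; exact hn
  refine key_sign (T00 := T0) (T01 := T1) (T11 := T2) ?_ (α := z.re - x 0) (β := z.re - x 2)
    (b := x 1) (τ := z.im) (κr := z.re * n - u) (κi := z.im * n) (n := n) hτ hnpos rfl ?_ ?_
  · intro x0 x1
    have h1 := t_nonneg (x 3) (x 4) (x 5) (x 6) y x0 x1
    have h2 := t_nonneg (x 3) (x 4) (x 5) (x 6) y' x0 x1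
    rw [hT0, hT1, hT2]
    linarith
  · linear_combination e1
  · linear_combination e2


/-- the coordinates as polynomials -/
abbrev XX : Fin 23 → MvPolynomial (Fin 23) ℝ := fun i => MvPolynomial.X i

open MvPolynomial in
lemma entry_homog (i j : Fin 3) :
    ((dl XX • Um XX - Gam (X 3) (X 4) (X 5) (X 6) (X 2) (-(X 1)) (X 0) :
      Matrix (Fin 3) (Fin 3) (MvPolynomial (Fin 23) ℝ)) i j).IsHomogeneous 3 := by
  have hX : ∀ i : Fin 23, (X i : MvPolynomial (Fin 23) ℝ).IsHomogeneous 1 :=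
    fun i => isHomogeneous_X ℝ i
  have hX2 : ∀ i : Fin 23, (X i ^ 2 : MvPolynomial (Fin 23) ℝ).IsHomogeneous 2 := fun i => by
    simpa using (hX i).pow 2
  have hdl : (dl XX : MvPolynomial (Fin 23) ℝ).IsHomogeneous 2 := by
    rw [dl]
    exact ((hX 0).mul (hX 2)).sub (hX2 1)
  have hU : ∀ i : Fin 23, (dl XX * X i : MvPolynomial (Fin 23) ℝ).IsHomogeneous 3 :=
    fun i => hdl.mul (hX i)
  have hs : ∀ i j k : Fin 23,
      ((X i ^ 2 + X j ^ 2) * X k : MvPolynomial (Fin 23) ℝ).IsHomogeneous 3 :=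
    fun i j k => ((hX2 i).add (hX2 j)).mul (hX k)
  have h3 : ∀ i j k : Fin 23, (X i * X j * X k : MvPolynomial (Fin 23) ℝ).IsHomogeneous 3 :=
    fun i j k => ((hX i).mul (hX j)).mul (hX k)
  have h3n : ∀ i j k : Fin 23, (X i * X j * -X k : MvPolynomial (Fin 23) ℝ).IsHomogeneous 3 :=
    fun i j k => ((hX i).mul (hX j)).mul (hX k).neg
  have h2 : ∀ i j k : Fin 23,
      (2 * (X i * X j * -X k) : MvPolynomial (Fin 23) ℝ).IsHomogeneous 3 := fun i j k => by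
    have h := (h3n i j k).add (h3n i j k)
    rwa [← two_mul] at h
  have e00 : ((dl XX • Um XX - Gam (X 3) (X 4) (X 5) (X 6) (X 2) (-(X 1))
      (X 0) : Matrix (Fin 3) (Fin 3) (MvPolynomial (Fin 23) ℝ))) =
      !![dl XX * X 7 - (X 3 ^ 2 + X 4 ^ 2) * X 0,
         dl XX * X 8 - X 4 * X 6 * X 0,
         dl XX * X 9 - -(X 4 * X 5 * -X 1);
         dl XX * X 8 - X 4 * X 6 * X 0,
         dl XX * X 10 - ((X 3 ^ 2 + X 4 ^ 2) * X 2 + (X 5 ^ 2 + X 6 ^ 2) * X 0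
          - 2 * (X 3 * X 6 * -X 1)),
         dl XX * X 11 - -(X 3 * X 5 * X 2);
         dl XX * X 9 - -(X 4 * X 5 * -X 1),
         dl XX * X 11 - -(X 3 * X 5 * X 2),
         dl XX * X 12 - (X 5 ^ 2 + X 6 ^ 2) * X 2] := by
    ext i j : 1
    fin_cases i <;> fin_cases j <;> simp [Um, Gam]
  rw [e00]
  fin_cases i <;> fin_cases j
  · exact (hU 7).sub (hs 3 4 0)
  · exact (hU 8).sub (h3 4 6 0)
  · exact (hU 9).sub (h3n 4 5 1).neg
  · exact (hU 8).sub (h3 4 6 0)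
  · exact (hU 10).sub (((hs 3 4 2).add (hs 5 6 0)).sub (h2 3 6 1))
  · exact (hU 11).sub (h3 3 5 2).neg
  · exact (hU 9).sub (h3n 4 5 1).neg
  · exact (hU 11).sub (h3 3 5 2).neg
  · exact (hU 12).sub (hs 5 6 2)

/-- `poly k` is homogeneous of degree `11 + k` -/
theorem poly_homog (k : ℕ) : (poly k).IsHomogeneous (11 + k) := by
  have hX : ∀ i : Fin 23, (MvPolynomial.X i : MvPolynomial (Fin 23) ℝ).IsHomogeneous 1 :=
    fun i => MvPolynomial.isHomogeneous_X ℝ i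
  have hdl : (dl (fun i => MvPolynomial.X i) : MvPolynomial (Fin 23) ℝ).IsHomogeneous 2 := by
    rw [dl]
    exact ((hX 0).mul (hX 2)).sub (by simpa using (hX 1).pow 2)
  have hD9 : (D9 (fun i => MvPolynomial.X i) : MvPolynomial (Fin 23) ℝ).IsHomogeneous 9 := by
    rw [D9, Matrix.det_fin_three]
    have h := entry_homog
    have m3 : ∀ a b c d e f : Fin 3, _ := fun a b c d e f => ((h a b).mul (h c d)).mul (h e f)
    exact ((((m3 0 0 1 1 2 2).sub (m3 0 0 1 2 2 1)).sub (m3 0 1 1 0 2 2)).add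
      (m3 0 1 1 2 2 0)).add (m3 0 2 1 0 2 1) |>.sub (m3 0 2 1 1 2 0)
  have := (hdl.mul hD9).mul ((hX 0).pow k)
  rw [poly]
  convert this using 1
  ring

theorem aeval_poly {K : Type*} [CommRing K] [Algebra ℝ K] (k : ℕ) (f : Fin 23 → K) :
    MvPolynomial.aeval f (poly k) = dl f * D9 f * f 0 ^ k := by
  have hdl : MvPolynomial.aeval f (dl (fun i => MvPolynomial.X i) : MvPolynomial (Fin 23) ℝ)
      = dl f := by simp [dl]
  have hD : MvPolynomial.aeval f (D9 (fun i => MvPolynomial.X i) : MvPolynomial (Fin 23) ℝ)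
      = D9 f := by
    rw [D9, D9, AlgHom.map_det]
    congr 1
    ext i j
    fin_cases i <;> fin_cases j <;>
      simp [Um, Gam, Matrix.vecHead, Matrix.vecTail, hdl]
  rw [poly, map_mul, map_mul, hdl, hD, map_pow, MvPolynomial.aeval_X]

theorem eval_poly (k : ℕ) (x : Fin 23 → ℝ) :
    MvPolynomial.eval x (poly k) = dl x * D9 x * x 0 ^ k := by
  have := aeval_poly k x
  rwa [MvPolynomial.aeval_eq_eval] at this

theorem poly_e (k : ℕ) : MvPolynomial.eval e23 (poly k) = 1 := by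
  rw [eval_poly]
  have h1 : dl e23 = 1 := by simp [dl, e23]
  have h2 : D9 e23 = 1 := by
    rw [D9, h1, Matrix.det_fin_three]
    simp [Um, Gam, e23]
  rw [h1, h2]
  simp [e23]

theorem poly_hyp (k : ℕ) : Hyperbolic.IsHyperbolic (poly k) e23 := by
  refine ⟨⟨11 + k, poly_homog k⟩, by rw [poly_e]; exact one_pos, ?_⟩
  intro x z h
  have h' : MvPolynomial.aeval (sh x z) (poly k) = 0 := h
  rw [aeval_poly] at h'
  rcases mul_eq_zero.1 h' with h1 | h1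
  · rcases mul_eq_zero.1 h1 with h2 | h2
    · exact dl_sh x z h2
    · exact D9_sh x z h2
  · have h4 : sh x z 0 = 0 := by
      by_contra hne
      exact pow_ne_zero k hne h1
    have s0 : sh x z 0 = z - x 0 := by simp [sh, e23]
    rw [s0, sub_eq_zero] at h4
    rw [h4, Complex.ofReal_im]

end Crest.Agent.R237.S2HypA
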