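import Mathlib

/-!
Row 237, S0368, node A: hyperbolicity of `det (det X • U - Γ(adj X))`, abstract form.
-/

set_option autoImplicit false

open Matrix Complex

namespace Crest.Agent.R237.S2Hyp

variable {n : Type*} [Fintype n]

/-- the Hermitian form of a real symmetric matrix at a complex vector is real -/
theorem quad_re (G : Matrix n n ℝ) (hG : G.IsSymm) (w : n → ℂ) :
    star w ⬝ᵥ ((G.map Complex.ofReal) *ᵥ w) =
      (((fun i => (w i).re) ⬝ᵥ (G *ᵥ fun i => (w i).re) +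
        (fun i => (w i).im) ⬝ᵥ (G *ᵥ fun i => (w i).im) : ℝ) : ℂ) := by
  have h1 : star w ⬝ᵥ ((G.map Complex.ofReal) *ᵥ w) =
      ∑ i, ∑ j, (G i j : ℂ) * (starRingEnd ℂ (w i) * w j) := by
    simp only [dotProduct, mulVec, Finset.mul_sum, Matrix.map_apply, Pi.star_apply]
    refine Finset.sum_congr rfl fun i _ => Finset.sum_congr rfl fun j _ => ?_
    simp only [starRingEnd_apply]
    ring
  rw [h1]
  apply Complex.ext
  · simp only [Complex.re_sum, Complex.ofReal_re, dotProduct, mulVec, Finset.mul_sum]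
    rw [← Finset.sum_add_distrib]
    refine Finset.sum_congr rfl fun i _ => ?_
    rw [← Finset.sum_add_distrib]
    refine Finset.sum_congr rfl fun j _ => ?_
    simp only [Complex.mul_re, Complex.ofReal_re, Complex.ofReal_im, Complex.conj_re,
      Complex.conj_im]
    ring
  · simp only [Complex.im_sum, Complex.ofReal_im]
    have h2 : ∑ i, ∑ j, ((G i j : ℂ) * (starRingEnd ℂ (w i) * w j)).im =
        ∑ i, ∑ j, (G i j * ((w i).re * (w j).im) - G i j * ((w i).im * (w j).re)) := by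
      refine Finset.sum_congr rfl fun i _ => Finset.sum_congr rfl fun j _ => ?_
      simp only [Complex.mul_im, Complex.mul_re, Complex.ofReal_re, Complex.ofReal_im,
        Complex.conj_re, Complex.conj_im]
      ring
    rw [h2]
    simp only [Finset.sum_sub_distrib]
    rw [sub_eq_zero, Finset.sum_comm]
    refine Finset.sum_congr rfl fun j _ => Finset.sum_congr rfl fun i _ => ?_
    have : G i j = G j i := by
      have := congrFun (congrFun hG j) i
      simpa [Matrix.transpose_apply] using this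
    rw [this]; ring

/-- the real algebra -/
theorem scalar_core {α β τ b s k1 g0 g1 g2 : ℝ} (hz : τ ≠ 0) (hs0 : 0 < s)
    (hre' : (α * β - τ ^ 2 - b ^ 2) * k1 - τ * (α + β) * (τ * s) = β * g0 + b * g1 + α * g2)
    (him' : (α * β - τ ^ 2 - b ^ 2) * (τ * s) + τ * (α + β) * k1 = τ * g0 + τ * g2)
    (hQ1 : 0 ≤ (1 : ℝ) ^ 2 * g0 + 1 * 0 * g1 + 0 ^ 2 * g2)
    (hQ2 : 0 ≤ (0 : ℝ) ^ 2 * g0 + 0 * 1 * g1 + 1 ^ 2 * g2)
    (hQ3 : 0 ≤ β ^ 2 * g0 + β * b * g1 + b ^ 2 * g2)
    (hQ4 : 0 ≤ b ^ 2 * g0 + b * α * g1 + α ^ 2 * g2) : False := by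
  have hkey : ((α * β - τ ^ 2 - b ^ 2) ^ 2 + (τ * (α + β)) ^ 2) * s =
      -((g0 + g2) * τ ^ 2 + (β ^ 2 * g0 + β * b * g1 + b ^ 2 * g2) +
        (b ^ 2 * g0 + b * α * g1 + α ^ 2 * g2)) := by
    have h1 : τ * (((α * β - τ ^ 2 - b ^ 2) ^ 2 + (τ * (α + β)) ^ 2) * s) =
        τ * -((g0 + g2) * τ ^ 2 + (β ^ 2 * g0 + β * b * g1 + b ^ 2 * g2) +
        (b ^ 2 * g0 + b * α * g1 + α ^ 2 * g2)) := by
      linear_combination (α * β - τ ^ 2 - b ^ 2) * him' - τ * (α + β) * hre'
    exact mul_left_cancel₀ hz h1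
  have hτ2 : 0 < τ ^ 2 := by positivity
  have hle : ((α * β - τ ^ 2 - b ^ 2) ^ 2 + (τ * (α + β)) ^ 2) * s ≤ 0 := by
    rw [hkey]
    have : 0 ≤ (g0 + g2) * τ ^ 2 := by
      apply mul_nonneg _ hτ2.le
      linarith
    linarith
  have hsq : (α * β - τ ^ 2 - b ^ 2) ^ 2 + (τ * (α + β)) ^ 2 ≤ 0 :=
    nonpos_of_mul_nonpos_left hle hs0
  have e1 : τ * (α + β) = 0 := by
    have := sq_nonneg (α * β - τ ^ 2 - b ^ 2)
    exact pow_eq_zero_iff (two_ne_zero) |>.1 (le_antisymm (by linarith) (sq_nonneg _))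
  have e2 : α * β - τ ^ 2 - b ^ 2 = 0 := by
    have := sq_nonneg (τ * (α + β))
    exact pow_eq_zero_iff (two_ne_zero) |>.1 (le_antisymm (by linarith) (sq_nonneg _))
  have e3 : α + β = 0 := (mul_eq_zero.1 e1).resolve_left hz
  have e4 : β = -α := by linarith
  rw [e4] at e2
  nlinarith [sq_nonneg α, sq_nonneg b]

/-- **hyperbolicity, core**: `det ((det (z - X)) (z - U) - Γ(adj (z - X))) ≠ 0` for non-real `z`. -/
theorem core [DecidableEq n] (G00 G01 G11 U : Matrix n n ℝ) (h00 : G00.IsSymm) (h01 : G01.IsSymm)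
    (h11 : G11.IsSymm) (hU : U.IsSymm)
    (hF : ∀ (x0 x1 : ℝ) (y : n → ℝ), 0 ≤ x0 ^ 2 * (y ⬝ᵥ (G00 *ᵥ y)) +
      x0 * x1 * (y ⬝ᵥ (G01 *ᵥ y)) + x1 ^ 2 * (y ⬝ᵥ (G11 *ᵥ y)))
    (a b c : ℝ) (z : ℂ)
    (hdet : ((((z - a) * (z - c) - (b : ℂ) ^ 2) • (z • (1 : Matrix n n ℂ) - U.map Complex.ofReal) -
      ((z - c) • G00.map Complex.ofReal + (b : ℂ) • G01.map Complex.ofReal +
        (z - a) • G11.map Complex.ofReal)).det = 0)) : z.im = 0 := by
  by_contra hz
  obtain ⟨w, hw0, hw⟩ := Matrix.exists_mulVec_eq_zero_iff.2 hdet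
  set q : Matrix n n ℝ → ℝ := fun G => (fun i => (w i).re) ⬝ᵥ (G *ᵥ fun i => (w i).re) +
        (fun i => (w i).im) ⬝ᵥ (G *ᵥ fun i => (w i).im) with hq
  have hquad : ∀ G : Matrix n n ℝ, G.IsSymm →
      star w ⬝ᵥ ((G.map Complex.ofReal) *ᵥ w) = (q G : ℂ) := fun G hG => quad_re G hG w
  -- the norm of `w`
  set s : ℝ := q 1 with hs
  have hs1 : star w ⬝ᵥ w = (s : ℂ) := by
    have := hquad 1 Matrix.isSymm_one
    simpa using this
  have hs0 : 0 < s := by
    have h1 : s = ∑ i, ((w i).re ^ 2 + (w i).im ^ 2) := by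
      rw [hs, hq]
      simp only [Matrix.one_mulVec, dotProduct]
      rw [← Finset.sum_add_distrib]
      exact Finset.sum_congr rfl fun i _ => by ring
    obtain ⟨i, hi⟩ : ∃ i, w i ≠ 0 := by
      by_contra hc
      push Not at hc
      exact hw0 (funext hc)
    rw [h1]
    refine Finset.sum_pos' (fun j _ => by positivity) ⟨i, Finset.mem_univ i, ?_⟩
    by_contra hc
    have h2 : (w i).re ^ 2 + (w i).im ^ 2 = 0 := le_antisymm (not_lt.1 hc) (by positivity)
    apply hi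
    apply Complex.ext
    · simp only [Complex.zero_re]; nlinarith [sq_nonneg (w i).re, sq_nonneg (w i).im]
    · simp only [Complex.zero_im]; nlinarith [sq_nonneg (w i).re, sq_nonneg (w i).im]
  have hQ : ∀ x0 x1 : ℝ, 0 ≤ x0 ^ 2 * q G00 + x0 * x1 * q G01 + x1 ^ 2 * q G11 := by
    intro x0 x1
    have h1 := hF x0 x1 fun i => (w i).re
    have h2 := hF x0 x1 fun i => (w i).im
    simp only [hq]
    linarith
  -- the scalar equation
  have heq := congrArg (fun u => star w ⬝ᵥ u) hw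
  simp only [dotProduct_zero] at heq
  rw [Matrix.sub_mulVec, Matrix.add_mulVec, Matrix.add_mulVec, Matrix.smul_mulVec,
    Matrix.sub_mulVec, Matrix.smul_mulVec, Matrix.smul_mulVec, Matrix.smul_mulVec,
    Matrix.smul_mulVec, Matrix.one_mulVec, dotProduct_sub, dotProduct_smul, dotProduct_sub,
    dotProduct_smul, dotProduct_add, dotProduct_add, dotProduct_smul, dotProduct_smul,
    dotProduct_smul, hquad _ hU, hquad _ h00, hquad _ h01, hquad _ h11, hs1] at heq
  simp only [smul_eq_mul] at heq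
  -- real and imaginary parts
  set τ : ℝ := z.im with hτ
  set α : ℝ := z.re - a with hα
  set β : ℝ := z.re - c with hβ
  have eA : z - a = ⟨α, τ⟩ := by
    apply Complex.ext <;> simp [hα, hτ]
  have eB : z - c = ⟨β, τ⟩ := by
    apply Complex.ext <;> simp [hβ, hτ]
  have eD : (z - a) * (z - c) - (b : ℂ) ^ 2 = ⟨α * β - τ ^ 2 - b ^ 2, τ * (α + β)⟩ := by
    rw [eA, eB]
    apply Complex.ext
    · simp only [Complex.sub_re, Complex.mul_re]
      have : ((b : ℂ) ^ 2).re = b ^ 2 := by rw [← Complex.ofReal_pow, Complex.ofReal_re]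
      rw [this]; ring
    · simp only [Complex.sub_im, Complex.mul_im]
      have : ((b : ℂ) ^ 2).im = 0 := by rw [← Complex.ofReal_pow, Complex.ofReal_im]
      rw [this]; ring
  rw [eD, eA, eB] at heq
  have hre := congrArg Complex.re heq
  have him := congrArg Complex.im heq
  simp only [Complex.sub_re, Complex.sub_im, Complex.mul_re, Complex.mul_im, Complex.add_re,
    Complex.add_im, Complex.ofReal_re, Complex.ofReal_im, Complex.zero_re, Complex.zero_im] at hre him
  rw [← hτ] at hre him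
  -- `D κ = N`
  set k1 : ℝ := z.re * s - q U with hk1
  have hre' : (α * β - τ ^ 2 - b ^ 2) * k1 - τ * (α + β) * (τ * s) =
      β * q G00 + b * q G01 + α * q G11 := by
    rw [hk1]; linarith
  have him' : (α * β - τ ^ 2 - b ^ 2) * (τ * s) + τ * (α + β) * k1 =
      τ * q G00 + τ * q G11 := by
    rw [hk1]; linarith
  have hQ1 := hQ 1 0
  have hQ2 := hQ 0 1
  have hQ3 := hQ β b
  have hQ4 := hQ b α
  clear_value k1 τ α β s
  generalize q G00 = g0 at *
  generalize q G01 = g1 at *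
  generalize q G11 = g2 at *
  exact scalar_core hz hs0 hre' him' hQ1 hQ2 hQ3 hQ4

end Crest.Agent.R237.S2Hyp
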