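import Crest.Prelude.Def_Hyperbolic

/-!
Row 237, S0368: padding lemmas.
* multiplication of a hyperbolic polynomial by a power of a linear form;
* padding of a semidefinite lift to larger matrix size and number of auxiliary variables.
-/

set_option autoImplicit false
open Crest.GeometryTopology

namespace Crest.Agent.R237.S2

open Hyperbolic MvPolynomial

/-- the linear form `∑ c i X i`. -/
noncomputable def linF {m : ℕ} (c : Fin m → ℝ) : MvPolynomial (Fin m) ℝ :=
  ∑ i, C (c i) * X i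

theorem linF_eval {m : ℕ} (c x : Fin m → ℝ) : eval x (linF c) = ∑ i, c i * x i := by
  simp [linF]

theorem linF_homog {m : ℕ} (c : Fin m → ℝ) : (linF c).IsHomogeneous 1 := by
  unfold linF
  refine MvPolynomial.IsHomogeneous.sum _ _ _ fun i _ => ?_
  simpa using (isHomogeneous_C (Fin m) (c i)).mul (isHomogeneous_X ℝ i)

theorem linF_line {m : ℕ} (c e x : Fin m → ℝ) (z : ℂ) :
    lineEvalC (linF c) e x z = z * ((∑ i, c i * e i : ℝ) : ℂ) - ((∑ i, c i * x i : ℝ) : ℂ) := by
  simp only [lineEvalC, linF, map_sum, map_mul, aeval_X, MvPolynomial.aeval_C]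
  push_cast
  rw [Finset.mul_sum, ← Finset.sum_sub_distrib]
  refine Finset.sum_congr rfl fun i _ => ?_
  simp
  ring

theorem lineEvalC_mul {m : ℕ} (p q : MvPolynomial (Fin m) ℝ) (e x : Fin m → ℝ) (z : ℂ) :
    lineEvalC (p * q) e x z = lineEvalC p e x z * lineEvalC q e x z := by
  simp [lineEvalC]

theorem lineEvalC_pow {m : ℕ} (p : MvPolynomial (Fin m) ℝ) (e x : Fin m → ℝ) (z : ℂ) (k : ℕ) :
    lineEvalC (p ^ k) e x z = lineEvalC p e x z ^ k := by
  simp [lineEvalC]

/-- products of hyperbolic polynomials. -/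
theorem hyp_mul {m : ℕ} {p q : MvPolynomial (Fin m) ℝ} {e : Fin m → ℝ}
    (hp : IsHyperbolic p e) (hq : IsHyperbolic q e) : IsHyperbolic (p * q) e := by
  obtain ⟨⟨a, ha⟩, hpe, hpz⟩ := hp
  obtain ⟨⟨b, hb⟩, hqe, hqz⟩ := hq
  refine ⟨⟨a + b, ha.mul hb⟩, ?_, ?_⟩
  · rw [map_mul]; exact mul_pos hpe hqe
  · intro x z h
    rw [lineEvalC_mul] at h
    rcases mul_eq_zero.1 h with h | h
    · exact hpz x z h
    · exact hqz x z h

theorem hyp_linF {m : ℕ} (c e : Fin m → ℝ) (h : 0 < ∑ i, c i * e i) :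
    IsHyperbolic (linF c) e := by
  refine ⟨⟨1, linF_homog c⟩, by rwa [linF_eval], ?_⟩
  intro x z hz
  rw [linF_line, sub_eq_zero] at hz
  have h2 := congrArg Complex.im hz
  rw [Complex.mul_im, Complex.ofReal_im, Complex.ofReal_im, Complex.ofReal_re] at h2
  have : z.im * (∑ i, c i * e i) = 0 := by linarith
  rcases mul_eq_zero.1 this with h3 | h3
  · exact h3
  · exact absurd h3 h.ne'

theorem hyp_pow {m : ℕ} {p : MvPolynomial (Fin m) ℝ} {e : Fin m → ℝ}
    (hp : IsHyperbolic p e) (k : ℕ) : IsHyperbolic (p ^ k) e := by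
  obtain ⟨⟨a, ha⟩, hpe, hpz⟩ := hp
  refine ⟨⟨a * k, ha.pow k⟩, ?_, ?_⟩
  · rw [map_pow]; exact pow_pos hpe k
  · intro x z h
    rw [lineEvalC_pow] at h
    exact hpz x z (by
      by_contra hw
      exact pow_ne_zero k hw h)

/-- the closed cone of a product is the intersection of the closed cones. -/
theorem closedCone_mul {m : ℕ} (p q : MvPolynomial (Fin m) ℝ) (e : Fin m → ℝ) :
    closedCone (p * q) e = closedCone p e ∩ closedCone q e := by
  ext x
  simp only [closedCone, Set.mem_ofPred_eq, Set.mem_inter_iff, map_mul, mul_eq_zero]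
  constructor
  · intro h
    exact ⟨fun t ht => h t (Or.inl ht), fun t ht => h t (Or.inr ht)⟩
  · rintro ⟨h1, h2⟩ t (ht | ht)
    · exact h1 t ht
    · exact h2 t ht

theorem closedCone_pow {m : ℕ} (p : MvPolynomial (Fin m) ℝ) (e : Fin m → ℝ) {k : ℕ} (hk : k ≠ 0) :
    closedCone (p ^ k) e = closedCone p e := by
  ext x
  simp only [closedCone, Set.mem_ofPred_eq, map_pow]
  constructor
  · intro h t ht
    exact h t (by rw [ht]; exact zero_pow hk)
  · intro h t ht
    exact h t (by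
      by_contra h3
      exact pow_ne_zero k h3 ht)

theorem closedCone_linF {m : ℕ} (c e : Fin m → ℝ) (h : 0 < ∑ i, c i * e i) :
    closedCone (linF c) e = {x | 0 ≤ ∑ i, c i * x i} := by
  ext x
  simp only [closedCone, Set.mem_ofPred_eq, linF_eval]
  have key : ∀ t : ℝ, ∑ i, c i * (t * e i - x i) = t * (∑ i, c i * e i) - ∑ i, c i * x i := by
    intro t
    rw [Finset.mul_sum, ← Finset.sum_sub_distrib]
    exact Finset.sum_congr rfl fun i _ => by ring
  constructor
  · intro hx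
    have h2 := hx ((∑ i, c i * x i) / (∑ i, c i * e i)) (by
      rw [key, div_mul_cancel₀ _ h.ne', sub_self])
    have h3 := mul_nonneg h2 h.le
    rwa [div_mul_cancel₀ _ h.ne'] at h3
  · intro hx t ht
    rw [key, sub_eq_zero] at ht
    rw [← ht] at hx
    exact nonneg_of_mul_nonneg_left hx h

/-- multiplication by a power of a linear form which is nonnegative on the cone. -/
theorem closedCone_mul_linF {m : ℕ} (p : MvPolynomial (Fin m) ℝ) (c e : Fin m → ℝ) (k : ℕ)
    (h : 0 < ∑ i, c i * e i) (hK : ∀ x ∈ closedCone p e, 0 ≤ ∑ i, c i * x i) :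
    closedCone (p * linF c ^ k) e = closedCone p e := by
  rw [closedCone_mul]
  rcases Nat.eq_zero_or_pos k with rfl | hk
  · refine Set.inter_eq_left.2 fun x _ => ?_
    simp [closedCone]
  · rw [closedCone_pow _ _ hk.ne', closedCone_linF c e h]
    exact Set.inter_eq_left.2 fun x hx => hK x hx

theorem hyp_mul_linF {m : ℕ} {p : MvPolynomial (Fin m) ℝ} {e : Fin m → ℝ} (c : Fin m → ℝ) (k : ℕ)
    (hp : IsHyperbolic p e) (h : 0 < ∑ i, c i * e i) : IsHyperbolic (p * linF c ^ k) e :=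
  hyp_mul hp (hyp_pow (hyp_linF c e h) k)

/-! ### padding of lifts -/

/-- A lift given by a linear map into symmetric `ι × ι` matrices with an auxiliary space of
dimension at most `a` gives a lift with matrices of size exactly `k ≥ card ι` and `a` auxiliary
variables. -/
theorem lift_pad {m k a : ℕ} {ι E : Type*} [Fintype ι] [DecidableEq ι]
    [AddCommGroup E] [Module ℝ E] [FiniteDimensional ℝ E]
    (hι : Fintype.card ι ≤ k) (hE : Module.finrank ℝ E ≤ a)
    (P : (Fin m → ℝ) →ₗ[ℝ] Matrix ι ι ℝ) (Q : E →ₗ[ℝ] Matrix ι ι ℝ)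
    (hP : ∀ x, (P x).IsSymm) (hQ : ∀ y, (Q y).IsSymm) (K : Set (Fin m → ℝ))
    (hK : ∀ x, x ∈ K ↔ ∃ y : E, (P x + Q y).PosSemidef) :
    ∃ (A : Fin m → Matrix (Fin k) (Fin k) ℝ) (B : Fin a → Matrix (Fin k) (Fin k) ℝ),
      (∀ i, (A i).IsSymm) ∧ (∀ j, (B j).IsSymm) ∧
        K = {x | ∃ v : Fin a → ℝ, (∑ i, x i • A i + ∑ j, v j • B j).PosSemidef} := by
  classical
  -- a surjection `Fin a → ℝ` onto `E`
  obtain ⟨S, hS⟩ : ∃ S : (Fin a → ℝ) →ₗ[ℝ] E, Function.Surjective S := by
    let b := Module.finBasis ℝ E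
    refine ⟨b.equivFun.symm.toLinearMap ∘ₗ LinearMap.funLeft ℝ ℝ (Fin.castLE hE), ?_⟩
    exact b.equivFun.symm.surjective.comp
      (LinearMap.funLeft_surjective_of_injective ℝ ℝ _ (Fin.castLE_injective hE))
  -- an embedding `ι → Fin k`
  obtain ⟨φ⟩ : Nonempty (ι ↪ Fin k) := Function.Embedding.nonempty_of_card_le (by simpa using hι)
  -- the padding map
  let pad : Matrix ι ι ℝ →ₗ[ℝ] Matrix (Fin k) (Fin k) ℝ :=
    { toFun := fun M => Matrix.of fun i j =>
        if h : (∃ a, φ a = i) ∧ ∃ b, φ b = j then M h.1.choose h.2.choose else 0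
      map_add' := by
        intro M N
        ext i j
        simp only [Matrix.of_apply, Matrix.add_apply]
        split_ifs <;> simp
      map_smul' := by
        intro r M
        ext i j
        simp only [Matrix.of_apply, Matrix.smul_apply, RingHom.id_apply]
        split_ifs <;> simp }
  have pad_app : ∀ (M : Matrix ι ι ℝ) (a b : ι), pad M (φ a) (φ b) = M a b := by
    intro M a b
    have h : (∃ a', φ a' = φ a) ∧ ∃ b', φ b' = φ b := ⟨⟨a, rfl⟩, ⟨b, rfl⟩⟩
    simp only [pad, LinearMap.coe_mk, AddHom.coe_mk, Matrix.of_apply, dif_pos h]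
    rw [φ.injective h.1.choose_spec, φ.injective h.2.choose_spec]
  have pad_symm : ∀ M : Matrix ι ι ℝ, M.IsSymm → (pad M).IsSymm := by
    intro M hM
    ext i j
    simp only [pad, LinearMap.coe_mk, AddHom.coe_mk, Matrix.of_apply, Matrix.transpose_apply]
    by_cases hi : ∃ a, φ a = i <;> by_cases hj : ∃ b, φ b = j
    · rw [dif_pos ⟨hj, hi⟩, dif_pos ⟨hi, hj⟩]
      exact congrFun (congrFun hM _) _
    · rw [dif_neg (fun h => hj h.1), dif_neg (fun h => hj h.2)]
    · rw [dif_neg (fun h => hi h.2), dif_neg (fun h => hi h.1)]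
    · rw [dif_neg (fun h => hi h.2), dif_neg (fun h => hi h.1)]
  -- the quadratic form of the padded matrix
  have pad_quad : ∀ (M : Matrix ι ι ℝ) (w : Fin k → ℝ),
      w ⬝ᵥ (pad M).mulVec w = (fun a => w (φ a)) ⬝ᵥ M.mulVec (fun a => w (φ a)) := by
    intro M w
    have hz : ∀ i j : Fin k, (i ∉ Set.range φ ∨ j ∉ Set.range φ) → pad M i j = 0 := by
      intro i j h
      simp only [pad, LinearMap.coe_mk, AddHom.coe_mk, Matrix.of_apply]
      rw [dif_neg]
      rintro ⟨⟨a, ha⟩, ⟨b, hb⟩⟩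
      rcases h with h | h
      · exact h ⟨a, ha⟩
      · exact h ⟨b, hb⟩
    have hsum : ∀ f : Fin k → ℝ, (∀ i, i ∉ Set.range φ → f i = 0) →
        ∑ i, f i = ∑ a, f (φ a) := by
      intro f hf
      rw [← Finset.sum_map Finset.univ φ f]
      symm
      refine Finset.sum_subset (Finset.subset_univ _) fun i _ hi => hf i ?_
      rintro ⟨a, ha⟩
      exact hi (Finset.mem_map.2 ⟨a, Finset.mem_univ a, ha⟩)
    simp only [dotProduct, Matrix.mulVec]
    rw [hsum]
    · refine Finset.sum_congr rfl fun a _ => ?_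
      congr 1
      rw [hsum]
      · exact Finset.sum_congr rfl fun b _ => by rw [pad_app]
      · intro j hj
        rw [hz _ _ (Or.inr hj), zero_mul]
    · intro i hi
      have : ∑ j, pad M i j * w j = 0 :=
        Finset.sum_eq_zero fun j _ => by rw [hz _ _ (Or.inl hi), zero_mul]
      rw [this, mul_zero]
  have pad_psd : ∀ M : Matrix ι ι ℝ, M.IsSymm → ((pad M).PosSemidef ↔ M.PosSemidef) := by
    intro M hM
    constructor
    · intro h
      refine Matrix.PosSemidef.of_dotProduct_mulVec_nonneg ?_ fun y => ?_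
      · rw [Matrix.IsHermitian, Matrix.conjTranspose_eq_transpose_of_trivial]; exact hM
      · have h2 := h.dotProduct_mulVec_nonneg (fun i => if h : ∃ a, φ a = i then y h.choose else 0)
        have h3 := pad_quad M (fun i => if h : ∃ a, φ a = i then y h.choose else 0)
        have h4 : (fun a => (fun i => if h : ∃ a, φ a = i then y h.choose else 0) (φ a)) = y := by
          ext a
          have h5 : ∃ a', φ a' = φ a := ⟨a, rfl⟩
          simp only [dif_pos h5]
          rw [φ.injective h5.choose_spec]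
        rw [h4] at h3
        simp only [star_trivial] at h2 ⊢
        rw [← h3]; exact h2
    · intro h
      refine Matrix.PosSemidef.of_dotProduct_mulVec_nonneg ?_ fun w => ?_
      · rw [Matrix.IsHermitian, Matrix.conjTranspose_eq_transpose_of_trivial]
        exact pad_symm M hM
      · simp only [star_trivial]
        rw [pad_quad]
        have := h.dotProduct_mulVec_nonneg (fun a => w (φ a))
        simpa using this
  refine ⟨fun i => pad (P (Pi.single i 1)), fun j => pad (Q (S (Pi.single j 1))),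
    fun i => pad_symm _ (hP _), fun j => pad_symm _ (hQ _), ?_⟩
  have hx : ∀ x : Fin m → ℝ, ∑ i, x i • pad (P (Pi.single i 1)) = pad (P x) := by
    intro x
    conv_rhs => rw [← Finset.univ_sum_single x]
    simp only [map_sum]
    refine Finset.sum_congr rfl fun i _ => ?_
    rw [← map_smul, ← map_smul, ← Pi.single_smul]
    simp
  have hv : ∀ v : Fin a → ℝ, ∑ j, v j • pad (Q (S (Pi.single j 1))) = pad (Q (S v)) := by
    intro v
    conv_rhs => rw [← Finset.univ_sum_single v]
    simp only [map_sum]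
    refine Finset.sum_congr rfl fun i _ => ?_
    rw [← map_smul, ← map_smul, ← map_smul, ← Pi.single_smul]
    simp
  ext x
  rw [hK, Set.mem_ofPred_eq]
  constructor
  · rintro ⟨y, hy⟩
    obtain ⟨v, rfl⟩ := hS y
    refine ⟨v, ?_⟩
    rw [hx, hv, ← map_add, pad_psd _ ((hP x).add (hQ _))]
    exact hy
  · rintro ⟨v, hv'⟩
    refine ⟨S v, ?_⟩
    rw [hx, hv, ← map_add, pad_psd _ ((hP x).add (hQ _))] at hv'
    exact hv'

/-- **Final padding for S0368.**  A base polynomial `p₀` of degree `d ≤ 16` in 23 variables,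
hyperbolic with respect to `e`, `p₀ e = 1`, a linear form `c` with `c e = 1` which is nonnegative
on the closed cone, non-spectrahedrality of the cone, and a lift with matrices indexed by a type
of cardinality `≤ 100` and an auxiliary space of dimension `≤ 307`. -/
theorem s0368_of_base (p₀ : MvPolynomial (Fin 23) ℝ) (e c : Fin 23 → ℝ) (d : ℕ) (hd : d ≤ 16)
    (hhom : p₀.IsHomogeneous d) (hhyp : IsHyperbolic p₀ e) (h1 : eval e p₀ = 1)
    (hc : ∑ i, c i * e i = 1) (hK : ∀ x ∈ closedCone p₀ e, 0 ≤ ∑ i, c i * x i)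
    (hns : ∀ N : ℕ, 1 ≤ N → ∀ L : (Fin 23 → ℝ) →ₗ[ℝ] Matrix (Fin N) (Fin N) ℝ,
        (∀ x, (L x).IsSymm) → closedCone p₀ e ≠ {x | (L x).PosSemidef})
    {ι E : Type*} [Fintype ι] [DecidableEq ι]
    [AddCommGroup E] [Module ℝ E] [FiniteDimensional ℝ E]
    (hι : Fintype.card ι ≤ 100) (hE : Module.finrank ℝ E ≤ 307)
    (P : (Fin 23 → ℝ) →ₗ[ℝ] Matrix ι ι ℝ) (Q : E →ₗ[ℝ] Matrix ι ι ℝ)
    (hP : ∀ x, (P x).IsSymm) (hQ : ∀ y, (Q y).IsSymm)
    (hlift : ∀ x, x ∈ closedCone p₀ e ↔ ∃ y : E, (P x + Q y).PosSemidef) :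
    ∃ (p q : MvPolynomial (Fin 23) ℝ) (e : Fin 23 → ℝ),
      p.IsHomogeneous 20 ∧ Hyperbolic.IsHyperbolic p e ∧ MvPolynomial.eval e p = 1 ∧
      q.IsHomogeneous 16 ∧ Hyperbolic.IsHyperbolic q e ∧ MvPolynomial.eval e q = 1 ∧
      Hyperbolic.closedCone q e = Hyperbolic.closedCone p e ∧
      (∀ N : ℕ, 1 ≤ N → ∀ L : (Fin 23 → ℝ) →ₗ[ℝ] Matrix (Fin N) (Fin N) ℝ,
        (∀ x, (L x).IsSymm) → Hyperbolic.closedCone p e ≠ {x | (L x).PosSemidef}) ∧
      ∃ (A : Fin 23 → Matrix (Fin 100) (Fin 100) ℝ) (B : Fin 307 → Matrix (Fin 100) (Fin 100) ℝ),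
        (∀ ν, (A ν).IsSymm) ∧ (∀ j, (B j).IsSymm) ∧
        Hyperbolic.closedCone p e =
          {x | ∃ v : Fin 307 → ℝ, (∑ ν, x ν • A ν + ∑ j, v j • B j).PosSemidef} := by
  have hc0 : 0 < ∑ i, c i * e i := by rw [hc]; exact one_pos
  have hcone : ∀ k, closedCone (p₀ * linF c ^ k) e = closedCone p₀ e := fun k =>
    closedCone_mul_linF p₀ c e k hc0 hK
  have hev : ∀ k, eval e (p₀ * linF c ^ k) = 1 := fun k => by
    rw [map_mul, map_pow, linF_eval, hc, h1, one_pow, mul_one]
  have hho : ∀ k n, d + k = n → (p₀ * linF c ^ k).IsHomogeneous n := fun k n hkn => by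
    rw [← hkn]
    have := hhom.mul ((linF_homog c).pow k)
    simpa using this
  refine ⟨p₀ * linF c ^ (20 - d), p₀ * linF c ^ (16 - d), e, hho _ _ (by omega),
    hyp_mul_linF c _ hhyp hc0, hev _, hho _ _ (by omega), hyp_mul_linF c _ hhyp hc0, hev _, ?_, ?_, ?_⟩
  · rw [hcone, hcone]
  · rw [hcone]; exact hns
  · rw [hcone]
    exact lift_pad hι hE P Q hP hQ _ hlift

end Crest.Agent.R237.S2
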