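import Crest.Agent.R237.S2Defs
import Crest.Agent.R237.S2HypCore
import Crest.Agent.R237.S2Pad

/-!
Row 237, S0368, node A: `poly k` is homogeneous of degree `11 + k`, hyperbolic, and `1` at `e`.
-/

set_option autoImplicit false

open Matrix MvPolynomial
open Crest.GeometryTopology Hyperbolic

namespace Crest.Agent.R237.S2Hyp

open S2

/-! ### `F ≥ 0` -/

theorem FF_nonneg (p q r s x0 x1 y0 y1 y2 : ℝ) : 0 ≤ FF p q r s x0 x1 y0 y1 y2 := by
  have e1 : |p * x1 * y0| * |q * x0 * y1| = |p * x0 * y1| * |q * x1 * y0| := by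
    rw [← abs_mul, ← abs_mul]; congr 1; ring
  have e2 : |r * x1 * y1| * |s * x0 * y2| = |r * x0 * y2| * |s * x1 * y1| := by
    rw [← abs_mul, ← abs_mul]; congr 1; ring
  have h1 := sq_nonneg (|p * x1 * y0| - |q * x0 * y1|)
  have h2 := sq_nonneg (|r * x1 * y1| - |s * x0 * y2|)
  have h3 := sq_nonneg (|p * x0 * y1| + |q * x1 * y0| - |r * x0 * y2| - |s * x1 * y1|)
  have a1 : (p * x0 * y1) * (r * x0 * y2) ≤ |p * x0 * y1| * |r * x0 * y2| := by
    rw [← abs_mul]; exact le_abs_self _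
  have a2 : (p * x0 * y1) * (s * x1 * y1) ≤ |p * x0 * y1| * |s * x1 * y1| := by
    rw [← abs_mul]; exact le_abs_self _
  have a3 : (q * x1 * y0) * (r * x0 * y2) ≤ |q * x1 * y0| * |r * x0 * y2| := by
    rw [← abs_mul]; exact le_abs_self _
  have a4 : -((q * x1 * y0) * (s * x1 * y1)) ≤ |q * x1 * y0| * |s * x1 * y1| := by
    rw [← abs_mul]; exact neg_le_abs _
  have s1 := sq_abs (p * x1 * y0)
  have s2 := sq_abs (q * x0 * y1)
  have s3 := sq_abs (r * x1 * y1)
  have s4 := sq_abs (s * x0 * y2)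
  have s5 := sq_abs (p * x0 * y1)
  have s6 := sq_abs (q * x1 * y0)
  have s7 := sq_abs (r * x0 * y2)
  have s8 := sq_abs (s * x1 * y1)
  have key : FF p q r s x0 x1 y0 y1 y2 = (p * x1 * y0) ^ 2 + (q * x0 * y1) ^ 2 +
      (r * x1 * y1) ^ 2 + (s * x0 * y2) ^ 2 + (p * x0 * y1) ^ 2 + (q * x1 * y0) ^ 2 +
      (r * x0 * y2) ^ 2 + (s * x1 * y1) ^ 2 - 2 * ((p * x0 * y1) * (r * x0 * y2) +
        (p * x0 * y1) * (s * x1 * y1) + (q * x1 * y0) * (r * x0 * y2) -
        (q * x1 * y0) * (s * x1 * y1)) := by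
    unfold FF; ring
  rw [key]
  nlinarith

/-- coefficient matrices of `Gam` -/
def G00 (p q r s : ℝ) : Matrix (Fin 3) (Fin 3) ℝ :=
  !![0, 0, 0; 0, p^2+q^2, -(p*r); 0, -(p*r), r^2+s^2]

def G01 (p q r s : ℝ) : Matrix (Fin 3) (Fin 3) ℝ :=
  !![0, 0, -(q*r); 0, -(2*(p*s)), 0; -(q*r), 0, 0]

def G11 (p q r s : ℝ) : Matrix (Fin 3) (Fin 3) ℝ :=
  !![p^2+q^2, q*s, 0; q*s, r^2+s^2, 0; 0, 0, 0]

theorem G00_symm (p q r s : ℝ) : (G00 p q r s).IsSymm := by
  unfold G00; ext i j; fin_cases i <;> fin_cases j <;> simp [Matrix.transpose_apply]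

theorem G01_symm (p q r s : ℝ) : (G01 p q r s).IsSymm := by
  unfold G01; ext i j; fin_cases i <;> fin_cases j <;> simp [Matrix.transpose_apply]

theorem G11_symm (p q r s : ℝ) : (G11 p q r s).IsSymm := by
  unfold G11; ext i j; fin_cases i <;> fin_cases j <;> simp [Matrix.transpose_apply]

theorem form_eq (p q r s x0 x1 : ℝ) (y : Fin 3 → ℝ) :
    x0 ^ 2 * (y ⬝ᵥ (G00 p q r s *ᵥ y)) + x0 * x1 * (y ⬝ᵥ (G01 p q r s *ᵥ y)) +
      x1 ^ 2 * (y ⬝ᵥ (G11 p q r s *ᵥ y)) = FF p q r s x0 x1 (y 0) (y 1) (y 2) := by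
  simp only [G00, G01, G11, FF, dotProduct, mulVec, Fin.sum_univ_three, Matrix.of_apply,
    Matrix.cons_val', Matrix.cons_val_zero, Matrix.cons_val_one, Matrix.cons_val,
    Matrix.cons_val_fin_one]
  ring

/-- the real matrix `U` -/
theorem Um_symm (x : Fin 23 → ℝ) : (Um x).IsSymm := by
  unfold Um; ext i j; fin_cases i <;> fin_cases j <;> simp [Matrix.transpose_apply]

/-- `D9` along the complex line is the determinant of `core`. -/
theorem D9_line (x : Fin 23 → ℝ) (z : ℂ) :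
    D9 (fun i => z * (e23 i : ℂ) - (x i : ℂ)) =
      ((((z - (x 0 : ℝ)) * (z - (x 2 : ℝ)) - ((x 1 : ℝ) : ℂ) ^ 2) •
        (z • (1 : Matrix (Fin 3) (Fin 3) ℂ) - (Um x).map Complex.ofReal) -
      ((z - (x 2 : ℝ)) • (G00 (-(x 3)) (-(x 4)) (-(x 5)) (-(x 6))).map Complex.ofReal +
        ((x 1 : ℝ) : ℂ) • (G01 (-(x 3)) (-(x 4)) (-(x 5)) (-(x 6))).map Complex.ofReal +
        (z - (x 0 : ℝ)) • (G11 (-(x 3)) (-(x 4)) (-(x 5)) (-(x 6))).map Complex.ofReal)).det) := by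
  unfold D9
  congr 1
  ext i j
  fin_cases i <;> fin_cases j <;>
    simp [dl, Um, Gam, G00, G01, G11, e23, Matrix.smul_apply, Matrix.sub_apply, Matrix.add_apply,
      Matrix.one_apply] <;> ring

theorem map_dl {R S : Type*} [CommRing R] [CommRing S] (f : R →+* S) (z : Fin 23 → R) :
    f (dl z) = dl (fun i => f (z i)) := by
  simp [dl]

theorem map_D9 {R S : Type*} [CommRing R] [CommRing S] (f : R →+* S) (z : Fin 23 → R) :
    f (D9 z) = D9 (fun i => f (z i)) := by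
  unfold D9
  rw [RingHom.map_det]
  congr 1
  ext i j
  fin_cases i <;> fin_cases j <;> simp [dl, Um, Gam, map_ofNat]

theorem lineEvalC_dl (x : Fin 23 → ℝ) (z : ℂ) :
    lineEvalC (dl (fun i => (MvPolynomial.X i : MvPolynomial (Fin 23) ℝ))) e23 x z =
      dl (fun i => z * (e23 i : ℂ) - (x i : ℂ)) := by
  unfold lineEvalC
  have := map_dl (MvPolynomial.aeval (fun i => z * (e23 i : ℂ) - (x i : ℂ)) :
    MvPolynomial (Fin 23) ℝ →ₐ[ℝ] ℂ).toRingHom (fun i => MvPolynomial.X i)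
  simpa using this

theorem lineEvalC_D9 (x : Fin 23 → ℝ) (z : ℂ) :
    lineEvalC (D9 (fun i => (MvPolynomial.X i : MvPolynomial (Fin 23) ℝ))) e23 x z =
      D9 (fun i => z * (e23 i : ℂ) - (x i : ℂ)) := by
  unfold lineEvalC
  have := map_D9 (MvPolynomial.aeval (fun i => z * (e23 i : ℂ) - (x i : ℂ)) :
    MvPolynomial (Fin 23) ℝ →ₐ[ℝ] ℂ).toRingHom (fun i => MvPolynomial.X i)
  simpa using this

/-! ### homogeneity -/

theorem homog_dl : (dl (fun i => (MvPolynomial.X i : MvPolynomial (Fin 23) ℝ))).IsHomogeneous 2 := by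
  unfold dl
  exact ((isHomogeneous_X ℝ 0).mul (isHomogeneous_X ℝ 2)).sub ((isHomogeneous_X ℝ 1).pow 2)

theorem homog_det {M : Matrix (Fin 3) (Fin 3) (MvPolynomial (Fin 23) ℝ)} {d : ℕ}
    (h : ∀ i j, (M i j).IsHomogeneous d) : M.det.IsHomogeneous (d + d + d) := by
  rw [Matrix.det_fin_three]
  have t : ∀ i j k l m n, (M i j * M k l * M m n).IsHomogeneous (d + d + d) := fun i j k l m n =>
    ((h i j).mul (h k l)).mul (h m n)
  exact (((((t _ _ _ _ _ _).sub (t _ _ _ _ _ _)).sub (t _ _ _ _ _ _)).add (t _ _ _ _ _ _)).add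
    (t _ _ _ _ _ _)).sub (t _ _ _ _ _ _)

theorem homog_D9 : (D9 (fun i => (MvPolynomial.X i : MvPolynomial (Fin 23) ℝ))).IsHomogeneous 9 := by
  unfold D9
  have hX : ∀ i : Fin 23, (MvPolynomial.X i : MvPolynomial (Fin 23) ℝ).IsHomogeneous 1 := fun i =>
    isHomogeneous_X ℝ i
  have h2 : ∀ i j : Fin 23, ((MvPolynomial.X i : MvPolynomial (Fin 23) ℝ) * MvPolynomial.X j).IsHomogeneous 2 :=
    fun i j => (hX i).mul (hX j)
  have hp : ∀ i : Fin 23, ((MvPolynomial.X i : MvPolynomial (Fin 23) ℝ) ^ 2).IsHomogeneous 2 :=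
    fun i => (hX i).pow 2
  have h3 : ∀ (P : MvPolynomial (Fin 23) ℝ) (i : Fin 23), P.IsHomogeneous 2 →
      (P * MvPolynomial.X i).IsHomogeneous 3 := fun P i hP => hP.mul (hX i)
  have h0 : (0 : MvPolynomial (Fin 23) ℝ).IsHomogeneous 3 := isHomogeneous_zero _ _ _
  have hc : ∀ (P : MvPolynomial (Fin 23) ℝ), P.IsHomogeneous 3 → (2 * P).IsHomogeneous 3 := by
    intro P hP
    have e : (2 : MvPolynomial (Fin 23) ℝ) = MvPolynomial.C (2 : ℝ) := (map_ofNat MvPolynomial.C 2).symm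
    rw [e]
    simpa using (isHomogeneous_C (Fin 23) (2 : ℝ)).mul hP
  refine homog_det (d := 3) fun i j => ?_
  fin_cases i <;> fin_cases j <;>
    simp only [Fin.zero_eta, Fin.mk_one, Fin.reduceFinMk, Matrix.sub_apply, Matrix.smul_apply,
      smul_eq_mul, Um, Gam, Matrix.of_apply, Matrix.cons_val', Matrix.cons_val_zero,
      Matrix.cons_val_one, Matrix.cons_val, Matrix.cons_val_fin_one, mul_neg, neg_mul, neg_neg,
      sub_neg_eq_add]
  · exact (h3 _ _ homog_dl).sub (h3 _ _ ((hp _).add (hp _)))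
  · exact (h3 _ _ homog_dl).sub (h3 _ _ (h2 _ _))
  · exact (h3 _ _ homog_dl).sub (h3 _ _ (h2 _ _))
  · exact (h3 _ _ homog_dl).sub (h3 _ _ (h2 _ _))
  · exact (h3 _ _ homog_dl).sub (((h3 _ _ ((hp _).add (hp _))).add (h3 _ _ ((hp _).add (hp _)))).add
      (hc _ (h3 _ _ (h2 _ _))))
  · exact (h3 _ _ homog_dl).add (h3 _ _ (h2 _ _))
  · exact (h3 _ _ homog_dl).sub (h3 _ _ (h2 _ _))
  · exact (h3 _ _ homog_dl).add (h3 _ _ (h2 _ _))
  · exact (h3 _ _ homog_dl).sub (h3 _ _ ((hp _).add (hp _)))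

/-- **homogeneity** -/
theorem homog_poly (k : ℕ) : (poly k).IsHomogeneous (11 + k) := by
  unfold poly
  have := (homog_dl.mul homog_D9).mul ((isHomogeneous_X ℝ (0 : Fin 23)).pow k)
  simpa using this

/-! ### value at `e` -/

theorem eval_poly (k : ℕ) (x : Fin 23 → ℝ) : eval x (poly k) = dl x * D9 x * x 0 ^ k := by
  unfold poly
  rw [map_mul, map_mul, map_pow, eval_X]
  have h1 := map_dl (MvPolynomial.eval x) (fun i => MvPolynomial.X i)
  have h2 := map_D9 (MvPolynomial.eval x) (fun i => MvPolynomial.X i)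
  simp only [eval_X] at h1 h2
  rw [h1, h2]

theorem eval_e (k : ℕ) : eval e23 (poly k) = 1 := by
  rw [eval_poly]
  have h1 : dl e23 = 1 := by simp [dl, e23]
  have h2 : D9 e23 = 1 := by
    unfold D9
    rw [Matrix.det_fin_three]
    simp [dl, Um, Gam, e23]
  have h3 : e23 0 = 1 := rfl
  rw [h1, h2, h3]; simp

/-! ### hyperbolicity -/

theorem hyp_dl : IsHyperbolic (dl (fun i => (MvPolynomial.X i : MvPolynomial (Fin 23) ℝ))) e23 := by
  refine ⟨⟨2, homog_dl⟩, ?_, ?_⟩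
  · have h1 := map_dl (MvPolynomial.eval e23) (fun i => MvPolynomial.X i)
    simp only [eval_X] at h1
    rw [h1]; simp [dl, e23]
  · intro x z h
    rw [lineEvalC_dl] at h
    simp only [dl, e23, Matrix.cons_val_zero, Matrix.cons_val_one, Matrix.cons_val] at h
    by_contra hz
    have hre := congrArg Complex.re h
    have him := congrArg Complex.im h
    simp [pow_two] at hre him
    have e1 : z.im * ((z.re - x 0) + (z.re - x 2)) = 0 := by linarith
    have e2 : (z.re - x 0) + (z.re - x 2) = 0 := (mul_eq_zero.1 e1).resolve_left hz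
    have e3 : z.re - x 2 = -(z.re - x 0) := by linarith
    rw [e3] at hre
    have : 0 < z.im ^ 2 := by positivity
    nlinarith [sq_nonneg (z.re - x 0), sq_nonneg (x 1)]

theorem hyp_D9 : IsHyperbolic (D9 (fun i => (MvPolynomial.X i : MvPolynomial (Fin 23) ℝ))) e23 := by
  refine ⟨⟨9, homog_D9⟩, ?_, ?_⟩
  · have h1 := map_D9 (MvPolynomial.eval e23) (fun i => MvPolynomial.X i)
    simp only [eval_X] at h1
    rw [h1]
    unfold D9
    rw [Matrix.det_fin_three]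
    simp [dl, Um, Gam, e23]
  · intro x z h
    rw [lineEvalC_D9, D9_line] at h
    exact core _ _ _ _ (G00_symm _ _ _ _) (G01_symm _ _ _ _) (G11_symm _ _ _ _) (Um_symm x)
      (fun x0 x1 y => by rw [form_eq]; exact FF_nonneg _ _ _ _ _ _ _ _ _) _ _ _ z h

theorem X_eq_linF : (MvPolynomial.X 0 : MvPolynomial (Fin 23) ℝ) = linF (Pi.single 0 1) := by
  unfold linF
  rw [Finset.sum_eq_single 0]
  · simp
  · intro b _ hb; simp [hb]
  · intro h; exact absurd (Finset.mem_univ _) h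

/-- **hyperbolicity of `poly k`** -/
theorem hyp_poly (k : ℕ) : IsHyperbolic (poly k) e23 := by
  unfold poly
  refine hyp_mul (hyp_mul hyp_dl hyp_D9) (hyp_pow ?_ k)
  rw [X_eq_linF]
  refine hyp_linF _ _ ?_
  rw [Finset.sum_eq_single 0]
  · simp [e23]
  · intro b _ hb; simp [hb]
  · intro h; exact absurd (Finset.mem_univ _) h

/-- same as `hyp_poly` -/
theorem hyperbolic_poly (k : ℕ) : Hyperbolic.IsHyperbolic (poly k) e23 := hyp_poly k

end Crest.Agent.R237.S2Hyp
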