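import Mathlib

set_option autoImplicit false

/-! Row 237, S0368, node C (lift), part 1: positivity of the slice map `GW`. -/

namespace Crest.Agent.R237.S2K

open Matrix

/-- index type of the lifting variables: `(i,k)` stands for `x_i v_k` -/
abbrev I8 := Fin 2 × Fin 4

/-- replace `v_k v_l s_ij` by `W (i,k) (j,l)` in `G(v)(S)` -/
def GW (W : Matrix I8 I8 ℝ) : Matrix (Fin 3) (Fin 3) ℝ :=
  !![W (1,0) (1,0) + W (1,1) (1,1), W (1,1) (1,3), W (0,1) (1,2);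
     W (1,1) (1,3), W (0,0) (0,0) + W (0,1) (0,1) + W (1,2) (1,2) + W (1,3) (1,3)
        + 2 * W (0,0) (1,3), - W (0,0) (0,2);
     W (0,1) (1,2), - W (0,0) (0,2), W (0,2) (0,2) + W (0,3) (0,3)]

/-- block symmetric -/
def BSym (W : Matrix I8 I8 ℝ) : Prop := ∀ i j k l, W (i,k) (j,l) = W (j,k) (i,l)

/-- vector from a 2x4 table -/
def hv (a b c d e f g h : ℝ) : I8 → ℝ := fun q =>
  (!![a, b, c, d; e, f, g, h] : Matrix (Fin 2) (Fin 4) ℝ) q.1 q.2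

theorem quad_nonneg {W : Matrix I8 I8 ℝ} (hW : W.PosSemidef) (u : I8 → ℝ) :
    0 ≤ ∑ p, ∑ q, u p * W p q * u q := by
  have h := hW.dotProduct_mulVec_nonneg u
  have e : star u ⬝ᵥ W *ᵥ u = ∑ p, ∑ q, u p * W p q * u q := by
    simp only [dotProduct, mulVec, Finset.mul_sum]
    refine Finset.sum_congr rfl fun p _ => Finset.sum_congr rfl fun q _ => ?_
    simp [mul_assoc]
  rwa [e] at h

theorem slice (W : Matrix I8 I8 ℝ) (hs : W.IsSymm) (hb : BSym W) (y0 y1 y2 : ℝ) :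
    (y1 ^ 4 + y0 ^ 2 * y2 ^ 2) ^ 2 * (y0 * (GW W 0 0 * y0 + GW W 0 1 * y1 + GW W 0 2 * y2) +
      y1 * (GW W 1 0 * y0 + GW W 1 1 * y1 + GW W 1 2 * y2) +
      y2 * (GW W 2 0 * y0 + GW W 2 1 * y1 + GW W 2 2 * y2)) =
    (∑ p, ∑ q, hv ((y1 ^ 4 + y0 ^ 2 * y2 ^ 2) * y1) 0 (-((y1 ^ 4 + y0 ^ 2 * y2 ^ 2) * y2)) 0
        0 ((y1 ^ 4 - y0 ^ 2 * y2 ^ 2) * y0) 0 ((y1 ^ 4 - y0 ^ 2 * y2 ^ 2) * y1) p * W p q *
       hv ((y1 ^ 4 + y0 ^ 2 * y2 ^ 2) * y1) 0 (-((y1 ^ 4 + y0 ^ 2 * y2 ^ 2) * y2)) 0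
        0 ((y1 ^ 4 - y0 ^ 2 * y2 ^ 2) * y0) 0 ((y1 ^ 4 - y0 ^ 2 * y2 ^ 2) * y1) q) +
    (∑ p, ∑ q, hv 0 0 0 0 0 (2 * y0 * y2 * y1 ^ 2 * y0) 0 (2 * y0 * y2 * y1 ^ 2 * y1) p * W p q *
       hv 0 0 0 0 0 (2 * y0 * y2 * y1 ^ 2 * y0) 0 (2 * y0 * y2 * y1 ^ 2 * y1) q) +
    (∑ p, ∑ q, hv 0 (-((y1 ^ 4 - y0 ^ 2 * y2 ^ 2) * y1)) 0 (2 * y0 * y2 * y1 ^ 2 * y2)
        ((y1 ^ 4 + y0 ^ 2 * y2 ^ 2) * y0) 0 0 0 p * W p q *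
       hv 0 (-((y1 ^ 4 - y0 ^ 2 * y2 ^ 2) * y1)) 0 (2 * y0 * y2 * y1 ^ 2 * y2)
        ((y1 ^ 4 + y0 ^ 2 * y2 ^ 2) * y0) 0 0 0 q) +
    (∑ p, ∑ q, hv 0 (2 * y0 * y2 * y1 ^ 2 * y1) 0 ((y1 ^ 4 - y0 ^ 2 * y2 ^ 2) * y2)
        0 0 ((y1 ^ 4 + y0 ^ 2 * y2 ^ 2) * y1) 0 p * W p q *
       hv 0 (2 * y0 * y2 * y1 ^ 2 * y1) 0 ((y1 ^ 4 - y0 ^ 2 * y2 ^ 2) * y2)
        0 0 ((y1 ^ 4 + y0 ^ 2 * y2 ^ 2) * y1) 0 q) := by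
  have s : ∀ p q, W p q = W q p := fun p q => (hs.apply p q).symm
  -- canonical names
  have a1 : W (1,3) (1,1) = W (1,1) (1,3) := s _ _
  have a2 : W (0,2) (0,0) = W (0,0) (0,2) := s _ _
  have a3 : W (1,1) (0,0) = W (0,0) (1,1) := s _ _
  have a4 : W (1,3) (0,0) = W (0,0) (1,3) := s _ _
  have a5 : W (1,1) (0,2) = W (0,2) (1,1) := s _ _
  have a6 : W (0,2) (1,1) = W (0,1) (1,2) := by rw [s (0,2) (1,1), hb 1 0 1 2]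
  have a7 : W (1,3) (0,2) = W (0,2) (1,3) := s _ _
  have a8 : W (0,3) (0,1) = W (0,1) (0,3) := s _ _
  have a9 : W (1,0) (0,1) = W (0,0) (1,1) := hb 1 0 0 1
  have a10 : W (0,1) (1,0) = W (0,0) (1,1) := by rw [s (0,1) (1,0), a9]
  have a11 : W (1,0) (0,3) = W (0,0) (1,3) := hb 1 0 0 3
  have a12 : W (0,3) (1,0) = W (0,0) (1,3) := by rw [s (0,3) (1,0), a11]
  have a13 : W (1,2) (0,1) = W (0,1) (1,2) := s _ _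
  have a14 : W (1,2) (0,3) = W (0,2) (1,3) := hb 1 0 2 3
  have a15 : W (0,3) (1,2) = W (0,2) (1,3) := by rw [s (0,3) (1,2), a14]
  simp only [Fintype.sum_prod_type, Fin.sum_univ_succ, Fin.sum_univ_zero, hv, GW]
  simp [a1, a2, a3, a4, a5, a6, a7, a8, a9, a10, a11, a12, a13, a14, a15, Matrix.vecHead, Matrix.vecTail]
  ring

end Crest.Agent.R237.S2K
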