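import Mathlib
import Crest.Agent.R237.S2Defs
import Crest.Agent.R237.S2K1

set_option autoImplicit false

/-! Row 237, S0368, node N3 (lift), part 2: positivity of `GW`, the LMI and the explicit set `K1`. -/

namespace Crest.Agent.R237.S2K

open Matrix Crest.Agent.R237.S2

theorem GW_symm (W : Matrix I8 I8 ℝ) : (GW W).IsSymm := by
  ext i j
  fin_cases i <;> fin_cases j <;> rfl

/-- **The slice map is positive.** -/
theorem GW_posSemidef {W : Matrix I8 I8 ℝ} (hW : W.PosSemidef) (hb : BSym W) :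
    (GW W).PosSemidef := by
  have hs : W.IsSymm := by
    have := hW.isHermitian
    rwa [Matrix.IsHermitian, Matrix.conjTranspose_eq_transpose_of_trivial] at this
  refine Matrix.PosSemidef.of_dotProduct_mulVec_nonneg ?_ fun y => ?_
  · rw [Matrix.IsHermitian, Matrix.conjTranspose_eq_transpose_of_trivial]
    exact GW_symm W
  have hexp : star y ⬝ᵥ GW W *ᵥ y =
      y 0 * (GW W 0 0 * y 0 + GW W 0 1 * y 1 + GW W 0 2 * y 2) +
      y 1 * (GW W 1 0 * y 0 + GW W 1 1 * y 1 + GW W 1 2 * y 2) +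
      y 2 * (GW W 2 0 * y 0 + GW W 2 1 * y 1 + GW W 2 2 * y 2) := by
    simp only [dotProduct, mulVec, Fin.sum_univ_three, Pi.star_apply, star_trivial]
  rw [hexp]
  have hsl := slice W hs hb (y 0) (y 1) (y 2)
  have h1 := quad_nonneg hW (hv ((y 1 ^ 4 + y 0 ^ 2 * y 2 ^ 2) * y 1) 0 (-((y 1 ^ 4 + y 0 ^ 2 * y 2 ^ 2) * y 2)) 0
        0 ((y 1 ^ 4 - y 0 ^ 2 * y 2 ^ 2) * y 0) 0 ((y 1 ^ 4 - y 0 ^ 2 * y 2 ^ 2) * y 1))
  have h2 := quad_nonneg hW (hv 0 0 0 0 0 (2 * y 0 * y 2 * y 1 ^ 2 * y 0) 0 (2 * y 0 * y 2 * y 1 ^ 2 * y 1))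
  have h3 := quad_nonneg hW (hv 0 (-((y 1 ^ 4 - y 0 ^ 2 * y 2 ^ 2) * y 1)) 0 (2 * y 0 * y 2 * y 1 ^ 2 * y 2)
        ((y 1 ^ 4 + y 0 ^ 2 * y 2 ^ 2) * y 0) 0 0 0)
  have h4 := quad_nonneg hW (hv 0 (2 * y 0 * y 2 * y 1 ^ 2 * y 1) 0 ((y 1 ^ 4 - y 0 ^ 2 * y 2 ^ 2) * y 2)
        0 0 ((y 1 ^ 4 + y 0 ^ 2 * y 2 ^ 2) * y 1) 0)
  by_cases hN : y 1 ^ 4 + y 0 ^ 2 * y 2 ^ 2 = 0
  · have hy1 : y 1 = 0 := by
      have e1 : y 1 ^ 4 = (y 1 ^ 2) ^ 2 := by ring
      have e2 : y 0 ^ 2 * y 2 ^ 2 = (y 0 * y 2) ^ 2 := by ring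
      rw [e1, e2] at hN
      have : y 1 ^ 2 = 0 := by nlinarith [sq_nonneg (y 1 ^ 2), sq_nonneg (y 0 * y 2)]
      exact pow_eq_zero_iff (two_ne_zero) |>.1 this
    have hy02 : y 0 = 0 ∨ y 2 = 0 := by
      rw [hy1] at hN
      have : (y 0 * y 2) ^ 2 = 0 := by nlinarith
      exact mul_eq_zero.1 (pow_eq_zero_iff (two_ne_zero) |>.1 this)
    have hd : ∀ p, 0 ≤ W p p := fun p => hW.diag_nonneg
    rcases hy02 with h0 | h0
    · rw [hy1, h0]
      simp only [GW]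
      have := hd (0,2)
      have := hd (0,3)
      simp
      nlinarith [mul_nonneg (add_nonneg (hd (0,2)) (hd (0,3))) (sq_nonneg (y 2))]
    · rw [hy1, h0]
      simp only [GW]
      simp
      nlinarith [mul_nonneg (add_nonneg (hd (1,0)) (hd (1,1))) (sq_nonneg (y 0))]
  · have hpos : 0 < (y 1 ^ 4 + y 0 ^ 2 * y 2 ^ 2) ^ 2 := by positivity
    refine nonneg_of_mul_nonneg_right ?_ hpos
    rw [hsl]
    linarith

/-- sign flip of the off-diagonal `x`-blocks -/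
def flp (W : Matrix I8 I8 ℝ) : Matrix I8 I8 ℝ :=
  Matrix.of fun p q => (if p.1 = 0 then 1 else -1) * (if q.1 = 0 then 1 else -1) * W p q

theorem flp_posSemidef {W : Matrix I8 I8 ℝ} (hW : W.PosSemidef) : (flp W).PosSemidef := by
  have h : flp W = (Matrix.diagonal fun p : I8 => (if p.1 = 0 then (1 : ℝ) else -1)) * W *
      (Matrix.diagonal fun p : I8 => (if p.1 = 0 then (1 : ℝ) else -1))ᴴ := by
    ext p q
    rw [Matrix.diagonal_conjTranspose, Matrix.mul_diagonal, Matrix.diagonal_mul]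
    simp only [flp, Matrix.of_apply, Pi.star_apply, star_trivial]
    ring
  rw [h]
  exact hW.mul_mul_conjTranspose_same _

theorem flp_bsym {W : Matrix I8 I8 ℝ} (hW : BSym W) : BSym (flp W) := by
  intro i j k l
  simp only [flp, Matrix.of_apply]
  rw [hW i j k l]
  ring

/-- `Γ`-type slice map in the sign convention of `Gam` -/
noncomputable def GQ (W : Matrix I8 I8 ℝ) : Matrix (Fin 3) (Fin 3) ℝ := GW (flp W)

theorem GQ_posSemidef {W : Matrix I8 I8 ℝ} (hW : W.PosSemidef) (hb : BSym W) :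
    (GQ W).PosSemidef := GW_posSemidef (flp_posSemidef hW) (flp_bsym hb)

theorem GQ_add (W W' : Matrix I8 I8 ℝ) : GQ (W + W') = GQ W + GQ W' := by
  ext i j
  fin_cases i <;> fin_cases j <;> simp [GQ, GW, flp] <;> ring

theorem GQ_smul (c : ℝ) (W : Matrix I8 I8 ℝ) : GQ (c • W) = c • GQ W := by
  ext i j
  fin_cases i <;> fin_cases j <;> simp [GQ, GW, flp] <;> ring

/-- `B i (j,k) = δ_ij v_k` -/
def Bm (z : Fin 23 → ℝ) : Matrix (Fin 2) I8 ℝ :=
  Matrix.of fun i q => if i = q.1 then z (![3, 4, 5, 6] q.2) else 0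

theorem GQ_outer (z : Fin 23 → ℝ) (S : Matrix (Fin 2) (Fin 2) ℝ) (_hS : S 1 0 = S 0 1) :
    GQ ((Bm z)ᴴ * S * Bm z) = Gam (z 3) (z 4) (z 5) (z 6) (S 0 0) (S 0 1) (S 1 1) := by
  have e : ∀ i j k l, ((Bm z)ᴴ * S * Bm z) (i,k) (j,l) =
      z (![3, 4, 5, 6] k) * S i j * z (![3, 4, 5, 6] l) := by
    intro i j k l
    simp only [Matrix.mul_apply, Fin.sum_univ_two, Matrix.conjTranspose_apply, Bm, Matrix.of_apply,
      star_trivial]
    fin_cases i <;> fin_cases j <;> simp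
  generalize (Bm z)ᴴ * S * Bm z = T at e ⊢
  ext i j
  fin_cases i <;> fin_cases j <;> simp [GQ, GW, flp, e, Gam] <;> ring

end Crest.Agent.R237.S2K
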