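import Mathlib
import Crest.Agent.R237.S2K2

set_option autoImplicit false

/-! Row 237, S0368, node N3 (lift), part 3: LMI ↔ explicit set `K1`. -/

namespace Crest.Agent.R237.S2K

open Matrix Crest.Agent.R237.S2

/-- explicit description of the cone -/
def K1 : Set (Fin 23 → ℝ) := {z | (0 < z 0 ∧ 0 < dl z ∧ (Um z - Gz z).PosSemidef) ∨
  (0 ≤ z 0 ∧ 0 ≤ z 2 ∧ dl z = 0 ∧ z 3 = 0 ∧ z 4 = 0 ∧ z 5 = 0 ∧ z 6 = 0 ∧ (Um z).PosSemidef)}

/-- the linear matrix inequality -/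
def LMI (z : Fin 23 → ℝ) (W : Matrix I8 I8 ℝ) : Prop :=
  (fromBlocks (Xm z) (Bm z) (Bm z)ᴴ W).PosSemidef ∧ (Um z - GQ W).PosSemidef

theorem Xm_symm (z : Fin 23 → ℝ) : (Xm z).IsHermitian := by
  rw [Matrix.IsHermitian, Matrix.conjTranspose_eq_transpose_of_trivial]
  ext i j
  fin_cases i <;> fin_cases j <;> rfl

theorem Xm_quad (z : Fin 23 → ℝ) (y : Fin 2 → ℝ) :
    star y ⬝ᵥ Xm z *ᵥ y = z 0 * y 0 ^ 2 + 2 * z 1 * (y 0 * y 1) + z 2 * y 1 ^ 2 := by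
  simp only [dotProduct, mulVec, Fin.sum_univ_two, Xm, Pi.star_apply, star_trivial]
  simp
  ring

theorem Xm_posDef {z : Fin 23 → ℝ} (h0 : 0 < z 0) (hd : 0 < dl z) : (Xm z).PosDef := by
  refine Matrix.PosDef.of_dotProduct_mulVec_pos (Xm_symm z) fun y hy => ?_
  rw [Xm_quad]
  have hd' : 0 < z 0 * z 2 - z 1 ^ 2 := hd
  have h1 : z 0 * (z 0 * y 0 ^ 2 + 2 * z 1 * (y 0 * y 1) + z 2 * y 1 ^ 2) =
      (z 0 * y 0 + z 1 * y 1) ^ 2 + (z 0 * z 2 - z 1 ^ 2) * y 1 ^ 2 := by ring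
  have h2 : 0 < (z 0 * y 0 + z 1 * y 1) ^ 2 + (z 0 * z 2 - z 1 ^ 2) * y 1 ^ 2 := by
    by_cases hy1 : y 1 = 0
    · have hy0 : y 0 ≠ 0 := by
        intro hy0
        apply hy
        funext i
        fin_cases i
        · exact hy0
        · exact hy1
      rw [hy1]
      have : 0 < (z 0 * y 0) ^ 2 := by positivity
      nlinarith
    · have : 0 < (z 0 * z 2 - z 1 ^ 2) * y 1 ^ 2 := by positivity
      nlinarith [sq_nonneg (z 0 * y 0 + z 1 * y 1)]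
  rw [← h1] at h2
  exact (mul_pos_iff_of_pos_left h0).1 h2

theorem Xm_posSemidef {z : Fin 23 → ℝ} (h0 : 0 ≤ z 0) (h2 : 0 ≤ z 2) (hd : 0 ≤ dl z) :
    (Xm z).PosSemidef := by
  refine Matrix.PosSemidef.of_dotProduct_mulVec_nonneg (Xm_symm z) fun y => ?_
  rw [Xm_quad]
  have hd' : 0 ≤ z 0 * z 2 - z 1 ^ 2 := hd
  rcases h0.eq_or_lt with h | h
  · rw [← h] at hd' ⊢
    have h1 : z 1 = 0 := by nlinarith [sq_nonneg (z 1)]
    rw [h1]
    have := mul_nonneg h2 (sq_nonneg (y 1))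
    linarith
  · have h1 : z 0 * (z 0 * y 0 ^ 2 + 2 * z 1 * (y 0 * y 1) + z 2 * y 1 ^ 2) =
      (z 0 * y 0 + z 1 * y 1) ^ 2 + (z 0 * z 2 - z 1 ^ 2) * y 1 ^ 2 := by ring
    have h3 : 0 ≤ (z 0 * y 0 + z 1 * y 1) ^ 2 + (z 0 * z 2 - z 1 ^ 2) * y 1 ^ 2 := by
      have := mul_nonneg hd' (sq_nonneg (y 1))
      have := sq_nonneg (z 0 * y 0 + z 1 * y 1)
      linarith
    rw [← h1] at h3
    exact nonneg_of_mul_nonneg_right h3 h

theorem Xm_inv {z : Fin 23 → ℝ} (hd : dl z ≠ 0) :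
    (Xm z)⁻¹ 0 0 = z 2 / dl z ∧ (Xm z)⁻¹ 0 1 = -(z 1) / dl z ∧ (Xm z)⁻¹ 1 0 = -(z 1) / dl z ∧
      (Xm z)⁻¹ 1 1 = z 0 / dl z := by
  have hdet : (Xm z).det = dl z := by
    simp [Xm, dl, Matrix.det_fin_two]
    ring
  have h : (Xm z)⁻¹ = (dl z)⁻¹ • !![z 2, -(z 1); -(z 1), z 0] := by
    rw [Matrix.inv_def, hdet, Ring.inverse_eq_inv', Matrix.adjugate_fin_two]
    rfl
  rw [h]
  refine ⟨?_, ?_, ?_, ?_⟩ <;> simp <;> field_simp

/-- for a real point with `dl ≠ 0` the outer product gives `Γ(v)(X⁻¹)` -/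
theorem GQ_schur {z : Fin 23 → ℝ} (hd : dl z ≠ 0) : GQ ((Bm z)ᴴ * (Xm z)⁻¹ * Bm z) = Gz z := by
  obtain ⟨e1, e2, e3, e4⟩ := Xm_inv hd
  rw [GQ_outer z _ (by rw [e2, e3]), e1, e2, e4]
  rfl

theorem outer_bsym (z : Fin 23 → ℝ) (S : Matrix (Fin 2) (Fin 2) ℝ) (hS : S 1 0 = S 0 1) :
    BSym ((Bm z)ᴴ * S * Bm z) := by
  have e : ∀ i j k l, ((Bm z)ᴴ * S * Bm z) (i,k) (j,l) =
      z (![3, 4, 5, 6] k) * S i j * z (![3, 4, 5, 6] l) := by
    intro i j k l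
    simp only [Matrix.mul_apply, Fin.sum_univ_two, Matrix.conjTranspose_apply, Bm, Matrix.of_apply,
      star_trivial]
    fin_cases i <;> fin_cases j <;> simp
  intro i j k l
  rw [e, e]
  have : S i j = S j i := by
    fin_cases i <;> fin_cases j <;> simp [hS]
  rw [this]

theorem BSym_sub {W W' : Matrix I8 I8 ℝ} (h : BSym W) (h' : BSym W') : BSym (W - W') := by
  intro i j k l
  rw [Matrix.sub_apply, Matrix.sub_apply, h i j k l, h' i j k l]

theorem GQ_sub (W W' : Matrix I8 I8 ℝ) : GQ (W - W') = GQ W - GQ W' := by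
  have h := GQ_add (W - W') W'
  rw [sub_add_cancel] at h
  rw [h, add_sub_cancel_right]

theorem lmi_of_K1 {z : Fin 23 → ℝ} (hz : z ∈ K1) : ∃ W, W.IsSymm ∧ BSym W ∧ LMI z W := by
  rcases hz with ⟨h0, hd, hU⟩ | ⟨h0, h2, hd, h3, h4, h5, h6, hU⟩
  · have hX := Xm_posDef h0 hd
    have := hX.isUnit.invertible
    obtain ⟨e1, e2, e3, e4⟩ := Xm_inv hd.ne'
    refine ⟨(Bm z)ᴴ * (Xm z)⁻¹ * Bm z, ?_, outer_bsym z _ (by rw [e2, e3]), ?_, ?_⟩
    · have := hX.inv.isHermitian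
      have h5 : ((Bm z)ᴴ * (Xm z)⁻¹ * Bm z).IsHermitian := by
        unfold Matrix.IsHermitian
        rw [Matrix.conjTranspose_mul, Matrix.conjTranspose_mul, this.eq,
          Matrix.conjTranspose_conjTranspose, Matrix.mul_assoc]
      rwa [Matrix.IsHermitian, Matrix.conjTranspose_eq_transpose_of_trivial] at h5
    · rw [Matrix.PosDef.fromBlocks₁₁ (Bm z) _ hX, sub_self]
      exact Matrix.PosSemidef.zero
    · rw [GQ_schur hd.ne']
      exact hU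
  · have hB : Bm z = 0 := by
      ext i q
      simp only [Bm, Matrix.of_apply, Matrix.zero_apply]
      have : z (![3, 4, 5, 6] q.2) = 0 := by
        rcases q with ⟨a, b⟩
        fin_cases b
        · exact h3
        · exact h4
        · exact h5
        · exact h6
      rw [this]
      simp
    refine ⟨0, ?_, ?_, ?_, ?_⟩
    · exact Matrix.isSymm_zero
    · intro i j k l; rfl
    · rw [hB]
      have hX := Xm_posSemidef h0 h2 hd.ge
      refine Matrix.PosSemidef.of_dotProduct_mulVec_nonneg ?_ fun y => ?_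
      · unfold Matrix.IsHermitian
        have h9 := (Xm_symm z).eq
        rw [Matrix.fromBlocks_conjTranspose, h9]
        simp
      · have h7 := hX.dotProduct_mulVec_nonneg (y ∘ Sum.inl)
        have h8 : star y ⬝ᵥ (fromBlocks (Xm z) 0 (0 : Matrix (Fin 2) I8 ℝ)ᴴ 0) *ᵥ y =
            star (y ∘ Sum.inl) ⬝ᵥ Xm z *ᵥ (y ∘ Sum.inl) := by
          rw [Matrix.fromBlocks_mulVec]
          simp only [dotProduct, Fintype.sum_sum_type, Sum.elim_inl, Sum.elim_inr]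
          simp
        rw [h8]
        exact h7
    · have : GQ 0 = 0 := by
        have h := GQ_smul 0 (0 : Matrix I8 I8 ℝ)
        simpa using h
      rw [this, sub_zero]
      exact hU

end Crest.Agent.R237.S2K
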