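import Mathlib
import Crest.Agent.R237.S2K3

set_option autoImplicit false

/-! Row 237, S0368, node N3 (lift), part 4: LMI → `K1`, `K1 = KK`. -/

namespace Crest.Agent.R237.S2K

open Matrix Crest.Agent.R237.S2

theorem K1_of_lmi {z : Fin 23 → ℝ} {W : Matrix I8 I8 ℝ} (hb : BSym W) (h : LMI z W) : z ∈ K1 := by
  obtain ⟨hT, hU⟩ := h
  have hX : (Xm z).PosSemidef := by
    exact hT.submatrix Sum.inl
  have hW : W.PosSemidef := by
    exact hT.submatrix Sum.inr
  have h0 : 0 ≤ z 0 := by simpa [Xm] using hX.diag_nonneg (i := 0)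
  have h2 : 0 ≤ z 2 := by simpa [Xm] using hX.diag_nonneg (i := 1)
  have hdet : (Xm z).det = dl z := by
    simp [Xm, dl, Matrix.det_fin_two]
    ring
  have hd : 0 ≤ dl z := by rw [← hdet]; exact hX.det_nonneg
  rcases hd.eq_or_lt with hd0 | hd1
  · -- singular case
    obtain ⟨ξ, hξ, hXξ⟩ : ∃ ξ : Fin 2 → ℝ, ξ ≠ 0 ∧ Xm z *ᵥ ξ = 0 := by
      have h3 : (Xm z).det = 0 := by rw [hdet]; exact hd0.symm
      exact Matrix.exists_mulVec_eq_zero_iff.2 h3
    have hq : star (Sum.elim ξ (0 : I8 → ℝ)) ⬝ᵥ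
        (fromBlocks (Xm z) (Bm z) (Bm z)ᴴ W) *ᵥ (Sum.elim ξ (0 : I8 → ℝ)) = 0 := by
      rw [Matrix.fromBlocks_mulVec]
      simp only [dotProduct, Fintype.sum_sum_type, Sum.elim_inl, Sum.elim_inr, Pi.star_apply,
        Function.comp_def, Pi.zero_apply, star_zero, zero_mul, Finset.sum_const_zero, add_zero]
      have h4 : ∀ i, (Xm z *ᵥ ξ) i = 0 := fun i => by rw [hXξ]; rfl
      have h5 : ∀ i, (Bm z *ᵥ fun _ : I8 => (0 : ℝ)) i = 0 := by
        intro i
        simp [mulVec, dotProduct]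
      simp only [Pi.add_apply]
      refine Finset.sum_eq_zero fun i _ => ?_
      have h6 := h4 i
      have h7 := h5 i
      simp only [mulVec, dotProduct] at h6 h7 ⊢
      rw [h6, h7]
      simp
    have hz := (hT.dotProduct_mulVec_zero_iff _).1 hq
    have hBξ : ∀ j k, z (![3, 4, 5, 6] k) * ξ j = 0 := by
      intro j k
      have h4 := congrFun hz (Sum.inr (j, k))
      rw [Matrix.fromBlocks_mulVec] at h4
      simp only [Sum.elim_inr, Pi.add_apply, mulVec, dotProduct, Function.comp_def, Sum.elim_inl,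
        Pi.zero_apply, mul_zero, Finset.sum_const_zero, add_zero, Matrix.conjTranspose_apply, Bm,
        Matrix.of_apply, star_trivial, Fin.sum_univ_two] at h4
      fin_cases j
      · simpa using h4
      · simpa using h4
    have hv : ∀ k, z (![3, 4, 5, 6] k) = 0 := by
      intro k
      obtain ⟨j, hj⟩ := Function.ne_iff.1 hξ
      exact (mul_eq_zero.1 (hBξ j k)).resolve_right hj
    right
    refine ⟨h0, h2, hd0.symm, hv 0, hv 1, hv 2, hv 3, ?_⟩
    have := hU.add (GQ_posSemidef hW hb)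
    simpa using this
  · left
    have h0' : 0 < z 0 := by
      rcases h0.eq_or_lt with h | h
      · exfalso
        have h3 : dl z = z 0 * z 2 - z 1 ^ 2 := rfl
        rw [h3, ← h] at hd1
        nlinarith [sq_nonneg (z 1)]
      · exact h
    have hXp := Xm_posDef h0' hd1
    have := hXp.isUnit.invertible
    obtain ⟨e1, e2, e3, e4⟩ := Xm_inv hd1.ne'
    rw [Matrix.PosDef.fromBlocks₁₁ (Bm z) _ hXp] at hT
    refine ⟨h0', hd1, ?_⟩
    have h3 := GQ_posSemidef hT (BSym_sub hb (outer_bsym z _ (by rw [e2, e3])))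
    rw [GQ_sub, GQ_schur hd1.ne'] at h3
    have h4 := hU.add h3
    have h5 : Um z - GQ W + (GQ W - Gz z) = Um z - Gz z := by abel
    rwa [h5] at h4

theorem Um_te (z : Fin 23 → ℝ) (t : ℝ) : Um (z + t • e23) = Um z + t • 1 := by
  ext i j
  fin_cases i <;> fin_cases j <;> simp [Um, e23]

theorem Xm_te (z : Fin 23 → ℝ) (t : ℝ) : Xm (z + t • e23) = Xm z + t • 1 := by
  ext i j
  fin_cases i <;> fin_cases j <;> simp [Xm, e23]

theorem Bm_te (z : Fin 23 → ℝ) (t : ℝ) : Bm (z + t • e23) = Bm z := by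
  ext i q
  rcases q with ⟨a, b⟩
  simp only [Bm, Matrix.of_apply]
  fin_cases b <;> simp [e23]

theorem dl_te (z : Fin 23 → ℝ) (t : ℝ) : dl (z + t • e23) = dl z + t * (z 0 + z 2) + t ^ 2 := by
  simp [dl, e23]
  ring

theorem z0_te (z : Fin 23 → ℝ) (t : ℝ) : (z + t • e23) 0 = z 0 + t := by
  simp [e23]

theorem z2_te (z : Fin 23 → ℝ) (t : ℝ) : (z + t • e23) 2 = z 2 + t := by
  simp [e23]

theorem lmi_te {z : Fin 23 → ℝ} {W : Matrix I8 I8 ℝ} (h : LMI z W) {t : ℝ} (ht : 0 ≤ t) :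
    LMI (z + t • e23) W := by
  refine ⟨?_, ?_⟩
  · rw [Xm_te, Bm_te]
    have h1 : fromBlocks (Xm z + t • (1 : Matrix (Fin 2) (Fin 2) ℝ)) (Bm z) (Bm z)ᴴ W =
        fromBlocks (Xm z) (Bm z) (Bm z)ᴴ W +
        t • Matrix.diagonal (Sum.elim (fun _ : Fin 2 => (1 : ℝ)) (fun _ : I8 => (0 : ℝ))) := by
      ext i j
      rcases i with i | i <;> rcases j with j | j <;>
        simp [Matrix.diagonal_apply, Matrix.one_apply]
    rw [h1]
    refine h.1.add (Matrix.PosSemidef.smul (Matrix.PosSemidef.diagonal ?_) ht)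
    intro i
    rcases i with i | i <;> simp
  · rw [Um_te]
    have h1 : Um z + t • (1 : Matrix (Fin 3) (Fin 3) ℝ) - GQ W = (Um z - GQ W) + t • 1 := by abel
    rw [h1]
    exact h.2.add (Matrix.PosSemidef.smul Matrix.PosSemidef.one ht)

theorem K1_sub_KK {z : Fin 23 → ℝ} (hz : z ∈ K1) : z ∈ KK := by
  intro t ht
  obtain ⟨W, _, hb, hW⟩ := lmi_of_K1 hz
  have h1 := K1_of_lmi hb (lmi_te hW ht.le)
  rcases h1 with h1 | ⟨g0, g2, gd, _⟩
  · exact h1
  · exfalso
    rw [dl_te] at gd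
    rw [z0_te] at g0
    rw [z2_te] at g2
    have hz0 : 0 ≤ z 0 ∧ 0 ≤ z 2 ∧ 0 ≤ dl z := by
      rcases hz with ⟨a, b, _⟩ | ⟨a, b, c, _⟩
      · refine ⟨a.le, ?_, b.le⟩
        have h3 : dl z = z 0 * z 2 - z 1 ^ 2 := rfl
        rw [h3] at b
        by_contra hc
        push Not at hc
        nlinarith [sq_nonneg (z 1)]
      · exact ⟨a, b, c.ge⟩
    nlinarith [mul_nonneg ht.le (add_nonneg hz0.1 hz0.2.1), sq_nonneg t, mul_pos ht ht]

end Crest.Agent.R237.S2K
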