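import Mathlib
import Crest.Agent.R237.S2K4

set_option autoImplicit false

/-! Row 237, S0368, node N3 (lift), part 5: `KK ⊆ K1`, the linear maps and the lift. -/

namespace Crest.Agent.R237.S2K

open Matrix Crest.Agent.R237.S2 Filter Topology

theorem nonneg_of_cont {f : ℝ → ℝ} (hf : ContinuousAt f 0) (h : ∀ t, 0 < t → 0 ≤ f t) :
    0 ≤ f 0 := by
  have h1 : Tendsto f (𝓝[>] 0) (𝓝 (f 0)) := hf.tendsto.mono_left nhdsWithin_le_nhds
  exact ge_of_tendsto h1 (by filter_upwards [self_mem_nhdsWithin] with t ht; exact h t ht)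

/-- the quadratic form of `U - Γ` -/
theorem quad_UG (z : Fin 23 → ℝ) (p q r s P00 P01 P11 : ℝ) (y : Fin 3 → ℝ) :
    star y ⬝ᵥ (Um z - Gam p q r s P00 P01 P11) *ᵥ y =
      (z 7 * y 0 ^ 2 + z 10 * y 1 ^ 2 + z 12 * y 2 ^ 2 + 2 * z 8 * y 0 * y 1 + 2 * z 9 * y 0 * y 2
        + 2 * z 11 * y 1 * y 2) -
      (P00 * ((p ^ 2 + q ^ 2) * y 1 ^ 2 + (r ^ 2 + s ^ 2) * y 2 ^ 2 - 2 * p * r * y 1 * y 2) +
       P01 * (- 2 * p * s * y 1 ^ 2 - 2 * q * r * y 0 * y 2) +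
       P11 * ((p ^ 2 + q ^ 2) * y 0 ^ 2 + (r ^ 2 + s ^ 2) * y 1 ^ 2 + 2 * q * s * y 0 * y 1)) := by
  simp only [dotProduct, mulVec, Fin.sum_univ_three, Pi.star_apply, star_trivial, Um, Gam]
  simp
  ring

theorem UG_symm (z : Fin 23 → ℝ) (p q r s P00 P01 P11 : ℝ) :
    (Um z - Gam p q r s P00 P01 P11).IsHermitian := by
  rw [Matrix.IsHermitian, Matrix.conjTranspose_eq_transpose_of_trivial]
  ext i j
  fin_cases i <;> fin_cases j <;> simp [Um, Gam]

theorem abs_two_mul_le (a b c d : ℝ) : |2 * a * d| ≤ a ^ 2 + b ^ 2 + c ^ 2 + d ^ 2 := by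
  rw [abs_le]
  constructor
  · nlinarith [sq_nonneg (a + d), sq_nonneg b, sq_nonneg c]
  · nlinarith [sq_nonneg (a - d), sq_nonneg b, sq_nonneg c]

set_option maxHeartbeats 1000000 in
theorem KK_sub_K1 {z : Fin 23 → ℝ} (hz : z ∈ KK) : z ∈ K1 := by
  have hk : ∀ t, 0 < t → 0 < z 0 + t ∧ 0 < dl z + t * (z 0 + z 2) + t ^ 2 ∧
      (Um (z + t • e23) - Gz (z + t • e23)).PosSemidef := by
    intro t ht
    obtain ⟨a, b, c⟩ := hz t ht
    rw [z0_te] at a
    rw [dl_te] at b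
    exact ⟨a, b, c⟩
  have h0 : 0 ≤ z 0 := by
    have := nonneg_of_cont (f := fun t => z 0 + t) (by fun_prop) (fun t ht => (hk t ht).1.le)
    simpa using this
  have hd : 0 ≤ dl z := by
    have := nonneg_of_cont (f := fun t => dl z + t * (z 0 + z 2) + t ^ 2) (by fun_prop)
      (fun t ht => (hk t ht).2.1.le)
    simpa using this
  have hdl : dl z = z 0 * z 2 - z 1 ^ 2 := rfl
  have h2 : 0 ≤ z 2 := by
    have := nonneg_of_cont (f := fun t => z 2 + t) (by fun_prop) (fun t ht => by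
      have h3 := (hk t ht).2.1
      have h4 := (hk t ht).1
      have h5 : (z 0 + t) * (z 2 + t) = (dl z + t * (z 0 + z 2) + t ^ 2) + z 1 ^ 2 := by
        rw [hdl]; ring
      have h6 : 0 < (z 0 + t) * (z 2 + t) := by rw [h5]; positivity
      exact ((mul_pos_iff_of_pos_left h4).1 h6).le)
    simpa using this
  -- the quadratic form along the ray
  have hquad : ∀ t, 0 < t → ∀ y : Fin 3 → ℝ, 0 ≤
      (z 7 * y 0 ^ 2 + z 10 * y 1 ^ 2 + z 12 * y 2 ^ 2 + 2 * z 8 * y 0 * y 1 + 2 * z 9 * y 0 * y 2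
        + 2 * z 11 * y 1 * y 2) + t * (y 0 ^ 2 + y 1 ^ 2 + y 2 ^ 2) -
      ((z 2 + t) / (dl z + t * (z 0 + z 2) + t ^ 2) * ((z 3 ^ 2 + z 4 ^ 2) * y 1 ^ 2 + (z 5 ^ 2 + z 6 ^ 2) * y 2 ^ 2 - 2 * z 3 * z 5 * y 1 * y 2) +
       -(z 1) / (dl z + t * (z 0 + z 2) + t ^ 2) * (- 2 * z 3 * z 6 * y 1 ^ 2 - 2 * z 4 * z 5 * y 0 * y 2) +
       (z 0 + t) / (dl z + t * (z 0 + z 2) + t ^ 2) * ((z 3 ^ 2 + z 4 ^ 2) * y 0 ^ 2 + (z 5 ^ 2 + z 6 ^ 2) * y 1 ^ 2 + 2 * z 4 * z 6 * y 0 * y 1)) := by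
    intro t ht y
    have h3 := (hk t ht).2.2.dotProduct_mulVec_nonneg y
    unfold Gz at h3
    rw [quad_UG, dl_te] at h3
    have e3 : (z + t • e23) 3 = z 3 := by simp [e23]
    have e4 : (z + t • e23) 4 = z 4 := by simp [e23]
    have e5 : (z + t • e23) 5 = z 5 := by simp [e23]
    have e6 : (z + t • e23) 6 = z 6 := by simp [e23]
    have e7 : (z + t • e23) 7 = z 7 + t := by simp [e23]
    have e8 : (z + t • e23) 8 = z 8 := by simp [e23]
    have e9 : (z + t • e23) 9 = z 9 := by simp [e23]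
    have e10 : (z + t • e23) 10 = z 10 + t := by simp [e23]
    have e11 : (z + t • e23) 11 = z 11 := by simp [e23]
    have e12 : (z + t • e23) 12 = z 12 + t := by simp [e23]
    have e1 : (z + t • e23) 1 = z 1 := by simp [e23]
    rw [z0_te, z2_te, e1, e3, e4, e5, e6, e7, e8, e9, e10, e11, e12] at h3
    refine h3.trans_eq ?_
    ring
  rcases hd.eq_or_lt with hd0 | hd1
  · right
    have hz1 : z 1 ^ 2 = z 0 * z 2 := by rw [hdl] at hd0; linarith
    -- trace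
    have htr : ∀ t, 0 < t → (z 3 ^ 2 + z 4 ^ 2 + z 5 ^ 2 + z 6 ^ 2) * (z 0 + z 2 + 2 * t) +
        2 * z 3 * z 6 * z 1 ≤ (t * (z 0 + z 2) + t ^ 2) * (z 7 + z 10 + z 12 + 3 * t) := by
      intro t ht
      have q0 := hquad t ht ![1, 0, 0]
      have q1 := hquad t ht ![0, 1, 0]
      have q2 := hquad t ht ![0, 0, 1]
      have hdt : 0 < dl z + t * (z 0 + z 2) + t ^ 2 := (hk t ht).2.1
      have hdt' : dl z + t * (z 0 + z 2) + t ^ 2 = t * (z 0 + z 2) + t ^ 2 := by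
        rw [← hd0]; ring
      rw [hdt'] at q0 q1 q2 hdt
      simp at q0 q1 q2
      set D := t * (z 0 + z 2) + t ^ 2 with hD
      have hs := add_nonneg (add_nonneg (sub_nonneg.2 q0) (sub_nonneg.2 q1)) (sub_nonneg.2 q2)
      have hs2 := mul_nonneg hdt.le hs
      field_simp at hs2
      nlinarith
    have hlim : (z 3 ^ 2 + z 4 ^ 2 + z 5 ^ 2 + z 6 ^ 2) * (z 0 + z 2) + 2 * z 3 * z 6 * z 1 ≤ 0 := by
      have := nonneg_of_cont (f := fun t => (t * (z 0 + z 2) + t ^ 2) * (z 7 + z 10 + z 12 + 3 * t) -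
        ((z 3 ^ 2 + z 4 ^ 2 + z 5 ^ 2 + z 6 ^ 2) * (z 0 + z 2 + 2 * t) +
        2 * z 3 * z 6 * z 1)) (by fun_prop) (fun t ht => sub_nonneg.2 (htr t ht))
      simp at this
      linarith
    set V := z 3 ^ 2 + z 4 ^ 2 + z 5 ^ 2 + z 6 ^ 2 with hV
    have hV0 : 0 ≤ V := by positivity
    have hz1b : |z 1| ≤ (z 0 + z 2) / 2 := by
      have hh : 0 ≤ (z 0 + z 2) / 2 := by linarith
      have hh2 : z 1 ^ 2 ≤ ((z 0 + z 2) / 2) ^ 2 := by
        rw [hz1]
        nlinarith [sq_nonneg (z 0 - z 2)]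
      exact abs_le_of_sq_le_sq hh2 hh
    have hps : |2 * z 3 * z 6| ≤ V := abs_two_mul_le _ _ _ _
    have hprod : -(V * ((z 0 + z 2) / 2)) ≤ 2 * z 3 * z 6 * z 1 := by
      have h3 : |2 * z 3 * z 6 * z 1| ≤ V * ((z 0 + z 2) / 2) := by
        rw [abs_mul]
        exact mul_le_mul hps hz1b (abs_nonneg _) hV0
      exact (abs_le.1 h3).1
    have hVz : V * (z 0 + z 2) = 0 := by
      have h3 := mul_nonneg hV0 (add_nonneg h0 h2)
      nlinarith
    have hVzero : V = 0 := by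
      by_contra hVne
      have hsum : z 0 + z 2 = 0 := (mul_eq_zero.1 hVz).resolve_left hVne
      have hz0 : z 0 = 0 := by linarith
      have hz2 : z 2 = 0 := by linarith
      have hz1' : z 1 = 0 := by
        rw [hz0, zero_mul] at hz1
        exact pow_eq_zero_iff two_ne_zero |>.1 hz1
      have h5 : ∀ t, 0 < t → 0 ≤ t * (z 7 + z 10 + z 12 + 3 * t) - 2 * V := by
        intro t ht
        have h6 := htr t ht
        rw [hz0, hz2, hz1'] at h6
        have h7 : 0 ≤ t * (t * (z 7 + z 10 + z 12 + 3 * t) - 2 * V) := by nlinarith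
        exact nonneg_of_mul_nonneg_right h7 ht
      have h6 := nonneg_of_cont (f := fun t => t * (z 7 + z 10 + z 12 + 3 * t) - 2 * V)
        (by fun_prop) h5
      simp at h6
      exact hVne (le_antisymm (by linarith) hV0)
    have hVs : z 3 ^ 2 + z 4 ^ 2 + z 5 ^ 2 + z 6 ^ 2 = 0 := by rw [← hV]; exact hVzero
    have hv3 : z 3 = 0 := by
      have : z 3 ^ 2 = 0 := by linarith [sq_nonneg (z 3), sq_nonneg (z 4), sq_nonneg (z 5), sq_nonneg (z 6)]
      exact pow_eq_zero_iff two_ne_zero |>.1 this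
    have hv4 : z 4 = 0 := by
      have : z 4 ^ 2 = 0 := by linarith [sq_nonneg (z 3), sq_nonneg (z 4), sq_nonneg (z 5), sq_nonneg (z 6)]
      exact pow_eq_zero_iff two_ne_zero |>.1 this
    have hv5 : z 5 = 0 := by
      have : z 5 ^ 2 = 0 := by linarith [sq_nonneg (z 3), sq_nonneg (z 4), sq_nonneg (z 5), sq_nonneg (z 6)]
      exact pow_eq_zero_iff two_ne_zero |>.1 this
    have hv6 : z 6 = 0 := by
      have : z 6 ^ 2 = 0 := by linarith [sq_nonneg (z 3), sq_nonneg (z 4), sq_nonneg (z 5), sq_nonneg (z 6)]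
      exact pow_eq_zero_iff two_ne_zero |>.1 this
    refine ⟨h0, h2, hd0.symm, hv3, hv4, hv5, hv6, ?_⟩
    have hG : Um z = Um z - Gam 0 0 0 0 0 0 0 := by
      ext i j
      fin_cases i <;> fin_cases j <;> simp [Gam]
    rw [hG]
    refine Matrix.PosSemidef.of_dotProduct_mulVec_nonneg (UG_symm z _ _ _ _ _ _ _) fun y => ?_
    rw [quad_UG]
    have h7 := nonneg_of_cont (f := fun t => (z 7 * y 0 ^ 2 + z 10 * y 1 ^ 2 + z 12 * y 2 ^ 2 + 2 * z 8 * y 0 * y 1 + 2 * z 9 * y 0 * y 2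
        + 2 * z 11 * y 1 * y 2) + t * (y 0 ^ 2 + y 1 ^ 2 + y 2 ^ 2)) (by fun_prop) (fun t ht => by
      have h8 := hquad t ht y
      rw [hv3, hv4, hv5, hv6] at h8
      simpa using h8)
    simpa using h7
  · left
    have h0' : 0 < z 0 := by
      rcases h0.eq_or_lt with h | h
      · exfalso
        rw [hdl, ← h] at hd1
        nlinarith [sq_nonneg (z 1)]
      · exact h
    refine ⟨h0', hd1, ?_⟩
    unfold Gz
    refine Matrix.PosSemidef.of_dotProduct_mulVec_nonneg (UG_symm z _ _ _ _ _ _ _) fun y => ?_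
    rw [quad_UG]
    have hne : dl z + 0 * (z 0 + z 2) + 0 ^ 2 ≠ 0 := by
      have := hd1.ne'
      simpa using this
    have h7 := nonneg_of_cont (f := fun t => (z 7 * y 0 ^ 2 + z 10 * y 1 ^ 2 + z 12 * y 2 ^ 2 + 2 * z 8 * y 0 * y 1 + 2 * z 9 * y 0 * y 2
        + 2 * z 11 * y 1 * y 2) + t * (y 0 ^ 2 + y 1 ^ 2 + y 2 ^ 2) -
      ((z 2 + t) / (dl z + t * (z 0 + z 2) + t ^ 2) * ((z 3 ^ 2 + z 4 ^ 2) * y 1 ^ 2 + (z 5 ^ 2 + z 6 ^ 2) * y 2 ^ 2 - 2 * z 3 * z 5 * y 1 * y 2) +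
       -(z 1) / (dl z + t * (z 0 + z 2) + t ^ 2) * (- 2 * z 3 * z 6 * y 1 ^ 2 - 2 * z 4 * z 5 * y 0 * y 2) +
       (z 0 + t) / (dl z + t * (z 0 + z 2) + t ^ 2) * ((z 3 ^ 2 + z 4 ^ 2) * y 0 ^ 2 + (z 5 ^ 2 + z 6 ^ 2) * y 1 ^ 2 + 2 * z 4 * z 6 * y 0 * y 1)))
      (by
        have hc : ContinuousAt (fun t : ℝ => dl z + t * (z 0 + z 2) + t ^ 2) 0 := by fun_prop
        refine ContinuousAt.sub (by fun_prop) (ContinuousAt.add (ContinuousAt.add ?_ ?_) ?_)
        · exact ((continuousAt_const.add continuousAt_id).div hc hne).mul continuousAt_const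
        · exact (continuousAt_const.div hc hne).mul continuousAt_const
        · exact ((continuousAt_const.add continuousAt_id).div hc hne).mul continuousAt_const)
      (fun t ht => hquad t ht y)
    simpa using h7

theorem KK_eq_K1 : KK = K1 := Set.Subset.antisymm (fun _ h => KK_sub_K1 h) (fun _ h => K1_sub_KK h)

/-- symmetric block-symmetric matrices -/
def Esub : Submodule ℝ (Matrix I8 I8 ℝ) where
  carrier := {W | W.IsSymm ∧ BSym W}
  add_mem' := by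
    rintro a b ⟨ha, ha'⟩ ⟨hb, hb'⟩
    exact ⟨ha.add hb, fun i j k l => by rw [Matrix.add_apply, Matrix.add_apply, ha' i j k l, hb' i j k l]⟩
  zero_mem' := ⟨Matrix.isSymm_zero, fun i j k l => rfl⟩
  smul_mem' := by
    rintro c a ⟨ha, ha'⟩
    exact ⟨ha.smul c, fun i j k l => by rw [Matrix.smul_apply, Matrix.smul_apply, ha' i j k l]⟩

abbrev I13 := (Fin 2 ⊕ I8) ⊕ Fin 3

theorem Xm_add (z w : Fin 23 → ℝ) : Xm (z + w) = Xm z + Xm w := by
  ext i j
  fin_cases i <;> fin_cases j <;> simp [Xm]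

theorem Xm_smul (c : ℝ) (z : Fin 23 → ℝ) : Xm (c • z) = c • Xm z := by
  ext i j
  fin_cases i <;> fin_cases j <;> simp [Xm]

theorem Um_add (z w : Fin 23 → ℝ) : Um (z + w) = Um z + Um w := by
  ext i j
  fin_cases i <;> fin_cases j <;> simp [Um]

theorem Um_smul (c : ℝ) (z : Fin 23 → ℝ) : Um (c • z) = c • Um z := by
  ext i j
  fin_cases i <;> fin_cases j <;> simp [Um]

theorem Bm_add (z w : Fin 23 → ℝ) : Bm (z + w) = Bm z + Bm w := by
  ext i q
  simp only [Bm, Matrix.of_apply, Matrix.add_apply, Pi.add_apply]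
  split_ifs <;> simp

theorem Bm_smul (c : ℝ) (z : Fin 23 → ℝ) : Bm (c • z) = c • Bm z := by
  ext i q
  simp only [Bm, Matrix.of_apply, Matrix.smul_apply, Pi.smul_apply, smul_eq_mul]
  split_ifs <;> simp

/-- the `z`-part of the lift -/
noncomputable def Pmap : (Fin 23 → ℝ) →ₗ[ℝ] Matrix I13 I13 ℝ where
  toFun z := fromBlocks (fromBlocks (Xm z) (Bm z) (Bm z)ᵀ 0) 0 0 (Um z)
  map_add' z w := by
    rw [Xm_add, Um_add, Bm_add, Matrix.fromBlocks_add, Matrix.fromBlocks_add,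
      Matrix.transpose_add]
    simp
  map_smul' c z := by
    rw [Xm_smul, Um_smul, Bm_smul, Matrix.transpose_smul]
    simp [Matrix.fromBlocks_smul]

/-- the auxiliary part of the lift -/
noncomputable def Qmap : Esub →ₗ[ℝ] Matrix I13 I13 ℝ where
  toFun W := fromBlocks (fromBlocks 0 0 0 W.1) 0 0 (-GQ W.1)
  map_add' W W' := by
    rw [Matrix.fromBlocks_add, Matrix.fromBlocks_add, Submodule.coe_add, GQ_add, neg_add]
    simp
  map_smul' c W := by
    rw [Submodule.coe_smul, GQ_smul]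
    simp [Matrix.fromBlocks_smul]

theorem PQ_eq (z : Fin 23 → ℝ) (W : Esub) : Pmap z + Qmap W =
    fromBlocks (fromBlocks (Xm z) (Bm z) (Bm z)ᴴ W.1) 0 0 (Um z - GQ W.1) := by
  change fromBlocks (fromBlocks (Xm z) (Bm z) (Bm z)ᵀ 0) 0 0 (Um z) +
    fromBlocks (fromBlocks 0 0 0 W.1) 0 0 (-GQ W.1) = _
  rw [Matrix.fromBlocks_add, Matrix.fromBlocks_add, Matrix.conjTranspose_eq_transpose_of_trivial]
  simp [sub_eq_add_neg]

theorem blockdiag_psd {m n : Type*} [Fintype m] [Fintype n] [DecidableEq m] [DecidableEq n]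
    {A : Matrix m m ℝ} {D : Matrix n n ℝ} :
    (fromBlocks A 0 0 D).PosSemidef ↔ A.PosSemidef ∧ D.PosSemidef := by
  constructor
  · intro h
    exact ⟨h.submatrix Sum.inl, h.submatrix Sum.inr⟩
  · rintro ⟨hA, hD⟩
    refine Matrix.PosSemidef.of_dotProduct_mulVec_nonneg ?_ fun y => ?_
    · have h1 := hA.isHermitian
      have h2 := hD.isHermitian
      unfold Matrix.IsHermitian at h1 h2 ⊢
      rw [Matrix.fromBlocks_conjTranspose, h1, h2]
      simp
    · have h3 := hA.dotProduct_mulVec_nonneg (y ∘ Sum.inl)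
      have h4 := hD.dotProduct_mulVec_nonneg (y ∘ Sum.inr)
      have h5 : star y ⬝ᵥ (fromBlocks A 0 0 D) *ᵥ y =
          star (y ∘ Sum.inl) ⬝ᵥ A *ᵥ (y ∘ Sum.inl) + star (y ∘ Sum.inr) ⬝ᵥ D *ᵥ (y ∘ Sum.inr) := by
        rw [Matrix.fromBlocks_mulVec]
        simp only [dotProduct, Fintype.sum_sum_type, Sum.elim_inl, Sum.elim_inr]
        simp
      rw [h5]
      exact add_nonneg h3 h4

theorem GQ_symm (W : Matrix I8 I8 ℝ) : (GQ W).IsSymm := GW_symm _

theorem Pmap_symm (z : Fin 23 → ℝ) : (Pmap z).IsSymm := by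
  change (fromBlocks (fromBlocks (Xm z) (Bm z) (Bm z)ᵀ 0) 0 0 (Um z)).IsSymm
  have h1 : (Xm z)ᵀ = Xm z := by
    ext i j
    fin_cases i <;> fin_cases j <;> rfl
  have h2 : (Um z)ᵀ = Um z := by
    ext i j
    fin_cases i <;> fin_cases j <;> rfl
  unfold Matrix.IsSymm
  rw [Matrix.fromBlocks_transpose, Matrix.fromBlocks_transpose, h1, h2]
  simp

theorem Qmap_symm (W : Esub) : (Qmap W).IsSymm := by
  change (fromBlocks (fromBlocks 0 0 0 W.1) 0 0 (-GQ W.1)).IsSymm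
  have h1 : (W.1)ᵀ = W.1 := W.2.1
  have h2 : (GQ W.1)ᵀ = GQ W.1 := GQ_symm _
  unfold Matrix.IsSymm
  rw [Matrix.fromBlocks_transpose, Matrix.fromBlocks_transpose, Matrix.transpose_neg, h1, h2]
  simp

/-- **The lift.** -/
theorem lift_KK (z : Fin 23 → ℝ) : z ∈ KK ↔ ∃ W : Esub, (Pmap z + Qmap W).PosSemidef := by
  rw [KK_eq_K1]
  constructor
  · intro h
    obtain ⟨W, hs, hb, hW⟩ := lmi_of_K1 h
    refine ⟨⟨W, hs, hb⟩, ?_⟩
    rw [PQ_eq]
    exact blockdiag_psd.2 hW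
  · rintro ⟨W, hW⟩
    rw [PQ_eq] at hW
    exact K1_of_lmi W.2.2 (blockdiag_psd.1 hW)

theorem card_I13 : Fintype.card I13 ≤ 100 := by
  simp

theorem finrank_Esub : Module.finrank ℝ Esub ≤ 307 := by
  refine (Submodule.finrank_le Esub).trans ?_
  rw [Module.finrank_matrix]
  simp

end Crest.Agent.R237.S2K
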