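import Crest.Agent.R237.S2NS
import Crest.Agent.R237.S2HypMain

/-!
Row 237, S0368, KFACTS (helper513): torus invariance of `KK` and `BK`, `K0 ⊆ KK`, and
`x ∈ BK → x - ε e ∉ KK`.
-/

set_option autoImplicit false

open Matrix

namespace Crest.Agent.R237.S2

/-- the quadratic form of `Gam` -/
def GF (p q r s P00 P01 P11 y0 y1 y2 : ℝ) : ℝ :=
  (p^2+q^2)*P11*y0^2 + 2*(q*s*P11)*(y0*y1) - 2*(q*r*P01)*(y0*y2)
    + ((p^2+q^2)*P00 + (r^2+s^2)*P11 - 2*(p*s*P01))*y1^2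
    - 2*(p*r*P00)*(y1*y2) + (r^2+s^2)*P00*y2^2

theorem GF_nonneg (p q r s Q00 Q01 Q11 y0 y1 y2 : ℝ) (h0 : 0 ≤ Q00) (h1 : 0 ≤ Q11)
    (h : Q01 ^ 2 ≤ Q00 * Q11) : 0 ≤ GF p q r s Q00 Q01 Q11 y0 y1 y2 := by
  have f1 := S2Hyp.FF_nonneg p q r s 0 1 y0 y1 y2
  rcases eq_or_lt_of_le h0 with h0 | h0
  · have hQ : Q01 = 0 := by
      have : Q01 ^ 2 ≤ 0 := by rw [← h0] at h; simpa using h
      exact pow_eq_zero_iff (two_ne_zero) |>.1 (le_antisymm this (sq_nonneg _))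
    have e : GF p q r s Q00 Q01 Q11 y0 y1 y2 = Q11 * FF p q r s 0 1 y0 y1 y2 := by
      rw [hQ, ← h0]; unfold GF FF; ring
    rw [e]; exact mul_nonneg h1 f1
  · have f2 := S2Hyp.FF_nonneg p q r s Q00 Q01 y0 y1 y2
    have e : Q00 * GF p q r s Q00 Q01 Q11 y0 y1 y2 = FF p q r s Q00 Q01 y0 y1 y2
        + (Q00 * Q11 - Q01 ^ 2) * FF p q r s 0 1 y0 y1 y2 := by
      unfold GF FF; ring
    have h2 : 0 ≤ Q00 * GF p q r s Q00 Q01 Q11 y0 y1 y2 := by
      rw [e]; exact add_nonneg f2 (mul_nonneg (by linarith) f1)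
    exact nonneg_of_mul_nonneg_right h2 h0

/-- the quadratic form of `U - Γ(v)(X⁻¹)` -/
theorem form_UG (z : Fin 23 → ℝ) (y : Fin 3 → ℝ) :
    y ⬝ᵥ ((Um z - Gz z) *ᵥ y) = (z 7 * y 0 ^ 2 + 2 * z 8 * (y 0 * y 1) + 2 * z 9 * (y 0 * y 2)
      + z 10 * y 1 ^ 2 + 2 * z 11 * (y 1 * y 2) + z 12 * y 2 ^ 2)
      - GF (z 3) (z 4) (z 5) (z 6) (z 2 / dl z) (-(z 1) / dl z) (z 0 / dl z) (y 0) (y 1) (y 2) := by
  simp only [Um, Gz, Gam, GF, dotProduct, mulVec, Fin.sum_univ_three, Matrix.of_apply,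
    Matrix.sub_apply, Matrix.cons_val', Matrix.cons_val_zero, Matrix.cons_val_one, Matrix.cons_val,
    Matrix.cons_val_fin_one]
  ring

theorem UG_herm (z : Fin 23 → ℝ) : (Um z - Gz z).IsHermitian := by
  ext i j
  fin_cases i <;> fin_cases j <;>
    simp [Um, Gz, Gam, Matrix.conjTranspose_apply]

theorem dl_pos_two {z : Fin 23 → ℝ} (h0 : 0 < z 0) (hd : 0 < dl z) : 0 < z 2 := by
  unfold dl at hd
  by_contra h
  have : z 0 * z 2 ≤ 0 := mul_nonpos_of_nonneg_of_nonpos h0.le (not_lt.1 h)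
  nlinarith [sq_nonneg (z 1)]

/-- diagonal nonnegative increments -/
structure DiagInc (w : Fin 23 → ℝ) : Prop where
  h0 : 0 ≤ w 0
  h1 : w 1 = 0
  h2 : 0 ≤ w 2
  h3 : w 3 = 0
  h4 : w 4 = 0
  h5 : w 5 = 0
  h6 : w 6 = 0
  h7 : 0 ≤ w 7
  h8 : w 8 = 0
  h9 : w 9 = 0
  h10 : 0 ≤ w 10
  h11 : w 11 = 0
  h12 : 0 ≤ w 12

theorem K0_form_add {z w : Fin 23 → ℝ} (h0 : 0 < z 0) (hd : 0 < dl z) (hw : DiagInc w) :
    0 < (z + w) 0 ∧ 0 < dl (z + w) ∧ ∀ y : Fin 3 → ℝ,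
      y ⬝ᵥ ((Um z - Gz z) *ᵥ y) + (w 7 * y 0 ^ 2 + w 10 * y 1 ^ 2 + w 12 * y 2 ^ 2)
        ≤ y ⬝ᵥ ((Um (z + w) - Gz (z + w)) *ᵥ y) := by
  have h2 := dl_pos_two h0 hd
  have hd' : 0 < dl (z + w) := by
    have e : dl (z + w) = dl z + (z 0 * w 2 + w 0 * z 2 + w 0 * w 2) := by
      simp only [dl, Pi.add_apply, hw.h1]; ring
    rw [e]
    have a1 := mul_nonneg h0.le hw.h2
    have a2 := mul_nonneg hw.h0 h2.le
    have a3 := mul_nonneg hw.h0 hw.h2
    linarith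
  refine ⟨?_, hd', fun y => ?_⟩
  · simp only [Pi.add_apply]; have := hw.h0; linarith
  rw [form_UG, form_UG]
  set d := dl z with hdd
  set d' := dl (z + w) with hdd'
  have key := GF_nonneg (z 3) (z 4) (z 5) (z 6) (z 2 / d - (z 2 + w 2) / d')
    (-(z 1) / d - -(z 1) / d') (z 0 / d - (z 0 + w 0) / d') (y 0) (y 1) (y 2) ?_ ?_ ?_
  · have e : GF (z 3) (z 4) (z 5) (z 6) (z 2 / d - (z 2 + w 2) / d')
        (-(z 1) / d - -(z 1) / d') (z 0 / d - (z 0 + w 0) / d') (y 0) (y 1) (y 2) =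
        GF (z 3) (z 4) (z 5) (z 6) (z 2 / d) (-(z 1) / d) (z 0 / d) (y 0) (y 1) (y 2)
        - GF (z 3) (z 4) (z 5) (z 6) ((z 2 + w 2) / d') (-(z 1) / d') ((z 0 + w 0) / d')
          (y 0) (y 1) (y 2) := by
      unfold GF; ring
    rw [e] at key
    simp only [Pi.add_apply, hw.h1, hw.h3, hw.h4, hw.h5, hw.h6, hw.h8, hw.h9, hw.h11, add_zero]
    nlinarith
  · have e : z 2 / d - (z 2 + w 2) / d' =
        (z 2 * (z 2 + w 2) * w 0 + w 2 * z 1 ^ 2) / (d * d') := by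
      rw [div_sub_div _ _ hd.ne' hd'.ne']
      congr 1
      rw [hdd, hdd']
      simp only [dl, Pi.add_apply, hw.h1]; ring
    rw [e]
    have a1 := hw.h0
    have a2 := hw.h2
    positivity
  · have e : z 0 / d - (z 0 + w 0) / d' =
        (z 0 * (z 0 + w 0) * w 2 + w 0 * z 1 ^ 2) / (d * d') := by
      rw [div_sub_div _ _ hd.ne' hd'.ne']
      congr 1
      rw [hdd, hdd']
      simp only [dl, Pi.add_apply, hw.h1]; ring
    rw [e]
    have a1 := hw.h0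
    have a2 := hw.h2
    positivity
  · have e0 : z 2 / d - (z 2 + w 2) / d' =
        (z 2 * (z 2 + w 2) * w 0 + w 2 * z 1 ^ 2) / (d * d') := by
      rw [div_sub_div _ _ hd.ne' hd'.ne']
      congr 1
      rw [hdd, hdd']
      simp only [dl, Pi.add_apply, hw.h1]; ring
    have e1 : z 0 / d - (z 0 + w 0) / d' =
        (z 0 * (z 0 + w 0) * w 2 + w 0 * z 1 ^ 2) / (d * d') := by
      rw [div_sub_div _ _ hd.ne' hd'.ne']
      congr 1
      rw [hdd, hdd']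
      simp only [dl, Pi.add_apply, hw.h1]; ring
    have e2 : -(z 1) / d - -(z 1) / d' =
        (-(z 1) * (z 0 * w 2 + w 0 * z 2 + w 0 * w 2)) / (d * d') := by
      rw [div_sub_div _ _ hd.ne' hd'.ne']
      congr 1
      rw [hdd, hdd']
      simp only [dl, Pi.add_apply, hw.h1]; ring
    rw [e0, e1, e2, div_pow, div_mul_div_comm, ← pow_two (d * d')]
    refine div_le_div_of_nonneg_right ?_ (by positivity)
    have e3 : (z 2 * (z 2 + w 2) * w 0 + w 2 * z 1 ^ 2) * (z 0 * (z 0 + w 0) * w 2 + w 0 * z 1 ^ 2)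
        - (-(z 1) * (z 0 * w 2 + w 0 * z 2 + w 0 * w 2)) ^ 2 = w 0 * w 2 * (d * d') := by
      rw [hdd, hdd']
      simp only [dl, Pi.add_apply, hw.h1]; ring
    have a1 := hw.h0
    have a2 := hw.h2
    have : 0 ≤ w 0 * w 2 * (d * d') := by positivity
    linarith

theorem star_eq (y : Fin 3 → ℝ) : star y = y := by ext i; simp

theorem K0_add {z w : Fin 23 → ℝ} (hz : z ∈ K0) (hw : DiagInc w) : z + w ∈ K0 := by
  obtain ⟨h0, hd, hU⟩ := hz
  obtain ⟨a, b, c⟩ := K0_form_add h0 hd hw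
  refine ⟨a, b, Matrix.PosSemidef.of_dotProduct_mulVec_nonneg (UG_herm _) fun y => ?_⟩
  have h1 := hU.dotProduct_mulVec_nonneg y
  rw [star_eq] at h1 ⊢
  have h2 := c y
  have a1 := mul_nonneg hw.h7 (sq_nonneg (y 0))
  have a2 := mul_nonneg hw.h10 (sq_nonneg (y 1))
  have a3 := mul_nonneg hw.h12 (sq_nonneg (y 2))
  linarith

theorem diagInc_smul_e {t : ℝ} (ht : 0 ≤ t) : DiagInc (t • e23) := by
  constructor <;> simp [e23, ht]

theorem K0_sub_KK : Stmt_K0_sub_KK := fun _ hz _ ht => K0_add hz (diagInc_smul_e ht.le)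

theorem BK_sub : Stmt_BK_sub := by
  intro x hx ε hε hK
  have hz : x - ε • e23 + (ε / 2) • e23 ∈ K0 := hK (ε / 2) (by positivity)
  set z := x - ε • e23 + (ε / 2) • e23 with hzd
  have hxz : x = z + (ε / 2) • e23 := by
    rw [hzd]
    ext i
    simp only [Pi.add_apply, Pi.sub_apply, Pi.smul_apply, smul_eq_mul]
    ring
  obtain ⟨h0, hd, hU⟩ := hz
  obtain ⟨a, b, c⟩ := K0_form_add h0 hd (diagInc_smul_e (t := ε / 2) (by positivity))
  rw [← hxz] at c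
  have hpd : (Um x - Gz x).PosDef := by
    refine Matrix.PosDef.of_dotProduct_mulVec_pos (UG_herm _) fun y hy => ?_
    have h1 := hU.dotProduct_mulVec_nonneg y
    rw [star_eq] at h1 ⊢
    have h2 := c y
    have e7 : ((ε / 2) • e23 : Fin 23 → ℝ) 7 = ε / 2 := by simp [e23]
    have e10 : ((ε / 2) • e23 : Fin 23 → ℝ) 10 = ε / 2 := by simp [e23]
    have e12 : ((ε / 2) • e23 : Fin 23 → ℝ) 12 = ε / 2 := by simp [e23]
    rw [e7, e10, e12] at h2
    have h3 : 0 < y 0 ^ 2 + y 1 ^ 2 + y 2 ^ 2 := by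
      by_contra hc
      apply hy
      have s0 := sq_nonneg (y 0)
      have s1 := sq_nonneg (y 1)
      have s2 := sq_nonneg (y 2)
      have z0 : y 0 ^ 2 = 0 := by linarith
      have z1 : y 1 ^ 2 = 0 := by linarith
      have z2 : y 2 ^ 2 = 0 := by linarith
      ext i
      fin_cases i
      · simpa using z0
      · simpa using z1
      · simpa using z2
    have h4 : 0 < (ε / 2) * (y 0 ^ 2 + y 1 ^ 2 + y 2 ^ 2) := by positivity
    linarith
  exact absurd hx.2.2.2 hpd.det_pos.ne'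

/-! ### torus -/

/-- `diag (l², l, 1)` -/
def Dt (l : ℝ) : Matrix (Fin 3) (Fin 3) ℝ := !![l ^ 2, 0, 0; 0, l, 0; 0, 0, 1]

theorem dl_tor (l : ℝ) (x : Fin 23 → ℝ) : dl (tor l x) = l ^ 42 * dl x := by
  simp only [dl, tor, wt, Matrix.cons_val_zero, Matrix.cons_val_one, Matrix.cons_val]
  ring

theorem UG_tor {l : ℝ} (hl : 0 < l) {x : Fin 23 → ℝ} (hd : 0 < dl x) :
    Um (tor l x) - Gz (tor l x) = Dt l * (Um x - Gz x) * Dt l := by
  have hl0 := hl.ne'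
  have hd0 := hd.ne'
  have e0 : tor l x 2 / dl (tor l x) = x 2 / dl x / l ^ 22 := by
    rw [dl_tor]
    simp only [tor, wt, Matrix.cons_val]
    field_simp
  have e1 : -(tor l x 1) / dl (tor l x) = -(x 1) / dl x / l ^ 21 := by
    rw [dl_tor]
    simp only [tor, wt, Matrix.cons_val_one, Matrix.cons_val]
    field_simp
  have e2 : tor l x 0 / dl (tor l x) = x 0 / dl x / l ^ 20 := by
    rw [dl_tor]
    simp only [tor, wt, Matrix.cons_val_zero]
    field_simp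
  unfold Gz
  rw [e0, e1, e2]
  generalize x 2 / dl x = P0
  generalize -(x 1) / dl x = P1
  generalize x 0 / dl x = P2
  ext i j
  fin_cases i <;> fin_cases j <;>
    simp only [Um, Gam, Dt, tor, wt, Matrix.mul_apply, Fin.sum_univ_three, Matrix.sub_apply,
      Matrix.of_apply, Matrix.cons_val', Matrix.cons_val_zero, Matrix.cons_val_one, Matrix.cons_val,
      Matrix.cons_val_fin_one, Fin.zero_eta, Fin.mk_one, Fin.reduceFinMk] <;>
    field_simp <;> ring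

theorem Dt_symm (l : ℝ) : (Dt l)ᴴ = Dt l := by
  ext i j
  fin_cases i <;> fin_cases j <;> simp [Dt, Matrix.conjTranspose_apply]

theorem tor_K0 {l : ℝ} (hl : 0 < l) {x : Fin 23 → ℝ} (hx : x ∈ K0) : tor l x ∈ K0 := by
  obtain ⟨h0, hd, hU⟩ := hx
  refine ⟨?_, ?_, ?_⟩
  · simp only [tor]; positivity
  · rw [dl_tor]; positivity
  · rw [UG_tor hl hd]
    have := hU.conjTranspose_mul_mul_same (Dt l)
    rwa [Dt_symm] at this

theorem tor_BK : Stmt_tor_BK := by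
  intro l hl x hx
  obtain ⟨h0, hd, hU, hdet⟩ := hx
  obtain ⟨a, b, c⟩ := tor_K0 hl (show x ∈ K0 from ⟨h0, hd, hU⟩)
  refine ⟨a, b, c, ?_⟩
  rw [UG_tor hl hd, Matrix.det_mul, Matrix.det_mul, hdet]
  simp

theorem tor_KK : Stmt_tor_KK := by
  intro l hl x hx t ht
  -- choose `s` with `s * l ^ wt ≤ t`
  set s : ℝ := t / (l ^ 22 + l ^ 20 + l ^ 4 + l ^ 2 + 1) with hs
  have hden : 0 < l ^ 22 + l ^ 20 + l ^ 4 + l ^ 2 + 1 := by positivity
  have hs0 : 0 < s := by positivity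
  have hst : s * (l ^ 22 + l ^ 20 + l ^ 4 + l ^ 2 + 1) = t := by
    rw [hs]; field_simp
  have h1 := tor_K0 hl (hx s hs0)
  have e : tor l x + t • e23 = tor l (x + s • e23) + (fun k => (t - s * l ^ wt k) * e23 k) := by
    ext k
    simp only [Pi.add_apply, Pi.smul_apply, smul_eq_mul, tor]
    ring
  rw [e]
  refine K0_add h1 ?_
  have p22 : 0 < l ^ 22 := by positivity
  have p20 : 0 < l ^ 20 := by positivity
  have p4 : 0 < l ^ 4 := by positivity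
  have p2 : 0 < l ^ 2 := by positivity
  constructor <;>
    simp only [e23, wt, Matrix.cons_val_zero, Matrix.cons_val_one, Matrix.cons_val, mul_zero,
      mul_one, pow_zero]
  · nlinarith [mul_pos hs0 p22, mul_pos hs0 p20, mul_pos hs0 p4, mul_pos hs0 p2]
  · nlinarith [mul_pos hs0 p22, mul_pos hs0 p20, mul_pos hs0 p4, mul_pos hs0 p2]
  · nlinarith [mul_pos hs0 p22, mul_pos hs0 p20, mul_pos hs0 p4, mul_pos hs0 p2]
  · nlinarith [mul_pos hs0 p22, mul_pos hs0 p20, mul_pos hs0 p4, mul_pos hs0 p2]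
  · nlinarith [mul_pos hs0 p22, mul_pos hs0 p20, mul_pos hs0 p4, mul_pos hs0 p2]

end Crest.Agent.R237.S2
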