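import Crest.Agent.R237.S2NS
import Crest.Agent.R237.S2Pts
import Crest.Agent.R237.S2Cone

/-!
Row 237, statement S0368, KFACTS: membership facts for the cone `KK`
(`e_pm`, `E_mem`, `block_mem`, `coord0`, `G_mem`, `xd_mem`, `e23_dummy_mem`).
-/

set_option autoImplicit false

namespace Crest.Agent.R237.S2

open Matrix Crest.Agent.R237.S2Cone

theorem KG_pt_eq_mk (a b c p q r s u0 u1 u2 u3 u4 u5 : ℝ) :
    pt a b c p q r s u0 u1 u2 u3 u4 u5 = mk a b c p q r s u0 u1 u2 u3 u4 u5 := rfl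

/-- `K0` depends only on the first 13 coordinates -/
theorem KG_K0_congr {x y : Fin 23 → ℝ} (h : ∀ k : Fin 23, (k : ℕ) < 13 → x k = y k) (hx : x ∈ K0) :
    y ∈ K0 := by
  have e0 := h 0 (by decide)
  have e1 := h 1 (by decide)
  have e2 := h 2 (by decide)
  have e3 := h 3 (by decide)
  have e4 := h 4 (by decide)
  have e5 := h 5 (by decide)
  have e6 := h 6 (by decide)
  have e7 := h 7 (by decide)
  have e8 := h 8 (by decide)
  have e9 := h 9 (by decide)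
  have e10 := h 10 (by decide)
  have e11 := h 11 (by decide)
  have e12 := h 12 (by decide)
  obtain ⟨a, b, c⟩ := hx
  have hd : dl x = dl y := by unfold dl; rw [e0, e1, e2]
  refine ⟨by rw [← e0]; exact a, by rw [← hd]; exact b, ?_⟩
  have hU : Um y - Gz y = Um x - Gz x := by
    unfold Um Gz
    rw [hd, e0, e1, e2, e3, e4, e5, e6, e7, e8, e9, e10, e11, e12]
  rw [hU]; exact c

/-- `KK` depends only on the first 13 coordinates -/
theorem KG_KK_congr {x y : Fin 23 → ℝ} (h : ∀ k : Fin 23, (k : ℕ) < 13 → x k = y k) (hx : x ∈ KK) :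
    y ∈ KK := by
  intro t ht
  exact KG_K0_congr (fun k hk => by simp only [Pi.add_apply, h k hk]) (hx t ht)

/-- positive semidefinite `3 × 3` matrices from the quadratic form -/
theorem KG_psd3_of (a b c d e f : ℝ) (h : ∀ y0 y1 y2, 0 ≤ qf a b c d e f y0 y1 y2) :
    (!![a, b, c; b, d, e; c, e, f] : Matrix (Fin 3) (Fin 3) ℝ).PosSemidef :=
  (psd3_iff a b c d e f).2 h

theorem KG_e23_mem : e23 ∈ KK := by
  have : e23 = mk 1 0 1 0 0 0 0 1 0 0 1 0 1 := rfl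
  rw [this]
  refine mk_mem_KK _ _ _ _ _ _ _ _ _ (by norm_num) (by norm_num) (by norm_num) ?_
  apply KG_psd3_of
  intro y0 y1 y2; unfold qf; nlinarith [sq_nonneg y0, sq_nonneg y1, sq_nonneg y2]

theorem e23_dummy_mem : ∀ k : Fin 23, 13 ≤ (k : ℕ) → ∀ s : ℝ, e23 + s • Pi.single k 1 ∈ KK := by
  intro k hk s
  refine KG_KK_congr (x := e23) (fun j hj => ?_) KG_e23_mem
  have hne : j ≠ k := by
    rintro rfl; omega
  simp [hne]

theorem block_mem : Stmt_block_mem := by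
  intro a b c u00 u01 u02 u11 u12 u22 ha hc hb hU
  exact mk_mem_KK a b c u00 u01 u02 u11 u12 u22 ha hc hb hU

theorem coord0 : Stmt_coord0 := by
  intro x hx
  by_contra hneg
  push Not at hneg
  have h := (hx (-(x 0)) (by linarith)).1
  simp [e23] at h

theorem E_mem : Stmt_E_mem := by
  intro i
  fin_cases i
  · have : (Pi.single (dg 0) (1 : ℝ) : Fin 23 → ℝ) = mk 1 0 0 0 0 0 0 0 0 0 0 0 0 := by
      ext k; fin_cases k <;> simp [dg, mk]
    show (Pi.single (dg 0) (1 : ℝ) : Fin 23 → ℝ) ∈ KK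
    rw [this]
    refine mk_mem_KK _ _ _ _ _ _ _ _ _ (by norm_num) (by norm_num) (by norm_num) ?_
    apply KG_psd3_of; intro y0 y1 y2; unfold qf; nlinarith [sq_nonneg y0, sq_nonneg y1, sq_nonneg y2]
  · have : (Pi.single (dg 1) (1 : ℝ) : Fin 23 → ℝ) = mk 0 0 1 0 0 0 0 0 0 0 0 0 0 := by
      ext k; fin_cases k <;> simp [dg, mk]
    show (Pi.single (dg 1) (1 : ℝ) : Fin 23 → ℝ) ∈ KK
    rw [this]
    refine mk_mem_KK _ _ _ _ _ _ _ _ _ (by norm_num) (by norm_num) (by norm_num) ?_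
    apply KG_psd3_of; intro y0 y1 y2; unfold qf; nlinarith [sq_nonneg y0, sq_nonneg y1, sq_nonneg y2]
  · have : (Pi.single (dg 2) (1 : ℝ) : Fin 23 → ℝ) = mk 0 0 0 0 0 0 0 1 0 0 0 0 0 := by
      ext k; fin_cases k <;> simp [dg, mk]
    show (Pi.single (dg 2) (1 : ℝ) : Fin 23 → ℝ) ∈ KK
    rw [this]
    refine mk_mem_KK _ _ _ _ _ _ _ _ _ (by norm_num) (by norm_num) (by norm_num) ?_
    apply KG_psd3_of; intro y0 y1 y2; unfold qf; nlinarith [sq_nonneg y0, sq_nonneg y1, sq_nonneg y2]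
  · have : (Pi.single (dg 3) (1 : ℝ) : Fin 23 → ℝ) = mk 0 0 0 0 0 0 0 0 0 0 1 0 0 := by
      ext k; fin_cases k <;> simp [dg, mk]
    show (Pi.single (dg 3) (1 : ℝ) : Fin 23 → ℝ) ∈ KK
    rw [this]
    refine mk_mem_KK _ _ _ _ _ _ _ _ _ (by norm_num) (by norm_num) (by norm_num) ?_
    apply KG_psd3_of; intro y0 y1 y2; unfold qf; nlinarith [sq_nonneg y0, sq_nonneg y1, sq_nonneg y2]
  · have : (Pi.single (dg 4) (1 : ℝ) : Fin 23 → ℝ) = mk 0 0 0 0 0 0 0 0 0 0 0 0 1 := by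
      ext k; fin_cases k <;> simp [dg, mk]
    show (Pi.single (dg 4) (1 : ℝ) : Fin 23 → ℝ) ∈ KK
    rw [this]
    refine mk_mem_KK _ _ _ _ _ _ _ _ _ (by norm_num) (by norm_num) (by norm_num) ?_
    apply KG_psd3_of; intro y0 y1 y2; unfold qf; nlinarith [sq_nonneg y0, sq_nonneg y1, sq_nonneg y2]

theorem G_mem : Stmt_G_mem := by
  intro P00 P01 P11 p q r s h0 hd
  have h2 : 0 < P11 := by
    have : 0 < P00 * P11 := by nlinarith [sq_nonneg P01]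
    exact (mul_pos_iff_of_pos_left h0).1 this
  apply K0_subset_KK
  rw [KG_pt_eq_mk]
  refine mk_mem_K0 p q r s P00 P01 P11 h2 hd _ _ _ _ _ _ ?_
  have : (!![(p^2+q^2)*P11, q*s*P11, -(q*r*P01);
      q*s*P11, (p^2+q^2)*P00 + (r^2+s^2)*P11 - 2*(p*s*P01), -(p*r*P00);
      -(q*r*P01), -(p*r*P00), (r^2+s^2)*P00] : Matrix (Fin 3) (Fin 3) ℝ)
      - Gam p q r s P00 P01 P11 = 0 := by
    unfold Gam; exact sub_self _
  rw [this]
  exact Matrix.PosSemidef.zero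

theorem xd_mem : Stmt_xd_mem := by
  intro d hd0 hd1
  have h2 : (0 : ℝ) < 1 + d := by linarith
  have hdet : (0 : ℝ) < (1 + d) * (1 + d) - (-(1 - d)) ^ 2 := by nlinarith
  have heq : pt ((1+d)/(4*d)) ((1-d)/(4*d)) ((1+d)/(4*d)) 1 0 0 0 (3+d) (-1) (-1) (3+d) (-1) 2 =
      mk ((1+d) / ((1+d)*(1+d)-(-(1-d))^2)) (-(-(1-d)) / ((1+d)*(1+d)-(-(1-d))^2))
        ((1+d) / ((1+d)*(1+d)-(-(1-d))^2)) 1 0 0 0 (3+d) (-1) (-1) (3+d) (-1) 2 := by
    rw [KG_pt_eq_mk]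
    have e : (1+d)*(1+d)-(-(1-d))^2 = 4 * d := by ring
    rw [e, neg_neg]
  have hsub : (!![3+d, -1, -1; -1, 3+d, -1; -1, -1, 2] : Matrix (Fin 3) (Fin 3) ℝ)
      - Gam 1 0 0 0 (1+d) (-(1-d)) (1+d) = !![2, -1, -1; -1, 2, -1; -1, -1, 2] := by
    ext i j; fin_cases i <;> fin_cases j <;> simp [Gam] <;> ring
  have hm := mk_mem_K0 1 0 0 0 (1+d) (-(1-d)) (1+d) h2 hdet (3+d) (-1) (-1) (3+d) (-1) 2 (by
    rw [hsub]
    apply KG_psd3_of
    intro y0 y1 y2; unfold qf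
    nlinarith [sq_nonneg (y0 - y1), sq_nonneg (y1 - y2), sq_nonneg (y0 - y2)])
  rw [heq]
  refine ⟨hm.1, hm.2.1, hm.2.2, ?_⟩
  rw [mk_det 1 0 0 0 (1+d) (-(1-d)) (1+d) h2 hdet, hsub, Matrix.det_fin_three]
  simp
  norm_num

theorem e_pm : Stmt_e_pm := by
  intro k σ hσ
  have hb : σ ^ 2 = 1 / 4 := by rcases hσ with h | h <;> rw [h] <;> norm_num
  have hlo : -(1/2) ≤ σ := by rcases hσ with h | h <;> rw [h] <;> norm_num
  have hhi : σ ≤ 1/2 := by rcases hσ with h | h <;> rw [h] <;> norm_num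
  by_cases hk : 13 ≤ (k : ℕ)
  · exact e23_dummy_mem k hk σ
  push Not at hk
  -- the first 13 coordinates
  have hcase : k = 0 ∨ k = 1 ∨ k = 2 ∨ k = 3 ∨ k = 4 ∨ k = 5 ∨ k = 6 ∨ k = 7 ∨ k = 8 ∨ k = 9 ∨
      k = 10 ∨ k = 11 ∨ k = 12 := by
    revert k; decide
  rcases hcase with rfl | rfl | rfl | rfl | rfl | rfl | rfl | rfl | rfl | rfl | rfl | rfl | rfl
  · have : (e23 + σ • Pi.single 0 1 : Fin 23 → ℝ) = mk (1+σ) 0 1 0 0 0 0 1 0 0 1 0 1 := by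
      ext k; fin_cases k <;> simp [e23, mk]
    rw [this]
    refine mk_mem_KK _ _ _ _ _ _ _ _ _ (by linarith) (by norm_num) (by nlinarith) ?_
    apply KG_psd3_of; intro y0 y1 y2; unfold qf; nlinarith [sq_nonneg y0, sq_nonneg y1, sq_nonneg y2]
  · have : (e23 + σ • Pi.single 1 1 : Fin 23 → ℝ) = mk 1 σ 1 0 0 0 0 1 0 0 1 0 1 := by
      ext k; fin_cases k <;> simp [e23, mk]
    rw [this]
    refine mk_mem_KK _ _ _ _ _ _ _ _ _ (by linarith) (by norm_num) (by nlinarith) ?_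
    apply KG_psd3_of; intro y0 y1 y2; unfold qf; nlinarith [sq_nonneg y0, sq_nonneg y1, sq_nonneg y2]
  · have : (e23 + σ • Pi.single 2 1 : Fin 23 → ℝ) = mk 1 0 (1+σ) 0 0 0 0 1 0 0 1 0 1 := by
      ext k; fin_cases k <;> simp [e23, mk]
    rw [this]
    refine mk_mem_KK _ _ _ _ _ _ _ _ _ (by linarith) (by linarith) (by nlinarith) ?_
    apply KG_psd3_of; intro y0 y1 y2; unfold qf; nlinarith [sq_nonneg y0, sq_nonneg y1, sq_nonneg y2]
  · have : (e23 + σ • Pi.single 3 1 : Fin 23 → ℝ) =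
        mk (1/(1*1-0^2)) (-0/(1*1-0^2)) (1/(1*1-0^2)) σ 0 0 0 1 0 0 1 0 1 := by
      ext k; fin_cases k <;> simp [e23, mk]
    rw [this]
    apply K0_subset_KK
    refine mk_mem_K0 σ 0 0 0 1 0 1 one_pos (by norm_num) _ _ _ _ _ _ ?_
    have h2 : (!![1, 0, 0; 0, 1, 0; 0, 0, 1] : Matrix (Fin 3) (Fin 3) ℝ) - Gam σ 0 0 0 1 0 1 =
        !![3/4, 0, 0; 0, 3/4, 0; 0, 0, 1] := by
      ext i j; fin_cases i <;> fin_cases j <;> simp [Gam] <;> linarith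
    rw [h2]
    apply KG_psd3_of; intro y0 y1 y2; unfold qf; nlinarith [sq_nonneg y0, sq_nonneg y1, sq_nonneg y2]
  · have : (e23 + σ • Pi.single 4 1 : Fin 23 → ℝ) =
        mk (1/(1*1-0^2)) (-0/(1*1-0^2)) (1/(1*1-0^2)) 0 σ 0 0 1 0 0 1 0 1 := by
      ext k; fin_cases k <;> simp [e23, mk]
    rw [this]
    apply K0_subset_KK
    refine mk_mem_K0 0 σ 0 0 1 0 1 one_pos (by norm_num) _ _ _ _ _ _ ?_
    have h2 : (!![1, 0, 0; 0, 1, 0; 0, 0, 1] : Matrix (Fin 3) (Fin 3) ℝ) - Gam 0 σ 0 0 1 0 1 =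
        !![3/4, 0, 0; 0, 3/4, 0; 0, 0, 1] := by
      ext i j; fin_cases i <;> fin_cases j <;> simp [Gam] <;> linarith
    rw [h2]
    apply KG_psd3_of; intro y0 y1 y2; unfold qf; nlinarith [sq_nonneg y0, sq_nonneg y1, sq_nonneg y2]
  · have : (e23 + σ • Pi.single 5 1 : Fin 23 → ℝ) =
        mk (1/(1*1-0^2)) (-0/(1*1-0^2)) (1/(1*1-0^2)) 0 0 σ 0 1 0 0 1 0 1 := by
      ext k; fin_cases k <;> simp [e23, mk]
    rw [this]
    apply K0_subset_KK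
    refine mk_mem_K0 0 0 σ 0 1 0 1 one_pos (by norm_num) _ _ _ _ _ _ ?_
    have h2 : (!![1, 0, 0; 0, 1, 0; 0, 0, 1] : Matrix (Fin 3) (Fin 3) ℝ) - Gam 0 0 σ 0 1 0 1 =
        !![1, 0, 0; 0, 3/4, 0; 0, 0, 3/4] := by
      ext i j; fin_cases i <;> fin_cases j <;> simp [Gam] <;> linarith
    rw [h2]
    apply KG_psd3_of; intro y0 y1 y2; unfold qf; nlinarith [sq_nonneg y0, sq_nonneg y1, sq_nonneg y2]
  · have : (e23 + σ • Pi.single 6 1 : Fin 23 → ℝ) =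
        mk (1/(1*1-0^2)) (-0/(1*1-0^2)) (1/(1*1-0^2)) 0 0 0 σ 1 0 0 1 0 1 := by
      ext k; fin_cases k <;> simp [e23, mk]
    rw [this]
    apply K0_subset_KK
    refine mk_mem_K0 0 0 0 σ 1 0 1 one_pos (by norm_num) _ _ _ _ _ _ ?_
    have h2 : (!![1, 0, 0; 0, 1, 0; 0, 0, 1] : Matrix (Fin 3) (Fin 3) ℝ) - Gam 0 0 0 σ 1 0 1 =
        !![1, 0, 0; 0, 3/4, 0; 0, 0, 3/4] := by
      ext i j; fin_cases i <;> fin_cases j <;> simp [Gam] <;> linarith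
    rw [h2]
    apply KG_psd3_of; intro y0 y1 y2; unfold qf; nlinarith [sq_nonneg y0, sq_nonneg y1, sq_nonneg y2]
  · have : (e23 + σ • Pi.single 7 1 : Fin 23 → ℝ) = mk 1 0 1 0 0 0 0 (1+σ) 0 0 1 0 1 := by
      ext k; fin_cases k <;> simp [e23, mk]
    rw [this]
    refine mk_mem_KK _ _ _ _ _ _ _ _ _ (by norm_num) (by norm_num) (by norm_num) ?_
    apply KG_psd3_of; intro y0 y1 y2; unfold qf; nlinarith [sq_nonneg y0, sq_nonneg y1, sq_nonneg y2]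
  · have : (e23 + σ • Pi.single 8 1 : Fin 23 → ℝ) = mk 1 0 1 0 0 0 0 1 σ 0 1 0 1 := by
      ext k; fin_cases k <;> simp [e23, mk]
    rw [this]
    refine mk_mem_KK _ _ _ _ _ _ _ _ _ (by norm_num) (by norm_num) (by norm_num) ?_
    apply KG_psd3_of; intro y0 y1 y2; unfold qf
    nlinarith [sq_nonneg (y0 + σ * y1), sq_nonneg y1, sq_nonneg y2]
  · have : (e23 + σ • Pi.single 9 1 : Fin 23 → ℝ) = mk 1 0 1 0 0 0 0 1 0 σ 1 0 1 := by
      ext k; fin_cases k <;> simp [e23, mk]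
    rw [this]
    refine mk_mem_KK _ _ _ _ _ _ _ _ _ (by norm_num) (by norm_num) (by norm_num) ?_
    apply KG_psd3_of; intro y0 y1 y2; unfold qf
    nlinarith [sq_nonneg (y0 + σ * y2), sq_nonneg y1, sq_nonneg y2]
  · have : (e23 + σ • Pi.single 10 1 : Fin 23 → ℝ) = mk 1 0 1 0 0 0 0 1 0 0 (1+σ) 0 1 := by
      ext k; fin_cases k <;> simp [e23, mk]
    rw [this]
    refine mk_mem_KK _ _ _ _ _ _ _ _ _ (by norm_num) (by norm_num) (by norm_num) ?_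
    apply KG_psd3_of; intro y0 y1 y2; unfold qf; nlinarith [sq_nonneg y0, sq_nonneg y1, sq_nonneg y2]
  · have : (e23 + σ • Pi.single 11 1 : Fin 23 → ℝ) = mk 1 0 1 0 0 0 0 1 0 0 1 σ 1 := by
      ext k; fin_cases k <;> simp [e23, mk]
    rw [this]
    refine mk_mem_KK _ _ _ _ _ _ _ _ _ (by norm_num) (by norm_num) (by norm_num) ?_
    apply KG_psd3_of; intro y0 y1 y2; unfold qf
    nlinarith [sq_nonneg (y1 + σ * y2), sq_nonneg y0, sq_nonneg y2]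
  · have : (e23 + σ • Pi.single 12 1 : Fin 23 → ℝ) = mk 1 0 1 0 0 0 0 1 0 0 1 0 (1+σ) := by
      ext k; fin_cases k <;> simp [e23, mk]
    rw [this]
    refine mk_mem_KK _ _ _ _ _ _ _ _ _ (by norm_num) (by norm_num) (by norm_num) ?_
    apply KG_psd3_of; intro y0 y1 y2; unfold qf; nlinarith [sq_nonneg y0, sq_nonneg y1, sq_nonneg y2]

end Crest.Agent.R237.S2
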