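import Crest.Agent.R237.S2Defs
import Crest.Agent.R237.S2Pad

/-!
Row 237, S0368, node N3: the cone `KK` has an exact semidefinite lift.
-/

set_option autoImplicit false

namespace Crest.Agent.R237.S2

open Matrix Filter Topology

/-- auxiliary space -/
abbrev WW : Type := Fin 4 → Fin 4 → Fin 2 → Fin 2 → ℝ

/-- symmetrisation of an auxiliary tensor in both pairs -/
noncomputable def sy (W : WW) : WW := fun k l i j =>
  (W k l i j + W l k i j + W k l j i + W l k j i) / 4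

/-- the quadratic form of a tensor -/
def qf (D : WW) (w : Fin 4 → Fin 2 → ℝ) : ℝ := ∑ k, ∑ l, ∑ i, ∑ j, D k l i j * w k i * w l j

/-- `Γ` linearly extended -/
def GamW (W : WW) : Matrix (Fin 3) (Fin 3) ℝ :=
  !![W 0 0 1 1 + W 1 1 1 1, W 1 3 1 1, -(W 1 2 0 1);
     W 1 3 1 1, W 0 0 0 0 + W 1 1 0 0 + (W 2 2 1 1 + W 3 3 1 1) - 2 * W 0 3 0 1, -(W 0 2 0 0);
     -(W 1 2 0 1), -(W 0 2 0 0), W 2 2 0 0 + W 3 3 0 0]

/-- the quadratic form of `GamW` -/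
def gq (W : WW) (y : Fin 3 → ℝ) : ℝ :=
  (W 0 0 1 1 + W 1 1 1 1) * y 0 ^ 2 + (W 0 0 0 0 + W 1 1 0 0 + (W 2 2 1 1 + W 3 3 1 1)
    - 2 * W 0 3 0 1) * y 1 ^ 2 + (W 2 2 0 0 + W 3 3 0 0) * y 2 ^ 2
    + 2 * (W 1 3 1 1 * (y 0 * y 1)) - 2 * (W 1 2 0 1 * (y 0 * y 2)) - 2 * (W 0 2 0 0 * (y 1 * y 2))

theorem gq_eq (W : WW) (y : Fin 3 → ℝ) : y ⬝ᵥ (GamW W).mulVec y = gq W y := by
  simp [GamW, gq, dotProduct, Matrix.mulVec, Fin.sum_univ_three]
  ring

/-- symmetric in both pairs -/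
def IsSy (D : WW) : Prop := (∀ k l i j, D k l i j = D l k i j) ∧ ∀ k l i j, D k l i j = D k l j i

theorem sy_isSy (W : WW) : IsSy (sy W) := by
  constructor
  · intro k l i j; simp only [sy]; ring
  · intro k l i j; simp only [sy]; ring

theorem sy_eq (W : WW) (h : IsSy W) : sy W = W := by
  funext k l i j
  simp only [sy]
  rw [h.1 l k i j, h.2 k l j i, h.1 l k j i, h.2 k l j i]
  ring

/-- the slice identity -/
theorem slice_id (W : WW) (y : Fin 3 → ℝ) (nu ka : ℝ) (e1 : nu ^ 2 + ka ^ 2 = 1)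
    (e2 : nu * y 1 ^ 2 - ka * (y 0 * y 2) = -(y 1 ^ 2))
    (e3 : nu * (y 0 * y 2) + ka * y 1 ^ 2 = y 0 * y 2) :
    gq (sy W) y = qf (sy W) ![![y 1, 0], ![0, nu * y 0], ![-(y 2), 0], ![0, nu * y 1]]
      + qf (sy W) ![![0, 0], ![0, ka * y 0], ![0, 0], ![0, ka * y 1]]
      + qf (sy W) ![![0, y 0], ![-(nu * y 1), 0], ![0, 0], ![-(ka * y 2), 0]]
      + qf (sy W) ![![0, 0], ![-(ka * y 1), 0], ![0, y 1], ![nu * y 2, 0]] := by
  simp only [qf, gq, Fin.sum_univ_four, Fin.sum_univ_two, sy]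
  simp only [Matrix.cons_val_zero, Matrix.cons_val_one, Matrix.cons_val_two, Matrix.cons_val_three,
    Matrix.head_cons, Matrix.tail_cons]
  linear_combination (-(W 1 1 1 1 * y 0 ^ 2 + W 3 3 1 1 * y 1 ^ 2
    + 2 * ((W 1 3 1 1 + W 3 1 1 1) / 2) * (y 0 * y 1) + W 1 1 0 0 * y 1 ^ 2
    + W 3 3 0 0 * y 2 ^ 2)) * e1
    - 2 * ((W 0 3 0 1 + W 3 0 0 1 + W 0 3 1 0 + W 3 0 1 0) / 4) * e2
    + 2 * ((W 1 2 0 1 + W 2 1 0 1 + W 1 2 1 0 + W 2 1 1 0) / 4) * e3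

/-- **slice SOS**: `Γ(D) ⪰ 0` for every positive semidefinite block symmetric `D`. -/
theorem gq_nonneg (D : WW) (hD : IsSy D) (hpos : ∀ w, 0 ≤ qf D w) (y : Fin 3 → ℝ) :
    0 ≤ gq D y := by
  by_cases hN : y 0 ^ 2 * y 2 ^ 2 + y 1 ^ 4 = 0
  · have h1 : y 1 = 0 := by
      have : y 1 ^ 4 = 0 := by nlinarith [sq_nonneg (y 0 * y 2), sq_nonneg (y 1 ^ 2)]
      exact pow_eq_zero_iff (by norm_num) |>.1 this
    have h02 : y 0 * y 2 = 0 := by
      have : (y 0 * y 2) ^ 2 = 0 := by rw [h1] at hN; nlinarith [hN]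
      exact pow_eq_zero_iff (by norm_num) |>.1 this
    have d0011 := hpos ![![0, 1], ![0, 0], ![0, 0], ![0, 0]]
    have d1111 := hpos ![![0, 0], ![0, 1], ![0, 0], ![0, 0]]
    have d2200 := hpos ![![0, 0], ![0, 0], ![1, 0], ![0, 0]]
    have d3300 := hpos ![![0, 0], ![0, 0], ![0, 0], ![1, 0]]
    simp [qf, Fin.sum_univ_four, Fin.sum_univ_two] at d0011 d1111 d2200 d3300
    have : gq D y = (D 0 0 1 1 + D 1 1 1 1) * y 0 ^ 2 + (D 2 2 0 0 + D 3 3 0 0) * y 2 ^ 2 := by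
      simp only [gq]
      rw [h1]
      linear_combination (-(2 * D 1 2 0 1)) * h02
    rw [this]
    positivity
  · have hN' : 0 < y 0 ^ 2 * y 2 ^ 2 + y 1 ^ 4 := lt_of_le_of_ne (by positivity) (Ne.symm hN)
    set N := y 0 ^ 2 * y 2 ^ 2 + y 1 ^ 4 with hNd
    have hs : D = sy D := (sy_eq D hD).symm
    have h := slice_id D y ((y 0 ^ 2 * y 2 ^ 2 - y 1 ^ 4) / N) (2 * y 0 * y 1 ^ 2 * y 2 / N)
      (by rw [div_pow, div_pow, ← add_div, div_eq_one_iff_eq (by positivity), hNd]; ring)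
      (by field_simp; rw [hNd]; ring) (by field_simp; rw [hNd]; ring)
    rw [← hs] at h
    rw [h]
    have a1 := hpos ![![y 1, 0], ![0, ((y 0 ^ 2 * y 2 ^ 2 - y 1 ^ 4) / N) * y 0], ![-(y 2), 0], ![0, ((y 0 ^ 2 * y 2 ^ 2 - y 1 ^ 4) / N) * y 1]]
    have a2 := hpos ![![0, 0], ![0, (2 * y 0 * y 1 ^ 2 * y 2 / N) * y 0], ![0, 0], ![0, (2 * y 0 * y 1 ^ 2 * y 2 / N) * y 1]]
    have a3 := hpos ![![0, y 0], ![-(((y 0 ^ 2 * y 2 ^ 2 - y 1 ^ 4) / N) * y 1), 0], ![0, 0], ![-((2 * y 0 * y 1 ^ 2 * y 2 / N) * y 2), 0]]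
    have a4 := hpos ![![0, 0], ![-((2 * y 0 * y 1 ^ 2 * y 2 / N) * y 1), 0], ![0, y 1], ![((y 0 ^ 2 * y 2 ^ 2 - y 1 ^ 4) / N) * y 2, 0]]
    linarith

/-! ### the two quadratic forms of the lift -/

/-- first form: `aᵀ X a + 2 aᵀ (∑ v_k w_k) + W(w,w)` -/
def q1 (z : Fin 23 → ℝ) (W : WW) (a : Fin 2 → ℝ) (w : Fin 4 → Fin 2 → ℝ) : ℝ :=
  (z 0 * a 0 ^ 2 + 2 * (z 1 * (a 0 * a 1)) + z 2 * a 1 ^ 2)
    + 2 * (a 0 * (z 3 * w 0 0 + z 4 * w 1 0 + z 5 * w 2 0 + z 6 * w 3 0)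
      + a 1 * (z 3 * w 0 1 + z 4 * w 1 1 + z 5 * w 2 1 + z 6 * w 3 1)) + qf W w

/-- `yᵀ U y` -/
def uq (z : Fin 23 → ℝ) (y : Fin 3 → ℝ) : ℝ :=
  z 7 * y 0 ^ 2 + z 10 * y 1 ^ 2 + z 12 * y 2 ^ 2 + 2 * (z 8 * (y 0 * y 1))
    + 2 * (z 9 * (y 0 * y 2)) + 2 * (z 11 * (y 1 * y 2))

/-- the tensor `v vᵀ ⊗ P` -/
def vvP (z : Fin 23 → ℝ) (P : Fin 2 → Fin 2 → ℝ) : WW := fun k l i j =>
  ![z 3, z 4, z 5, z 6] k * ![z 3, z 4, z 5, z 6] l * P i j

theorem vvP_isSy (z : Fin 23 → ℝ) (P : Fin 2 → Fin 2 → ℝ) (hP : ∀ i j, P i j = P j i) :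
    IsSy (vvP z P) := by
  constructor
  · intro k l i j; simp only [vvP]; ring
  · intro k l i j; simp only [vvP]; rw [hP i j]

theorem gamW_vvP (z : Fin 23 → ℝ) (P : Fin 2 → Fin 2 → ℝ) :
    GamW (vvP z P) = Gam (z 3) (z 4) (z 5) (z 6) (P 0 0) (P 0 1) (P 1 1) := by
  ext i j
  fin_cases i <;> fin_cases j <;>
    simp [GamW, Gam, vvP] <;> ring

theorem uq_eq (z : Fin 23 → ℝ) (y : Fin 3 → ℝ) : y ⬝ᵥ (Um z).mulVec y = uq z y := by
  simp [Um, uq, dotProduct, Matrix.mulVec, Fin.sum_univ_three]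
  ring

theorem Um_isSymm (z : Fin 23 → ℝ) : (Um z).IsSymm := by
  ext i j
  fin_cases i <;> fin_cases j <;> simp [Um]

theorem GamW_isSymm (W : WW) : (GamW W).IsSymm := by
  ext i j
  fin_cases i <;> fin_cases j <;> simp [GamW]

/-- the inverse of the `X` block -/
noncomputable def Pz (z : Fin 23 → ℝ) : Fin 2 → Fin 2 → ℝ :=
  ![![z 2 / dl z, -(z 1) / dl z], ![-(z 1) / dl z, z 0 / dl z]]

theorem Gz_eq (z : Fin 23 → ℝ) : Gz z = GamW (vvP z (Pz z)) := by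
  rw [gamW_vvP]; simp [Gz, Pz]

/-- membership in `K0` through quadratic forms -/
theorem mem_K0_iff (z : Fin 23 → ℝ) :
    z ∈ K0 ↔ 0 < z 0 ∧ 0 < dl z ∧ ∀ y, gq (vvP z (Pz z)) y ≤ uq z y := by
  unfold K0
  rw [Set.mem_ofPred_eq]
  have hsym : (Um z - Gz z).IsSymm := by
    rw [Gz_eq]
    have h1 := Um_isSymm z
    have h2 := GamW_isSymm (vvP z (Pz z))
    unfold Matrix.IsSymm at *
    rw [Matrix.transpose_sub, h1, h2]
  have hq : ∀ y : Fin 3 → ℝ, y ⬝ᵥ (Um z - Gz z).mulVec y = uq z y - gq (vvP z (Pz z)) y := by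
    intro y
    rw [Matrix.sub_mulVec, dotProduct_sub, uq_eq, Gz_eq, gq_eq]
  refine and_congr Iff.rfl (and_congr Iff.rfl ⟨fun h y => ?_, fun h => ?_⟩)
  · have := h.dotProduct_mulVec_nonneg y
    simp only [star_trivial] at this
    rw [hq] at this
    linarith
  · refine Matrix.PosSemidef.of_dotProduct_mulVec_nonneg ?_ fun y => ?_
    · rw [Matrix.IsHermitian, Matrix.conjTranspose_eq_transpose_of_trivial]; exact hsym
    · simp only [star_trivial]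
      rw [hq]; linarith [h y]

/-- the translate `z + t e` -/
theorem te_vals (z : Fin 23 → ℝ) (t : ℝ) :
    (z + t • e23) 0 = z 0 + t ∧ (z + t • e23) 1 = z 1 ∧ (z + t • e23) 2 = z 2 + t ∧
    (z + t • e23) 3 = z 3 ∧ (z + t • e23) 4 = z 4 ∧ (z + t • e23) 5 = z 5 ∧
    (z + t • e23) 6 = z 6 ∧ (z + t • e23) 7 = z 7 + t ∧ (z + t • e23) 8 = z 8 ∧
    (z + t • e23) 9 = z 9 ∧ (z + t • e23) 10 = z 10 + t ∧ (z + t • e23) 11 = z 11 ∧
    (z + t • e23) 12 = z 12 + t := by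
  simp [e23]

theorem q1_te (z : Fin 23 → ℝ) (t : ℝ) (W : WW) (a : Fin 2 → ℝ) (w : Fin 4 → Fin 2 → ℝ) :
    q1 (z + t • e23) W a w = q1 z W a w + t * (a 0 ^ 2 + a 1 ^ 2) := by
  obtain ⟨h0, h1, h2, h3, h4, h5, h6, -⟩ := te_vals z t
  simp only [q1, h0, h1, h2, h3, h4, h5, h6]
  ring

theorem uq_te (z : Fin 23 → ℝ) (t : ℝ) (y : Fin 3 → ℝ) :
    uq (z + t • e23) y = uq z y + t * (y 0 ^ 2 + y 1 ^ 2 + y 2 ^ 2) := by
  obtain ⟨-, -, -, -, -, -, -, h7, h8, h9, h10, h11, h12⟩ := te_vals z t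
  simp only [uq, h7, h8, h9, h10, h11, h12]
  ring

/-- Schur: if `q1 ≥ 0` and `X ≻ 0` then `W - v vᵀ ⊗ X⁻¹ ⪰ 0`. -/
theorem schur_nonneg (z : Fin 23 → ℝ) (W : WW) (hdl : 0 < dl z)
    (h : ∀ a w, 0 ≤ q1 z W a w) (w : Fin 4 → Fin 2 → ℝ) : 0 ≤ qf (W - vvP z (Pz z)) w := by
  have hne : dl z ≠ 0 := hdl.ne'
  set b0 := z 3 * w 0 0 + z 4 * w 1 0 + z 5 * w 2 0 + z 6 * w 3 0 with hb0
  set b1 := z 3 * w 0 1 + z 4 * w 1 1 + z 5 * w 2 1 + z 6 * w 3 1 with hb1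
  have h1 := h ![-((z 2 * b0 - z 1 * b1) / dl z), -((-(z 1) * b0 + z 0 * b1) / dl z)] w
  have h2 : qf (W - vvP z (Pz z)) w = qf W w - (z 2 * b0 ^ 2 - 2 * z 1 * b0 * b1 + z 0 * b1 ^ 2) / dl z := by
    have : qf (vvP z (Pz z)) w = (z 2 * b0 ^ 2 - 2 * z 1 * b0 * b1 + z 0 * b1 ^ 2) / dl z := by
      simp only [qf, vvP, Pz, Fin.sum_univ_four, Fin.sum_univ_two]
      simp only [Matrix.cons_val_zero, Matrix.cons_val_one, Matrix.cons_val_two,
        Matrix.cons_val_three, Matrix.head_cons, Matrix.tail_cons]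
      rw [hb0, hb1]
      field_simp
      ring
    rw [← this]
    simp only [qf, Pi.sub_apply, sub_mul, Finset.sum_sub_distrib]
  rw [h2]
  have h3 : q1 z W ![-((z 2 * b0 - z 1 * b1) / dl z), -((-(z 1) * b0 + z 0 * b1) / dl z)] w
      = qf W w - (z 2 * b0 ^ 2 - 2 * z 1 * b0 * b1 + z 0 * b1 ^ 2) / dl z := by
    simp only [q1, Matrix.cons_val_zero, Matrix.cons_val_one]
    rw [← hb0, ← hb1]
    have hd : dl z = z 0 * z 2 - z 1 ^ 2 := rfl
    field_simp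
    rw [hd]
    ring
  rw [← h3]
  exact h1

/-- conversely `q1 z (v vᵀ ⊗ X⁻¹) ≥ 0` when `X ≻ 0`. -/
theorem q1_vvP (z : Fin 23 → ℝ) (h0 : 0 < z 0) (hdl : 0 < dl z) (a : Fin 2 → ℝ)
    (w : Fin 4 → Fin 2 → ℝ) : 0 ≤ q1 z (vvP z (Pz z)) a w := by
  have hne : dl z ≠ 0 := hdl.ne'
  set b0 := z 3 * w 0 0 + z 4 * w 1 0 + z 5 * w 2 0 + z 6 * w 3 0 with hb0
  set b1 := z 3 * w 0 1 + z 4 * w 1 1 + z 5 * w 2 1 + z 6 * w 3 1 with hb1
  have hqf : qf (vvP z (Pz z)) w = (z 2 * b0 ^ 2 - 2 * z 1 * b0 * b1 + z 0 * b1 ^ 2) / dl z := by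
    simp only [qf, vvP, Pz, Fin.sum_univ_four, Fin.sum_univ_two]
    simp only [Matrix.cons_val_zero, Matrix.cons_val_one, Matrix.cons_val_two,
      Matrix.cons_val_three, Matrix.head_cons, Matrix.tail_cons]
    rw [hb0, hb1]
    field_simp
    ring
  have key : q1 z (vvP z (Pz z)) a w
      = (z 0 * (a 0 + (z 2 * b0 - z 1 * b1) / dl z) ^ 2
        + 2 * (z 1 * ((a 0 + (z 2 * b0 - z 1 * b1) / dl z) * (a 1 + (-(z 1) * b0 + z 0 * b1) / dl z)))
        + z 2 * (a 1 + (-(z 1) * b0 + z 0 * b1) / dl z) ^ 2) := by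
    simp only [q1]
    rw [hqf, ← hb0, ← hb1]
    have hd : dl z = z 0 * z 2 - z 1 ^ 2 := rfl
    field_simp
    rw [hd]
    ring
  rw [key]
  have hpsd : ∀ α β : ℝ, 0 ≤ z 0 * α ^ 2 + 2 * (z 1 * (α * β)) + z 2 * β ^ 2 := by
    intro α β
    have hd : dl z = z 0 * z 2 - z 1 ^ 2 := rfl
    have h5 : 0 ≤ z 0 * (z 0 * α ^ 2 + 2 * (z 1 * (α * β)) + z 2 * β ^ 2) := by
      have : z 0 * (z 0 * α ^ 2 + 2 * (z 1 * (α * β)) + z 2 * β ^ 2)
          = (z 0 * α + z 1 * β) ^ 2 + dl z * β ^ 2 := by rw [hd]; ring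
      rw [this]; positivity
    exact nonneg_of_mul_nonneg_right h5 h0
  exact hpsd _ _

/-- direction `lift → KK` -/
theorem mem_KK_of_lift (z : Fin 23 → ℝ) (W : WW) (hW : IsSy W)
    (h1 : ∀ a w, 0 ≤ q1 z W a w) (h2 : ∀ y, gq W y ≤ uq z y) : z ∈ KK := by
  have hX : ∀ α β : ℝ, 0 ≤ z 0 * α ^ 2 + 2 * (z 1 * (α * β)) + z 2 * β ^ 2 := by
    intro α β
    have := h1 ![α, β] 0
    simpa [q1, qf] using this
  have h0 : 0 ≤ z 0 := by simpa using hX 1 0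
  have h2' : 0 ≤ z 2 := by simpa using hX 0 1
  intro t ht
  obtain ⟨e0, e1, e2, e3, e4, e5, e6, e7, e8, e9, e10, e11, e12⟩ := te_vals z t
  have hdl : 0 < dl (z + t • e23) := by
    have hd : dl (z + t • e23) = (z 0 + t) * (z 2 + t) - z 1 ^ 2 := by
      simp only [dl, e0, e1, e2]
    rw [hd]
    -- z1² ≤ z0 z2
    have h3 : z 1 ^ 2 ≤ z 0 * z 2 := by
      have h4 : discrim (z 0) (2 * z 1) (z 2) ≤ 0 := discrim_le_zero fun x => by
        have := hX x 1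
        nlinarith [this]
      unfold discrim at h4
      nlinarith [h4]
    nlinarith [mul_pos ht ht, mul_nonneg h0 ht.le, mul_nonneg h2' ht.le]
  rw [mem_K0_iff]
  refine ⟨by rw [e0]; linarith, hdl, fun y => ?_⟩
  have hq1 : ∀ a w, 0 ≤ q1 (z + t • e23) W a w := by
    intro a w
    rw [q1_te]
    have := h1 a w
    positivity
  have hS := schur_nonneg _ W hdl hq1
  have hsyD : IsSy (W - vvP (z + t • e23) (Pz (z + t • e23))) := by
    have hv := vvP_isSy (z + t • e23) (Pz (z + t • e23)) (by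
      intro i j; fin_cases i <;> fin_cases j <;> simp [Pz])
    constructor
    · intro k l i j
      simp only [Pi.sub_apply]
      rw [hW.1 k l i j, hv.1 k l i j]
    · intro k l i j
      simp only [Pi.sub_apply]
      rw [hW.2 k l i j, hv.2 k l i j]
  have hg := gq_nonneg _ hsyD hS y
  have hg2 : gq (W - vvP (z + t • e23) (Pz (z + t • e23))) y
      = gq W y - gq (vvP (z + t • e23) (Pz (z + t • e23))) y := by
    simp only [gq, Pi.sub_apply]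
    ring
  rw [hg2] at hg
  rw [uq_te]
  have := h2 y
  have h9 : 0 ≤ t * (y 0 ^ 2 + y 1 ^ 2 + y 2 ^ 2) := by positivity
  linarith

/-- the trace bound -/
theorem bound_vvP (z : Fin 23 → ℝ) (h : z ∈ K0) (k l : Fin 4) (i j : Fin 2) :
    |vvP z (Pz z) k l i j| ≤ 2 * (z 7 + z 10 + z 12) := by
  have h' := (mem_K0_iff z).1 h
  obtain ⟨h0, hdl, hy⟩ := h'
  have hd : dl z = z 0 * z 2 - z 1 ^ 2 := rfl
  have hz2 : 0 < z 2 := by
    have : 0 < z 0 * z 2 := by nlinarith [sq_nonneg (z 1)]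
    exact (pos_iff_pos_of_mul_pos this).1 h0
  set A := Pz z 0 0 with hA
  set B := Pz z 0 1 with hB
  set Cc := Pz z 1 1 with hC
  have hA0 : 0 < A := by simp only [hA, Pz]; simp; positivity
  have hC0 : 0 < Cc := by simp only [hC, Pz]; simp; positivity
  have hB1 : Pz z 1 0 = B := by simp [hB, Pz]
  have hAC : B ^ 2 ≤ A * Cc := by
    have : A * Cc - B ^ 2 = 1 / dl z := by
      have hne : dl z ≠ 0 := hdl.ne'
      simp only [hA, hB, hC, Pz, Matrix.cons_val_zero, Matrix.cons_val_one]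
      rw [hd] at hne ⊢
      field_simp
    have h5 : 0 < 1 / dl z := by positivity
    linarith
  have hBs : |B| ≤ (A + Cc) / 2 := by
    refine abs_le_of_sq_le_sq ?_ (by positivity)
    nlinarith [sq_nonneg (A - Cc)]
  -- the trace
  have t0 := hy ![1, 0, 0]
  have t1 := hy ![0, 1, 0]
  have t2 := hy ![0, 0, 1]
  simp [gq, uq, vvP] at t0 t1 t2
  have hsum : (z 3 ^ 2 + z 4 ^ 2 + z 5 ^ 2 + z 6 ^ 2) * (A + Cc) - 2 * (z 3 * z 6 * B)
      ≤ z 7 + z 10 + z 12 := by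
    simp only [hA, hB, hC]
    linarith
  set S := z 3 ^ 2 + z 4 ^ 2 + z 5 ^ 2 + z 6 ^ 2 with hS
  have hcr : 2 * (z 3 * z 6 * B) ≤ S * ((A + Cc) / 2) := by
    have h1 : 2 * (z 3 * z 6 * B) ≤ (z 3 ^ 2 + z 6 ^ 2) * |B| := by
      have h2 : 2 * (z 3 * z 6 * B) ≤ |2 * (z 3 * z 6 * B)| := le_abs_self _
      rw [abs_mul, abs_mul, abs_mul] at h2
      have h3 : |(2:ℝ)| = 2 := by norm_num
      rw [h3] at h2
      have h5 := mul_nonneg (sq_nonneg (|z 3| - |z 6|)) (abs_nonneg B)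
      have h6 : (|z 3| - |z 6|) ^ 2 * |B| = (z 3 ^ 2 + z 6 ^ 2) * |B| - 2 * (|z 3| * |z 6| * |B|) := by
        rw [← sq_abs (z 3), ← sq_abs (z 6)]; ring
      linarith
    have h4 : (z 3 ^ 2 + z 6 ^ 2) * |B| ≤ S * ((A + Cc) / 2) := by
      refine mul_le_mul ?_ hBs (abs_nonneg B) (by positivity)
      rw [hS]; linarith [sq_nonneg (z 4), sq_nonneg (z 5)]
    linarith
  have hST : S * (A + Cc) ≤ 2 * (z 7 + z 10 + z 12) := by linarith
  have hv : ∀ k : Fin 4, (![z 3, z 4, z 5, z 6] k) ^ 2 ≤ S := by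
    intro k
    have s3 := sq_nonneg (z 3)
    have s4 := sq_nonneg (z 4)
    have s5 := sq_nonneg (z 5)
    have s6 := sq_nonneg (z 6)
    fin_cases k
    · show z 3 ^ 2 ≤ S
      rw [hS]; linarith
    · show z 4 ^ 2 ≤ S
      rw [hS]; linarith
    · show z 5 ^ 2 ≤ S
      rw [hS]; linarith
    · show z 6 ^ 2 ≤ S
      rw [hS]; linarith
  have hvv : |![z 3, z 4, z 5, z 6] k * ![z 3, z 4, z 5, z 6] l| ≤ S := by
    have h1 := hv k
    have h2 := hv l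
    generalize ![z 3, z 4, z 5, z 6] k = α at h1 ⊢
    generalize ![z 3, z 4, z 5, z 6] l = β at h2 ⊢
    have h3 := sq_nonneg (α + β)
    have h4 := sq_nonneg (α - β)
    rw [abs_le]
    constructor
    · linarith [add_sq α β]
    · linarith [sub_sq α β]
  have hP : |Pz z i j| ≤ A + Cc := by
    have hAa : |A| = A := abs_of_pos hA0
    have hCa : |Cc| = Cc := abs_of_pos hC0
    fin_cases i <;> fin_cases j
    · show |Pz z 0 0| ≤ _
      rw [← hA, hAa]; linarith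
    · show |Pz z 0 1| ≤ _
      rw [← hB]; linarith
    · show |Pz z 1 0| ≤ _
      rw [hB1]; linarith
    · show |Pz z 1 1| ≤ _
      rw [← hC, hCa]; linarith
  calc |vvP z (Pz z) k l i j| = |![z 3, z 4, z 5, z 6] k * ![z 3, z 4, z 5, z 6] l| * |Pz z i j| := by
        rw [← abs_mul]; rfl
    _ ≤ S * (A + Cc) := mul_le_mul hvv hP (abs_nonneg _) (by positivity)
    _ ≤ _ := hST

theorem qf_cont (w : Fin 4 → Fin 2 → ℝ) : Continuous fun W : WW => qf W w := by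
  unfold qf
  fun_prop

theorem gq_cont (y : Fin 3 → ℝ) : Continuous fun W : WW => gq W y := by
  unfold gq
  fun_prop

/-- direction `KK → lift` -/
theorem lift_of_mem_KK (z : Fin 23 → ℝ) (hz : z ∈ KK) :
    ∃ W : WW, IsSy W ∧ (∀ a w, 0 ≤ q1 z W a w) ∧ ∀ y, gq W y ≤ uq z y := by
  -- the sequence
  have ht : ∀ n : ℕ, (0:ℝ) < 1 / ((n:ℝ) + 1) := fun n => by positivity
  have ht1 : ∀ n : ℕ, 1 / ((n:ℝ) + 1) ≤ 1 := fun n => by
    rw [div_le_one (by positivity)]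
    linarith [Nat.cast_nonneg (α := ℝ) n]
  let zn : ℕ → Fin 23 → ℝ := fun n => z + (1 / ((n:ℝ) + 1)) • e23
  let Wn : ℕ → WW := fun n => vvP (zn n) (Pz (zn n))
  have hb : ∀ n, Wn n ∈ Metric.closedBall (0 : WW) (2 * (z 7 + z 10 + z 12 + 3)) := by
    intro n
    have hK := hz _ (ht n)
    have hbd := bound_vvP (zn n) hK
    obtain ⟨-, -, -, -, -, -, -, h7, h8, h9, h10, h11, h12⟩ := te_vals z (1 / ((n:ℝ) + 1))
    have h5 : 2 * ((zn n) 7 + (zn n) 10 + (zn n) 12) ≤ 2 * (z 7 + z 10 + z 12 + 3) := by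
      simp only [zn]
      rw [h7, h10, h12]
      linarith [ht1 n]
    have h0 : (0:ℝ) ≤ 2 * (z 7 + z 10 + z 12 + 3) :=
      (abs_nonneg _).trans ((hbd 0 0 0 0).trans h5)
    rw [mem_closedBall_zero_iff]
    refine (pi_norm_le_iff_of_nonneg h0).2 fun k => (pi_norm_le_iff_of_nonneg h0).2 fun l =>
      (pi_norm_le_iff_of_nonneg h0).2 fun i => (pi_norm_le_iff_of_nonneg h0).2 fun j => ?_
    rw [Real.norm_eq_abs]
    exact (hbd k l i j).trans h5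
  obtain ⟨W, -, φ, hφ, hW⟩ := (isCompact_closedBall (0 : WW) _).tendsto_subseq hb
  have htl : Tendsto (fun n : ℕ => 1 / ((φ n : ℝ) + 1)) atTop (𝓝 0) :=
    tendsto_one_div_add_atTop_nhds_zero_nat.comp hφ.tendsto_atTop
  have hsyn : ∀ n, IsSy (Wn n) := fun n => vvP_isSy _ _ (by
    intro i j; fin_cases i <;> fin_cases j <;> simp [Pz])
  have happ : ∀ k l i j, Tendsto (fun n => (Wn (φ n)) k l i j) atTop (𝓝 (W k l i j)) := by
    intro k l i j
    have h1 := tendsto_pi_nhds.1 hW k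
    have h2 := tendsto_pi_nhds.1 h1 l
    have h3 := tendsto_pi_nhds.1 h2 i
    exact tendsto_pi_nhds.1 h3 j
  refine ⟨W, ⟨fun k l i j => ?_, fun k l i j => ?_⟩, fun a w => ?_, fun y => ?_⟩
  · refine tendsto_nhds_unique (happ k l i j) ?_
    have := happ l k i j
    refine this.congr fun n => ?_
    exact ((hsyn (φ n)).1 k l i j).symm
  · refine tendsto_nhds_unique (happ k l i j) ?_
    have := happ k l j i
    refine this.congr fun n => ?_
    exact ((hsyn (φ n)).2 k l i j).symm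
  · -- `q1`
    have h1 : Tendsto (fun n => q1 z (Wn (φ n)) a w + 1 / ((φ n : ℝ) + 1) * (a 0 ^ 2 + a 1 ^ 2))
        atTop (𝓝 (q1 z W a w + 0 * (a 0 ^ 2 + a 1 ^ 2))) := by
      refine Tendsto.add ?_ (htl.mul_const _)
      unfold q1
      exact tendsto_const_nhds.add (((qf_cont w).tendsto W).comp hW)
    rw [zero_mul, add_zero] at h1
    refine ge_of_tendsto' h1 fun n => ?_
    rw [← q1_te]
    have hK := (mem_K0_iff _).1 (hz _ (ht (φ n)))
    exact q1_vvP _ hK.1 hK.2.1 a w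
  · have h1 : Tendsto (fun n => gq (Wn (φ n)) y) atTop (𝓝 (gq W y)) :=
      ((gq_cont y).tendsto W).comp hW
    have h2 : Tendsto (fun n => uq z y + 1 / ((φ n : ℝ) + 1) * (y 0 ^ 2 + y 1 ^ 2 + y 2 ^ 2))
        atTop (𝓝 (uq z y + 0 * (y 0 ^ 2 + y 1 ^ 2 + y 2 ^ 2))) :=
      tendsto_const_nhds.add (htl.mul_const _)
    rw [zero_mul, add_zero] at h2
    refine le_of_tendsto_of_tendsto' h1 h2 fun n => ?_
    rw [← uq_te]
    exact ((mem_K0_iff _).1 (hz _ (ht (φ n)))).2.2 y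

/-! ### the matrices of the lift -/

/-- the block `vᵀ ⊗ I₂` -/
def Bv (z : Fin 23 → ℝ) : Matrix (Fin 2) (Fin 4 × Fin 2) ℝ :=
  Matrix.of fun i kj => if i = kj.2 then ![z 3, z 4, z 5, z 6] kj.1 else 0

/-- the `W` block -/
def Wm (W : WW) : Matrix (Fin 4 × Fin 2) (Fin 4 × Fin 2) ℝ :=
  Matrix.of fun a b => W a.1 b.1 a.2 b.2

/-- the `z` part of the pencil -/
def Pm (z : Fin 23 → ℝ) : Matrix ((Fin 2 ⊕ (Fin 4 × Fin 2)) ⊕ Fin 3) ((Fin 2 ⊕ (Fin 4 × Fin 2)) ⊕ Fin 3) ℝ :=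
  Matrix.fromBlocks (Matrix.fromBlocks (Xm z) (Bv z) (Bv z)ᵀ 0) 0 0 (Um z)

/-- the `W` part of the pencil -/
noncomputable def Qm (W : WW) : Matrix ((Fin 2 ⊕ (Fin 4 × Fin 2)) ⊕ Fin 3) ((Fin 2 ⊕ (Fin 4 × Fin 2)) ⊕ Fin 3) ℝ :=
  Matrix.fromBlocks (Matrix.fromBlocks 0 0 0 (Wm (sy W))) 0 0 (-GamW (sy W))

theorem quad_blocks {ι κ : Type*} [Fintype ι] [Fintype κ] (A : Matrix ι ι ℝ) (B : Matrix ι κ ℝ)
    (C : Matrix κ ι ℝ) (D : Matrix κ κ ℝ) (x : ι ⊕ κ → ℝ) :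
    x ⬝ᵥ (Matrix.fromBlocks A B C D).mulVec x =
      (x ∘ Sum.inl) ⬝ᵥ A.mulVec (x ∘ Sum.inl) + (x ∘ Sum.inl) ⬝ᵥ B.mulVec (x ∘ Sum.inr)
      + (x ∘ Sum.inr) ⬝ᵥ C.mulVec (x ∘ Sum.inl) + (x ∘ Sum.inr) ⬝ᵥ D.mulVec (x ∘ Sum.inr) := by
  simp only [dotProduct, Matrix.mulVec, Fintype.sum_sum_type, Matrix.fromBlocks_apply₁₁,
    Matrix.fromBlocks_apply₁₂, Matrix.fromBlocks_apply₂₁, Matrix.fromBlocks_apply₂₂,
    Function.comp_apply, mul_add, Finset.sum_add_distrib]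
  ring

theorem quad_Wm (W : WW) (x : Fin 4 × Fin 2 → ℝ) :
    x ⬝ᵥ (Wm W).mulVec x = qf W (fun k i => x (k, i)) := by
  simp only [dotProduct, Matrix.mulVec, Wm, qf, Matrix.of_apply, Fintype.sum_prod_type,
    Fin.sum_univ_four, Fin.sum_univ_two]
  ring

theorem quad_Xm (z : Fin 23 → ℝ) (a : Fin 2 → ℝ) :
    a ⬝ᵥ (Xm z).mulVec a = z 0 * a 0 ^ 2 + 2 * (z 1 * (a 0 * a 1)) + z 2 * a 1 ^ 2 := by
  simp [dotProduct, Matrix.mulVec, Xm, Fin.sum_univ_two]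
  ring

theorem quad_Bv (z : Fin 23 → ℝ) (a : Fin 2 → ℝ) (w : Fin 4 × Fin 2 → ℝ) :
    a ⬝ᵥ (Bv z).mulVec w =
      a 0 * (z 3 * w (0, 0) + z 4 * w (1, 0) + z 5 * w (2, 0) + z 6 * w (3, 0))
      + a 1 * (z 3 * w (0, 1) + z 4 * w (1, 1) + z 5 * w (2, 1) + z 6 * w (3, 1)) := by
  simp [dotProduct, Matrix.mulVec, Bv, Fin.sum_univ_two, Fintype.sum_prod_type, Fin.sum_univ_four]

theorem quad_PQ (z : Fin 23 → ℝ) (W : WW) (x : (Fin 2 ⊕ (Fin 4 × Fin 2)) ⊕ Fin 3 → ℝ) :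
    x ⬝ᵥ (Pm z + Qm W).mulVec x =
      q1 z (sy W) (fun i => x (Sum.inl (Sum.inl i))) (fun k i => x (Sum.inl (Sum.inr (k, i))))
        + (uq z (fun i => x (Sum.inr i)) - gq (sy W) (fun i => x (Sum.inr i))) := by
  have hT : ∀ (a : Fin 2 → ℝ) (w : Fin 4 × Fin 2 → ℝ),
      w ⬝ᵥ (Bv z)ᵀ.mulVec a = a ⬝ᵥ (Bv z).mulVec w := by
    intro a w
    rw [Matrix.mulVec_transpose, dotProduct_comm, ← Matrix.dotProduct_mulVec]
  rw [Matrix.add_mulVec, dotProduct_add, Pm, Qm, quad_blocks, quad_blocks, quad_blocks, quad_blocks]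
  simp only [Matrix.zero_mulVec, dotProduct_zero, add_zero, zero_add, Matrix.neg_mulVec,
    dotProduct_neg]
  rw [hT, quad_Xm, quad_Bv, quad_Wm, uq_eq, gq_eq]
  simp only [q1, Function.comp_apply]
  ring!

/-- the lift in terms of the pencil -/
theorem psd_iff (z : Fin 23 → ℝ) (W : WW) :
    (Pm z + Qm W).PosSemidef ↔
      (∀ a w, 0 ≤ q1 z (sy W) a w) ∧ ∀ y, gq (sy W) y ≤ uq z y := by
  have hsym : (Pm z + Qm W).IsSymm := by
    have hX : (Xm z).IsSymm := by ext i j; fin_cases i <;> fin_cases j <;> simp [Xm]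
    have hW : (Wm (sy W)).IsSymm := by
      ext a b
      simp only [Wm, Matrix.transpose_apply, Matrix.of_apply]
      rw [(sy_isSy W).1, (sy_isSy W).2]
    unfold Matrix.IsSymm at *
    rw [Matrix.transpose_add, Pm, Qm, Matrix.fromBlocks_transpose, Matrix.fromBlocks_transpose,
      Matrix.fromBlocks_transpose, Matrix.fromBlocks_transpose, Matrix.transpose_transpose, hX, hW,
      Um_isSymm z, Matrix.transpose_neg, GamW_isSymm]
    simp
  constructor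
  · intro h
    constructor
    · intro a w
      have := h.dotProduct_mulVec_nonneg (Sum.elim (Sum.elim a (fun p => w p.1 p.2)) 0)
      rw [star_trivial, quad_PQ] at this
      simpa [uq, gq] using this
    · intro y
      have := h.dotProduct_mulVec_nonneg (Sum.elim 0 y)
      rw [star_trivial, quad_PQ] at this
      have h0 : q1 z (sy W) (fun i => (Sum.elim 0 y : (Fin 2 ⊕ (Fin 4 × Fin 2)) ⊕ Fin 3 → ℝ) (Sum.inl (Sum.inl i)))
          (fun k i => (Sum.elim 0 y : (Fin 2 ⊕ (Fin 4 × Fin 2)) ⊕ Fin 3 → ℝ) (Sum.inl (Sum.inr (k, i)))) = 0 := by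
        simp [q1, qf]
      rw [h0, zero_add] at this
      have h2 : 0 ≤ uq z y - gq (sy W) y := this
      linarith
  · rintro ⟨h1, h2⟩
    refine Matrix.PosSemidef.of_dotProduct_mulVec_nonneg ?_ fun x => ?_
    · rw [Matrix.IsHermitian, Matrix.conjTranspose_eq_transpose_of_trivial]; exact hsym
    · rw [star_trivial, quad_PQ]
      have := h1 (fun i => x (Sum.inl (Sum.inl i))) (fun k i => x (Sum.inl (Sum.inr (k, i))))
      have := h2 (fun i => x (Sum.inr i))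
      linarith

/-- `Pm` as a linear map -/
noncomputable def PL : (Fin 23 → ℝ) →ₗ[ℝ]
    Matrix ((Fin 2 ⊕ (Fin 4 × Fin 2)) ⊕ Fin 3) ((Fin 2 ⊕ (Fin 4 × Fin 2)) ⊕ Fin 3) ℝ where
  toFun := Pm
  map_add' := by
    intro z z'
    have hX : Xm (z + z') = Xm z + Xm z' := by
      ext i j; fin_cases i <;> fin_cases j <;> simp [Xm]
    have hU : Um (z + z') = Um z + Um z' := by
      ext i j; fin_cases i <;> fin_cases j <;> simp [Um]
    have hB : Bv (z + z') = Bv z + Bv z' := by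
      ext i ⟨k, j⟩
      simp only [Bv, Matrix.of_apply, Matrix.add_apply]
      split_ifs
      · fin_cases k <;> simp
      · simp
    simp only [Pm]
    rw [hX, hU, hB, Matrix.fromBlocks_add, Matrix.fromBlocks_add, Matrix.transpose_add]
    simp
  map_smul' := by
    intro r z
    have hX : Xm (r • z) = r • Xm z := by
      ext i j; fin_cases i <;> fin_cases j <;> simp [Xm]
    have hU : Um (r • z) = r • Um z := by
      ext i j; fin_cases i <;> fin_cases j <;> simp [Um]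
    have hB : Bv (r • z) = r • Bv z := by
      ext i ⟨k, j⟩
      simp only [Bv, Matrix.of_apply, Matrix.smul_apply]
      split_ifs
      · fin_cases k <;> simp
      · simp
    simp only [Pm, RingHom.id_apply]
    rw [hX, hU, hB, Matrix.fromBlocks_smul, Matrix.fromBlocks_smul, Matrix.transpose_smul]
    simp

/-- `Qm` as a linear map -/
noncomputable def QL : WW →ₗ[ℝ]
    Matrix ((Fin 2 ⊕ (Fin 4 × Fin 2)) ⊕ Fin 3) ((Fin 2 ⊕ (Fin 4 × Fin 2)) ⊕ Fin 3) ℝ where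
  toFun := Qm
  map_add' := by
    intro W W'
    have hs : sy (W + W') = sy W + sy W' := by
      funext k l i j; simp only [sy, Pi.add_apply]; ring
    have hG : GamW (sy W + sy W') = GamW (sy W) + GamW (sy W') := by
      ext i j; fin_cases i <;> fin_cases j <;> simp [GamW] <;> ring
    have hW : Wm (sy W + sy W') = Wm (sy W) + Wm (sy W') := by
      ext a b; simp [Wm]
    simp only [Qm]
    rw [hs, hG, hW, Matrix.fromBlocks_add, Matrix.fromBlocks_add]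
    simp [add_comm]
  map_smul' := by
    intro r W
    have hs : sy (r • W) = r • sy W := by
      funext k l i j; simp only [sy, Pi.smul_apply, smul_eq_mul]; ring
    have hG : GamW (r • sy W) = r • GamW (sy W) := by
      ext i j; fin_cases i <;> fin_cases j <;> simp [GamW] <;> ring
    have hW : Wm (r • sy W) = r • Wm (sy W) := by
      ext a b; simp [Wm]
    simp only [Qm, RingHom.id_apply]
    rw [hs, hG, hW, Matrix.fromBlocks_smul, Matrix.fromBlocks_smul]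
    simp

theorem PL_symm (z : Fin 23 → ℝ) : (PL z).IsSymm := by
  have hX : (Xm z).IsSymm := by ext i j; fin_cases i <;> fin_cases j <;> simp [Xm]
  show (Pm z).IsSymm
  unfold Matrix.IsSymm at *
  rw [Pm, Matrix.fromBlocks_transpose, Matrix.fromBlocks_transpose, Matrix.transpose_transpose, hX,
    Um_isSymm z]
  simp

theorem QL_symm (W : WW) : (QL W).IsSymm := by
  have hW : (Wm (sy W)).IsSymm := by
    ext a b
    simp only [Wm, Matrix.transpose_apply, Matrix.of_apply]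
    rw [(sy_isSy W).1, (sy_isSy W).2]
  show (Qm W).IsSymm
  unfold Matrix.IsSymm at *
  rw [Qm, Matrix.fromBlocks_transpose, Matrix.fromBlocks_transpose, hW, Matrix.transpose_neg,
    GamW_isSymm]
  simp

/-- membership in `KK` through the linear pencil -/
theorem mem_KK_iff (z : Fin 23 → ℝ) : z ∈ KK ↔ ∃ W : WW, (PL z + QL W).PosSemidef := by
  constructor
  · intro hz
    obtain ⟨W, hW, h1, h2⟩ := lift_of_mem_KK z hz
    refine ⟨W, ?_⟩
    show (Pm z + Qm W).PosSemidef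
    rw [psd_iff, sy_eq W hW]
    exact ⟨h1, h2⟩
  · rintro ⟨W, hW⟩
    have h : (Pm z + Qm W).PosSemidef := hW
    rw [psd_iff] at h
    exact mem_KK_of_lift z (sy W) (sy_isSy W) h.1 h.2

/-- **Node N3.** -/
theorem lift_KK : ∃ (A : Fin 23 → Matrix (Fin 100) (Fin 100) ℝ)
    (B : Fin 307 → Matrix (Fin 100) (Fin 100) ℝ),
    (∀ n, (A n).IsSymm) ∧ (∀ j, (B j).IsSymm) ∧
      KK = {x | ∃ v : Fin 307 → ℝ, (∑ ν, x ν • A ν + ∑ j, v j • B j).PosSemidef} := by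
  refine lift_pad (ι := (Fin 2 ⊕ (Fin 4 × Fin 2)) ⊕ Fin 3) (E := WW) (by simp) ?_ PL QL PL_symm
    QL_symm KK mem_KK_iff
  simp [WW, Module.finrank_pi_fintype]

end Crest.Agent.R237.S2
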