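import Mathlib
import Crest.Agent.R237.S2NS
import Crest.Agent.R237.S2Bridge
import Crest.Agent.R237.S2D1
import Crest.Agent.R237.S2D2a
import Crest.Agent.R237.S2D2b808
import Crest.Agent.R237.S2D3
import Crest.Agent.R237.S2KF
import Crest.Agent.R237.S2KG
import Crest.Agent.R237.S2Final3

/-!
Row 237, statement S0368: assembly of the non-spectrahedrality.
-/

set_option autoImplicit false

namespace Crest.Agent.R237.S2

open Matrix

theorem graded_false {N : ℕ} {L : Pencil N} (hL : Graded L) : False := by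
  refine S2F.final (A := L) ⟨hL.symm, ?_, ?_, ?_, ?_, hL.psd, ?_⟩ K0_subset_KK
  · have h := hL.sum_one
    rw [Fin.sum_univ_five] at h
    exact h
  · intro i j hij
    exact (hL.orth i j).trans (if_neg hij)
  · intro i
    exact (hL.orth i i).trans (if_pos rfl)
  · intro ν i j h
    exact grade237 hL ν i j h
  · intro z hz hdet
    exact hL.bd z ⟨hz.1, hz.2.1, hz.2.2, hdet⟩

theorem not_spec_of' (hD1 : Stmt_D1) (hD2a : Stmt_D2a) (hD2b : Stmt_D2b) (N : ℕ) (hN : 1 ≤ N)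
    (L : (Fin 23 → ℝ) →ₗ[ℝ] Matrix (Fin N) (Fin N) ℝ) (hL : ∀ x, (L x).IsSymm) :
    KK ≠ {x | (L x).PosSemidef} :=
  not_spec_of hD1 hD2a hD2b (D3 tor_KK e_pm)
    (fun _ _ hG => (graded_false hG).elim) (fun _ _ _ _ hG _ => graded_false hG) N hN L hL

/-- **N4.** -/
theorem not_spec (N : ℕ) (hN : 1 ≤ N)
    (L : (Fin 23 → ℝ) →ₗ[ℝ] Matrix (Fin N) (Fin N) ℝ) (hL : ∀ x, (L x).IsSymm) :
    KK ≠ {x | (L x).PosSemidef} :=
  not_spec_of' (D1 e_pm BK_sub coord0 K0_sub_KK) (D2a e_pm) (D2b tor_KK tor_BK E_mem) N hN L hL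

end Crest.Agent.R237.S2
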