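import Crest.Agent.R237.S2KF

set_option autoImplicit false

open Matrix

namespace Crest.Agent.R237.S2

theorem xd_mem_513 : Stmt_xd_mem := by
  intro d h0 h1
  set z : Fin 23 → ℝ :=
    pt ((1+d)/(4*d)) ((1-d)/(4*d)) ((1+d)/(4*d)) 1 0 0 0 (3+d) (-1) (-1) (3+d) (-1) 2 with hz
  have z0 : z 0 = (1+d)/(4*d) := rfl
  have z1 : z 1 = (1-d)/(4*d) := rfl
  have z2 : z 2 = (1+d)/(4*d) := rfl
  have hdl : dl z = 1 / (4 * d) := by
    unfold dl
    rw [z0, z1, z2]
    field_simp
    ring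
  have hM : Um z - Gz z = !![2, -1, -1; -1, 2, -1; -1, -1, 2] := by
    have e0 : z 2 / dl z = 1 + d := by rw [hdl, z2]; field_simp
    have e1 : -(z 1) / dl z = -(1 - d) := by rw [hdl, z1]; field_simp
    have e2 : z 0 / dl z = 1 + d := by rw [hdl, z0]; field_simp
    unfold Gz
    rw [e0, e1, e2]
    ext i j
    fin_cases i <;> fin_cases j <;>
      simp [Um, Gam, hz, pt] <;> ring
  refine ⟨by rw [z0]; positivity, by rw [hdl]; positivity, ?_, ?_⟩
  · refine Matrix.PosSemidef.of_dotProduct_mulVec_nonneg (UG_herm _) fun y => ?_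
    rw [hM, star_eq]
    simp only [dotProduct, mulVec, Fin.sum_univ_three, Matrix.of_apply,
      Matrix.cons_val', Matrix.cons_val_zero, Matrix.cons_val_one, Matrix.cons_val,
      Matrix.cons_val_fin_one]
    nlinarith [sq_nonneg (y 0 - y 1), sq_nonneg (y 0 - y 2), sq_nonneg (y 1 - y 2)]
  · rw [hM, Matrix.det_fin_three]
    simp
    norm_num

end Crest.Agent.R237.S2
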