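import Mathlib

/-!
Row 237, hyperbolicity part (helper432). Linear algebra of symmetric pencils.
-/

set_option autoImplicit false

namespace Crest.Agent.R237.SimDiag
open Matrix

variable {n : Type*} [Fintype n] [DecidableEq n]

theorem exists_orth_diag (X : Matrix n n ℝ) (hX : X.IsSymm) :
    ∃ (V : Matrix n n ℝ) (x : n → ℝ), Vᵀ * V = 1 ∧ X = V * diagonal x * Vᵀ ∧
      (X.PosDef → ∀ i, 0 < x i) := by
  classical
  have hAh : X.IsHermitian := by
    rw [IsHermitian, conjTranspose_eq_transpose_of_trivial]; exact hX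
  refine ⟨(hAh.eigenvectorUnitary : Matrix n n ℝ), hAh.eigenvalues, ?_, ?_, ?_⟩
  · have := Unitary.coe_star_mul_self hAh.eigenvectorUnitary
    simpa [star_eq_conjTranspose] using this
  · have := hAh.spectral_theorem
    rw [Unitary.conjStarAlgAut_apply] at this
    simpa [star_eq_conjTranspose, Function.comp_def] using this
  · intro h i
    exact h.eigenvalues_pos i

/-- Simultaneous diagonalisation of a positive definite and a symmetric real matrix. -/
theorem exists_simul_diag (A X : Matrix n n ℝ) (hA : A.PosDef) (hX : X.IsSymm) :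
    ∃ (B : Matrix n n ℝ) (x : n → ℝ), IsUnit B ∧ Bᵀ * A * B = 1 ∧ Bᵀ * X * B = diagonal x := by
  classical
  -- first step: A = U D Uᵀ
  have hAs : A.IsSymm := by
    have := hA.1
    rwa [IsHermitian, conjTranspose_eq_transpose_of_trivial] at this
  obtain ⟨U, d, hUU, hAd, hpos'⟩ := exists_orth_diag A hAs
  have hpos := hpos' hA
  set r : n → ℝ := fun i => (Real.sqrt (d i))⁻¹ with hr
  set B₁ : Matrix n n ℝ := U * diagonal r with hB₁
  have hB₁A : B₁ᵀ * A * B₁ = 1 := by
    rw [hB₁, transpose_mul, diagonal_transpose, hAd]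
    have : diagonal r * Uᵀ * (U * diagonal d * Uᵀ) * (U * diagonal r)
        = diagonal r * (Uᵀ * U) * diagonal d * (Uᵀ * U) * diagonal r := by
      simp only [Matrix.mul_assoc]
    rw [this, hUU, Matrix.mul_one, Matrix.mul_one, diagonal_mul_diagonal, diagonal_mul_diagonal]
    rw [← diagonal_one]
    congr 1
    ext i
    have h1 : Real.sqrt (d i) ≠ 0 := by
      exact (Real.sqrt_pos.mpr (hpos i)).ne'
    simp only [hr]
    field_simp
    rw [Real.sq_sqrt (hpos i).le]
  -- second step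
  have hX' : (B₁ᵀ * X * B₁).IsSymm := by
    have h := hX.eq
    clear_value B₁
    rw [IsSymm, transpose_mul, transpose_mul, transpose_transpose, h, Matrix.mul_assoc]
  obtain ⟨V, x, hVV, hVd, -⟩ := exists_orth_diag (B₁ᵀ * X * B₁) hX'
  have h1 : (B₁ * V)ᵀ * A * (B₁ * V) = 1 := by
    rw [transpose_mul]
    have : Vᵀ * B₁ᵀ * A * (B₁ * V) = Vᵀ * (B₁ᵀ * A * B₁) * V := by
      simp only [Matrix.mul_assoc]
    rw [this, hB₁A, Matrix.mul_one, hVV]
  refine ⟨B₁ * V, x, IsUnit.of_mul_eq_one_right _ h1, h1, ?_⟩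
  rw [transpose_mul]
  have : Vᵀ * B₁ᵀ * X * (B₁ * V) = Vᵀ * (B₁ᵀ * X * B₁) * V := by
    simp only [Matrix.mul_assoc]
  rw [this, hVd]
  have : Vᵀ * (V * diagonal x * Vᵀ) * V
      = (Vᵀ * V) * diagonal x * (Vᵀ * V) := by
    simp only [Matrix.mul_assoc]
  rw [this, hVV, Matrix.one_mul, Matrix.mul_one]


/-- Symmetric pencil data: the blocks `H₁₁, H₁₂, H₂₂` depend linearly on a point of `ℝ^m`,
`Lam` is a symmetric matrix. -/
structure Pencil (m : ℕ) (n N : Type*) [Fintype n] [Fintype N] where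
  H11 : (Fin m → ℝ) →ₗ[ℝ] Matrix n n ℝ
  H12 : (Fin m → ℝ) →ₗ[ℝ] Matrix n N ℝ
  H22 : (Fin m → ℝ) →ₗ[ℝ] Matrix N N ℝ
  Lam : Matrix N N ℝ
  symm11 : ∀ x, (H11 x).IsSymm
  symmLam : Lam.IsSymm

namespace Pencil

variable {N : Type*} [Fintype N] {m : ℕ} (P : Pencil m n N)

/-- Schur complement. -/
noncomputable def S (x : Fin m → ℝ) : Matrix N N ℝ :=
  P.H22 x - (P.H12 x)ᵀ * (P.H11 x)⁻¹ * P.H12 x

/-- The contraction of a matrix with `Lam`. -/
def con (M : Matrix N N ℝ) : ℝ := ∑ J, ∑ J', P.Lam J J' * M J J'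

/-- The bilinear form of `Lam`. -/
def QB (r s : N → ℝ) : ℝ := ∑ J, ∑ J', P.Lam J J' * (r J * s J')

/-- The function `F = ⟨Lam, S⟩`. -/
noncomputable def F (x : Fin m → ℝ) : ℝ := P.con (P.S x)

omit [DecidableEq n] in
theorem con_add (M M' : Matrix N N ℝ) : P.con (M + M') = P.con M + P.con M' := by
  simp [con, mul_add, Finset.sum_add_distrib]

omit [DecidableEq n] in
theorem con_smul (a : ℝ) (M : Matrix N N ℝ) : P.con (a • M) = a * P.con M := by
  simp only [con, Matrix.smul_apply, smul_eq_mul, Finset.mul_sum]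
  refine Finset.sum_congr rfl fun J _ => Finset.sum_congr rfl fun J' _ => by ring

omit [DecidableEq n] in
theorem con_sub (M M' : Matrix N N ℝ) : P.con (M - M') = P.con M - P.con M' := by
  simp [con, mul_sub, Finset.sum_sub_distrib]

omit [DecidableEq n] in
theorem QB_comm (r s : N → ℝ) : P.QB r s = P.QB s r := by
  unfold QB
  rw [Finset.sum_comm]
  refine Finset.sum_congr rfl fun J _ => Finset.sum_congr rfl fun J' _ => ?_
  have : P.Lam J' J = P.Lam J J' := by
    have := congrFun (congrFun P.symmLam.eq J) J'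
    simpa using this
  rw [this]; ring

omit [DecidableEq n] in
theorem QB_add_smul (a b : ℝ) (r s : N → ℝ) :
    P.QB (a • r + b • s) (a • r + b • s)
      = a ^ 2 * P.QB r r + 2 * a * b * P.QB r s + b ^ 2 * P.QB s s := by
  have h1 : P.QB (a • r + b • s) (a • r + b • s)
      = a ^ 2 * P.QB r r + a * b * P.QB r s + a * b * P.QB s r + b ^ 2 * P.QB s s := by
    simp only [QB, Pi.add_apply, Pi.smul_apply, smul_eq_mul, Finset.mul_sum,
      ← Finset.sum_add_distrib]
    refine Finset.sum_congr rfl fun J _ => Finset.sum_congr rfl fun J' _ => by ring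
  rw [h1, P.QB_comm s r]; ring

/-- Contraction of `Wᵀ D W`. -/
theorem con_diag (W : Matrix n N ℝ) (d : n → ℝ) :
    P.con (Wᵀ * diagonal d * W) = ∑ j, d j * P.QB (W j) (W j) := by
  have h1 : ∀ J J', (Wᵀ * diagonal d * W) J J' = ∑ j, d j * (W j J * W j J') := by
    intro J J'
    rw [Matrix.mul_apply]
    refine Finset.sum_congr rfl fun j _ => ?_
    rw [Matrix.mul_diagonal, Matrix.transpose_apply]; ring
  simp only [con, QB, h1, Finset.mul_sum]
  rw [Finset.sum_comm]
  have : ∀ J, ∑ J', ∑ j, P.Lam J J' * (d j * (W j J * W j J')) =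
      ∑ j, ∑ J', P.Lam J J' * (d j * (W j J * W j J')) := fun J => Finset.sum_comm
  rw [Finset.sum_comm]
  simp only [this]
  rw [Finset.sum_comm]
  refine Finset.sum_congr rfl fun j _ => Finset.sum_congr rfl fun J _ =>
    Finset.sum_congr rfl fun J' _ => by ring

/-- `X` is good relative to `e`: all residues of the pencil `X - s e` are `Lam`-nonnegative. -/
def Good (e X : Fin m → ℝ) : Prop :=
  ∀ (s : ℝ) (k : n → ℝ), P.H11 (X - s • e) *ᵥ k = 0 →
    0 ≤ P.QB (k ᵥ* P.H12 (X - s • e)) (k ᵥ* P.H12 (X - s • e))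

/-- Key lemma: partial fraction expansion of `F` along a good line. -/
theorem key (e X : Fin m → ℝ) (he : (P.H11 e).PosDef) (hX : P.Good e X) :
    ∃ (x ρ : n → ℝ) (β : ℝ), (∀ j, 0 ≤ ρ j) ∧
      (∀ σ τ : ℝ, (∀ j, σ + τ * x j ≠ 0) →
        P.F (σ • e + τ • X) = σ * P.F e + τ * β - τ ^ 2 * ∑ j, ρ j / (σ + τ * x j)) ∧
      (∀ σ τ : ℝ, (P.H11 (σ • e + τ • X)).det = (P.H11 e).det * ∏ j, (σ + τ * x j)) ∧
      (∀ σ τ : ℝ, (P.H11 (σ • e + τ • X)).PosDef ↔ ∀ j, 0 < σ + τ * x j) := by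
  obtain ⟨B, x, hB, hBe, hBX⟩ := exists_simul_diag (P.H11 e) (P.H11 X) he (P.symm11 X)
  have hdiag : ∀ σ τ : ℝ, Bᵀ * P.H11 (σ • e + τ • X) * B = diagonal (fun j => σ + τ * x j) := by
    intro σ τ
    rw [map_add, map_smul, map_smul, Matrix.mul_add, Matrix.add_mul, Matrix.mul_smul,
      Matrix.smul_mul, Matrix.mul_smul, Matrix.smul_mul, hBe, hBX]
    ext i j
    by_cases h : i = j
    · subst h; simp
    · simp [h]
  have hBdet : IsUnit B.det := (Matrix.isUnit_iff_isUnit_det B).1 hB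
  have hBdet0 : B.det ≠ 0 := hBdet.ne_zero
  have hBTdet : IsUnit (Bᵀ).det := by rwa [det_transpose]
  have hinv : ∀ σ τ : ℝ, (∀ j, σ + τ * x j ≠ 0) →
      (P.H11 (σ • e + τ • X))⁻¹ = B * diagonal (fun j => (σ + τ * x j)⁻¹) * Bᵀ := by
    intro σ τ h
    apply Matrix.inv_eq_right_inv
    have h1 : P.H11 (σ • e + τ • X) * B = (Bᵀ)⁻¹ * diagonal (fun j => σ + τ * x j) := by
      rw [← hdiag σ τ, Matrix.mul_assoc, ← Matrix.mul_assoc (Bᵀ)⁻¹, Matrix.nonsing_inv_mul _ hBTdet,
        Matrix.one_mul]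
    rw [← Matrix.mul_assoc, ← Matrix.mul_assoc, h1, Matrix.mul_assoc (Bᵀ)⁻¹, diagonal_mul_diagonal]
    have h2 : (fun j => (σ + τ * x j) * (σ + τ * x j)⁻¹) = fun _ => (1 : ℝ) := by
      funext j; exact mul_inv_cancel₀ (h j)
    rw [h2]
    simp [Matrix.nonsing_inv_mul _ hBTdet]
  set a : n → N → ℝ := fun j => (Bᵀ * P.H12 e) j with ha
  set r : n → N → ℝ := fun j => (Bᵀ * P.H12 X) j - x j • (Bᵀ * P.H12 e) j with hr
  have hw : ∀ (σ τ : ℝ) (j : n), (Bᵀ * P.H12 (σ • e + τ • X)) j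
      = (σ + τ * x j) • a j + τ • r j := by
    intro σ τ j
    funext J
    simp only [map_add, map_smul, Matrix.mul_add, Matrix.mul_smul, Matrix.add_apply,
      Matrix.smul_apply, ha, hr, Pi.add_apply, Pi.smul_apply, Pi.sub_apply, smul_eq_mul]
    ring
  have hρ : ∀ j, 0 ≤ P.QB (r j) (r j) := by
    intro j
    have h1 : P.H11 (X - x j • e) *ᵥ (fun i => B i j) = 0 := by
      have h2 := hdiag (-(x j)) 1
      have h3 : (-(x j)) • e + (1 : ℝ) • X = X - x j • e := by
        rw [one_smul, neg_smul]; abel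
      rw [h3] at h2
      have h4 : Bᵀ *ᵥ (P.H11 (X - x j • e) *ᵥ (fun i => B i j)) = 0 := by
        rw [Matrix.mulVec_mulVec]
        funext i
        have h5 := congrFun (congrFun h2 i) j
        rw [Matrix.mul_apply] at h5
        rw [Matrix.mulVec, dotProduct]
        rw [h5]
        by_cases h : i = j
        · subst h; simp
        · simp [h]
      have h6 : Function.Injective (Bᵀ).mulVec := Matrix.mulVec_injective_of_isUnit
        ((Matrix.isUnit_iff_isUnit_det _).2 hBTdet)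
      apply h6
      rw [h4, Matrix.mulVec_zero]
    have h7 := hX (x j) _ h1
    have h8 : (fun i => B i j) ᵥ* P.H12 (X - x j • e) = r j := by
      funext J
      have := congrFun (hw (-(x j)) 1 j) J
      have h3 : (-(x j)) • e + (1 : ℝ) • X = X - x j • e := by
        rw [one_smul, neg_smul]; abel
      rw [h3] at this
      simp only [one_mul, one_smul, neg_add_cancel, zero_smul, zero_add] at this
      rw [← this, Matrix.vecMul, Matrix.mul_apply, dotProduct]
      rfl
    rwa [h8] at h7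
  have hF : ∀ σ τ : ℝ, (∀ j, σ + τ * x j ≠ 0) → P.F (σ • e + τ • X)
      = σ * P.con (P.H22 e) + τ * P.con (P.H22 X)
        - ∑ j, (σ + τ * x j)⁻¹ * ((σ + τ * x j) ^ 2 * P.QB (a j) (a j)
          + 2 * (σ + τ * x j) * τ * P.QB (a j) (r j) + τ ^ 2 * P.QB (r j) (r j)) := by
    intro σ τ h
    unfold F S
    rw [con_sub, hinv σ τ h]
    have h1 : (P.H12 (σ • e + τ • X))ᵀ * (B * diagonal (fun j => (σ + τ * x j)⁻¹) * Bᵀ)
        * P.H12 (σ • e + τ • X) = (Bᵀ * P.H12 (σ • e + τ • X))ᵀ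
          * diagonal (fun j => (σ + τ * x j)⁻¹) * (Bᵀ * P.H12 (σ • e + τ • X)) := by
      rw [transpose_mul, transpose_transpose]
      simp only [Matrix.mul_assoc]
    rw [h1, con_diag, map_add, map_smul, map_smul, con_add, con_smul, con_smul]
    congr 1
    refine Finset.sum_congr rfl fun j _ => ?_
    rw [hw σ τ j, QB_add_smul]
  have hFe : P.F e = P.con (P.H22 e) - ∑ j, P.QB (a j) (a j) := by
    have := hF 1 0 (by intro j; simp)
    simpa using this
  refine ⟨x, fun j => P.QB (r j) (r j),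
    P.con (P.H22 X) - ∑ j, (x j * P.QB (a j) (a j) + 2 * P.QB (a j) (r j)), hρ, ?_, ?_, ?_⟩
  · intro σ τ h
    rw [hF σ τ h, hFe]
    have h1 : ∀ j, (σ + τ * x j)⁻¹ * ((σ + τ * x j) ^ 2 * P.QB (a j) (a j)
          + 2 * (σ + τ * x j) * τ * P.QB (a j) (r j) + τ ^ 2 * P.QB (r j) (r j))
        = σ * P.QB (a j) (a j) + τ * (x j * P.QB (a j) (a j) + 2 * P.QB (a j) (r j))
          + τ ^ 2 * (P.QB (r j) (r j) / (σ + τ * x j)) := by
      intro j
      have := h j
      field_simp
      ring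
    simp only [h1, Finset.sum_add_distrib, ← Finset.mul_sum]
    ring
  · intro σ τ
    have h1 := congrArg Matrix.det (hdiag σ τ)
    have h2 := congrArg Matrix.det hBe
    rw [det_mul, det_mul, det_transpose, det_diagonal] at h1
    rw [det_mul, det_mul, det_transpose, det_one] at h2
    have h3 : B.det * B.det * (P.H11 (σ • e + τ • X)).det = ∏ j, (σ + τ * x j) := by
      rw [← h1]; ring
    rw [← h3]
    have h4 : (P.H11 e).det * (B.det * B.det) = 1 := by rw [← h2]; ring
    rw [← mul_assoc, h4, one_mul]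
  · intro σ τ
    have h1 := Matrix.IsUnit.posDef_star_left_conjugate_iff (x := P.H11 (σ • e + τ • X)) hB
    rw [star_eq_conjTranspose, conjTranspose_eq_transpose_of_trivial, hdiag σ τ] at h1
    rw [← h1, posDef_diagonal_iff]

end Pencil

end Crest.Agent.R237.SimDiag
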